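import Crest.Agent.R214.ArcPerB

/-!
# Arc: one-dimensional facts on the circle `ℝ/ℤ` (proved in ArcBase, ArcBath, ArcTent, ArcAlt,
ArcW, ArcOne)
-/

set_option autoImplicit false
open MeasureTheory Crest.GeometryTopology.PeriodicPerimeter Filter
open scoped ENNReal NNReal Topology
noncomputable section
namespace Crest.Agent.R214

/-- first Fourier coefficient of `S` -/
def F1 (S : Set ℝ) : ℂ := ∫ t in S ∩ Set.Ico (0 : ℝ) 1, Complex.exp (2 * Real.pi * t * Complex.I)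

theorem W1_ge_two (S : Set ℝ) (hS : MeasurableSet S) (hp : ∀ t, t + 1 ∈ S ↔ t ∈ S)
    (h0 : 0 < volume (S ∩ Set.Ico 0 1)) (h1 : volume (S ∩ Set.Ico 0 1) < 1)
    (θ : ℝ → ℝ) (c : ℝ) (hc : 0 ≤ c) (hθ : ∀ t, c ≤ θ t) :
    ENNReal.ofReal (2 * c) ≤ W1 θ S :=
  ArcB.W1_ge_two S hS hp h0 h1 θ c hc hθ

theorem bathtub (S : Set ℝ) (hS : MeasurableSet S) (hp : ∀ t, t + 1 ∈ S ↔ t ∈ S) :
    ‖F1 S‖ ≤ Real.sin (Real.pi * (volume (S ∩ Set.Ico 0 1)).toReal) / Real.pi :=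
  ArcB.bathtub S hS

theorem bathtub_eq (S : Set ℝ) (hS : MeasurableSet S) (hp : ∀ t, t + 1 ∈ S ↔ t ∈ S)
    (m : ℝ) (hm : m = (volume (S ∩ Set.Ico 0 1)).toReal) (h0 : 0 < m) (h1 : m < 1)
    (h : ‖F1 S‖ = Real.sin (Real.pi * m) / Real.pi) :
    ∀ α : ℝ, F1 S = ‖F1 S‖ * Complex.exp (2 * Real.pi * α * Complex.I) →
      S =ᵐ[volume] {t | dZ (t - α) < m / 2} :=
  fun α hα => ArcB.bathtub_eq S hS hp m hm h α hα

theorem W1_ge_four (S : Set ℝ) (hS : MeasurableSet S) (hp : ∀ t, t + 1 ∈ S ↔ t ∈ S)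
    (m : ℝ) (hm : m = (volume (S ∩ Set.Ico 0 1)).toReal) (h0 : 0 < m) (h1 : m < 1)
    (h : ‖F1 S‖ < Real.sin (Real.pi * m) / Real.pi)
    (θ : ℝ → ℝ) (c : ℝ) (hc : 0 ≤ c) (hθ : ∀ t, c ≤ θ t) :
    ENNReal.ofReal (4 * c) ≤ W1 θ S :=
  ArcB.W1_ge_four S hS hp m hm h0 h1 h θ c hc hθ

theorem W1_arc (S : Set ℝ) (hS : MeasurableSet S) (m α : ℝ) (h0 : 0 < m) (h1 : m < 1)
    (h : S =ᵐ[volume] {t | dZ (t - α) < m / 2})
    (θ : ℝ → ℝ) (hθc : Continuous θ) (hθ0 : ∀ t, 0 ≤ θ t) (hθp : ∀ t, θ (t + 1) = θ t) :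
    ENNReal.ofReal (θ (α + m / 2) + θ (α - m / 2)) ≤ W1 θ S :=
  ArcB.W1_arc S m α h0 h1 h θ hθc hθ0 hθp

/-- the arc `{dZ (t-α) < m/2}` has length `m` and first Fourier coefficient `e^{2πiα} sin(πm)/π` -/
theorem volume_arc (m α : ℝ) (h0 : 0 ≤ m) (h1 : m ≤ 1) :
    volume ({t : ℝ | dZ (t - α) < m / 2} ∩ Set.Ico 0 1) = ENNReal.ofReal m :=
  ArcB.volume_arc m α h1

theorem F1_arc (m α : ℝ) (h0 : 0 ≤ m) (h1 : m ≤ 1) :
    F1 {t : ℝ | dZ (t - α) < m / 2} =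
      (Real.sin (Real.pi * m) / Real.pi : ℝ) * Complex.exp (2 * Real.pi * α * Complex.I) :=
  ArcB.F1_arc m α h0 h1

/-- basic facts on `dZ` -/
theorem dZ_add_int (t : ℝ) (k : ℤ) : dZ (t + k) = dZ t := ArcB.dZ_add_int t k

theorem dZ_neg (t : ℝ) : dZ (-t) = dZ t := ArcB.dZ_neg t

theorem dZ_nonneg (t : ℝ) : 0 ≤ dZ t := ArcB.dZ_nonneg t

theorem dZ_le_half (t : ℝ) : dZ t ≤ 1 / 2 := ArcB.dZ_le_half t

theorem dZ_of_abs_le (t : ℝ) (h : |t| ≤ 1 / 2) : dZ t = |t| := ArcB.dZ_of_abs_le t h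

theorem continuous_dZ : Continuous dZ := ArcB.continuous_dZ

/-- sets of the circle as subsets of `Eu 1`: the perimeter is at least `2` -/
theorem per_one_ge_two (A : Set (Eu 1)) (hA : MeasurableSet A) (hp : IsLatticePeriodic A)
    (h0 : 0 < periodicVolume A) (h1 : periodicVolume A < 1) : 2 ≤ periodicPerimeter A :=
  ArcB.per_one_ge_two A hA hp h0 h1

/-- equality case in dimension one -/
theorem per_one_eq_two (A : Set (Eu 1)) (hA : MeasurableSet A) (hp : IsLatticePeriodic A)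
    (h0 : 0 < periodicVolume A) (h1 : periodicVolume A < 1) (h : periodicPerimeter A ≤ 2) :
    ∃ α : ℝ, A =ᵐ[volume] {x | dZ (x 0 - α) < periodicVolume A / 2} :=
  ArcB.per_one_eq_two A hA hp h0 h1 h

end Crest.Agent.R214
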