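import Crest.Agent.R214.Defs

/-!
# ArcA: part (a) of `Arc`: `dZ`, arcs and the bathtub principle on the circle
(helper523)
-/

set_option autoImplicit false
open MeasureTheory Crest.GeometryTopology.PeriodicPerimeter Filter
open scoped ENNReal NNReal Topology
noncomputable section
namespace Crest.Agent.R214

namespace ArcA

theorem dZ_eq_norm (t : ℝ) : dZ t = ‖(t : UnitAddCircle)‖ := by
  rw [UnitAddCircle.norm_eq]; rfl

theorem dZ_add_int (t : ℝ) (k : ℤ) : dZ (t + k) = dZ t := by
  unfold dZ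
  rw [round_add_intCast]
  congr 1
  push_cast
  ring

theorem dZ_neg (t : ℝ) : dZ (-t) = dZ t := by
  rw [dZ_eq_norm, dZ_eq_norm]
  rw [show ((-t : ℝ) : UnitAddCircle) = -(t : UnitAddCircle) from rfl, norm_neg]

theorem dZ_nonneg (t : ℝ) : 0 ≤ dZ t := abs_nonneg _

theorem dZ_le_half (t : ℝ) : dZ t ≤ 1 / 2 := abs_sub_round t

theorem dZ_of_abs_le (t : ℝ) (h : |t| ≤ 1 / 2) : dZ t = |t| := by
  rcases abs_le.1 h with ⟨h1, h2⟩
  unfold dZ
  rcases eq_or_lt_of_le h2 with h2 | h2
  · subst h2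
    have : round (1 / 2 : ℝ) = 1 := by
      rw [round_eq]
      norm_num
    rw [this]
    norm_num
  · have : round t = 0 := by
      rw [round_eq, Int.floor_eq_zero_iff]
      constructor <;> linarith
    rw [this]
    simp

theorem continuous_dZ : Continuous dZ := by
  have : dZ = fun t : ℝ => ‖(t : UnitAddCircle)‖ := funext dZ_eq_norm
  rw [this]
  exact continuous_norm.comp (continuous_quotient_mk')

theorem dZ_add_one (t : ℝ) : dZ (t + 1) = dZ t := by
  have := dZ_add_int t 1
  simpa using this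

/-- integral over a period, moved -/
theorem setIntegral_shift {E : Type*} [NormedAddCommGroup E] [NormedSpace ℝ E]
    (S : Set ℝ) (hS : MeasurableSet S) (hp : ∀ t, t + 1 ∈ S ↔ t ∈ S)
    (g : ℝ → E) (hg : ∀ t, g (t + 1) = g t) (a : ℝ) :
    ∫ t in S ∩ Set.Ico 0 1, g t = ∫ t in S ∩ Set.Ico a (a + 1), g t := by
  have hper : Function.Periodic (S.indicator g) 1 := by
    intro t
    by_cases h : t ∈ S
    · rw [Set.indicator_of_mem h, Set.indicator_of_mem ((hp t).2 h), hg]
    · rw [Set.indicator_of_notMem h, Set.indicator_of_notMem (fun h' => h ((hp t).1 h'))]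
  have key := hper.intervalIntegral_add_eq 0 a
  rw [intervalIntegral.integral_of_le (by linarith), intervalIntegral.integral_of_le (by linarith),
    ← integral_Ico_eq_integral_Ioc, ← integral_Ico_eq_integral_Ioc, zero_add] at key
  rw [Set.inter_comm, ← setIntegral_indicator hS, Set.inter_comm, ← setIntegral_indicator hS]
  exact key

/-- volume over a period, moved -/
theorem volume_shift (S : Set ℝ) (hS : MeasurableSet S) (hp : ∀ t, t + 1 ∈ S ↔ t ∈ S) (a : ℝ) :
    volume (S ∩ Set.Ico 0 1) = volume (S ∩ Set.Ico a (a + 1)) := by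
  have h := setIntegral_shift S hS hp (fun _ => (1 : ℝ)) (fun _ => rfl) a
  simp only [integral_const, MeasurableSet.univ, measureReal_restrict_apply, Set.univ_inter,
    smul_eq_mul, mul_one] at h
  have h1 : volume (S ∩ Set.Ico 0 1) ≠ ⊤ :=
    ne_top_of_le_ne_top (by simp) (measure_mono Set.inter_subset_right : _ ≤ volume (Set.Ico (0:ℝ) 1))
  have h2 : volume (S ∩ Set.Ico a (a + 1)) ≠ ⊤ :=
    ne_top_of_le_ne_top (by simp) (measure_mono Set.inter_subset_right : _ ≤ volume (Set.Ico a (a+1)))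
  unfold Measure.real at h
  exact (ENNReal.toReal_eq_toReal_iff' h1 h2).1 h

/-- The arc -/
def arc (m α : ℝ) : Set ℝ := {t : ℝ | dZ (t - α) < m / 2}

theorem measurableSet_arc (m α : ℝ) : MeasurableSet (arc m α) := by
  have : IsOpen (arc m α) :=
    isOpen_lt (continuous_dZ.comp (continuous_id.sub continuous_const)) continuous_const
  exact this.measurableSet

theorem arc_per (m α : ℝ) (t : ℝ) : t + 1 ∈ arc m α ↔ t ∈ arc m α := by
  unfold arc
  simp only [Set.mem_setOf_eq]
  rw [show t + 1 - α = (t - α) + 1 by ring, dZ_add_one]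

theorem arc_inter (m α : ℝ) (h0 : 0 ≤ m) (h1 : m ≤ 1) :
    arc m α ∩ Set.Ico (α - 1 / 2) (α - 1 / 2 + 1) = Set.Ioo (α - m / 2) (α + m / 2) := by
  ext t
  simp only [arc, Set.mem_inter_iff, Set.mem_setOf_eq, Set.mem_Ico, Set.mem_Ioo]
  constructor
  · rintro ⟨h, h2, h3⟩
    rw [dZ_of_abs_le _ (abs_le.2 ⟨by linarith, by linarith⟩)] at h
    rcases abs_lt.1 h with ⟨h4, h5⟩
    constructor <;> linarith
  · rintro ⟨h2, h3⟩
    refine ⟨?_, by linarith, by linarith⟩
    rw [dZ_of_abs_le _ (abs_le.2 ⟨by linarith, by linarith⟩)]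
    exact abs_lt.2 ⟨by linarith, by linarith⟩

theorem volume_arc (m α : ℝ) (h0 : 0 ≤ m) (h1 : m ≤ 1) :
    volume ({t : ℝ | dZ (t - α) < m / 2} ∩ Set.Ico 0 1) = ENNReal.ofReal m := by
  have := volume_shift (arc m α) (measurableSet_arc m α) (arc_per m α) (α - 1 / 2)
  rw [arc_inter m α h0 h1, Real.volume_Ioo] at this
  rw [show {t : ℝ | dZ (t - α) < m / 2} = arc m α from rfl, this]
  congr 1
  ring

/-- first Fourier coefficient of `S` -/
def F1' (S : Set ℝ) : ℂ := ∫ t in S ∩ Set.Ico (0 : ℝ) 1, Complex.exp (2 * Real.pi * t * Complex.I)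

theorem exp_per (t : ℝ) : Complex.exp (2 * Real.pi * ((t + 1 : ℝ) : ℂ) * Complex.I) =
    Complex.exp (2 * Real.pi * t * Complex.I) := by
  push_cast
  rw [show (2 * (Real.pi : ℂ) * (t + 1) * Complex.I) =
    2 * Real.pi * t * Complex.I + 2 * Real.pi * Complex.I by ring, Complex.exp_add,
    Complex.exp_two_pi_mul_I, mul_one]

theorem F1_arc (m α : ℝ) (h0 : 0 ≤ m) (h1 : m ≤ 1) :
    F1' {t : ℝ | dZ (t - α) < m / 2} =
      (Real.sin (Real.pi * m) / Real.pi : ℝ) * Complex.exp (2 * Real.pi * α * Complex.I) := by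
  rw [show {t : ℝ | dZ (t - α) < m / 2} = arc m α from rfl]
  unfold F1'
  rw [setIntegral_shift (arc m α) (measurableSet_arc m α) (arc_per m α)
    (fun t : ℝ => Complex.exp (2 * Real.pi * t * Complex.I)) exp_per (α - 1 / 2),
    arc_inter m α h0 h1, ← integral_Ioc_eq_integral_Ioo,
    ← intervalIntegral.integral_of_le (by linarith)]
  have hpi : (Real.pi : ℂ) ≠ 0 := by exact_mod_cast Real.pi_ne_zero
  have h2 : ∀ t : ℝ, Complex.exp (2 * Real.pi * t * Complex.I) =
      Complex.exp ((2 * Real.pi * Complex.I) * t) := by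
    intro t; congr 1; ring
  simp only [h2]
  have hc : (2 * Real.pi * Complex.I) ≠ 0 := by simp [hpi]
  rw [integral_exp_mul_complex hc]
  rw [show (2 * (Real.pi : ℂ) * Complex.I) * ((α + m / 2 : ℝ) : ℂ) =
    2 * Real.pi * Complex.I * α + (Real.pi * m) * Complex.I by push_cast; ring,
    show (2 * (Real.pi : ℂ) * Complex.I) * ((α - m / 2 : ℝ) : ℂ) =
    2 * Real.pi * Complex.I * α + (-(Real.pi * m)) * Complex.I by push_cast; ring,
    Complex.exp_add, Complex.exp_add]
  push_cast
  rw [Complex.sin]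
  field_simp
  have hI : Complex.I ^ 2 = -1 := Complex.I_sq
  ring_nf
  rw [hI]
  ring_nf

/-- `∫_S cos 2π(t-α) = Re (F1 S e^{-2πiα})` -/
theorem integral_cos_eq (S : Set ℝ) (hS : MeasurableSet S) (α : ℝ) :
    ∫ t in S ∩ Set.Ico (0 : ℝ) 1, Real.cos (2 * Real.pi * (t - α)) =
      (F1' S * Complex.exp (-(2 * Real.pi * α * Complex.I))).re := by
  have hfin : IsFiniteMeasure (volume.restrict (S ∩ Set.Ico (0 : ℝ) 1)) := by
    refine ⟨?_⟩
    rw [Measure.restrict_apply_univ]
    exact lt_of_le_of_lt (measure_mono Set.inter_subset_right : _ ≤ volume (Set.Ico (0:ℝ) 1))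
      (by simp)
  unfold F1'
  rw [← integral_mul_const]
  have hint : Integrable (fun t : ℝ => Complex.exp (2 * Real.pi * t * Complex.I) *
      Complex.exp (-(2 * Real.pi * α * Complex.I))) (volume.restrict (S ∩ Set.Ico (0 : ℝ) 1)) := by
    refine Integrable.of_bound (C := 1) ?_ ?_
    · refine Continuous.aestronglyMeasurable ?_
      fun_prop
    · refine Eventually.of_forall (fun t => ?_)
      rw [← Complex.exp_add, show (2 * (Real.pi : ℂ) * t * Complex.I + -(2 * Real.pi * α * Complex.I)) =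
        ((2 * Real.pi * (t - α) : ℝ) : ℂ) * Complex.I by push_cast; ring,
        Complex.norm_exp_ofReal_mul_I]
  have := integral_re (𝕜 := ℂ) hint
  simp only [RCLike.re_eq_complex_re] at this
  rw [← this]
  refine integral_congr_ae (Eventually.of_forall (fun t => ?_))
  simp only
  rw [← Complex.exp_add, show (2 * (Real.pi : ℂ) * t * Complex.I + -(2 * Real.pi * α * Complex.I)) =
    ((2 * Real.pi * (t - α) : ℝ) : ℂ) * Complex.I by push_cast; ring,
    Complex.exp_ofReal_mul_I_re]

theorem norm_F1_eq (S : Set ℝ) (hS : MeasurableSet S) (α : ℝ)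
    (h : F1' S = ‖F1' S‖ * Complex.exp (2 * Real.pi * α * Complex.I)) :
    ‖F1' S‖ = ∫ t in S ∩ Set.Ico (0 : ℝ) 1, Real.cos (2 * Real.pi * (t - α)) := by
  rw [integral_cos_eq S hS α]
  have h2 : F1' S * Complex.exp (-(2 * Real.pi * α * Complex.I)) = ((‖F1' S‖ : ℝ) : ℂ) := by
    conv_lhs => rw [h]
    rw [mul_assoc, ← Complex.exp_add, add_neg_cancel, Complex.exp_zero, mul_one]
  rw [h2, Complex.ofReal_re]

theorem integral_cos_arc (m α : ℝ) (h0 : 0 ≤ m) (h1 : m ≤ 1) :
    ∫ t in arc m α ∩ Set.Ico (0 : ℝ) 1, Real.cos (2 * Real.pi * (t - α)) =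
      Real.sin (Real.pi * m) / Real.pi := by
  rw [integral_cos_eq _ (measurableSet_arc m α) α]
  have h := F1_arc m α h0 h1
  rw [show {t : ℝ | dZ (t - α) < m / 2} = arc m α from rfl] at h
  rw [h, mul_assoc, ← Complex.exp_add, add_neg_cancel, Complex.exp_zero, mul_one,
    Complex.ofReal_re]

theorem cos_eq_dZ (t : ℝ) : Real.cos (2 * Real.pi * t) = Real.cos (2 * Real.pi * dZ t) := by
  unfold dZ
  rw [← Real.cos_abs (2 * Real.pi * |t - round t|), abs_mul, abs_abs, ← abs_mul, Real.cos_abs,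
    show 2 * Real.pi * (t - round t) = 2 * Real.pi * t - (round t : ℤ) * (2 * Real.pi) by ring,
    Real.cos_sub_int_mul_two_pi]

theorem cos_gt_of_mem_arc (m α t : ℝ) (h1 : m ≤ 1) (h : t ∈ arc m α) :
    Real.cos (Real.pi * m) < Real.cos (2 * Real.pi * (t - α)) := by
  rw [cos_eq_dZ]
  have hpi := Real.pi_pos
  have h' : dZ (t - α) < m / 2 := h
  refine Real.cos_lt_cos_of_nonneg_of_le_pi ?_ ?_ ?_
  · have := dZ_nonneg (t - α); positivity
  · nlinarith
  · nlinarith

theorem cos_le_of_notMem_arc (m α t : ℝ) (h0 : 0 ≤ m) (h : t ∉ arc m α) :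
    Real.cos (2 * Real.pi * (t - α)) ≤ Real.cos (Real.pi * m) := by
  rw [cos_eq_dZ]
  have hpi := Real.pi_pos
  have h' : m / 2 ≤ dZ (t - α) := not_lt.1 h
  refine Real.cos_le_cos_of_nonneg_of_le_pi ?_ ?_ ?_
  · positivity
  · have := dZ_le_half (t - α); nlinarith
  · nlinarith

theorem cos_lt_of_lt_dZ (m α t : ℝ) (h0 : 0 ≤ m) (h : m / 2 < dZ (t - α)) :
    Real.cos (2 * Real.pi * (t - α)) < Real.cos (Real.pi * m) := by
  rw [cos_eq_dZ]
  have hpi := Real.pi_pos
  refine Real.cos_lt_cos_of_nonneg_of_le_pi ?_ ?_ ?_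
  · positivity
  · have := dZ_le_half (t - α); nlinarith
  · nlinarith

/-- the bathtub integrand -/
def bt (S : Set ℝ) (m α t : ℝ) : ℝ :=
  ((arc m α).indicator (fun _ => (1 : ℝ)) t - S.indicator (fun _ => (1 : ℝ)) t) *
    (Real.cos (2 * Real.pi * (t - α)) - Real.cos (Real.pi * m))

theorem bt_nonneg (S : Set ℝ) (m α t : ℝ) (h0 : 0 ≤ m) (h1 : m ≤ 1) : 0 ≤ bt S m α t := by
  unfold bt
  by_cases ha : t ∈ arc m α
  · have := cos_gt_of_mem_arc m α t h1 ha
    rw [Set.indicator_of_mem ha]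
    by_cases hs : t ∈ S
    · rw [Set.indicator_of_mem hs]; simp
    · rw [Set.indicator_of_notMem hs]; nlinarith
  · have := cos_le_of_notMem_arc m α t h0 ha
    rw [Set.indicator_of_notMem ha]
    by_cases hs : t ∈ S
    · rw [Set.indicator_of_mem hs]; nlinarith
    · rw [Set.indicator_of_notMem hs]; simp

theorem bt_integrable (S : Set ℝ) (hS : MeasurableSet S) (m α : ℝ) :
    IntegrableOn (bt S m α) (Set.Ico 0 1) := by
  refine Integrable.of_bound (C := 4) ?_ ?_
  · have h1 : Measurable ((arc m α).indicator (fun _ => (1 : ℝ))) :=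
      measurable_const.indicator (measurableSet_arc m α)
    have h2 : Measurable (S.indicator (fun _ => (1 : ℝ))) := measurable_const.indicator hS
    have h3 : Measurable (fun t : ℝ => Real.cos (2 * Real.pi * (t - α)) - Real.cos (Real.pi * m)) := by
      fun_prop
    exact ((h1.sub h2).mul h3).aestronglyMeasurable
  · refine Eventually.of_forall (fun t => ?_)
    unfold bt
    rw [norm_mul, Real.norm_eq_abs, Real.norm_eq_abs]
    have a1 : |(arc m α).indicator (fun _ => (1 : ℝ)) t - S.indicator (fun _ => (1 : ℝ)) t| ≤ 1 := by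
      by_cases ha : t ∈ arc m α <;> by_cases hs : t ∈ S <;> simp [ha, hs]
    have a2 : |Real.cos (2 * Real.pi * (t - α)) - Real.cos (Real.pi * m)| ≤ 2 := by
      have := Real.cos_le_one (2 * Real.pi * (t - α))
      have := Real.cos_le_one (Real.pi * m)
      have := Real.neg_one_le_cos (2 * Real.pi * (t - α))
      have := Real.neg_one_le_cos (Real.pi * m)
      rw [abs_le]; constructor <;> linarith
    calc _ ≤ 1 * 2 := mul_le_mul a1 a2 (abs_nonneg _) (by norm_num)
      _ ≤ 4 := by norm_num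

theorem integral_bt (S : Set ℝ) (hS : MeasurableSet S)
    (m α : ℝ) (hm : m = (volume (S ∩ Set.Ico 0 1)).toReal) (h0 : 0 ≤ m) (h1 : m ≤ 1) :
    ∫ t in Set.Ico 0 1, bt S m α t =
      Real.sin (Real.pi * m) / Real.pi - ∫ t in S ∩ Set.Ico (0 : ℝ) 1, Real.cos (2 * Real.pi * (t - α)) := by
  set c : ℝ → ℝ := fun t => Real.cos (2 * Real.pi * (t - α)) with hc
  set κ := Real.cos (Real.pi * m)
  have hcc : Continuous c := by rw [hc]; fun_prop
  have hci : IntegrableOn c (Set.Ico 0 1) :=
    (hcc.integrableOn_Icc (a := 0) (b := 1)).mono_set Set.Ico_subset_Icc_self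
  have h1i : IntegrableOn (fun _ : ℝ => (1 : ℝ)) (Set.Ico (0:ℝ) 1) := by
    exact (integrableOn_const (by simp))
  have e : ∀ t, bt S m α t = ((arc m α).indicator c t - S.indicator c t) -
      κ * ((arc m α).indicator (fun _ => (1:ℝ)) t - S.indicator (fun _ => (1:ℝ)) t) := by
    intro t
    unfold bt
    by_cases ha : t ∈ arc m α <;> by_cases hs : t ∈ S <;> simp [ha, hs, hc, κ]
    ring
  have ia : ∀ (A : Set ℝ), MeasurableSet A → ∀ g : ℝ → ℝ, IntegrableOn g (Set.Ico 0 1) →
      IntegrableOn (A.indicator g) (Set.Ico 0 1) := fun A hA g hg => Integrable.indicator hg hA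
  simp only [e]
  have hA := measurableSet_arc m α
  have s1 : ∫ t in Set.Ico 0 1, ((arc m α).indicator c t - S.indicator c t -
        κ * ((arc m α).indicator (fun _ => (1:ℝ)) t - S.indicator (fun _ => (1:ℝ)) t)) =
      (∫ t in Set.Ico 0 1, ((arc m α).indicator c t - S.indicator c t)) -
      ∫ t in Set.Ico 0 1, κ * ((arc m α).indicator (fun _ => (1:ℝ)) t - S.indicator (fun _ => (1:ℝ)) t) :=
    integral_sub ((ia _ hA _ hci).sub (ia _ hS _ hci))
      (((ia _ hA _ h1i).sub (ia _ hS _ h1i)).const_mul κ)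
  rw [s1, integral_const_mul,
    integral_sub (ia _ hA _ hci) (ia _ hS _ hci), integral_sub (ia _ hA _ h1i) (ia _ hS _ h1i),
    setIntegral_indicator hA, setIntegral_indicator hS, setIntegral_indicator hA,
    setIntegral_indicator hS, Set.inter_comm _ (arc m α), Set.inter_comm _ S]
  rw [integral_cos_arc m α h0 h1]
  have e1 : ∫ t in arc m α ∩ Set.Ico 0 1, (1:ℝ) = m := by
    simp only [integral_const, MeasurableSet.univ, measureReal_restrict_apply, Set.univ_inter,
      smul_eq_mul, mul_one]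
    unfold Measure.real
    rw [show arc m α = {t : ℝ | dZ (t - α) < m / 2} from rfl, volume_arc m α h0 h1,
      ENNReal.toReal_ofReal h0]
  have e2 : ∫ t in S ∩ Set.Ico 0 1, (1:ℝ) = m := by
    simp only [integral_const, MeasurableSet.univ, measureReal_restrict_apply, Set.univ_inter,
      smul_eq_mul, mul_one]
    unfold Measure.real
    rw [← hm]
  rw [e1, e2]
  ring

theorem m_bounds (S : Set ℝ) (m : ℝ) (hm : m = (volume (S ∩ Set.Ico 0 1)).toReal) :
    0 ≤ m ∧ m ≤ 1 := by
  constructor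
  · rw [hm]; exact ENNReal.toReal_nonneg
  · rw [hm]
    have : (volume (S ∩ Set.Ico (0:ℝ) 1)) ≤ 1 := by
      calc _ ≤ volume (Set.Ico (0:ℝ) 1) := measure_mono Set.inter_subset_right
        _ = 1 := by simp
    exact ENNReal.toReal_le_of_le_ofReal (by norm_num) (by simpa using this)

theorem bathtub (S : Set ℝ) (hS : MeasurableSet S) :
    ‖F1' S‖ ≤ Real.sin (Real.pi * (volume (S ∩ Set.Ico 0 1)).toReal) / Real.pi := by
  set m := (volume (S ∩ Set.Ico 0 1)).toReal with hm
  obtain ⟨h0, h1⟩ := m_bounds S m hm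
  have hα : F1' S = ‖F1' S‖ * Complex.exp (2 * Real.pi * ((F1' S).arg / (2 * Real.pi) : ℝ) * Complex.I) := by
    have hpi : (Real.pi : ℂ) ≠ 0 := by exact_mod_cast Real.pi_ne_zero
    conv_lhs => rw [← Complex.norm_mul_exp_arg_mul_I (F1' S)]
    congr 2
    push_cast
    field_simp
  rw [norm_F1_eq S hS _ hα]
  have h := integral_bt S hS m ((F1' S).arg / (2 * Real.pi)) hm h0 h1
  have h2 : 0 ≤ ∫ t in Set.Ico 0 1, bt S m ((F1' S).arg / (2 * Real.pi)) t :=
    integral_nonneg (fun t => bt_nonneg S m _ t h0 h1)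
  linarith

theorem null_of_null_Ico (T : Set ℝ) (hT : MeasurableSet T) (hp : ∀ t, t + 1 ∈ T ↔ t ∈ T)
    (h : volume (T ∩ Set.Ico 0 1) = 0) : volume T = 0 := by
  have : T = ⋃ k : ℤ, T ∩ Set.Ico (k : ℝ) (k + 1) := by
    rw [← Set.inter_iUnion]
    ext t
    simp only [Set.mem_inter_iff, Set.mem_iUnion, Set.mem_Ico, iff_self_and]
    intro _
    exact ⟨⌊t⌋, Int.floor_le t, Int.lt_floor_add_one t⟩
  rw [this]
  refine measure_iUnion_null (fun k => ?_)
  rw [← volume_shift T hT hp k]
  exact h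

theorem bathtub_eq (S : Set ℝ) (hS : MeasurableSet S) (hp : ∀ t, t + 1 ∈ S ↔ t ∈ S)
    (m : ℝ) (hm : m = (volume (S ∩ Set.Ico 0 1)).toReal)
    (h : ‖F1' S‖ = Real.sin (Real.pi * m) / Real.pi) :
    ∀ α : ℝ, F1' S = ‖F1' S‖ * Complex.exp (2 * Real.pi * α * Complex.I) →
      S =ᵐ[volume] {t | dZ (t - α) < m / 2} := by
  intro α hα
  obtain ⟨h0, h1⟩ := m_bounds S m hm
  have hI := integral_bt S hS m α hm h0 h1
  rw [← norm_F1_eq S hS α hα, h, sub_self] at hI
  have hz := (integral_eq_zero_iff_of_nonneg (fun t => bt_nonneg S m α t h0 h1)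
    (bt_integrable S hS m α)).1 hI
  -- the boundary is null
  have hnull : volume {t : ℝ | dZ (t - α) = m / 2} = 0 := by
    have hsub : {t : ℝ | dZ (t - α) = m / 2} ⊆
        (Set.range (fun k : ℤ => α + m / 2 + k)) ∪ (Set.range (fun k : ℤ => α - m / 2 + k)) := by
      intro t ht
      have ht' : |(t - α) - round (t - α)| = m / 2 := ht
      rcases abs_eq (by linarith) |>.1 ht' with h | h
      · left; exact ⟨round (t - α), by simp only; linarith⟩
      · right; exact ⟨round (t - α), by simp only; linarith⟩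
    exact Set.Countable.measure_zero (((Set.countable_range _).union (Set.countable_range _)).mono hsub) _
  have hTm : MeasurableSet (symmDiff S (arc m α)) := hS.symmDiff (measurableSet_arc m α)
  have hT : volume (symmDiff S (arc m α)) = 0 := by
    refine null_of_null_Ico _ hTm ?_ ?_
    · intro t
      simp only [Set.mem_symmDiff, hp t, arc_per m α t]
    · have hz' : ∀ᵐ t ∂(volume.restrict (Set.Ico (0:ℝ) 1)), bt S m α t = 0 := hz
      rw [ae_restrict_iff' measurableSet_Ico] at hz'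
      have hn' : ∀ᵐ t : ℝ, dZ (t - α) ≠ m / 2 := by
        rw [ae_iff]; simpa using hnull
      have : ∀ᵐ t : ℝ, t ∉ (symmDiff S (arc m α)) ∩ Set.Ico 0 1 := by
        filter_upwards [hz', hn'] with t ht1 ht2 ht3
        obtain ⟨ht3, ht4⟩ := ht3
        have hb := ht1 ht4
        unfold bt at hb
        rcases ht3 with ⟨hs, ha⟩ | ⟨ha, hs⟩
        · rw [Set.indicator_of_mem hs, Set.indicator_of_notMem ha] at hb
          have : m / 2 < dZ (t - α) := lt_of_le_of_ne (not_lt.1 ha) (Ne.symm ht2)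
          have := cos_lt_of_lt_dZ m α t h0 this
          nlinarith
        · rw [Set.indicator_of_mem ha, Set.indicator_of_notMem hs] at hb
          have := cos_gt_of_mem_arc m α t h1 ha
          nlinarith
      rw [ae_iff] at this
      convert this using 2
      ext t
      exact not_not.symm
  exact (measure_symmDiff_eq_zero_iff.1 hT)

end ArcA

end Crest.Agent.R214
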