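import Crest.Agent.R214.ArcTent

/-!
Row 214: a periodic set without alternating density points is an arc.
-/

set_option autoImplicit false
open MeasureTheory Set Crest.GeometryTopology.PeriodicPerimeter Filter
open scoped ENNReal NNReal Topology
noncomputable section
namespace Crest.Agent.R214
namespace ArcB

/-- indicator -/
def ind (A : Set ℝ) : ℝ → ℝ := A.indicator (fun _ => (1 : ℝ))

theorem ind_of_mem {A : Set ℝ} {t : ℝ} (h : t ∈ A) : ind A t = 1 := by simp [ind, h]
theorem ind_of_notMem {A : Set ℝ} {t : ℝ} (h : t ∉ A) : ind A t = 0 := by simp [ind, h]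

/-- A periodic set without four alternating good points is an arc (adapted from
`RigArc.exists_arc` of helper36). -/
theorem arc_of_noalt {A Z : Set ℝ} (hA : MeasurableSet A) (hAp : ∀ t, t + 1 ∈ A ↔ t ∈ A)
    (hZ : ∀ᵐ t, t ∈ Z) (hZm : ∀ (m : ℤ) (t : ℝ), t - m ∈ Z ↔ t ∈ Z) {p q : ℝ} (hpq : p < q)
    (hqp : q < p + 1) (hpA : p ∈ A) (hpZ : p ∈ Z) (hqA : q ∉ A) (hqZ : q ∈ Z)
    (noalt : ∀ {t1 t2 t3 t4 : ℝ}, t1 < t2 → t2 < t3 → t3 < t4 → t4 < t1 + 1 →
      t1 ∈ A → t1 ∈ Z → t2 ∉ A → t2 ∈ Z → t3 ∈ A → t3 ∈ Z → t4 ∉ A → t4 ∈ Z → False) :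
    ∃ c, ∀ᵐ t, t ∈ A ↔ t ∈ arc c (∫ t in (0:ℝ)..1, ind A t) := by
  have hper : Function.Periodic (ind A) 1 := by
    intro t
    by_cases ht : t ∈ A
    · rw [ind_of_mem ht, ind_of_mem ((hAp t).2 ht)]
    · rw [ind_of_notMem ht, ind_of_notMem (fun h' => ht ((hAp t).1 h'))]
  -- the two cut points
  set S1 : Set ℝ := A ∩ Z ∩ Icc p q with hS1
  set S2 : Set ℝ := A ∩ Z ∩ Icc q (p + 1) with hS2
  have hp1A : p + 1 ∈ A := (hAp p).2 hpA
  have hp1Z : p + 1 ∈ Z := by
    rw [← hZm 1 (p + 1)]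
    simpa using hpZ
  have hS1ne : S1.Nonempty := ⟨p, ⟨hpA, hpZ⟩, le_rfl, hpq.le⟩
  have hS2ne : S2.Nonempty := ⟨p + 1, ⟨hp1A, hp1Z⟩, hqp.le, le_rfl⟩
  have hS1bd : BddAbove S1 := ⟨q, fun t ht => ht.2.2⟩
  have hS2bd : BddBelow S2 := ⟨q, fun t ht => ht.2.1⟩
  set b := sSup S1 with hb
  set a := sInf S2 with ha
  have hpb : p ≤ b := le_csSup hS1bd ⟨⟨hpA, hpZ⟩, le_rfl, hpq.le⟩
  have hbq : b ≤ q := csSup_le hS1ne fun t ht => ht.2.2
  have hqa : q ≤ a := le_csInf hS2ne fun t ht => ht.2.1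
  have hap : a ≤ p + 1 := csInf_le hS2bd ⟨⟨hp1A, hp1Z⟩, hqp.le, le_rfl⟩
  have F1 : ∀ t ∈ Z, p < t → t < b → t ∈ A := by
    intro t htZ h1 h2
    by_contra htA
    obtain ⟨s, hs, hts⟩ := exists_lt_of_lt_csSup hS1ne h2
    have hsq : s < q := lt_of_le_of_ne hs.2.2 (fun e => hqA (e ▸ hs.1.1))
    exact noalt h1 hts hsq hqp hpA hpZ htA htZ hs.1.1 hs.1.2 hqA hqZ
  have F2 : ∀ t ∈ Z, b < t → t < a → t ∉ A := by
    intro t htZ h1 h2 htA
    rcases le_total t q with h3 | h3
    · exact absurd (le_csSup hS1bd ⟨⟨htA, htZ⟩, by linarith, h3⟩) (not_le.2 h1)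
    · exact absurd (csInf_le hS2bd ⟨⟨htA, htZ⟩, h3, by linarith⟩) (not_le.2 h2)
  have F3 : ∀ t ∈ Z, a < t → t < p + 1 → t ∈ A := by
    intro t htZ h1 h2
    by_contra htA
    obtain ⟨s, hs, hst⟩ := exists_lt_of_csInf_lt hS2ne h1
    have hqs : q < s := lt_of_le_of_ne hs.2.1 (fun e => hqA (e ▸ hs.1.1))
    exact noalt hpq hqs hst h2 hpA hpZ hqA hqZ hs.1.1 hs.1.2 htA htZ
  have hAm : ∀ (m : ℤ) (t : ℝ), t - m ∈ A ↔ t ∈ A := by
    intro m t
    have e2 : ind A (t - m) = ind A t := by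
      have := hper.sub_zsmul_eq m (x := t)
      simpa using this
    constructor
    · intro h1
      by_contra h2
      rw [ind_of_mem h1, ind_of_notMem h2] at e2
      norm_num at e2
    · intro h1
      by_contra h2
      rw [ind_of_mem h1, ind_of_notMem h2] at e2
      norm_num at e2
  -- membership on (a, a+1)
  have G1 : ∀ t ∈ Z, a < t → t < b + 1 → t ≠ p + 1 → t ∈ A := by
    intro t htZ h1 h2 h3
    rcases lt_or_gt_of_ne h3 with h4 | h4
    · exact F3 t htZ h1 h4
    · rw [← hAm 1 t]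
      refine F1 _ ((hZm 1 t).2 htZ) ?_ ?_ <;> push_cast <;> linarith
  have G2 : ∀ t ∈ Z, b + 1 < t → t < a + 1 → t ∉ A := by
    intro t htZ h1 h2
    rw [← hAm 1 t]
    refine F2 _ ((hZm 1 t).2 htZ) ?_ ?_ <;> push_cast <;> linarith
  have hLval : ∫ t in (0:ℝ)..1, ind A t = b + 1 - a := by
    have h1 : ∫ t in (0:ℝ)..1, ind A t = ∫ t in a..(a + 1), ind A t := by
      have := hper.intervalIntegral_add_eq 0 a
      simpa using this
    have hne : ∀ x : ℝ, ∀ᵐ t : ℝ, t ≠ x := fun x => by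
      simp [ae_iff, measure_singleton]
    have hint : ∀ x y : ℝ, IntervalIntegrable (ind A) volume x y := by
      intro x y
      have : IntegrableOn (ind A) (uIoc x y) := by
        apply Measure.integrableOn_of_bounded (M := 1)
        · exact measure_Ioc_lt_top.ne
        · exact (measurable_const.indicator hA).aestronglyMeasurable
        · refine Eventually.of_forall fun t => ?_
          unfold ind
          by_cases ht : t ∈ A <;> simp [ht]
      rw [intervalIntegrable_iff]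
      exact this
    rw [h1, ← intervalIntegral.integral_add_adjacent_intervals (hint a (b+1)) (hint (b+1) (a+1))]
    have h2 : ∫ t in a..(b+1), ind A t = ∫ t in a..(b+1), (1:ℝ) := by
      apply intervalIntegral.integral_congr_ae
      filter_upwards [hZ, hne (p+1), hne (b+1)] with t ht h3 h4 htI
      rw [uIoc_of_le (by linarith)] at htI
      exact ind_of_mem (G1 t ht htI.1 (lt_of_le_of_ne htI.2 h4) h3)
    have h3 : ∫ t in (b+1)..(a+1), ind A t = ∫ t in (b+1)..(a+1), (0:ℝ) := by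
      apply intervalIntegral.integral_congr_ae
      filter_upwards [hZ, hne (a+1)] with t ht h4 htI
      rw [uIoc_of_le (by linarith)] at htI
      exact ind_of_notMem (G2 t ht htI.1 (lt_of_le_of_ne htI.2 h4))
    rw [h2, h3]
    simp
  rw [hLval]
  refine ⟨(a + b + 1) / 2, ?_⟩
  set c := (a + b + 1) / 2 with hc
  have hne : ∀ x : ℝ, ∀ᵐ t : ℝ, ∀ m : ℤ, t ≠ x + m := by
    intro x
    rw [ae_all_iff]
    intro m
    simp [ae_iff, measure_singleton]
  filter_upwards [hZ, hne a, hne b, hne (p + 1), hne (c - 1/2), hne (c + 1/2)] with t ht ha' hb' hp' hc1 hc2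
  set m := round (t - c) with hm
  have hr : |t - c - m| ≤ 1 / 2 := by
    rw [hm]
    exact abs_sub_round _
  have htm : t - m ∈ Z := (hZm m t).2 ht
  have hub : t - m ≤ c + 1/2 := by linarith [(abs_le.1 hr).2]
  have hlb : c - 1/2 ≤ t - m := by linarith [(abs_le.1 hr).1]
  have hne_a : t - m ≠ a := fun e => ha' m (by linarith)
  have hne_b : t - m ≠ b := fun e => hb' m (by linarith)
  have hne_b1 : t - m ≠ b + 1 := fun e => hb' (m + 1) (by push_cast; linarith)
  have hne_p : t - m ≠ p + 1 := fun e => hp' m (by linarith)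
  have hne_c1 : t - m ≠ c - 1/2 := fun e => hc1 m (by linarith)
  have hne_c2 : t - m ≠ c + 1/2 := fun e => hc2 m (by linarith)
  rw [← hAm m t]
  rw [show t ∈ arc c (b + 1 - a) ↔ |t - c - m| < (b + 1 - a) / 2 from Iff.rfl]
  have e : t - c - m = (t - m) - c := by ring
  rw [e]
  set s := t - m with hs
  constructor
  · intro hsA
    rw [abs_lt]
    constructor
    · by_contra hcon
      push Not at hcon
      have h1 : s < a := lt_of_le_of_ne (by rw [hc] at hcon; linarith) hne_a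
      have h2 : b ≤ s := by rw [hc] at hlb; linarith
      exact F2 s htm (lt_of_le_of_ne h2 hne_b.symm) h1 hsA
    · by_contra hcon
      push Not at hcon
      have h1 : b + 1 < s := lt_of_le_of_ne (by rw [hc] at hcon; linarith) hne_b1.symm
      have h2 : s < a + 1 := by
        have : a ≤ p + 1 := hap
        rcases lt_or_eq_of_le (show b ≤ a by linarith) with h3 | h3
        · rw [hc] at hub; linarith
        · exfalso
          rw [hc] at hub
          have : s ≤ b + 1 := by linarith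
          linarith
      exact G2 s htm h1 h2 hsA
  · intro habs
    rw [abs_lt] at habs
    refine G1 s htm ?_ ?_ hne_p
    · have := habs.1; rw [hc] at this; linarith
    · have := habs.2; rw [hc] at this; linarith

end ArcB
end Crest.Agent.R214
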