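import Crest.Agent.R214.Defs

/-!
Row 214: base lemmas for `Arc` (distance to the nearest integer, integrals over a period, arcs).
-/

set_option autoImplicit false
open MeasureTheory Crest.GeometryTopology.PeriodicPerimeter Filter
open scoped ENNReal NNReal Topology
noncomputable section
namespace Crest.Agent.R214
namespace ArcB

theorem dZ_add_int (t : ℝ) (k : ℤ) : dZ (t + k) = dZ t := by
  unfold dZ
  rw [round_add_intCast]
  push_cast
  congr 1
  ring

theorem dZ_neg (t : ℝ) : dZ (-t) = dZ t := by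
  unfold dZ
  rw [abs_sub_round_eq_min, abs_sub_round_eq_min]
  by_cases h : Int.fract t = 0
  · rw [(Int.fract_neg_eq_zero).2 h, h]
  · rw [Int.fract_neg h, min_comm]
    ring_nf

theorem dZ_nonneg (t : ℝ) : 0 ≤ dZ t := abs_nonneg _

theorem dZ_le_half (t : ℝ) : dZ t ≤ 1 / 2 := abs_sub_round t

theorem dZ_le_abs_sub (t : ℝ) (k : ℤ) : dZ t ≤ |t - k| := round_le t k

theorem dZ_of_abs_le (t : ℝ) (h : |t| ≤ 1 / 2) : dZ t = |t| := by
  apply le_antisymm
  · simpa using dZ_le_abs_sub t 0
  · unfold dZ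
    by_cases h0 : round t = 0
    · simp [h0]
    · have h1 : (1 : ℝ) ≤ |(round t : ℝ)| := by
        rw [← Int.cast_abs]
        exact_mod_cast Int.one_le_abs h0
      have h2 : |(round t : ℝ)| ≤ |t - round t| + |t| := by
        have := abs_sub_abs_le_abs_sub (round t : ℝ) t
        rw [abs_sub_comm] at this
        linarith
      linarith

theorem dZ_sub_le (s t : ℝ) : |dZ s - dZ t| ≤ |s - t| := by
  rw [abs_sub_le_iff]
  constructor
  · have h1 := dZ_le_abs_sub s (round t)
    have h2 : |s - round t| ≤ |s - t| + |t - round t| := abs_sub_le _ _ _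
    unfold dZ at *
    linarith
  · have h1 := dZ_le_abs_sub t (round s)
    have h2 : |t - round s| ≤ |t - s| + |s - round s| := abs_sub_le _ _ _
    rw [abs_sub_comm t s] at h2
    unfold dZ at *
    linarith

theorem continuous_dZ : Continuous dZ := by
  have : LipschitzWith 1 dZ := by
    apply LipschitzWith.of_dist_le_mul
    intro x y
    simp only [NNReal.coe_one, one_mul, Real.dist_eq]
    exact dZ_sub_le x y
  exact this.continuous

theorem dZ_periodic : Function.Periodic dZ 1 := by
  intro t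
  simpa using dZ_add_int t 1

/-- a periodic set is invariant under integer translations -/
theorem mem_add_int {S : Set ℝ} (hp : ∀ t, t + 1 ∈ S ↔ t ∈ S) (k : ℤ) (t : ℝ) :
    t + k ∈ S ↔ t ∈ S := by
  have hper : Function.Periodic (fun t => t ∈ S) 1 := fun t => propext (hp t)
  have := hper.int_mul k t
  simp only [mul_one] at this
  exact iff_of_eq this

theorem indicator_periodic {E : Type*} [Zero E] {S : Set ℝ} (hp : ∀ t, t + 1 ∈ S ↔ t ∈ S)
    {f : ℝ → E} (hf : Function.Periodic f 1) : Function.Periodic (S.indicator f) 1 := by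
  intro t
  by_cases h : t ∈ S
  · rw [Set.indicator_of_mem h, Set.indicator_of_mem ((hp t).2 h), hf]
  · rw [Set.indicator_of_notMem h, Set.indicator_of_notMem (fun h' => h ((hp t).1 h'))]

theorem integral_per {E : Type*} [NormedAddCommGroup E] [NormedSpace ℝ E] {S : Set ℝ}
    (hS : MeasurableSet S) (hp : ∀ t, t + 1 ∈ S ↔ t ∈ S) {f : ℝ → E}
    (hf : Function.Periodic f 1) (a : ℝ) :
    ∫ t in S ∩ Set.Ico 0 1, f t = ∫ t in a..(a + 1), S.indicator f t := by
  have h1 := (indicator_periodic hp hf).intervalIntegral_add_eq a 0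
  rw [h1, zero_add, intervalIntegral.integral_of_le zero_le_one, ← integral_Ico_eq_integral_Ioc,
    setIntegral_indicator hS, Set.inter_comm]

theorem toReal_volume_per {S : Set ℝ} (hS : MeasurableSet S) (hp : ∀ t, t + 1 ∈ S ↔ t ∈ S)
    (a : ℝ) : (volume (S ∩ Set.Ico 0 1)).toReal = ∫ t in a..(a + 1), S.indicator (fun _ => (1:ℝ)) t := by
  rw [← integral_per hS hp (f := fun _ => (1:ℝ)) (fun _ => rfl) a]
  simp [Measure.real]

theorem volume_ne_top (S : Set ℝ) (a b : ℝ) : volume (S ∩ Set.Ico a b) ≠ ⊤ := by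
  refine ((measure_mono Set.inter_subset_right).trans_lt ?_).ne
  simp

theorem volume_per {S : Set ℝ} (hS : MeasurableSet S) (hp : ∀ t, t + 1 ∈ S ↔ t ∈ S)
    (a : ℝ) : volume (S ∩ Set.Ico 0 1) = volume (S ∩ Set.Ico a (a + 1)) := by
  rw [← ENNReal.toReal_eq_toReal_iff' (volume_ne_top _ _ _) (volume_ne_top _ _ _),
    toReal_volume_per hS hp a]
  rw [intervalIntegral.integral_of_le (by linarith), ← integral_Ico_eq_integral_Ioc,
    setIntegral_indicator hS, Set.inter_comm]
  simp [Measure.real]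

/-- the arc -/
def arc (α m : ℝ) : Set ℝ := {t : ℝ | dZ (t - α) < m / 2}

theorem arc_meas (α m : ℝ) : MeasurableSet (arc α m) := by
  apply IsOpen.measurableSet
  exact isOpen_lt (continuous_dZ.comp (continuous_id.sub continuous_const)) continuous_const

theorem arc_per (α m : ℝ) (t : ℝ) : t + 1 ∈ arc α m ↔ t ∈ arc α m := by
  unfold arc
  simp only [Set.mem_ofPred_eq]
  rw [show t + 1 - α = (t - α) + 1 by ring, dZ_periodic]

theorem arc_inter (α m : ℝ) (h1 : m ≤ 1) :
    arc α m ∩ Set.Ico (α - 1/2) (α - 1/2 + 1) = Set.Ioo (α - m/2) (α + m/2) := by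
  ext t
  simp only [arc, Set.mem_inter_iff, Set.mem_ofPred_eq, Set.mem_Ico, Set.mem_Ioo]
  constructor
  · rintro ⟨h2, h3, h4⟩
    rw [dZ_of_abs_le _ (by rw [abs_le]; constructor <;> linarith), abs_lt] at h2
    constructor <;> linarith
  · rintro ⟨h2, h3⟩
    refine ⟨?_, by linarith, by linarith⟩
    rw [dZ_of_abs_le _ (by rw [abs_le]; constructor <;> linarith), abs_lt]
    constructor <;> linarith

theorem volume_arc (m α : ℝ) (h1 : m ≤ 1) :
    volume (arc α m ∩ Set.Ico 0 1) = ENNReal.ofReal m := by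
  rw [volume_per (arc_meas α m) (arc_per α m) (α - 1/2), arc_inter α m h1, Real.volume_Ioo]
  congr 1; ring

theorem integral_arc {E : Type*} [NormedAddCommGroup E] [NormedSpace ℝ E] (m α : ℝ) (h0 : 0 ≤ m)
    (h1 : m ≤ 1) {f : ℝ → E} (hf : Function.Periodic f 1) :
    ∫ t in arc α m ∩ Set.Ico 0 1, f t = ∫ t in (α - m/2)..(α + m/2), f t := by
  rw [integral_per (arc_meas α m) (arc_per α m) hf (α - 1/2),
    intervalIntegral.integral_of_le (by linarith), ← integral_Ico_eq_integral_Ioc,
    setIntegral_indicator (arc_meas α m), Set.inter_comm, arc_inter α m h1,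
    intervalIntegral.integral_of_le (by linarith), integral_Ioc_eq_integral_Ioo]

theorem exp_periodic : Function.Periodic (fun t : ℝ => Complex.exp (2 * Real.pi * t * Complex.I)) 1 := by
  intro t
  simp only
  rw [show (2 * Real.pi * ((t + 1 : ℝ) : ℂ) * Complex.I) = 2 * Real.pi * t * Complex.I
    + 2 * Real.pi * Complex.I by push_cast; ring, Complex.exp_add, Complex.exp_two_pi_mul_I, mul_one]

theorem F1_arc (m α : ℝ) (h0 : 0 ≤ m) (h1 : m ≤ 1) :
    ∫ t in arc α m ∩ Set.Ico (0:ℝ) 1, Complex.exp (2 * Real.pi * t * Complex.I) =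
      (Real.sin (Real.pi * m) / Real.pi : ℝ) * Complex.exp (2 * Real.pi * α * Complex.I) := by
  rw [integral_arc m α h0 h1 exp_periodic]
  have hc : (2 * Real.pi * Complex.I : ℂ) ≠ 0 := by
    simp [Real.pi_ne_zero]
  have h2 : ∀ t : ℝ, Complex.exp (2 * Real.pi * t * Complex.I)
      = Complex.exp ((2 * Real.pi * Complex.I) * t) := by
    intro t; congr 1; ring
  simp only [h2]
  rw [integral_exp_mul_complex hc]
  push_cast
  rw [show (2 * (Real.pi:ℂ) * Complex.I * (α + m / 2)) = 2 * Real.pi * Complex.I * α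
    + (Real.pi * m) * Complex.I by ring, show (2 * (Real.pi:ℂ) * Complex.I * (α - m / 2))
    = 2 * Real.pi * Complex.I * α + (-(Real.pi * m)) * Complex.I by ring, Complex.exp_add,
    Complex.exp_add, Complex.exp_mul_I, Complex.exp_mul_I, Complex.cos_neg, Complex.sin_neg]
  have hpi : (Real.pi : ℂ) ≠ 0 := by exact_mod_cast Real.pi_ne_zero
  field_simp
  ring

end ArcB
end Crest.Agent.R214
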