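import Crest.Agent.R214.ArcBase

/-!
Row 214: the bathtub principle on the circle.
-/

set_option autoImplicit false
open MeasureTheory Crest.GeometryTopology.PeriodicPerimeter Filter
open scoped ENNReal NNReal Topology
noncomputable section
namespace Crest.Agent.R214
namespace ArcB

/-- first Fourier coefficient (auxiliary name) -/
def F1' (S : Set ℝ) : ℂ := ∫ t in S ∩ Set.Ico (0 : ℝ) 1, Complex.exp (2 * Real.pi * t * Complex.I)

theorem cos_eq_cos_dZ (t : ℝ) : Real.cos (2 * Real.pi * t) = Real.cos (2 * Real.pi * dZ t) := by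
  unfold dZ
  have h : 2 * Real.pi * t = 2 * Real.pi * (t - round t) + (round t : ℤ) * (2 * Real.pi) := by
    ring
  rw [h, Real.cos_add_int_mul_two_pi]
  rw [← Real.cos_abs (2 * Real.pi * (t - round t)), abs_mul, abs_of_pos Real.two_pi_pos]

theorem dZ_lt_iff {m t : ℝ} (h0 : 0 ≤ m) (h1 : m ≤ 1) :
    dZ t < m / 2 ↔ Real.cos (Real.pi * m) < Real.cos (2 * Real.pi * t) := by
  rw [cos_eq_cos_dZ t]
  have hpi := Real.pi_pos
  have h2 := dZ_nonneg t
  have h3 := dZ_le_half t
  rw [Real.strictAntiOn_cos.lt_iff_gt]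
  · constructor
    · intro h; nlinarith
    · intro h; nlinarith
  · constructor <;> nlinarith
  · constructor <;> nlinarith

theorem dZ_eq_iff {m t : ℝ} (h0 : 0 ≤ m) (h1 : m ≤ 1) :
    dZ t = m / 2 ↔ Real.cos (2 * Real.pi * t) = Real.cos (Real.pi * m) := by
  rw [cos_eq_cos_dZ t]
  have hpi := Real.pi_pos
  have h2 := dZ_nonneg t
  have h3 := dZ_le_half t
  constructor
  · intro h; rw [h]; congr 1; ring
  · intro h
    have := Real.injOn_cos (by constructor <;> nlinarith) (by constructor <;> nlinarith) h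
    nlinarith

/-- the cosine as real part of the rotated exponential -/
theorem integral_cos_eq (S : Set ℝ) (α : ℝ) :
    ∫ t in S ∩ Set.Ico (0:ℝ) 1, Real.cos (2 * Real.pi * (t - α))
      = (Complex.exp (-(2 * Real.pi * α * Complex.I)) * F1' S).re := by
  unfold F1'
  rw [← integral_const_mul]
  rw [← RCLike.re_eq_complex_re, ← integral_re]
  · congr 1
    ext t
    rw [← Complex.exp_add]
    rw [show -(2 * (Real.pi:ℂ) * α * Complex.I) + 2 * Real.pi * t * Complex.I
      = ((2 * Real.pi * (t - α) : ℝ) : ℂ) * Complex.I by push_cast; ring]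
    rw [RCLike.re_eq_complex_re, Complex.exp_ofReal_mul_I_re]
  · apply Integrable.const_mul
    apply Measure.integrableOn_of_bounded (M := 1)
    · exact volume_ne_top _ _ _
    · exact (by fun_prop : Continuous fun t : ℝ =>
        Complex.exp (2 * Real.pi * t * Complex.I)).aestronglyMeasurable
    · refine Eventually.of_forall fun t => ?_
      rw [show (2 * (Real.pi:ℂ) * t * Complex.I) = ((2 * Real.pi * t : ℝ) : ℂ) * Complex.I by
        push_cast; ring, Complex.norm_exp_ofReal_mul_I]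

/-- excess function -/
def exc (S : Set ℝ) (α m t : ℝ) : ℝ :=
  ((arc α m).indicator (fun _ => (1:ℝ)) t - S.indicator (fun _ => (1:ℝ)) t) *
    (Real.cos (2 * Real.pi * (t - α)) - Real.cos (Real.pi * m))

theorem exc_nonneg (S : Set ℝ) (α m t : ℝ) (h0 : 0 ≤ m) (h1 : m ≤ 1) : 0 ≤ exc S α m t := by
  unfold exc
  by_cases h : t ∈ arc α m
  · rw [Set.indicator_of_mem h]
    have h2 : Real.cos (Real.pi * m) < Real.cos (2 * Real.pi * (t - α)) :=
      (dZ_lt_iff h0 h1).1 h
    have h3 : S.indicator (fun _ => (1:ℝ)) t ≤ 1 := by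
      by_cases hS : t ∈ S <;> simp [hS]
    exact mul_nonneg (by linarith) (by linarith)
  · rw [Set.indicator_of_notMem h]
    have h2 : ¬ Real.cos (Real.pi * m) < Real.cos (2 * Real.pi * (t - α)) := fun h' =>
      h ((dZ_lt_iff h0 h1).2 h')
    have h3 : 0 ≤ S.indicator (fun _ => (1:ℝ)) t := by
      by_cases hS : t ∈ S <;> simp [hS]
    push Not at h2
    exact mul_nonneg_of_nonpos_of_nonpos (by linarith) (by linarith)

theorem integrableOn_ind {S : Set ℝ} (hS : MeasurableSet S) {f : ℝ → ℝ} (hf : Continuous f) :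
    IntegrableOn (fun t => S.indicator (fun _ => (1:ℝ)) t * f t) (Set.Ico 0 1) := by
  have h1 : IntegrableOn f (Set.Ico 0 1) :=
    (hf.integrableOn_Icc (a := 0) (b := 1)).mono_set Set.Ico_subset_Icc_self
  have h2 : (fun t => S.indicator (fun _ => (1:ℝ)) t * f t) = S.indicator f := by
    ext t
    by_cases h : t ∈ S <;> simp [h]
  rw [h2]
  exact Integrable.indicator h1 hS

theorem integral_ind {S : Set ℝ} (hS : MeasurableSet S) {f : ℝ → ℝ} :
    ∫ t in Set.Ico 0 1, S.indicator (fun _ => (1:ℝ)) t * f t = ∫ t in S ∩ Set.Ico (0:ℝ) 1, f t := by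
  have h2 : (fun t => S.indicator (fun _ => (1:ℝ)) t * f t) = S.indicator f := by
    ext t
    by_cases h : t ∈ S <;> simp [h]
  rw [h2, setIntegral_indicator hS, Set.inter_comm]

theorem integral_exc {S : Set ℝ} (hS : MeasurableSet S) (m : ℝ)
    (hm : m = (volume (S ∩ Set.Ico 0 1)).toReal) (h0 : 0 ≤ m) (h1 : m ≤ 1) (α : ℝ)
    (hα : F1' S = ‖F1' S‖ * Complex.exp (2 * Real.pi * α * Complex.I)) :
    ∫ t in Set.Ico (0:ℝ) 1, exc S α m t = Real.sin (Real.pi * m) / Real.pi - ‖F1' S‖ := by
  have hc : Continuous fun t : ℝ => Real.cos (2 * Real.pi * (t - α)) - Real.cos (Real.pi * m) := by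
    fun_prop
  have key : ∀ T : Set ℝ, MeasurableSet T → ∫ t in T ∩ Set.Ico (0:ℝ) 1,
      (Real.cos (2 * Real.pi * (t - α)) - Real.cos (Real.pi * m))
      = (Complex.exp (-(2 * Real.pi * α * Complex.I)) * F1' T).re
        - (volume (T ∩ Set.Ico 0 1)).toReal * Real.cos (Real.pi * m) := by
    intro T hT
    rw [integral_sub, integral_cos_eq]
    · simp [Measure.real]
    · apply Measure.integrableOn_of_bounded (M := 1)
      · exact volume_ne_top _ _ _
      · exact (by fun_prop : Continuous fun t : ℝ =>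
          Real.cos (2 * Real.pi * (t - α))).aestronglyMeasurable
      · exact Eventually.of_forall fun t => Real.abs_cos_le_one _
    · apply integrable_const_iff.2
      right
      exact ⟨by simpa using (volume_ne_top T 0 1).lt_top⟩
  have e : (fun t => exc S α m t) = fun t => (arc α m).indicator (fun _ => (1:ℝ)) t *
      (Real.cos (2 * Real.pi * (t - α)) - Real.cos (Real.pi * m)) -
      S.indicator (fun _ => (1:ℝ)) t *
      (Real.cos (2 * Real.pi * (t - α)) - Real.cos (Real.pi * m)) := by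
    ext t
    unfold exc
    ring
  rw [e, integral_sub (integrableOn_ind (arc_meas α m) hc) (integrableOn_ind hS hc),
    integral_ind (arc_meas α m), integral_ind hS, key _ (arc_meas α m), key S hS,
    volume_arc m α h1, ENNReal.toReal_ofReal h0, ← hm]
  have h2 : F1' (arc α m) = (Real.sin (Real.pi * m) / Real.pi : ℝ) *
      Complex.exp (2 * Real.pi * α * Complex.I) := F1_arc m α h0 h1
  have h3 : (Complex.exp (-(2 * Real.pi * α * Complex.I)) * F1' (arc α m)).re
      = Real.sin (Real.pi * m) / Real.pi := by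
    rw [h2, mul_left_comm, ← Complex.exp_add, neg_add_cancel, Complex.exp_zero, mul_one,
      Complex.ofReal_re]
  have h4 : (Complex.exp (-(2 * Real.pi * α * Complex.I)) * F1' S).re = ‖F1' S‖ := by
    have h5 : Complex.exp (-(2 * Real.pi * α * Complex.I)) * F1' S = ((‖F1' S‖ : ℝ) : ℂ) := by
      conv_lhs => rw [hα]
      rw [mul_left_comm, ← Complex.exp_add, neg_add_cancel, Complex.exp_zero, mul_one]
    rw [h5, Complex.ofReal_re]
  rw [h3, h4]
  ring

theorem exists_alpha (z : ℂ) : ∃ α : ℝ, z = ‖z‖ * Complex.exp (2 * Real.pi * α * Complex.I) := by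
  refine ⟨Complex.arg z / (2 * Real.pi), ?_⟩
  conv_lhs => rw [← Complex.norm_mul_exp_arg_mul_I z]
  congr 2
  push_cast
  have hpi : (Real.pi : ℂ) ≠ 0 := by exact_mod_cast Real.pi_ne_zero
  field_simp

theorem toReal_le_one (S : Set ℝ) : (volume (S ∩ Set.Ico 0 1)).toReal ≤ 1 := by
  have : volume (S ∩ Set.Ico (0:ℝ) 1) ≤ 1 := by
    refine (measure_mono Set.inter_subset_right).trans ?_
    simp
  exact ENNReal.toReal_le_of_le_ofReal zero_le_one (by simpa using this)

theorem bathtub (S : Set ℝ) (hS : MeasurableSet S) :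
    ‖F1' S‖ ≤ Real.sin (Real.pi * (volume (S ∩ Set.Ico 0 1)).toReal) / Real.pi := by
  obtain ⟨α, hα⟩ := exists_alpha (F1' S)
  have := integral_exc hS _ rfl ENNReal.toReal_nonneg (toReal_le_one S) α hα
  have h2 : 0 ≤ ∫ t in Set.Ico (0:ℝ) 1, exc S α (volume (S ∩ Set.Ico 0 1)).toReal t :=
    integral_nonneg fun t => exc_nonneg S α _ t ENNReal.toReal_nonneg (toReal_le_one S)
  linarith

/-- a periodic property valid a.e. on a period is valid a.e. -/
theorem ae_of_ae_period {P : ℝ → Prop} (hP : ∀ t, P (t + 1) ↔ P t)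
    (h : ∀ᵐ t ∂(volume.restrict (Set.Ico (0:ℝ) 1)), P t) : ∀ᵐ t, P t := by
  rw [ae_restrict_iff' measurableSet_Ico] at h
  have hk : ∀ k : ℤ, ∀ t, P (t + k) ↔ P t := by
    intro k t
    exact mem_add_int (S := {t | P t}) hP k t
  have h2 : ∀ k : ℤ, ∀ᵐ t : ℝ, t + k ∈ Set.Ico (0:ℝ) 1 → P (t + k) := by
    intro k
    exact (measurePreserving_add_right volume (k:ℝ)).quasiMeasurePreserving.ae h
  rw [← ae_all_iff] at h2
  filter_upwards [h2] with t ht
  have := ht (-⌊t⌋) ⟨by push_cast; linarith [Int.floor_le t],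
    by push_cast; linarith [Int.lt_floor_add_one t]⟩
  exact (hk _ t).1 this

theorem ne_dZ_ae (x c : ℝ) : ∀ᵐ t : ℝ, dZ (t - x) ≠ c := by
  have hne : ∀ y : ℝ, ∀ᵐ t : ℝ, ∀ m : ℤ, t ≠ y + m := by
    intro y
    rw [ae_all_iff]
    intro m
    simp [ae_iff, measure_singleton]
  filter_upwards [hne (x + c), hne (x - c)] with t h1 h2 h3
  unfold dZ at h3
  rcases abs_choice (t - x - round (t - x)) with h4 | h4
  · rw [h4] at h3
    exact h1 (round (t - x)) (by linarith)
  · rw [h4] at h3
    exact h2 (round (t - x)) (by linarith)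

theorem bathtub_eq (S : Set ℝ) (hS : MeasurableSet S) (hp : ∀ t, t + 1 ∈ S ↔ t ∈ S)
    (m : ℝ) (hm : m = (volume (S ∩ Set.Ico 0 1)).toReal)
    (h : ‖F1' S‖ = Real.sin (Real.pi * m) / Real.pi) (α : ℝ)
    (hα : F1' S = ‖F1' S‖ * Complex.exp (2 * Real.pi * α * Complex.I)) :
      S =ᵐ[volume] {t | dZ (t - α) < m / 2} := by
  have h0 : 0 ≤ m := by rw [hm]; exact ENNReal.toReal_nonneg
  have h1 : m ≤ 1 := by rw [hm]; exact toReal_le_one S
  have h2 := integral_exc hS m hm h0 h1 α hα
  rw [h, sub_self] at h2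
  have hint : IntegrableOn (fun t => exc S α m t) (Set.Ico 0 1) := by
    have hc : Continuous fun t : ℝ => Real.cos (2 * Real.pi * (t - α)) - Real.cos (Real.pi * m) := by
      fun_prop
    have e : (fun t => exc S α m t) = fun t => (arc α m).indicator (fun _ => (1:ℝ)) t *
        (Real.cos (2 * Real.pi * (t - α)) - Real.cos (Real.pi * m)) -
        S.indicator (fun _ => (1:ℝ)) t *
        (Real.cos (2 * Real.pi * (t - α)) - Real.cos (Real.pi * m)) := by
      ext t
      unfold exc
      ring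
    rw [e]
    exact (integrableOn_ind (arc_meas α m) hc).sub (integrableOn_ind hS hc)
  have h3 : (fun t => exc S α m t) =ᵐ[volume.restrict (Set.Ico (0:ℝ) 1)] 0 :=
    (integral_eq_zero_iff_of_nonneg (fun t => exc_nonneg S α m t h0 h1) hint).1 h2
  have h4 : ∀ᵐ t ∂(volume.restrict (Set.Ico (0:ℝ) 1)), (t ∈ S ↔ t ∈ arc α m) := by
    filter_upwards [h3, ae_restrict_of_ae (ne_dZ_ae α (m/2))] with t ht hne
    have h5 : Real.cos (2 * Real.pi * (t - α)) - Real.cos (Real.pi * m) ≠ 0 := by
      intro h6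
      exact hne ((dZ_eq_iff h0 h1).2 (by linarith))
    have h6 : (arc α m).indicator (fun _ => (1:ℝ)) t - S.indicator (fun _ => (1:ℝ)) t = 0 := by
      have : exc S α m t = 0 := ht
      unfold exc at this
      rcases mul_eq_zero.1 this with h7 | h7
      · exact h7
      · exact absurd h7 h5
    by_cases hA : t ∈ arc α m <;> by_cases hB : t ∈ S <;> simp [hA, hB] at h6 ⊢
  have h5 := ae_of_ae_period (P := fun t => (t ∈ S ↔ t ∈ arc α m)) (fun t => by
    rw [hp t, arc_per α m t]) h4
  filter_upwards [h5] with t ht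
  exact propext ht

end ArcB
end Crest.Agent.R214
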