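import Crest.Agent.R214.ArcW

/-!
Row 214: `W1` of an arc, and the perimeter in dimension one.
-/

set_option autoImplicit false
open MeasureTheory Crest.GeometryTopology.PeriodicPerimeter Filter
open scoped ENNReal NNReal Topology ContDiff
noncomputable section
namespace Crest.Agent.R214
namespace ArcB

/-- smooth periodic bump around `x` -/
def Bp (κ x t : ℝ) : ℝ := Real.smoothTransition ((Real.cos (2 * Real.pi * (t - x)) - κ) / (1 - κ))

theorem Bp_smooth (κ x : ℝ) : ContDiff ℝ 1 (Bp κ x) := by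
  unfold Bp
  have h1 : ContDiff ℝ 1 fun t : ℝ => (Real.cos (2 * Real.pi * (t - x)) - κ) / (1 - κ) := by
    apply ContDiff.div_const
    apply ContDiff.sub _ contDiff_const
    exact Real.contDiff_cos.comp (by fun_prop)
  exact (Real.smoothTransition.contDiff (n := 1)).comp h1

theorem Bp_per (κ x : ℝ) : Function.Periodic (Bp κ x) 1 := by
  intro t
  unfold Bp
  rw [show 2 * Real.pi * (t + 1 - x) = 2 * Real.pi * (t - x) + 2 * Real.pi by ring,
    Real.cos_add_two_pi]

theorem Bp_self {κ : ℝ} (hκ : κ < 1) (x : ℝ) : Bp κ x x = 1 := by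
  unfold Bp
  rw [sub_self, mul_zero, Real.cos_zero, div_self (by linarith)]
  exact Real.smoothTransition.one_of_one_le le_rfl

theorem Bp_zero {κ : ℝ} (hκ : κ < 1) {x t : ℝ} (h : Real.cos (2 * Real.pi * (t - x)) ≤ κ) :
    Bp κ x t = 0 := by
  unfold Bp
  apply Real.smoothTransition.zero_of_nonpos
  apply div_nonpos_of_nonpos_of_nonneg <;> linarith

theorem W1_arc (S : Set ℝ) (m α : ℝ) (h0 : 0 < m) (h1 : m < 1)
    (h : S =ᵐ[volume] {t | dZ (t - α) < m / 2})
    (θ : ℝ → ℝ) (hθc : Continuous θ) (hθ0 : ∀ t, 0 ≤ θ t) (hθp : ∀ t, θ (t + 1) = θ t) :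
    ENNReal.ofReal (θ (α + m / 2) + θ (α - m / 2)) ≤ W1 θ S := by
  set β := α + m / 2 with hβ
  set γ := α - m / 2 with hγ
  have key : ∀ ε : ℝ, 0 < ε → ENNReal.ofReal (θ β + θ γ - 2 * ε) ≤ W1 θ S := by
    intro ε hε
    have hnear : ∀ x : ℝ, ∃ δ > 0, ∀ t, dZ (t - x) < δ → θ x - ε ≤ θ t := by
      intro x
      obtain ⟨δ, hδ, hδ'⟩ := Metric.continuous_iff.1 hθc x ε hε
      refine ⟨δ, hδ, fun t ht => ?_⟩
      have h3 : θ t = θ (t - round (t - x)) := by
        have := (show Function.Periodic θ 1 from hθp).sub_zsmul_eq (round (t - x)) (x := t)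
        rw [← this]; simp
      have h4 := hδ' (t - round (t - x)) (by
        rw [Real.dist_eq, show t - (round (t - x) : ℝ) - x = t - x - round (t - x) by ring]
        exact ht)
      rw [Real.dist_eq, abs_lt] at h4
      rw [h3]
      linarith [h4.1]
    obtain ⟨δ1, hδ1, hn1⟩ := hnear β
    obtain ⟨δ2, hδ2, hn2⟩ := hnear γ
    set η := min (min δ1 δ2) (min (m / 2) ((1 - m) / 2)) with hη
    have hη0 : 0 < η := by
      apply lt_min (lt_min hδ1 hδ2) (lt_min (by linarith) (by linarith))
    have hηm : η ≤ m / 2 := (min_le_right _ _).trans (min_le_left _ _)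
    have hηm' : η ≤ (1 - m) / 2 := (min_le_right _ _).trans (min_le_right _ _)
    have hη1 : η ≤ δ1 := (min_le_left _ _).trans (min_le_left _ _)
    have hη2 : η ≤ δ2 := (min_le_left _ _).trans (min_le_right _ _)
    set κ := Real.cos (Real.pi * (2 * η)) with hκ
    have hκ1 : κ < 1 := by
      have := (dZ_lt_iff (m := 2 * η) (t := 0) (by linarith) (by linarith)).1 (by
        rw [dZ_of_abs_le 0 (by norm_num)]; simp; linarith)
      simpa using this
    have hz : ∀ x t, η ≤ dZ (t - x) → Bp κ x t = 0 := by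
      intro x t ht
      apply Bp_zero hκ1
      by_contra hcon
      push Not at hcon
      have := (dZ_lt_iff (m := 2 * η) (t := t - x) (by linarith) (by linarith)).2 hcon
      linarith
    have hB0 : ∀ x t, 0 ≤ Bp κ x t := fun x t => Real.smoothTransition.nonneg _
    have hB1 : ∀ x t, Bp κ x t ≤ 1 := fun x t => Real.smoothTransition.le_one _
    set a := max (θ β - ε) 0 with ha
    set b := max (θ γ - ε) 0 with hb
    have ha0 : 0 ≤ a := le_max_right _ _
    have hb0 : 0 ≤ b := le_max_right _ _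
    set ψ : ℝ → ℝ := fun t => a * Bp κ β t - b * Bp κ γ t with hψ
    have hψ1 : ContDiff ℝ 1 ψ := (contDiff_const.mul (Bp_smooth κ β)).sub
      (contDiff_const.mul (Bp_smooth κ γ))
    have hψp : ∀ t, ψ (t + 1) = ψ t := by
      intro t
      simp only [hψ, Bp_per κ β t, Bp_per κ γ t]
    have hsep : ∀ t, dZ (t - β) < η → η ≤ dZ (t - γ) := by
      intro t ht
      have h3 := dZ_sub_le (t - γ) (β - γ + (t - β))
      have h5 : dZ (β - γ) = min m (1 - m) := by
        rw [show β - γ = m by rw [hβ, hγ]; ring]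
        rcases le_total m (1/2) with h6 | h6
        · rw [dZ_of_abs_le m (by rw [abs_of_pos h0]; exact h6), abs_of_pos h0, min_eq_left (by linarith)]
        · have h7 : dZ m = dZ (m - 1) := by
            have := dZ_add_int m (-1)
            rw [← this]; push_cast; rfl
          rw [h7, dZ_of_abs_le (m - 1) (by rw [abs_of_neg (by linarith)]; linarith),
            abs_of_neg (by linarith), min_eq_right (by linarith)]
          ring
      have h6 : dZ (β - γ) ≤ dZ (t - β) + dZ (t - γ) := by
        have h7 := dZ_le_abs_sub (β - γ) (round (t - γ) - round (t - β))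
        have h8 : |β - γ - ((round (t - γ) - round (t - β) : ℤ) : ℝ)| ≤
            |t - β - round (t - β)| + |t - γ - round (t - γ)| := by
          have := abs_sub (t - γ - round (t - γ)) (t - β - round (t - β))
          have e : β - γ - ((round (t - γ) - round (t - β) : ℤ) : ℝ) =
              (t - γ - round (t - γ)) - (t - β - round (t - β)) := by push_cast; ring
          rw [e]
          linarith
        exact h7.trans h8
      rw [h5] at h6
      have h7 : 2 * η ≤ min m (1 - m) := le_min (by linarith) (by linarith)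
      linarith
    have hψb : ∀ t, |ψ t| ≤ θ t := by
      intro t
      by_cases ht : dZ (t - β) < η
      · have h3 : ψ t = a * Bp κ β t := by
          simp only [hψ]
          rw [hz γ t (hsep t ht)]; ring
        rw [h3, abs_of_nonneg (mul_nonneg ha0 (hB0 _ _))]
        have h4 : a * Bp κ β t ≤ a := mul_le_of_le_one_right ha0 (hB1 _ _)
        have h5 : a ≤ θ t := max_le (hn1 t (by linarith)) (hθ0 t)
        linarith
      · push Not at ht
        have h3 : ψ t = -(b * Bp κ γ t) := by
          simp only [hψ]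
          rw [hz β t ht]; ring
        rw [h3, abs_neg, abs_of_nonneg (mul_nonneg hb0 (hB0 _ _))]
        by_cases ht2 : dZ (t - γ) < η
        · have h4 : b * Bp κ γ t ≤ b := mul_le_of_le_one_right hb0 (hB1 _ _)
          have h5 : b ≤ θ t := max_le (hn2 t (by linarith)) (hθ0 t)
          linarith
        · push Not at ht2
          rw [hz γ t ht2, mul_zero]
          exact hθ0 t
    have hval : ∫ t in S ∩ Set.Ico 0 1, deriv ψ t = a + b := by
      have e1 : ∫ t in S ∩ Set.Ico 0 1, deriv ψ t = ∫ t in arc α m ∩ Set.Ico 0 1, deriv ψ t := by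
        apply setIntegral_congr_set
        exact h.inter (ae_eq_refl _)
      have hdp : Function.Periodic (deriv ψ) 1 := by
        intro t
        have h2 := deriv_comp_add_const ψ 1 t
        have h3 : (fun s => ψ (s + 1)) = ψ := funext hψp
        rw [h3] at h2
        exact h2.symm
      rw [e1, integral_arc m α h0.le h1.le hdp,
        intervalIntegral.integral_deriv_eq_sub (fun x _ => hψ1.differentiable one_ne_zero x)
          ((hψ1.continuous_deriv le_rfl).intervalIntegrable _ _)]
      have h3 : ψ β = a := by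
        simp only [hψ]
        rw [Bp_self hκ1, hz γ β (hsep β (by rw [sub_self, dZ_of_abs_le 0 (by norm_num)]; simpa using hη0))]
        ring
      have h4 : ψ γ = -b := by
        simp only [hψ]
        have h5 : η ≤ dZ (γ - β) := by
          by_contra hcon
          push Not at hcon
          have := hsep γ hcon
          rw [sub_self, dZ_of_abs_le 0 (by norm_num)] at this
          simp at this
          linarith
        rw [Bp_self hκ1, hz β γ h5]
        ring
      rw [← hβ, ← hγ, h3, h4]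
      ring
    unfold W1
    refine le_trans ?_ (le_iSup _ ⟨ψ, hψ1, hψp, hψb⟩)
    simp only
    rw [hval]
    apply ENNReal.ofReal_le_ofReal
    have h3 : θ β - ε ≤ a := le_max_left _ _
    have h4 : θ γ - ε ≤ b := le_max_left _ _
    linarith
  have hlim : Tendsto (fun ε : ℝ => ENNReal.ofReal (θ β + θ γ - 2 * ε)) (𝓝[>] 0)
      (𝓝 (ENNReal.ofReal (θ β + θ γ - 2 * 0))) := by
    apply ENNReal.tendsto_ofReal
    apply tendsto_nhdsWithin_of_tendsto_nhds
    have : Continuous fun ε : ℝ => θ β + θ γ - 2 * ε := by fun_prop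
    exact this.tendsto 0
  have := le_of_tendsto hlim (eventually_of_mem self_mem_nhdsWithin fun ε hε => key ε hε)
  simpa using this

/-! ### dimension one -/

/-- the line as `Eu 1` -/
def io (t : ℝ) : Eu 1 := WithLp.toLp 2 (fun _ => t)

@[simp] theorem io_zero (t : ℝ) : io t 0 = t := rfl

theorem io_eval (x : Eu 1) : io (x 0) = x := by
  ext i
  fin_cases i
  rfl

theorem io_eq : io = (MeasurableEquiv.toLp 2 (Fin 1 → ℝ)) ∘
    (MeasurableEquiv.funUnique (Fin 1) ℝ).symm := by
  funext t
  ext i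
  fin_cases i
  rfl

theorem mp_io : MeasurePreserving io volume volume := by
  have h1 : MeasurePreserving (MeasurableEquiv.funUnique (Fin 1) ℝ).symm volume volume :=
    (volume_preserving_funUnique (Fin 1) ℝ).symm
  have h2 := ((EuclideanSpace.volume_preserving_symm_measurableEquiv_toLp (Fin 1)).symm).comp h1
  rw [io_eq]
  exact h2

theorem io_meas : MeasurableEmbedding io := by
  have h1 : MeasurableEmbedding (MeasurableEquiv.funUnique (Fin 1) ℝ).symm :=
    (MeasurableEquiv.funUnique (Fin 1) ℝ).symm.measurableEmbedding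
  have h2 := ((MeasurableEquiv.toLp 2 (Fin 1 → ℝ)).measurableEmbedding).comp h1
  rw [io_eq]
  exact h2

theorem io_cell : io ⁻¹' (unitCell 1) = Set.Ico 0 1 := by
  ext t
  simp [unitCell, io]

theorem io_periodic {A : Set (Eu 1)} (hp : IsLatticePeriodic A) (t : ℝ) :
    t + 1 ∈ io ⁻¹' A ↔ t ∈ io ⁻¹' A := by
  have h1 := hp (io 1) (fun i => ⟨1, by simp [io]⟩) (io t)
  have h2 : io t + io 1 = io (t + 1) := by
    ext i; simp [io]
  rw [h2] at h1
  exact h1

theorem io_volume (A : Set (Eu 1)) : periodicVolume A = (volume (io ⁻¹' A ∩ Set.Ico 0 1)).toReal := by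
  unfold periodicVolume
  rw [← io_cell, ← Set.preimage_inter, mp_io.measure_preimage_emb io_meas]

theorem W1_le_per (A : Set (Eu 1)) : W1 (fun _ => 1) (io ⁻¹' A) ≤ periodicPerimeter A := by
  unfold W1
  apply iSup_le
  rintro ⟨ψ, hψ1, hψp, hψb⟩
  set φ : Eu 1 → Eu 1 := fun x => io (ψ (x 0)) with hφ
  have hio : ∀ n, ContDiff ℝ n io := by
    intro n
    rw [contDiff_euclidean]
    intro i
    exact contDiff_id
  have hx0 : ContDiff ℝ 1 (fun x : Eu 1 => x 0) :=
    (contDiff_euclidean.1 contDiff_id) 0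
  have hφ1 : ContDiff ℝ 1 φ := (hio 1).comp (hψ1.comp hx0)
  have hφa : IsAdmissibleField φ := by
    refine ⟨hφ1, ?_, ?_⟩
    · intro v hv x
      obtain ⟨k, hk⟩ := hv 0
      simp only [hφ]
      congr 1
      have := (show Function.Periodic ψ 1 from hψp).int_mul k (x 0)
      simpa [hk] using this
    · intro x
      simp only [hφ]
      rw [EuclideanSpace.norm_eq]
      simp only [Finset.univ_unique, Fin.default_eq_zero, Fin.isValue, Finset.sum_singleton, io_zero,
        Real.norm_eq_abs, sq_abs, Real.sqrt_sq_eq_abs]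
      exact hψb _
  have hdiv : ∀ x, divergence φ x = deriv ψ (x 0) := by
    intro x
    unfold divergence
    rw [Finset.univ_unique, Finset.sum_singleton]
    have h2 : HasFDerivAt (fun x : Eu 1 => x 0) (EuclideanSpace.proj (𝕜 := ℝ) (0 : Fin 1) : Eu 1 →L[ℝ] ℝ) x :=
      (EuclideanSpace.proj (𝕜 := ℝ) (0 : Fin 1) : Eu 1 →L[ℝ] ℝ).hasFDerivAt
    have h3 : HasFDerivAt (fun x : Eu 1 => ψ (x 0))
        ((ContinuousLinearMap.toSpanSingleton ℝ (deriv ψ (x 0))).comp (EuclideanSpace.proj (𝕜 := ℝ) (0 : Fin 1) : Eu 1 →L[ℝ] ℝ)) x :=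
      (hψ1.differentiable one_ne_zero (x 0)).hasDerivAt.hasFDerivAt.comp x h2
    have h4 : HasFDerivAt (fun x => φ x 0) ((EuclideanSpace.proj (𝕜 := ℝ) (0 : Fin 1) : Eu 1 →L[ℝ] ℝ).comp (fderiv ℝ φ x)) x :=
      (EuclideanSpace.proj (𝕜 := ℝ) (0 : Fin 1) : Eu 1 →L[ℝ] ℝ).hasFDerivAt.comp x
        (hφ1.differentiable one_ne_zero x).hasFDerivAt
    have h5 := h4.unique h3
    have h6 := congrArg (fun L => L (EuclideanSpace.single (0 : Fin 1) (1:ℝ))) h5
    simpa using h6
  refine le_trans (le_of_eq ?_) (le_iSup _ ⟨φ, hφa⟩)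
  congr 1
  simp only [hdiv]
  rw [← mp_io.setIntegral_preimage_emb io_meas, Set.preimage_inter, io_cell]
  simp

theorem per_one_ge_two (A : Set (Eu 1)) (hA : MeasurableSet A) (hp : IsLatticePeriodic A)
    (h0 : 0 < periodicVolume A) (h1 : periodicVolume A < 1) : 2 ≤ periodicPerimeter A := by
  rw [io_volume] at h0 h1
  have hS : MeasurableSet (io ⁻¹' A) := mp_io.measurable hA
  have h2 := W1_ge_two (io ⁻¹' A) hS (io_periodic hp) (ENNReal.toReal_pos_iff.1 h0).1
    ((ENNReal.toReal_lt_toReal (volume_ne_top _ 0 1) (b := 1) (by simp)).1 (by simpa using h1))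
    (fun _ => 1) 1 zero_le_one (fun _ => le_rfl)
  refine le_trans ?_ (h2.trans (W1_le_per A))
  norm_num

theorem per_one_eq_two (A : Set (Eu 1)) (hA : MeasurableSet A) (hp : IsLatticePeriodic A)
    (h0 : 0 < periodicVolume A) (h1 : periodicVolume A < 1) (h : periodicPerimeter A ≤ 2) :
    ∃ α : ℝ, A =ᵐ[volume] {x | dZ (x 0 - α) < periodicVolume A / 2} := by
  have hv := io_volume A
  have hS : MeasurableSet (io ⁻¹' A) := mp_io.measurable hA
  have h2 : ¬ (‖F1' (io ⁻¹' A)‖ < Real.sin (Real.pi * periodicVolume A) / Real.pi) := by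
    intro h3
    have h4 := W1_ge_four (io ⁻¹' A) hS (io_periodic hp) _ hv h0 h1 h3 (fun _ => 1) 1 zero_le_one
      (fun _ => le_rfl)
    have h5 := (h4.trans (W1_le_per A)).trans h
    have h6 : ENNReal.ofReal (4 * 1) = 4 := by norm_num
    rw [h6] at h5
    norm_num at h5
  have h3 : ‖F1' (io ⁻¹' A)‖ = Real.sin (Real.pi * periodicVolume A) / Real.pi := by
    apply le_antisymm
    · rw [hv]; exact bathtub _ hS
    · exact not_lt.1 h2
  obtain ⟨α, hα⟩ := exists_alpha (F1' (io ⁻¹' A))
  have h4 := bathtub_eq _ hS (io_periodic hp) _ hv h3 α hα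
  refine ⟨α, ?_⟩
  have h5 : ∀ᵐ t : ℝ, (io t ∈ A ↔ io t ∈ {x : Eu 1 | dZ (x 0 - α) < periodicVolume A / 2}) := by
    filter_upwards [h4] with t ht
    exact iff_of_eq ht
  have h6 : ∀ᵐ x : Eu 1, (x ∈ A ↔ x ∈ {x : Eu 1 | dZ (x 0 - α) < periodicVolume A / 2}) := by
    rw [← mp_io.map_eq]
    exact (io_meas.ae_map_iff).2 h5
  filter_upwards [h6] with x hx
  exact propext hx

end ArcB
end Crest.Agent.R214
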