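import Crest.Agent.R214.ArcBath

/-!
Row 214: periodic tent kernels, density points, and lower bounds for the weighted variation `W1`.
-/

set_option autoImplicit false
open MeasureTheory Crest.GeometryTopology.PeriodicPerimeter Filter
open scoped ENNReal NNReal Topology
noncomputable section
namespace Crest.Agent.R214
namespace ArcB

/-- periodic tent kernel of mass one -/
def K (h t : ℝ) : ℝ := (1 / h) * max 0 (1 - dZ t / h)

theorem K_cont (h : ℝ) : Continuous (K h) := by
  unfold K
  exact continuous_const.mul (continuous_const.max (continuous_const.sub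
    (continuous_dZ.div_const h)))

theorem K_per (h : ℝ) : Function.Periodic (K h) 1 := by
  intro t
  unfold K
  rw [dZ_periodic]

theorem K_nonneg {h : ℝ} (hh : 0 < h) (t : ℝ) : 0 ≤ K h t := by
  unfold K
  positivity

theorem K_le {h : ℝ} (hh : 0 < h) (t : ℝ) : K h t ≤ 1 / h := by
  unfold K
  have h1 : max 0 (1 - dZ t / h) ≤ 1 := by
    apply max_le zero_le_one
    have := div_nonneg (dZ_nonneg t) hh.le
    linarith
  have h2 : 0 ≤ 1 / h := by positivity
  nlinarith

theorem K_zero {h t : ℝ} (hh : 0 < h) (ht : h ≤ dZ t) : K h t = 0 := by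
  unfold K
  rw [max_eq_left, mul_zero]
  have : 1 ≤ dZ t / h := (one_le_div hh).2 ht
  linarith

theorem integral_K {h : ℝ} (hh : 0 < h) (h2 : h < 1 / 2) :
    ∫ t in (-(1/2) : ℝ)..(1/2), K h t = 1 := by
  have hI : ∀ a b, IntervalIntegrable (K h) volume a b := fun a b =>
    (K_cont h).intervalIntegrable a b
  rw [← intervalIntegral.integral_add_adjacent_intervals (hI _ (-h)) (hI (-h) _),
    ← intervalIntegral.integral_add_adjacent_intervals (hI (-h) 0) (hI 0 _),
    ← intervalIntegral.integral_add_adjacent_intervals (hI 0 h) (hI h _)]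
  have e1 : ∫ t in (-(1/2) : ℝ)..(-h), K h t = 0 := by
    rw [intervalIntegral.integral_congr (g := fun _ => (0:ℝ))]
    · simp
    · intro t ht
      rw [Set.uIcc_of_le (by linarith)] at ht
      apply K_zero hh
      rw [dZ_of_abs_le _ (by rw [abs_le]; constructor <;> linarith [ht.1, ht.2]), abs_of_nonpos
        (by linarith [ht.2])]
      linarith [ht.2]
  have e4 : ∫ t in h..(1/2 : ℝ), K h t = 0 := by
    rw [intervalIntegral.integral_congr (g := fun _ => (0:ℝ))]
    · simp
    · intro t ht
      rw [Set.uIcc_of_le (by linarith)] at ht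
      apply K_zero hh
      rw [dZ_of_abs_le _ (by rw [abs_le]; constructor <;> linarith [ht.1, ht.2]), abs_of_nonneg
        (by linarith [ht.1])]
      linarith [ht.1]
  have e2 : ∫ t in (-h)..0, K h t = 1 / 2 := by
    rw [intervalIntegral.integral_congr (g := fun t => (1/h) * (1 + t / h))]
    · rw [intervalIntegral.integral_const_mul, intervalIntegral.integral_add
        (by simp) (by apply Continuous.intervalIntegrable; fun_prop),
        intervalIntegral.integral_div, integral_id]
      simp
      field_simp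
      ring
    · intro t ht
      rw [Set.uIcc_of_le (by linarith)] at ht
      unfold K
      simp only
      rw [dZ_of_abs_le _ (by rw [abs_le]; constructor <;> linarith [ht.1, ht.2]), abs_of_nonpos
        (by linarith [ht.2]), max_eq_right]
      · ring
      · have : -t / h ≤ 1 := (div_le_one hh).2 (by linarith [ht.1])
        linarith
  have e3 : ∫ t in (0:ℝ)..h, K h t = 1 / 2 := by
    rw [intervalIntegral.integral_congr (g := fun t => (1/h) * (1 - t / h))]
    · rw [intervalIntegral.integral_const_mul, intervalIntegral.integral_sub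
        (by simp) (by apply Continuous.intervalIntegrable; fun_prop),
        intervalIntegral.integral_div, integral_id]
      simp
      field_simp
      ring
    · intro t ht
      rw [Set.uIcc_of_le (by linarith)] at ht
      unfold K
      simp only
      rw [dZ_of_abs_le _ (by rw [abs_le]; constructor <;> linarith [ht.1, ht.2]), abs_of_nonneg
        (by linarith [ht.1]), max_eq_right]
      · have : t / h ≤ 1 := (div_le_one hh).2 (by linarith [ht.2])
        linarith
  rw [e1, e2, e3, e4]
  norm_num

theorem integral_K_shift {h : ℝ} (hh : 0 < h) (h2 : h < 1 / 2) (x b : ℝ) :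
    ∫ t in b..(b + 1), K h (t - x) = 1 := by
  have hper : Function.Periodic (fun t => K h (t - x)) 1 := by
    intro t
    simp only
    rw [show t + 1 - x = (t - x) + 1 by ring, K_per h]
  rw [hper.intervalIntegral_add_eq b (x - 1/2), intervalIntegral.integral_comp_sub_right (K h) x]
  rw [show x - 1/2 - x = -(1/2 : ℝ) by ring, show x - 1/2 + 1 - x = (1/2 : ℝ) by ring]
  exact integral_K hh h2

/-- primitive of the kernel -/
def J (h b x t : ℝ) : ℝ := ∫ u in b..t, K h (u - x)

theorem Kx_cont (h x : ℝ) : Continuous fun u => K h (u - x) :=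
  (K_cont h).comp (continuous_id.sub continuous_const)

theorem J_nonneg {h b x t : ℝ} (hh : 0 < h) (ht : b ≤ t) : 0 ≤ J h b x t :=
  intervalIntegral.integral_nonneg ht fun u _ => K_nonneg hh _

theorem J_le_one {h b x t : ℝ} (hh : 0 < h) (h2 : h < 1 / 2) (_ht : b ≤ t) (ht1 : t ≤ b + 1) :
    J h b x t ≤ 1 := by
  have h3 := intervalIntegral.integral_add_adjacent_intervals
    ((Kx_cont h x).intervalIntegrable (μ := volume) b t)
    ((Kx_cont h x).intervalIntegrable t (b + 1))
  rw [integral_K_shift hh h2] at h3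
  have h4 : 0 ≤ ∫ u in t..(b + 1), K h (u - x) :=
    intervalIntegral.integral_nonneg ht1 fun u _ => K_nonneg hh _
  unfold J
  linarith

theorem h_le_dZ {h v : ℝ} (h1 : -(1 - h) ≤ v) (h2 : v ≤ -h) (hh : 0 < h) : h ≤ dZ v := by
  unfold dZ
  rcases le_or_gt (round v) (-1) with h3 | h3
  · have h4 : ((round v : ℤ) : ℝ) ≤ -1 := by exact_mod_cast h3
    rw [abs_of_nonneg (by linarith)]
    linarith
  · have h4 : (0:ℤ) ≤ round v := by omega
    have h5 : (0:ℝ) ≤ ((round v : ℤ) : ℝ) := by exact_mod_cast h4
    rw [abs_of_nonpos (by linarith)]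
    linarith

theorem J_zero {h b x t : ℝ} (hh : 0 < h) (hx : x + h ≤ b + 1) (ht : b ≤ t) (htx : t ≤ x - h) :
    J h b x t = 0 := by
  unfold J
  rw [intervalIntegral.integral_congr (g := fun _ => (0:ℝ))]
  · simp
  · intro u hu
    rw [Set.uIcc_of_le ht] at hu
    exact K_zero hh (h_le_dZ (by linarith [hu.1]) (by linarith [hu.2]) hh)

theorem J_one {h b x t : ℝ} (hh : 0 < h) (h2 : h < 1 / 2) (hx : b ≤ x - h) (ht : x + h ≤ t)
    (ht1 : t ≤ b + 1) : J h b x t = 1 := by
  have h3 := intervalIntegral.integral_add_adjacent_intervals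
    ((Kx_cont h x).intervalIntegrable (μ := volume) b t)
    ((Kx_cont h x).intervalIntegrable t (b + 1))
  rw [integral_K_shift hh h2] at h3
  have h4 : ∫ u in t..(b + 1), K h (u - x) = 0 := by
    rw [intervalIntegral.integral_congr (g := fun _ => (0:ℝ))]
    · simp
    · intro u hu
      rw [Set.uIcc_of_le ht1] at hu
      apply K_zero hh
      have := h_le_dZ (h := h) (v := -(u - x)) (by linarith [hu.2]) (by linarith [hu.1]) hh
      rwa [dZ_neg] at this
  unfold J
  linarith

/-- Lower bound for `W1` from a periodic continuous function with primitive in `[0,1]`. -/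
theorem W1_of_prim (S : Set ℝ) (θ : ℝ → ℝ) (c : ℝ) (hc : 0 ≤ c) (hθ : ∀ t, c ≤ θ t)
    (g : ℝ → ℝ) (hg : Continuous g) (hgp : Function.Periodic g 1) (b : ℝ)
    (h0 : ∫ t in b..(b + 1), g t = 0)
    (hG : ∀ t, b ≤ t → t ≤ b + 1 → (0 ≤ ∫ u in b..t, g u) ∧ (∫ u in b..t, g u) ≤ 1) :
    ENNReal.ofReal (2 * c * ∫ t in S ∩ Set.Ico 0 1, g t) ≤ W1 θ S := by
  set G : ℝ → ℝ := fun t => ∫ u in b..t, g u with hGdef
  have hGper : Function.Periodic G 1 := by
    intro t
    have h1 := intervalIntegral.integral_add_adjacent_intervals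
      (hg.intervalIntegrable (μ := volume) b t) (hg.intervalIntegrable t (t + 1))
    have h2 := hgp.intervalIntegral_add_eq t b
    simp only [hGdef]
    rw [← h1, h2, h0, add_zero]
  have hderiv : ∀ t, HasDerivAt G (g t) t := fun t =>
    intervalIntegral.integral_hasDerivAt_right (hg.intervalIntegrable _ _)
      hg.stronglyMeasurable.stronglyMeasurableAtFilter hg.continuousAt
  have hG1 : ContDiff ℝ 1 G := by
    rw [contDiff_one_iff_deriv]
    refine ⟨fun t => (hderiv t).differentiableAt, ?_⟩
    have : deriv G = g := funext fun t => (hderiv t).deriv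
    rw [this]
    exact hg
  have hGb : ∀ t, 0 ≤ G t ∧ G t ≤ 1 := by
    intro t
    have h3 : G t = G (t + ((-⌊t - b⌋ : ℤ) : ℝ)) := by
      have := hGper.int_mul (-⌊t - b⌋) t
      simp only [mul_one] at this
      exact this.symm
    rw [h3]
    have h4 := Int.floor_le (t - b)
    have h5 := Int.lt_floor_add_one (t - b)
    apply hG
    · push_cast; linarith
    · push_cast; linarith
  set ψ : ℝ → ℝ := fun t => c * (2 * G t - 1) with hψ
  have hψ1 : ContDiff ℝ 1 ψ := contDiff_const.mul ((contDiff_const.mul hG1).sub contDiff_const)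
  have hψp : ∀ t, ψ (t + 1) = ψ t := by
    intro t
    simp only [hψ, hGper t]
  have hψb : ∀ t, |ψ t| ≤ θ t := by
    intro t
    refine le_trans ?_ (hθ t)
    have := hGb t
    rw [hψ, abs_le]
    constructor <;> simp only <;> nlinarith
  have hψd : ∀ t, deriv ψ t = 2 * c * g t := by
    intro t
    have : HasDerivAt ψ (c * (2 * g t)) t := by
      have := (((hderiv t).const_mul 2).sub_const 1).const_mul c
      exact this
    rw [this.deriv]
    ring
  unfold W1
  refine le_trans (le_of_eq ?_) (le_iSup _ ⟨ψ, hψ1, hψp, hψb⟩)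
  simp only [hψd]
  rw [integral_const_mul]

/-- density estimate sets -/
def dens (S : Set ℝ) (x : ℝ) : Prop :=
  Tendsto (fun r : ℝ => volume (S ∩ Metric.closedBall x r) / volume (Metric.closedBall x r))
    (𝓝[>] 0) (𝓝 0)

theorem ae_dens {S : Set ℝ} (hS : MeasurableSet S) :
    ∀ᵐ x, (x ∈ S → dens Sᶜ x) ∧ (x ∉ S → dens S x) := by
  have h1 := Besicovitch.ae_tendsto_measure_inter_div_of_measurableSet (volume : Measure ℝ) hS
  have h2 := Besicovitch.ae_tendsto_measure_inter_div_of_measurableSet (volume : Measure ℝ) hS.compl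
  filter_upwards [h1, h2] with x hx1 hx2
  constructor
  · intro hx
    have : (Sᶜ).indicator (1 : ℝ → ℝ≥0∞) x = 0 := by
      apply Set.indicator_of_notMem
      simpa using hx
    rw [this] at hx2
    exact hx2
  · intro hx
    have : S.indicator (1 : ℝ → ℝ≥0∞) x = 0 := Set.indicator_of_notMem hx _
    rw [this] at hx1
    exact hx1

theorem dens_shift {S : Set ℝ} (hp : ∀ t, t + 1 ∈ S ↔ t ∈ S) (k : ℤ) (x : ℝ) :
    dens S (x + k) ↔ dens S x := by
  unfold dens
  have h1 : ∀ r : ℝ, volume (S ∩ Metric.closedBall (x + k) r) = volume (S ∩ Metric.closedBall x r) := by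
    intro r
    rw [← measure_preimage_add_right volume (k : ℝ) (S ∩ Metric.closedBall (x + k) r)]
    congr 1
    ext t
    simp only [Set.mem_preimage, Set.mem_inter_iff, Metric.mem_closedBall, dist_add_right,
      mem_add_int hp k t]
  have h2 : ∀ r : ℝ, volume (Metric.closedBall (x + k) r) = volume (Metric.closedBall x r) := by
    intro r
    rw [Real.volume_closedBall, Real.volume_closedBall]
  simp only [h1, h2]

/-- mass of the kernel centred at a point of density zero -/
theorem kernel_small {S : Set ℝ} (hS : MeasurableSet S) (hp : ∀ t, t + 1 ∈ S ↔ t ∈ S) {x : ℝ}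
    (hx : dens S x) {ε : ℝ} (hε : 0 < ε) :
    ∀ᶠ h in 𝓝[>] (0:ℝ), ∫ t in S ∩ Set.Ico 0 1, K h (t - x) ≤ ε := by
  have h1 : ∀ᶠ r in 𝓝[>] (0:ℝ), volume (S ∩ Metric.closedBall x r) /
      volume (Metric.closedBall x r) < ENNReal.ofReal (ε / 2) :=
    hx.eventually (gt_mem_nhds (by simpa using hε))
  have h2 : ∀ᶠ r in 𝓝[>] (0:ℝ), r < 1/2 := by
    apply nhdsWithin_le_nhds
    exact gt_mem_nhds (by norm_num)
  filter_upwards [h1, h2, self_mem_nhdsWithin] with h hh1 hh2 hh0
  have hh : 0 < h := hh0
  have hper : Function.Periodic (fun t => K h (t - x)) 1 := by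
    intro t
    simp only
    rw [show t + 1 - x = (t - x) + 1 by ring, K_per h]
  rw [integral_per hS hp hper (x - 1/2), intervalIntegral.integral_of_le (by linarith)]
  have hball : volume (Metric.closedBall x h) = ENNReal.ofReal (2 * h) := Real.volume_closedBall x h
  have hfin : volume (S ∩ Metric.closedBall x h) ≠ ⊤ := by
    refine ((measure_mono Set.inter_subset_right).trans_lt ?_).ne
    rw [hball]; exact ENNReal.ofReal_lt_top
  have h3 : ∫ t in Set.Ioc (x - 1/2) (x - 1/2 + 1), S.indicator (fun t => K h (t - x)) t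
      ≤ ∫ t in Set.Ioc (x - 1/2) (x - 1/2 + 1),
        (S ∩ Metric.closedBall x h).indicator (fun _ => 1 / h) t := by
    apply integral_mono_of_nonneg
    · refine Eventually.of_forall fun t => ?_
      simp only [Pi.zero_apply]
      exact Set.indicator_nonneg (fun t _ => K_nonneg hh _) t
    · apply Integrable.indicator
      · simp
      · exact hS.inter Metric.isClosed_closedBall.measurableSet
    · refine (ae_restrict_iff' measurableSet_Ioc).2 (Eventually.of_forall fun t ht => ?_)
      by_cases hS' : t ∈ S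
      · by_cases hb : t ∈ Metric.closedBall x h
        · simp only [Set.indicator_of_mem hS', Set.indicator_of_mem (show t ∈ S ∩ Metric.closedBall x h from ⟨hS', hb⟩)]
          exact K_le hh _
        · simp only [Set.indicator_of_mem hS']
          rw [Set.indicator_of_notMem (fun h' => hb h'.2)]
          apply le_of_eq
          apply K_zero hh
          rw [Metric.mem_closedBall, Real.dist_eq, not_le] at hb
          rw [dZ_of_abs_le]
          · exact hb.le
          · rw [abs_le]; constructor <;> linarith [ht.1, ht.2]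
      · rw [Set.indicator_of_notMem hS']
        apply Set.indicator_nonneg
        intro t _
        positivity
  refine h3.trans ?_
  rw [setIntegral_indicator (hS.inter Metric.isClosed_closedBall.measurableSet)]
  rw [setIntegral_const, smul_eq_mul]
  have h4 : volume.real (Set.Ioc (x - 1/2) (x - 1/2 + 1) ∩ (S ∩ Metric.closedBall x h))
      ≤ ε / 2 * (2 * h) := by
    have h5 : volume (S ∩ Metric.closedBall x h) ≤ ENNReal.ofReal (ε / 2) * ENNReal.ofReal (2 * h) := by
      rw [hball] at hh1
      rw [ENNReal.div_lt_iff] at hh1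
      · exact hh1.le
      · left; simp [hh]
      · left; exact ENNReal.ofReal_ne_top
    have h6 : volume.real (Set.Ioc (x - 1/2) (x - 1/2 + 1) ∩ (S ∩ Metric.closedBall x h))
        ≤ volume.real (S ∩ Metric.closedBall x h) :=
      measureReal_mono Set.inter_subset_right hfin
    refine h6.trans ?_
    rw [← ENNReal.ofReal_mul (by positivity)] at h5
    exact ENNReal.toReal_le_of_le_ofReal (by positivity) h5
  calc _ ≤ (ε / 2 * (2 * h)) * (1 / h) := mul_le_mul_of_nonneg_right h4 (by positivity)
    _ = ε := by field_simp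

/-- mass of the kernel centred at a density point -/
theorem kernel_large {S : Set ℝ} (hS : MeasurableSet S) (hp : ∀ t, t + 1 ∈ S ↔ t ∈ S) {x : ℝ}
    (hx : dens Sᶜ x) {ε : ℝ} (hε : 0 < ε) :
    ∀ᶠ h in 𝓝[>] (0:ℝ), 1 - ε ≤ ∫ t in S ∩ Set.Ico 0 1, K h (t - x) := by
  have hpc : ∀ t, t + 1 ∈ Sᶜ ↔ t ∈ Sᶜ := fun t => not_congr (hp t)
  have h1 := kernel_small hS.compl hpc hx hε
  have h2 : ∀ᶠ r in 𝓝[>] (0:ℝ), r < 1/2 := by
    apply nhdsWithin_le_nhds
    exact gt_mem_nhds (by norm_num)
  filter_upwards [h1, h2, self_mem_nhdsWithin] with h hh1 hh2 hh0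
  have hh : 0 < h := hh0
  have hint : IntegrableOn (fun t => K h (t - x)) (Set.Ico 0 1) :=
    ((Kx_cont h x).integrableOn_Icc (a := 0) (b := 1)).mono_set Set.Ico_subset_Icc_self
  have h3 : (∫ t in S ∩ Set.Ico 0 1, K h (t - x)) + (∫ t in Sᶜ ∩ Set.Ico 0 1, K h (t - x)) = 1 := by
    rw [Set.inter_comm S, Set.inter_comm Sᶜ, ← Set.sdiff_eq]
    rw [integral_inter_add_sdiff hS hint, integral_Ico_eq_integral_Ioc,
      ← intervalIntegral.integral_of_le zero_le_one]
    have := integral_K_shift hh hh2 x 0
    simpa using this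
  linarith

end ArcB
end Crest.Agent.R214
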