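import Crest.Agent.R214.ArcAlt

/-!
Row 214: lower bounds for `W1` from alternating density points.
-/

set_option autoImplicit false
open MeasureTheory Crest.GeometryTopology.PeriodicPerimeter Filter
open scoped ENNReal NNReal Topology
noncomputable section
namespace Crest.Agent.R214
namespace ArcB

/-- points which are density points of the side on which they lie -/
def Zd (S : Set ℝ) : Set ℝ := {x | (x ∈ S → dens Sᶜ x) ∧ (x ∉ S → dens S x)}

theorem Zd_ae {S : Set ℝ} (hS : MeasurableSet S) : ∀ᵐ x, x ∈ Zd S := ae_dens hS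

theorem Zd_add {S : Set ℝ} (hp : ∀ t, t + 1 ∈ S ↔ t ∈ S) (m : ℤ) (t : ℝ) :
    t + m ∈ Zd S ↔ t ∈ Zd S := by
  have hpc : ∀ t, t + 1 ∈ Sᶜ ↔ t ∈ Sᶜ := fun t => not_congr (hp t)
  unfold Zd
  simp only [Set.mem_ofPred_eq]
  rw [dens_shift hp, dens_shift hpc, mem_add_int hp]

theorem Zd_sub {S : Set ℝ} (hp : ∀ t, t + 1 ∈ S ↔ t ∈ S) (m : ℤ) (t : ℝ) :
    t - m ∈ Zd S ↔ t ∈ Zd S := by
  have := Zd_add hp (-m) t
  rw [← this]
  push_cast
  rfl

theorem exists_mem_Zd {S T : Set ℝ} (hS : MeasurableSet S)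
    (h0 : 0 < volume (T ∩ Set.Ico 0 1)) : ∃ p ∈ T, p ∈ Zd S := by
  by_contra hcon
  push Not at hcon
  have h1 : volume (T ∩ Set.Ico 0 1) = 0 := by
    refine measure_mono_null (fun t ht => ?_) (ae_iff.1 (Zd_ae hS))
    exact hcon t ht.1
  rw [h1] at h0
  exact lt_irrefl _ h0

theorem volume_compl_pos {S : Set ℝ} (hS : MeasurableSet S)
    (h1 : volume (S ∩ Set.Ico 0 1) < 1) : 0 < volume (Sᶜ ∩ Set.Ico 0 1) := by
  rw [pos_iff_ne_zero]
  intro h
  have h2 : volume (Set.Ico (0:ℝ) 1) = volume (Set.Ico (0:ℝ) 1 ∩ S) + volume (Set.Ico (0:ℝ) 1 \ S) :=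
    (measure_inter_add_sdiff _ hS).symm
  rw [Set.inter_comm, Set.sdiff_eq, Set.inter_comm _ Sᶜ, h, add_zero] at h2
  rw [← h2] at h1
  simp at h1

theorem exists_pq {S : Set ℝ} (hS : MeasurableSet S) (hp : ∀ t, t + 1 ∈ S ↔ t ∈ S)
    (h0 : 0 < volume (S ∩ Set.Ico 0 1)) (h1 : volume (S ∩ Set.Ico 0 1) < 1) :
    ∃ p q, p < q ∧ q < p + 1 ∧ p ∈ S ∧ p ∈ Zd S ∧ q ∉ S ∧ q ∈ Zd S := by
  obtain ⟨p, hpS, hpZ⟩ := exists_mem_Zd hS h0
  obtain ⟨q, hqS, hqZ⟩ := exists_mem_Zd (T := Sᶜ) hS (volume_compl_pos hS h1)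
  refine ⟨p, q + ((-⌊q - p⌋ : ℤ) : ℝ), ?_, ?_, hpS, hpZ, ?_, ?_⟩
  · have h3 := Int.floor_le (q - p)
    have h4 : p ≤ q + ((-⌊q - p⌋ : ℤ) : ℝ) := by push_cast; linarith
    rcases lt_or_eq_of_le h4 with h5 | h5
    · exact h5
    · exfalso
      apply hqS
      rw [h5, mem_add_int hp] at hpS
      exact hpS
  · have h3 := Int.lt_floor_add_one (q - p)
    push_cast; linarith
  · rw [mem_add_int hp]; exact hqS
  · rw [Zd_add hp]; exact hqZ

theorem GG {h b p q t : ℝ} (hh : 0 < h) (h2 : h < 1/2) (hbp : b ≤ p - h) (hpq : p + h ≤ q - h)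
    (hq : q + h ≤ b + 1) (ht : b ≤ t) (ht1 : t ≤ b + 1) :
    0 ≤ J h b p t - J h b q t ∧ J h b p t - J h b q t ≤ 1 := by
  have a1 := J_nonneg (x := p) hh ht
  have a2 := J_le_one (x := p) hh h2 ht ht1
  have a3 := J_nonneg (x := q) hh ht
  have a4 := J_le_one (x := q) hh h2 ht ht1
  rcases le_total t (q - h) with h3 | h3
  · rw [J_zero hh hq ht h3]
    constructor <;> linarith
  · rw [J_one hh h2 hbp (by linarith) ht1]
    constructor <;> linarith

theorem W1_two_points {S : Set ℝ} (hS : MeasurableSet S) (hp : ∀ t, t + 1 ∈ S ↔ t ∈ S)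
    {p q : ℝ} (hpq : p < q) (hqp : q < p + 1) (hpS : p ∈ S) (hpZ : p ∈ Zd S) (hqS : q ∉ S)
    (hqZ : q ∈ Zd S) (θ : ℝ → ℝ) (c : ℝ) (hc : 0 ≤ c) (hθ : ∀ t, c ≤ θ t) :
    ENNReal.ofReal (2 * c) ≤ W1 θ S := by
  have key : ∀ ε : ℝ, 0 < ε → ENNReal.ofReal (2 * c * (1 - 2 * ε)) ≤ W1 θ S := by
    intro ε hε
    have e1 := kernel_large hS hp (hpZ.1 hpS) hε
    have e2 := kernel_small hS hp (hqZ.2 hqS) hε
    have e3 : ∀ᶠ h in 𝓝[>] (0:ℝ), h < (q - p) / 2 ∧ h < (p + 1 - q) / 2 := by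
      apply nhdsWithin_le_nhds
      exact (gt_mem_nhds (by linarith)).and (gt_mem_nhds (by linarith))
    obtain ⟨h, ⟨⟨⟨hh1, hh2⟩, hh3, hh4⟩, hh5⟩⟩ :=
      (((e1.and e2).and e3).and self_mem_nhdsWithin).exists
    have hh : 0 < h := hh5
    have hh2' : h < 1 / 2 := by linarith
    set g : ℝ → ℝ := fun t => K h (t - p) - K h (t - q) with hg
    have hgc : Continuous g := (Kx_cont h p).sub (Kx_cont h q)
    have hgp : Function.Periodic g 1 := by
      intro t
      simp only [hg]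
      rw [show t + 1 - p = (t - p) + 1 by ring, show t + 1 - q = (t - q) + 1 by ring, K_per, K_per]
    have hprim : ∀ t, ∫ u in (p - h)..t, g u = J h (p - h) p t - J h (p - h) q t := by
      intro t
      simp only [hg, J]
      rw [intervalIntegral.integral_sub ((Kx_cont h p).intervalIntegrable _ _)
        ((Kx_cont h q).intervalIntegrable _ _)]
    have hz : ∫ t in (p - h)..(p - h + 1), g t = 0 := by
      rw [hprim]
      unfold J
      rw [integral_K_shift hh hh2', integral_K_shift hh hh2', sub_self]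
    refine le_trans ?_ (W1_of_prim S θ c hc hθ g hgc hgp (p - h) hz ?_)
    · apply ENNReal.ofReal_le_ofReal
      have hint : ∀ x, IntegrableOn (fun t => K h (t - x)) (S ∩ Set.Ico 0 1) := fun x =>
        ((Kx_cont h x).integrableOn_Icc (a := 0) (b := 1)).mono_set
          (Set.inter_subset_right.trans Set.Ico_subset_Icc_self)
      have : ∫ t in S ∩ Set.Ico 0 1, g t = (∫ t in S ∩ Set.Ico 0 1, K h (t - p)) -
          ∫ t in S ∩ Set.Ico 0 1, K h (t - q) := integral_sub (hint p) (hint q)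
      rw [this]
      apply mul_le_mul_of_nonneg_left _ (by positivity)
      linarith
    · intro t ht ht1
      rw [hprim]
      exact GG hh hh2' (by linarith) (by linarith) (by linarith) ht ht1
  have hlim : Tendsto (fun ε : ℝ => ENNReal.ofReal (2 * c * (1 - 2 * ε))) (𝓝[>] 0)
      (𝓝 (ENNReal.ofReal (2 * c * (1 - 2 * 0)))) := by
    apply ENNReal.tendsto_ofReal
    apply tendsto_nhdsWithin_of_tendsto_nhds
    have : Continuous fun ε : ℝ => 2 * c * (1 - 2 * ε) := by fun_prop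
    exact this.tendsto 0
  have := le_of_tendsto hlim (eventually_of_mem self_mem_nhdsWithin fun ε hε => key ε hε)
  simpa using this

theorem W1_four_points {S : Set ℝ} (hS : MeasurableSet S) (hp : ∀ t, t + 1 ∈ S ↔ t ∈ S)
    {p q p' q' : ℝ} (hpq : p < q) (hqp' : q < p') (hpq' : p' < q') (hqp : q' < p + 1)
    (hpS : p ∈ S) (hpZ : p ∈ Zd S) (hqS : q ∉ S) (hqZ : q ∈ Zd S)
    (hpS' : p' ∈ S) (hpZ' : p' ∈ Zd S) (hqS' : q' ∉ S) (hqZ' : q' ∈ Zd S)
    (θ : ℝ → ℝ) (c : ℝ) (hc : 0 ≤ c) (hθ : ∀ t, c ≤ θ t) :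
    ENNReal.ofReal (4 * c) ≤ W1 θ S := by
  have key : ∀ ε : ℝ, 0 < ε → ENNReal.ofReal (2 * c * (2 - 4 * ε)) ≤ W1 θ S := by
    intro ε hε
    have e1 := kernel_large hS hp (hpZ.1 hpS) hε
    have e2 := kernel_small hS hp (hqZ.2 hqS) hε
    have e1' := kernel_large hS hp (hpZ'.1 hpS') hε
    have e2' := kernel_small hS hp (hqZ'.2 hqS') hε
    have e3 : ∀ᶠ h in 𝓝[>] (0:ℝ), (h < (q - p) / 2 ∧ h < (p' - q) / 2) ∧
        (h < (q' - p') / 2 ∧ h < (p + 1 - q') / 2) := by
      apply nhdsWithin_le_nhds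
      exact ((gt_mem_nhds (by linarith)).and (gt_mem_nhds (by linarith))).and
        ((gt_mem_nhds (by linarith)).and (gt_mem_nhds (by linarith)))
    obtain ⟨h, ⟨⟨⟨⟨hh1, hh2⟩, hh1', hh2'⟩, ⟨hh3, hh4⟩, hh3', hh4'⟩, hh5⟩⟩ :=
      ((((e1.and e2).and (e1'.and e2')).and e3).and self_mem_nhdsWithin).exists
    have hh : 0 < h := hh5
    have hhf : h < 1 / 2 := by linarith
    set g : ℝ → ℝ := fun t => (K h (t - p) - K h (t - q)) + (K h (t - p') - K h (t - q')) with hg
    have hgc : Continuous g := ((Kx_cont h p).sub (Kx_cont h q)).add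
      ((Kx_cont h p').sub (Kx_cont h q'))
    have hgp : Function.Periodic g 1 := by
      intro t
      simp only [hg]
      rw [show t + 1 - p = (t - p) + 1 by ring, show t + 1 - q = (t - q) + 1 by ring,
        show t + 1 - p' = (t - p') + 1 by ring, show t + 1 - q' = (t - q') + 1 by ring,
        K_per, K_per, K_per, K_per]
    have hI : ∀ x a b, IntervalIntegrable (fun u => K h (u - x)) volume a b := fun x a b =>
      (Kx_cont h x).intervalIntegrable _ _
    have hprim : ∀ t, ∫ u in (p - h)..t, g u = (J h (p - h) p t - J h (p - h) q t) +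
        (J h (p - h) p' t - J h (p - h) q' t) := by
      intro t
      simp only [hg, J]
      rw [intervalIntegral.integral_add ((hI _ _ _).sub (hI _ _ _)) ((hI _ _ _).sub (hI _ _ _)),
        intervalIntegral.integral_sub (hI _ _ _) (hI _ _ _),
        intervalIntegral.integral_sub (hI _ _ _) (hI _ _ _)]
    have hz : ∫ t in (p - h)..(p - h + 1), g t = 0 := by
      rw [hprim]
      unfold J
      rw [integral_K_shift hh hhf, integral_K_shift hh hhf, integral_K_shift hh hhf,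
        integral_K_shift hh hhf]
      ring
    refine le_trans ?_ (W1_of_prim S θ c hc hθ g hgc hgp (p - h) hz ?_)
    · apply ENNReal.ofReal_le_ofReal
      have hint : ∀ x, IntegrableOn (fun t => K h (t - x)) (S ∩ Set.Ico 0 1) := fun x =>
        ((Kx_cont h x).integrableOn_Icc (a := 0) (b := 1)).mono_set
          (Set.inter_subset_right.trans Set.Ico_subset_Icc_self)
      have : ∫ t in S ∩ Set.Ico 0 1, g t = ((∫ t in S ∩ Set.Ico 0 1, K h (t - p)) -
          ∫ t in S ∩ Set.Ico 0 1, K h (t - q)) + ((∫ t in S ∩ Set.Ico 0 1, K h (t - p')) -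
          ∫ t in S ∩ Set.Ico 0 1, K h (t - q')) := by
        rw [← integral_sub (hint p) (hint q), ← integral_sub (hint p') (hint q')]
        exact integral_add ((hint p).sub (hint q)) ((hint p').sub (hint q'))
      rw [this]
      apply mul_le_mul_of_nonneg_left _ (by positivity)
      linarith
    · intro t ht ht1
      rw [hprim]
      rcases le_total t (p' - h) with h3 | h3
      · rw [J_zero (x := p') hh (by linarith) ht h3, J_zero (x := q') hh (by linarith) ht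
          (by linarith)]
        have := GG (t := t) hh hhf (by linarith : p - h ≤ p - h) (by linarith : p + h ≤ q - h)
          (by linarith) ht ht1
        constructor
        · linarith [this.1]
        · linarith [this.2]
      · rw [J_one (x := p) hh hhf (by linarith) (by linarith) ht1,
          J_one (x := q) hh hhf (by linarith) (by linarith) ht1]
        have := GG (t := t) hh hhf (by linarith : p - h ≤ p' - h) (by linarith : p' + h ≤ q' - h)
          (by linarith) ht ht1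
        constructor
        · linarith [this.1]
        · linarith [this.2]
  have hlim : Tendsto (fun ε : ℝ => ENNReal.ofReal (2 * c * (2 - 4 * ε))) (𝓝[>] 0)
      (𝓝 (ENNReal.ofReal (2 * c * (2 - 4 * 0)))) := by
    apply ENNReal.tendsto_ofReal
    apply tendsto_nhdsWithin_of_tendsto_nhds
    have : Continuous fun ε : ℝ => 2 * c * (2 - 4 * ε) := by fun_prop
    exact this.tendsto 0
  have := le_of_tendsto hlim (eventually_of_mem self_mem_nhdsWithin fun ε hε => key ε hε)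
  refine le_trans (le_of_eq ?_) this
  congr 1
  ring

theorem W1_ge_two (S : Set ℝ) (hS : MeasurableSet S) (hp : ∀ t, t + 1 ∈ S ↔ t ∈ S)
    (h0 : 0 < volume (S ∩ Set.Ico 0 1)) (h1 : volume (S ∩ Set.Ico 0 1) < 1)
    (θ : ℝ → ℝ) (c : ℝ) (hc : 0 ≤ c) (hθ : ∀ t, c ≤ θ t) :
    ENNReal.ofReal (2 * c) ≤ W1 θ S := by
  obtain ⟨p, q, h2, h3, h4, h5, h6, h7⟩ := exists_pq hS hp h0 h1
  exact W1_two_points hS hp h2 h3 h4 h5 h6 h7 θ c hc hθ

theorem F1_congr {S T : Set ℝ} (h : ∀ᵐ t, t ∈ S ↔ t ∈ T) : F1' S = F1' T := by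
  unfold F1'
  apply setIntegral_congr_set
  filter_upwards [h] with t ht
  apply propext
  constructor
  · rintro ⟨a, b⟩; exact ⟨ht.1 a, b⟩
  · rintro ⟨a, b⟩; exact ⟨ht.2 a, b⟩

theorem W1_ge_four (S : Set ℝ) (hS : MeasurableSet S) (hp : ∀ t, t + 1 ∈ S ↔ t ∈ S)
    (m : ℝ) (hm : m = (volume (S ∩ Set.Ico 0 1)).toReal) (h0 : 0 < m) (h1 : m < 1)
    (h : ‖F1' S‖ < Real.sin (Real.pi * m) / Real.pi)
    (θ : ℝ → ℝ) (c : ℝ) (hc : 0 ≤ c) (hθ : ∀ t, c ≤ θ t) :
    ENNReal.ofReal (4 * c) ≤ W1 θ S := by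
  have hv0 : 0 < volume (S ∩ Set.Ico 0 1) := by
    rw [hm] at h0
    exact (ENNReal.toReal_pos_iff.1 h0).1
  have hv1 : volume (S ∩ Set.Ico 0 1) < 1 := by
    rw [hm] at h1
    have := (ENNReal.toReal_lt_toReal (volume_ne_top S 0 1) (b := 1) (by simp)).1 (by simpa using h1)
    exact this
  obtain ⟨p, q, hpq, hqp, hpS, hpZ, hqS, hqZ⟩ := exists_pq hS hp hv0 hv1
  by_contra hcon
  obtain ⟨α, hα⟩ := arc_of_noalt hS hp (Zd_ae hS) (Zd_sub hp) hpq hqp hpS hpZ hqS hqZ
    (fun {t1 t2 t3 t4} a1 a2 a3 a4 b1 b2 b3 b4 b5 b6 b7 b8 =>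
      hcon (W1_four_points hS hp a1 a2 a3 a4 b1 b2 b3 b4 b5 b6 b7 b8 θ c hc hθ))
  have hm' : ∫ t in (0:ℝ)..1, ind S t = m := by
    rw [hm, toReal_volume_per hS hp 0]
    simp [ind]
  rw [hm'] at hα
  have e1 : F1' S = F1' (arc α m) := F1_congr hα
  have e2 : F1' (arc α m) = (Real.sin (Real.pi * m) / Real.pi : ℝ) *
      Complex.exp (2 * Real.pi * α * Complex.I) := F1_arc m α h0.le h1.le
  rw [e1, e2, norm_mul, show (2 * (Real.pi:ℂ) * α * Complex.I) = ((2 * Real.pi * α : ℝ) : ℂ) *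
    Complex.I by push_cast; ring, Complex.norm_exp_ofReal_mul_I, mul_one, Complex.norm_real,
    Real.norm_eq_abs] at h
  exact absurd h (not_lt.2 (le_abs_self _))

end ArcB
end Crest.Agent.R214
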