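import Mathlib

set_option autoImplicit false

/-! Row 214: the combinatorics of the three arms of a symmetric decreasing set. -/

namespace Crest.Agent.R214

/-- `A` is antitone on the positive quadrant -/
def Anti2 (A : ℝ → ℝ → Prop) : Prop :=
  ∀ p q p' q' : ℝ, 0 < p' → p' ≤ p → 0 < q' → q' ≤ q → A p q → A p' q'

/-- Arms lemma. `AX y z`, `AY x z`, `AZ x y`. -/
theorem arms_cases {AX AY AZ : ℝ → ℝ → Prop} (hX : Anti2 AX) (hY : Anti2 AY) (hZ : Anti2 AZ)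
    {h : ℝ} (hh : 0 < h) :
    ((∃ y, 0 < y ∧ AX y h) ∧ (∃ x, 0 < x ∧ AY x h)) ∨
    ((∃ z, 0 < z ∧ AX h z) ∧ (∃ x, 0 < x ∧ AZ x h)) ∨
    ((∃ z, 0 < z ∧ AY h z) ∧ (∃ y, 0 < y ∧ AZ h y)) ∨
    (∀ z, 0 < z → ((∃ y, 0 < y ∧ AX y z) → ¬ (∃ x, 0 < x ∧ AY x z) → ¬ AX h z) ∧
      ((∃ x, 0 < x ∧ AY x z) → ¬ (∃ y, 0 < y ∧ AX y z) → ¬ AY h z)) ∨
    (∀ y, 0 < y → ((∃ z, 0 < z ∧ AX y z) → ¬ (∃ x, 0 < x ∧ AZ x y) → ¬ AX y h) ∧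
      ((∃ x, 0 < x ∧ AZ x y) → ¬ (∃ z, 0 < z ∧ AX y z) → ¬ AZ h y)) ∨
    (∀ x, 0 < x → ((∃ z, 0 < z ∧ AY x z) → ¬ (∃ y, 0 < y ∧ AZ x y) → ¬ AY x h) ∧
      ((∃ y, 0 < y ∧ AZ x y) → ¬ (∃ z, 0 < z ∧ AY x z) → ¬ AZ x h)) := by
  by_cases a : ((∃ y, 0 < y ∧ AX y h) ∧ (∃ x, 0 < x ∧ AY x h))
  · exact Or.inl a
  by_cases b : ((∃ z, 0 < z ∧ AX h z) ∧ (∃ x, 0 < x ∧ AZ x h))
  · exact Or.inr (Or.inl b)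
  by_cases c : ((∃ z, 0 < z ∧ AY h z) ∧ (∃ y, 0 < y ∧ AZ h y))
  · exact Or.inr (Or.inr (Or.inl c))
  refine Or.inr (Or.inr (Or.inr ?_))
  -- helper monotonicity facts
  have mX1 : ∀ {y z z' : ℝ}, 0 < y → 0 < z' → z' ≤ z → AX y z → AX y z' :=
    fun hy h1 h2 h3 => hX _ _ _ _ hy le_rfl h1 h2 h3
  have mX2 : ∀ {y y' z : ℝ}, 0 < z → 0 < y' → y' ≤ y → AX y z → AX y' z :=
    fun hz h1 h2 h3 => hX _ _ _ _ h1 h2 hz le_rfl h3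
  have mY1 : ∀ {y z z' : ℝ}, 0 < y → 0 < z' → z' ≤ z → AY y z → AY y z' :=
    fun hy h1 h2 h3 => hY _ _ _ _ hy le_rfl h1 h2 h3
  have mY2 : ∀ {y y' z : ℝ}, 0 < z → 0 < y' → y' ≤ y → AY y z → AY y' z :=
    fun hz h1 h2 h3 => hY _ _ _ _ h1 h2 hz le_rfl h3
  have mZ1 : ∀ {y z z' : ℝ}, 0 < y → 0 < z' → z' ≤ z → AZ y z → AZ y z' :=
    fun hy h1 h2 h3 => hZ _ _ _ _ hy le_rfl h1 h2 h3
  have mZ2 : ∀ {y y' z : ℝ}, 0 < z → 0 < y' → y' ≤ y → AZ y z → AZ y' z :=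
    fun hz h1 h2 h3 => hZ _ _ _ _ h1 h2 hz le_rfl h3
  by_cases XZ : ∃ y, 0 < y ∧ AX y h
  · have nYZ : ¬ ∃ x, 0 < x ∧ AY x h := fun q => a ⟨XZ, q⟩
    by_cases XY : ∃ z, 0 < z ∧ AX h z
    · have nZY : ¬ ∃ x, 0 < x ∧ AZ x h := fun q => b ⟨XY, q⟩
      exact Or.inr (Or.inr fun x hx => ⟨fun _ _ q => nYZ ⟨x, hx, q⟩, fun _ _ q => nZY ⟨x, hx, q⟩⟩)
    · refine Or.inl fun z hz => ⟨fun _ _ q => XY ⟨z, hz, q⟩, ?_⟩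
      rintro ⟨x, hx, hxz⟩ hn _
      obtain ⟨y, hy, hyh⟩ := XZ
      by_cases hzh : z ≤ h
      · exact hn ⟨y, hy, mX1 hy hz hzh hyh⟩
      · exact nYZ ⟨x, hx, mY1 hx hh (not_le.1 hzh).le hxz⟩
  by_cases XY : ∃ z, 0 < z ∧ AX h z
  · -- X-arm fat in y only: direction y
    have nZY : ¬ ∃ x, 0 < x ∧ AZ x h := fun q => b ⟨XY, q⟩
    refine Or.inr (Or.inl fun y hy => ⟨fun _ _ q => XZ ⟨y, hy, q⟩, ?_⟩)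
    rintro ⟨x, hx, hxy⟩ hn _
    obtain ⟨z, hz, hhz⟩ := XY
    by_cases hyh : y ≤ h
    · exact hn ⟨z, hz, mX2 hz hy hyh hhz⟩
    · exact nZY ⟨x, hx, mZ1 hx hh (not_le.1 hyh).le hxy⟩
  -- X-arm not fat
  by_cases YX : ∃ z, 0 < z ∧ AY h z
  · have nZX : ¬ ∃ y, 0 < y ∧ AZ h y := fun q => c ⟨YX, q⟩
    by_cases YZ : ∃ x, 0 < x ∧ AY x h
    · -- direction y
      exact Or.inr (Or.inl fun y hy => ⟨fun _ _ q => XZ ⟨y, hy, q⟩, fun _ _ q => nZX ⟨y, hy, q⟩⟩)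
    · -- Y-arm fat in x only : direction x
      refine Or.inr (Or.inr fun x hx => ⟨fun _ _ q => YZ ⟨x, hx, q⟩, ?_⟩)
      rintro ⟨y, hy, hxy⟩ hn _
      obtain ⟨z, hz, hhz⟩ := YX
      by_cases hxh : x ≤ h
      · exact hn ⟨z, hz, mY2 hz hx hxh hhz⟩
      · exact nZX ⟨y, hy, mZ2 hy hh (not_le.1 hxh).le hxy⟩
  by_cases YZ : ∃ x, 0 < x ∧ AY x h
  · -- Y fat in z only : direction z
    refine Or.inl fun z hz => ⟨?_, fun _ _ q => YX ⟨z, hz, q⟩⟩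
    rintro ⟨y, hy, hyz⟩ hn _
    obtain ⟨x, hx, hxh⟩ := YZ
    by_cases hzh : z ≤ h
    · exact hn ⟨x, hx, mY1 hx hz hzh hxh⟩
    · exact XZ ⟨y, hy, mX1 hy hh (not_le.1 hzh).le hyz⟩
  -- Y-arm not fat
  -- direction z is good
  exact Or.inl fun z hz => ⟨fun _ _ q => XY ⟨z, hz, q⟩, fun _ _ q => YX ⟨z, hz, q⟩⟩

end Crest.Agent.R214
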