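import Crest.Agent.R214.ZoneLin
import Crest.Agent.R214.SlabCorner

/-!
# Row 214: from scalar certificates to the strict inequality for the slice profile
-/

set_option autoImplicit false

open MeasureTheory Set Filter Topology Crest.Agent.R214.MS

namespace Crest.Agent.R214.ZC

/-- One-zone certificate at `(B, A)` for the lower bound `J` of the half slice perimeter. -/
def CertOne (J : ℝ → ℝ) (B A : ℝ) : Prop :=
  ∃ (lam p M : ℝ) (g : ℝ → ℝ), LegOK lam M ∧ ContinuousOn g (Icc B A) ∧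
    (∀ x ∈ Icc B A, 0 ≤ p + lam * x ∧ (p + lam * x) ^ 2 ≤ g x ∧ g x ≤ J x ^ 2) ∧
    M < p + ∫ x in B..A, Real.sqrt (1 - (p + lam * x) ^ 2 / g x)

/-- Two-zone certificate at `(B, G)`: `J` in the outer zone, `L` in the inner zone of total
width `h`. -/
def CertTwo (h : ℝ) (J L : ℝ → ℝ) (B G : ℝ) : Prop :=
  ∃ (lam p M : ℝ) (g : ℝ → ℝ), LegOK lam M ∧ ContinuousOn g (Icc B G) ∧
    (∀ x ∈ Icc B G, 0 ≤ p + lam * x ∧ (p + lam * x) ^ 2 ≤ g x ∧ g x ≤ J x ^ 2) ∧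
    ∀ A ∈ Icc G 1,
      (∃ D : ℝ, 0 ≤ D ∧ D * h < 1 ∧
        (∀ x ∈ Icc G A, ∀ c ∈ Icc (0:ℝ) 1, c * L G + (D - lam) * G ≤ c * L x + (D - lam) * x) ∧
        M < (1 - h) * p + (∫ x in B..G, Real.sqrt (1 - (p + lam * x) ^ 2 / g x)) +
          L G * (∫ x in (0:ℝ)..h, Real.sqrt (1 - (D * x) ^ 2)) - lam * (h * G)) ∨
      (∃ σ : ℝ, 0 ≤ σ ∧ σ ≤ 1 ∧
        M < (1 - h) * p + (∫ x in B..G, Real.sqrt (1 - (p + lam * x) ^ 2 / g x)) +
          h * Real.sqrt (1 - σ ^ 2) * L A + σ * (A - G) - max lam 0 * (h * A) +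
          max (-lam) 0 * (h * G))

/-- range of the limits -/
theorem lims_mem {s : ℝ → ℝ} (hs01 : ∀ t, s t ∈ Icc (0:ℝ) 1) {A : ℝ} {F : Filter ℝ} [F.NeBot]
    (hA : Tendsto s F (𝓝 A)) : A ∈ Icc (0:ℝ) 1 :=
  isClosed_Icc.mem_of_tendsto hA (Eventually.of_forall hs01)

theorem vol_mem {s : ℝ → ℝ} (_hs : BP s) (hs01 : ∀ t, s t ∈ Icc (0:ℝ) 1) :
    0 ≤ ∫ t in (0:ℝ)..1, s t :=
  intervalIntegral.integral_nonneg zero_le_one fun t _ => (hs01 t).1

theorem sqrt_le_of_le_sq {a b : ℝ} (hb : 0 ≤ b) (h : a ≤ b ^ 2) : Real.sqrt a ≤ b :=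
  Real.sqrt_le_iff.2 ⟨hb, h⟩

/-- **One zone.** -/
theorem lt_of_certOne {s l : ℝ → ℝ} (hs : BP s) (hl : BP l) (hse : ∀ t, s (-t) = s t)
    (hanti : AntitoneOn s (Ioo 0 (1 / 2))) (hs01 : ∀ t, s t ∈ Icc (0:ℝ) 1)
    {P : ℝ} (H : DualIneq s l P) {A B : ℝ}
    (hA : Tendsto s (𝓝[>] 0) (𝓝 A)) (hB : Tendsto s (𝓝[<] (1 / 2)) (𝓝 B))
    (hv : ∫ t in (0:ℝ)..1, s t ≤ 1 / 2)
    {J : ℝ → ℝ} (hJ : ∀ x ∈ Icc (0:ℝ) 1, 0 ≤ J x)
    (hlJ : ∀ᵐ t, |t| < 1 / 2 → 2 * J (s t) ≤ l t) (hC : CertOne J B A) :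
    min (m0 (∫ t in (0:ℝ)..1, s t)) 1 < P / 2 := by
  obtain ⟨lam, p, M, g, hM, hg, hw, hlt⟩ := hC
  have h1 := cert_one hs hl hse hanti H hA hB hg (fun x hx => (hw x hx).1)
    (fun x hx => (hw x hx).2.1) (by
      filter_upwards [hlJ, ae_ne 0] with t ht h0 htI
      have hm : s t ∈ Icc B A := even_mem hse (a := 0) (b := 1 / 2)
        (fun t ht => range_mem hs hanti hA hB ht) (abs_pos.2 h0) htI
      have := sqrt_le_of_le_sq (hJ _ (hs01 t)) (hw _ hm).2.2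
      have := ht htI
      linarith)
  have h2 := legendre (vol_mem hs hs01) hv hM
  linarith

/-- **Two zones.** -/
theorem lt_of_certTwo {s l : ℝ → ℝ} (hs : BP s) (hl : BP l) (hse : ∀ t, s (-t) = s t)
    (hanti : AntitoneOn s (Ioo 0 (1 / 2))) (hs01 : ∀ t, s t ∈ Icc (0:ℝ) 1)
    {P : ℝ} (H : DualIneq s l P) {h A B G : ℝ} (hh0 : 0 < h) (hh1 : h < 1 / 2)
    (hA : Tendsto s (𝓝[>] 0) (𝓝 A)) (hB : Tendsto s (𝓝[<] (1 / 2)) (𝓝 B))
    (hG : Tendsto s (𝓝[>] (h / 2)) (𝓝 G))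
    (hv : ∫ t in (0:ℝ)..1, s t ≤ 1 / 2)
    {J L : ℝ → ℝ} (hJ : ∀ x ∈ Icc (0:ℝ) 1, 0 ≤ J x) (hL0 : ∀ x ∈ Icc (0:ℝ) 1, 0 ≤ L x)
    (hLanti : AntitoneOn L (Icc 0 1))
    (hlL : ∀ᵐ t, |t| < h / 2 → 2 * L (s t) ≤ l t)
    (hlJ : ∀ᵐ t, h / 2 < |t| → |t| < 1 / 2 → 2 * J (s t) ≤ l t) (hC : CertTwo h J L B G) :
    min (m0 (∫ t in (0:ℝ)..1, s t)) 1 < P / 2 := by
  obtain ⟨lam, p, M, g, hM, hg, hw, hAll⟩ := hC
  obtain ⟨G', hG', hGle, hGge⟩ := exists_right_lim hs hanti (h := h / 2) (by linarith)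
    (by linarith)
  obtain rfl : G = G' := tendsto_nhds_unique hG hG'
  have hgt : ∀ t ∈ Ioo (h / 2) (1 / 2), s t ∈ Icc B G := fun t ht =>
    ⟨(range_mem hs hanti hA hB ⟨by linarith [ht.1], ht.2⟩).1, hGle t ht⟩
  have hlt : ∀ t ∈ Ioc 0 (h / 2), s t ∈ Icc G A := fun t ht =>
    ⟨hGge t ht.1 ht.2, (range_mem hs hanti hA hB ⟨ht.1, by linarith [ht.2]⟩).2⟩
  have hGA : G ≤ A := by
    have := hlt (h / 2) ⟨by linarith, le_rfl⟩
    exact this.1.trans this.2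
  have hA01 := lims_mem hs01 hA
  have hG01 := lims_mem hs01 hG
  have hlg : ∀ᵐ t, h / 2 < |t| → |t| < 1 / 2 → 2 * Real.sqrt (g (s t)) ≤ l t := by
    filter_upwards [hlJ] with t ht h1 h2
    have := sqrt_le_of_le_sq (hJ _ (hs01 t)) (hw _ (even_mem hse hgt h1 h2)).2.2
    have := ht h1 h2
    linarith
  have h2 := legendre (vol_mem hs hs01) hv hM
  rcases hAll A ⟨hGA, hA01.2⟩ with ⟨D, hD0, hDh, hLG, hlt'⟩ | ⟨σ, hσ0, hσ1, hlt'⟩
  · have h1 := cert_lin hs hl hse hanti H hh0 hh1 hA hB hG hD0 hDh hg (fun x hx => (hw x hx).1)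
      (fun x hx => (hw x hx).2.1) hlL hLG hlg
    linarith
  · have hlL' : ∀ᵐ t, |t| < h / 2 → 2 * L A ≤ l t := by
      filter_upwards [hlL, ae_ne 0] with t ht h0 h1
      have h13 : s t ∈ Icc G A := even_mem hse (a := 0) (b := h / 2)
        (fun t ht => hlt t ⟨ht.1, ht.2.le⟩) (abs_pos.2 h0) h1
      have := hLanti (hs01 t) hA01 h13.2
      have := ht h1
      linarith
    have h1 := cert_two hs hl hse hanti H hh0 (by linarith) hA hB hG (hL0 A hA01) hg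
      (fun x hx => (hw x hx).1) (fun x hx => (hw x hx).2.1) hlL' hlg
    have h3 : h * Real.sqrt (1 - σ ^ 2) * L A + σ * (A - G) ≤
        Real.sqrt ((h * L A) ^ 2 + (A - G) ^ 2) := by
      apply Real.le_sqrt_of_sq_le
      have e1 : Real.sqrt (1 - σ ^ 2) ^ 2 = 1 - σ ^ 2 := Real.sq_sqrt (by nlinarith)
      set r := Real.sqrt (1 - σ ^ 2)
      have e2 : h * r * L A + σ * (A - G) = r * (h * L A) + σ * (A - G) := by ring
      rw [e2]
      set X := h * L A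
      set Y := A - G
      have e3 : (r * X + σ * Y) ^ 2 = (r ^ 2 + σ ^ 2) * (X ^ 2 + Y ^ 2) - (r * Y - σ * X) ^ 2 := by
        ring
      rw [e3, e1]
      nlinarith [sq_nonneg (r * Y - σ * X)]
    linarith

/-- **The corner near the slab.** -/
theorem corner_le {s l : ℝ → ℝ} (hs : BP s) (hl : BP l) (hse : ∀ t, s (-t) = s t)
    (hanti : AntitoneOn s (Ioo 0 (1 / 2))) (hs01 : ∀ t, s t ∈ Icc (0:ℝ) 1)
    {P : ℝ} (H : DualIneq s l P) {A B : ℝ}
    (hA : Tendsto s (𝓝[>] 0) (𝓝 A)) (hB : Tendsto s (𝓝[<] (1 / 2)) (𝓝 B))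
    (hv : ∫ t in (0:ℝ)..1, s t ≤ 1 / 2)
    (hlJ : ∀ᵐ t, |t| < 1 / 2 → 2 * Real.sqrt (Real.pi * (s t * (1 - s t))) ≤ l t)
    (hB1 : B ≤ 1 / 50) (hA1 : 49 / 50 ≤ A) :
    min (m0 (∫ t in (0:ℝ)..1, s t)) 1 ≤ P / 2 ∧
      ((B ≠ 0 ∨ A ≠ 1) → min (m0 (∫ t in (0:ℝ)..1, s t)) 1 < P / 2) := by
  have hpi := Real.pi_pos
  have hA01 := lims_mem hs01 hA
  have hB01 := lims_mem hs01 hB
  set v := ∫ t in (0:ℝ)..1, s t with hvdef
  have hv0 : 0 ≤ v := vol_mem hs hs01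
  set g : ℝ → ℝ := fun x => Real.pi * (x * (1 - x)) with hgdef
  have hg : ∀ S : Set ℝ, ContinuousOn g S := fun S => by
    apply Continuous.continuousOn
    simp only [hgdef]
    fun_prop
  rcases le_total (28 / 100) v with h28 | h28
  · obtain ⟨lam, mu, h1, h2, h3⟩ := Corner.corner hB01.1 hB1 hA1 hA01.2 h28 hv
    have h4 := cert_one hs hl hse hanti H hA hB (hg _) (p := mu) (lam := lam)
      (fun x hx => by have := (h1 x hx).1; linarith)
      (fun x hx => by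
        have h5 := (h1 x hx).2
        have hx0 : 0 ≤ x * (1 - x) :=
          mul_nonneg (hB01.1.trans hx.1) (by linarith [hx.2, hA01.2])
        have e : (mu + lam * x) ^ 2 = (lam * x + mu) ^ 2 := by ring
        simp only [hgdef]
        rw [e]
        nlinarith [mul_nonneg hpi.le hx0])
      hlJ
    have e : (∫ x in B..A, Real.sqrt (1 - (mu + lam * x) ^ 2 / g x)) =
        ∫ x in B..A, Real.sqrt (1 - (lam * x + mu) ^ 2 / (Real.pi * (x * (1 - x)))) := by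
      refine intervalIntegral.integral_congr fun x _ => ?_
      simp only [hgdef]
      rw [add_comm mu (lam * x)]
    rw [e] at h4
    refine ⟨(min_le_right _ _).trans (by linarith), fun h => ?_⟩
    have := h3 h
    exact lt_of_le_of_lt (min_le_right _ _) (by linarith)
  · have h4 := cert_one hs hl hse hanti H hA hB (hg _) (p := 0) (lam := 0)
      (fun x hx => by norm_num)
      (fun x hx => by
        have hx0 : 0 ≤ x * (1 - x) :=
          mul_nonneg (hB01.1.trans hx.1) (by linarith [hx.2, hA01.2])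
        simp only [hgdef]
        norm_num
        positivity)
      hlJ
    have e : (∫ x in B..A, Real.sqrt (1 - (0 + 0 * x) ^ 2 / g x)) = A - B := by
      simp
    rw [e] at h4
    have h5 : m0 v ≤ 938 / 1000 := by
      refine (min_le_right _ _).trans ?_
      rw [Real.sqrt_le_left (by norm_num)]
      have := Real.pi_lt_d4
      nlinarith
    have h6 : min (m0 v) 1 < P / 2 := lt_of_le_of_lt (min_le_left _ _) (by linarith)
    exact ⟨h6.le, fun _ => h6⟩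

/-- **The exact region**: the slice bound is `2 √(π s)` on the whole range. -/
theorem exact_le {s l : ℝ → ℝ} (hs : BP s) (hl : BP l) (hse : ∀ t, s (-t) = s t)
    (hanti : AntitoneOn s (Ioo 0 (1 / 2))) (hs01 : ∀ t, s t ∈ Icc (0:ℝ) 1)
    {P : ℝ} (H : DualIneq s l P) {A B : ℝ}
    (hA : Tendsto s (𝓝[>] 0) (𝓝 A)) (hB : Tendsto s (𝓝[<] (1 / 2)) (𝓝 B))
    (hlJ : ∀ᵐ t, |t| < 1 / 2 → 2 * Real.sqrt (Real.pi * s t) ≤ l t) (hA0 : 0 < A) :
    m0 (∫ t in (0:ℝ)..1, s t) ≤ P / 2 ∧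
      (P / 2 ≤ m0 (∫ t in (0:ℝ)..1, s t) → B < A →
        B = 0 ∧ (∫ t in (0:ℝ)..1, s t) = 4 * Real.sqrt A ^ 3 / (3 * Real.sqrt Real.pi) ∧
          (∫ t in (0:ℝ)..1, s t) ≤ 4 * Real.pi / 81) := by
  have hpi := Real.pi_pos
  have hA01 := lims_mem hs01 hA
  have hB01 := lims_mem hs01 hB
  have hBA := le_of_lims hs hanti hA hB
  set v := ∫ t in (0:ℝ)..1, s t with hvdef
  have hv0 : 0 ≤ v := vol_mem hs hs01
  set a := Real.sqrt A with ha
  set b := Real.sqrt B with hb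
  have ha0 : 0 < a := Real.sqrt_pos.2 hA0
  have hb0 : 0 ≤ b := Real.sqrt_nonneg _
  have hab : b ≤ a := Real.sqrt_le_sqrt hBA
  have ha2 : a ^ 2 = A := Real.sq_sqrt hA01.1
  have hb2 : b ^ 2 = B := Real.sq_sqrt hB01.1
  have hS : 0 < a + b := by linarith
  have hsq : Real.sqrt Real.pi ^ 2 = Real.pi := Real.sq_sqrt hpi.le
  set g : ℝ → ℝ := fun x => Real.pi * x with hgdef
  have hg : ContinuousOn g (Icc B A) := by
    apply Continuous.continuousOn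
    simp only [hgdef]
    fun_prop
  set p := Real.sqrt Real.pi * (a * b) / (a + b) with hp
  set lam := Real.sqrt Real.pi / (a + b) with hlam
  have hw : ∀ x, p + lam * x = Real.sqrt Real.pi * (x + a * b) / (a + b) := by
    intro x
    rw [hp, hlam]
    field_simp
    ring
  have hwsq : ∀ x, (p + lam * x) ^ 2 = Real.pi * ((x + a * b) ^ 2 / (a + b) ^ 2) := by
    intro x
    rw [hw, div_pow, mul_pow, hsq]
    ring
  have h4 := cert_one hs hl hse hanti H hA hB hg (p := p) (lam := lam)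
    (fun x hx => by
      have hx0 : 0 ≤ x := hB01.1.trans hx.1
      rw [hw]; positivity)
    (fun x hx => by
      rw [hwsq]
      simp only [hgdef]
      refine mul_le_mul_of_nonneg_left ?_ hpi.le
      rw [div_le_iff₀ (by positivity)]
      have h5 : (x - b ^ 2) * (a ^ 2 - x) ≥ 0 :=
        mul_nonneg (by rw [hb2]; linarith [hx.1]) (by rw [ha2]; linarith [hx.2])
      nlinarith)
    hlJ
  have e : (∫ x in B..A, Real.sqrt (1 - (p + lam * x) ^ 2 / g x)) =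
      ∫ x in (b ^ 2)..(a ^ 2), Real.sqrt (1 - (x + a * b) ^ 2 / ((a + b) ^ 2 * x)) := by
    rw [ha2, hb2]
    refine intervalIntegral.integral_congr fun x _ => ?_
    simp only [hgdef]
    rw [hwsq]
    congr 2
    rw [mul_div_mul_left _ _ hpi.ne', div_div]
  rw [e] at h4
  have e2 : lam * v + p = Real.sqrt Real.pi * (v + a * b) / (a + b) := by
    rw [add_comm]; exact hw v
  rw [e2] at h4
  have h5 := exact_E3 hb0 hab ha0 hv0
  refine ⟨h5.trans h4, fun h6 h7 => ?_⟩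
  have h8 : m0 v = Real.sqrt Real.pi * (v + a * b) / (a + b) +
      ∫ x in (b ^ 2)..(a ^ 2), Real.sqrt (1 - (x + a * b) ^ 2 / ((a + b) ^ 2 * x)) := by
    linarith
  obtain ⟨h9, h10, h11⟩ := exact_E4 hb0 (Real.sqrt_lt_sqrt hB01.1 h7) hv0 h8
  refine ⟨?_, h10, h11⟩
  rw [← hb2, h9]
  norm_num

end Crest.Agent.R214.ZC
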