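import Crest.Agent.R214.InvDiv

/-!
R214: invariance of `periodicVolume` and `periodicPerimeter`: modulo null sets, complements,
cubic isometries.
-/

set_option autoImplicit false

open MeasureTheory Set Filter Topology
open Crest.GeometryTopology.PeriodicPerimeter

noncomputable section

namespace Crest.Agent.R214.Inv

variable {n : ℕ}

/-! ### modulo null sets -/

theorem ae_eq_of_symmDiff {E F : Set (EE n)} (h : volume (symmDiff E F) = 0) :
    E =ᵐ[(volume : Measure (EE n))] F := by
  exact measure_symmDiff_eq_zero_iff.1 h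

theorem periodicVolume_congr {E F : Set (EE n)} (h : E =ᵐ[(volume : Measure (EE n))] F) :
    periodicVolume E = periodicVolume F := by
  unfold periodicVolume
  rw [measure_congr (h.inter (ae_eq_refl (unitCell n)))]

theorem periodicPerimeter_congr {E F : Set (EE n)} (h : E =ᵐ[(volume : Measure (EE n))] F) :
    periodicPerimeter E = periodicPerimeter F := by
  unfold periodicPerimeter
  refine iSup_congr fun φ => ?_
  rw [setIntegral_congr_set (h.inter (ae_eq_refl (unitCell n)))]

/-! ### complements -/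

theorem periodic_compl {E : Set (EE n)} (h : IsLatticePeriodic E) :
    IsLatticePeriodic Eᶜ := by
  intro v hv x
  rw [mem_compl_iff, mem_compl_iff, h v hv x]

theorem periodicVolume_compl {E : Set (EE n)} (hE : MeasurableSet E) :
    periodicVolume Eᶜ = 1 - periodicVolume E := by
  have h := measure_inter_add_sdiff (μ := (volume : Measure (EE n))) (unitCell n) hE
  have h1 : volume (unitCell n ∩ E) = volume (E ∩ unitCell n) := by rw [inter_comm]
  have h2 : volume (unitCell n \ E) = volume (Eᶜ ∩ unitCell n) := by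
    rw [sdiff_eq, inter_comm]
  rw [h1, h2, volume_unitCell] at h
  have h3 := congrArg ENNReal.toReal h
  rw [ENNReal.toReal_add (volume_inter_unitCell_lt_top E).ne (volume_inter_unitCell_lt_top Eᶜ).ne,
    ENNReal.toReal_one] at h3
  unfold periodicVolume
  linarith

theorem periodicVolume_nonneg (E : Set (EE n)) : 0 ≤ periodicVolume E := ENNReal.toReal_nonneg

theorem periodicVolume_le_one (E : Set (EE n)) : periodicVolume E ≤ 1 := by
  unfold periodicVolume
  refine ENNReal.toReal_le_of_le_ofReal zero_le_one ?_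
  rw [ENNReal.ofReal_one, ← volume_unitCell n]
  exact measure_mono inter_subset_right

theorem admissible_neg {φ : EE n → EE n} (h : IsAdmissibleField φ) :
    IsAdmissibleField (fun x => -φ x) := by
  refine ⟨h.1.neg, fun v hv x => by simp only [h.2.1 v hv x], fun x => by rw [norm_neg]; exact h.2.2 x⟩

theorem divergence_neg {φ : EE n → EE n} (x : EE n) :
    divergence (fun y => -φ y) x = - divergence φ x := by
  unfold divergence
  rw [fderiv_fun_neg, ← Finset.sum_neg_distrib]
  rfl

theorem setIntegral_compl_divergence {E : Set (EE n)} (hE : MeasurableSet E) {φ : EE n → EE n}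
    (h : IsAdmissibleField φ) :
    ∫ x in Eᶜ ∩ unitCell n, divergence φ x = - ∫ x in E ∩ unitCell n, divergence φ x := by
  have hc := continuous_divergence h.1
  have hp : PeriodicFun (divergence φ) := PeriodicFun.divergence h.2.1
  have hI := hp.integrableOn' hc
  have h0 := integral_cell_divergence_eq_zero h.1 h.2.1
  have h1 := integral_inter_add_sdiff (s := unitCell n) hE hI
  have h2 : unitCell n \ E = Eᶜ ∩ unitCell n := by rw [sdiff_eq, inter_comm]
  rw [h0, h2, inter_comm (unitCell n) E] at h1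
  linarith

theorem periodicPerimeter_compl_le {E : Set (EE n)} (hE : MeasurableSet E) :
    periodicPerimeter Eᶜ ≤ periodicPerimeter E := by
  unfold periodicPerimeter
  refine iSup_le fun φ => ?_
  rw [setIntegral_compl_divergence hE φ.2]
  have h1 : - ∫ x in E ∩ unitCell n, divergence φ.1 x
      = ∫ x in E ∩ unitCell n, divergence (fun y => -φ.1 y) x := by
    rw [← integral_neg]
    congr 1
    ext x
    rw [divergence_neg]
  rw [h1]
  exact le_iSup (fun ψ : {φ : EE n → EE n // IsAdmissibleField φ} =>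
    ENNReal.ofReal (∫ x in E ∩ unitCell n, divergence ψ.1 x)) ⟨_, admissible_neg φ.2⟩

theorem periodicPerimeter_compl {E : Set (EE n)} (hE : MeasurableSet E) :
    periodicPerimeter Eᶜ = periodicPerimeter E := by
  refine le_antisymm (periodicPerimeter_compl_le hE) ?_
  have := periodicPerimeter_compl_le hE.compl
  rwa [compl_compl] at this

/-! ### cubic isometries -/

/-- The linear part of a cubic isometry. -/
def signPerm (σ : Equiv.Perm (Fin n)) (ε : Fin n → ℝ) (x : EE n) : EE n :=
  WithLp.toLp 2 fun i => ε i * x (σ i)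

theorem signPerm_apply (σ : Equiv.Perm (Fin n)) (ε : Fin n → ℝ) (x : EE n) (i : Fin n) :
    signPerm σ ε x i = ε i * x (σ i) := rfl

theorem sq_eq_one_of_sign {a : ℝ} (h : a = 1 ∨ a = -1) : a * a = 1 := by
  rcases h with h | h <;> rw [h] <;> norm_num

/-- The linear isometry equivalence attached to a signed permutation. -/
def signPermL (σ : Equiv.Perm (Fin n)) (ε : Fin n → ℝ) (hε : ∀ i, ε i = 1 ∨ ε i = -1) :
    EE n ≃ₗᵢ[ℝ] EE n where
  toFun := signPerm σ ε
  invFun := signPerm σ.symm (fun i => ε (σ.symm i))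
  left_inv := by
    intro x; ext i
    simp only [signPerm_apply, Equiv.apply_symm_apply]
    rw [← mul_assoc, sq_eq_one_of_sign (hε _), one_mul]
  right_inv := by
    intro x; ext i
    simp only [signPerm_apply, Equiv.symm_apply_apply]
    rw [← mul_assoc, sq_eq_one_of_sign (hε _), one_mul]
  map_add' := by
    intro x y; ext i
    simp only [signPerm_apply, PiLp.add_apply]; ring
  map_smul' := by
    intro c x; ext i
    simp only [signPerm_apply, PiLp.smul_apply, smul_eq_mul, RingHom.id_apply]; ring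
  norm_map' := by
    intro x
    show ‖signPerm σ ε x‖ = ‖x‖
    rw [EuclideanSpace.norm_eq, EuclideanSpace.norm_eq]
    congr 1
    have h1 : ∀ i, ‖signPerm σ ε x i‖ ^ 2 = ‖x (σ i)‖ ^ 2 := by
      intro i
      rw [signPerm_apply, norm_mul]
      rcases hε i with h | h <;> rw [h] <;> simp
    simp_rw [h1]
    exact Equiv.sum_comp σ (fun i => ‖x i‖ ^ 2)

theorem signPermL_apply (σ : Equiv.Perm (Fin n)) (ε : Fin n → ℝ) (hε : ∀ i, ε i = 1 ∨ ε i = -1)
    (x : EE n) : signPermL σ ε hε x = signPerm σ ε x := rfl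

theorem hasIntegerCoords_signPerm {σ : Equiv.Perm (Fin n)} {ε : Fin n → ℝ}
    (hε : ∀ i, ε i = 1 ∨ ε i = -1) {v : EE n} (hv : HasIntegerCoords v) :
    HasIntegerCoords (signPerm σ ε v) := by
  intro i
  obtain ⟨m, hm⟩ := hv (σ i)
  rcases hε i with h | h
  · exact ⟨m, by rw [signPerm_apply, h, hm, one_mul]⟩
  · exact ⟨-m, by rw [signPerm_apply, h, hm]; push_cast; ring⟩

theorem cubic_exists_eq {g : EE n → EE n} (hg : IsCubicIsometry g) :
    ∃ (σ : Equiv.Perm (Fin n)) (ε : Fin n → ℝ) (hε : ∀ i, ε i = 1 ∨ ε i = -1) (c : EE n),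
      g = fun x => signPermL σ ε hε x + c := by
  obtain ⟨σ, ε, c, hε, h⟩ := hg
  refine ⟨σ, ε, hε, c, ?_⟩
  funext x
  ext i
  rw [h x i]
  rfl

theorem isCubicIsometry_mk (σ : Equiv.Perm (Fin n)) (ε : Fin n → ℝ)
    (hε : ∀ i, ε i = 1 ∨ ε i = -1) (c : EE n) :
    IsCubicIsometry (fun x => signPermL σ ε hε x + c) :=
  ⟨σ, ε, c, hε, fun _ _ => rfl⟩

theorem isCubicIsometry_id : IsCubicIsometry (fun x : EE n => x) :=
  ⟨Equiv.refl _, fun _ => 1, 0, fun _ => Or.inl rfl, fun x i => by simp⟩

theorem isCubicIsometry_add (c : EE n) : IsCubicIsometry (fun x : EE n => x + c) :=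
  ⟨Equiv.refl _, fun _ => 1, c, fun _ => Or.inl rfl, fun x i => by simp⟩

theorem cubic_comp {g h : EE n → EE n} (hg : IsCubicIsometry g)
    (hh : IsCubicIsometry h) : IsCubicIsometry (fun x => g (h x)) := by
  obtain ⟨σ, ε, c, hε, hg⟩ := hg
  obtain ⟨τ, δ, d, hδ, hh⟩ := hh
  refine ⟨σ.trans τ, fun i => ε i * δ (σ i), WithLp.toLp 2 fun i => ε i * d (σ i) + c i, ?_, ?_⟩
  · intro i
    rcases hε i with h1 | h1 <;> rcases hδ (σ i) with h2 | h2 <;> simp only [h1, h2] <;> norm_num
  · intro x i
    rw [hg, hh]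
    simp only [Equiv.trans_apply]
    ring

/-- inverse of a cubic isometry. -/
theorem cubic_exists_inv {g : EE n → EE n} (hg : IsCubicIsometry g) :
    ∃ h : EE n → EE n, IsCubicIsometry h ∧ (∀ x, h (g x) = x) ∧ ∀ x, g (h x) = x := by
  obtain ⟨σ, ε, hε, c, rfl⟩ := (cubic_exists_eq hg)
  refine ⟨fun x => (signPermL σ ε hε).symm x + (-(signPermL σ ε hε).symm c), ?_, ?_, ?_⟩
  · exact ⟨σ.symm, fun i => ε (σ.symm i), -(signPermL σ ε hε).symm c, fun i => hε _,
      fun x i => rfl⟩
  · intro x
    simp [map_add]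
  · intro x
    simp [map_add]

theorem cubic_measurePreserving {g : EE n → EE n} (hg : IsCubicIsometry g) :
    MeasurePreserving g (volume : Measure (EE n)) volume := by
  obtain ⟨σ, ε, hε, c, rfl⟩ := (cubic_exists_eq hg)
  exact (measurePreserving_add_right (volume : Measure (EE n)) c).comp
    (signPermL σ ε hε).measurePreserving

theorem cubic_injective {g : EE n → EE n} (hg : IsCubicIsometry g) :
    Function.Injective g := by
  obtain ⟨h, _, h1, _⟩ := (cubic_exists_inv hg)
  exact Function.LeftInverse.injective h1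

theorem cubic_image_eq_preimage {g h : EE n → EE n}
    (h1 : ∀ x, h (g x) = x) (h2 : ∀ x, g (h x) = x) (E : Set (EE n)) : g '' E = h ⁻¹' E :=
  congrFun (Set.image_eq_preimage_of_inverse h1 h2) E

theorem cubic_measurableSet_image {g : EE n → EE n} (hg : IsCubicIsometry g)
    {E : Set (EE n)} (hE : MeasurableSet E) : MeasurableSet (g '' E) := by
  obtain ⟨h, hh, h1, h2⟩ := (cubic_exists_inv hg)
  rw [cubic_image_eq_preimage h1 h2]
  exact (cubic_measurePreserving hh).measurable hE

/-- lattice vectors pass through `g`. -/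
theorem cubic_exists_lat {g : EE n → EE n} (hg : IsCubicIsometry g) {v : EE n}
    (hv : HasIntegerCoords v) : ∃ w, HasIntegerCoords w ∧ ∀ x, g (x + v) = g x + w := by
  obtain ⟨σ, ε, hε, c, rfl⟩ := (cubic_exists_eq hg)
  refine ⟨signPerm σ ε v, hasIntegerCoords_signPerm hε hv, fun x => ?_⟩
  simp only [map_add, signPermL_apply]
  abel

theorem cubic_periodic_preimage {g : EE n → EE n} (hg : IsCubicIsometry g)
    {E : Set (EE n)} (hE : IsLatticePeriodic E) : IsLatticePeriodic (g ⁻¹' E) := by
  intro v hv x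
  obtain ⟨w, hw, h⟩ := (cubic_exists_lat hg) hv
  rw [mem_preimage, mem_preimage, h x, hE w hw]

theorem cubic_periodic_image {g : EE n → EE n} (hg : IsCubicIsometry g)
    {E : Set (EE n)} (hE : IsLatticePeriodic E) : IsLatticePeriodic (g '' E) := by
  obtain ⟨h, hh, h1, h2⟩ := (cubic_exists_inv hg)
  rw [cubic_image_eq_preimage h1 h2]
  exact (cubic_periodic_preimage hh) hE

theorem cubic_isCell_preimage {g : EE n → EE n} (hg : IsCubicIsometry g)
    {D : Set (EE n)} (hD : IsCell D) : IsCell (g ⁻¹' D) := by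
  refine ⟨(cubic_measurePreserving hg).measurable hD.1, fun x => ?_⟩
  obtain ⟨⟨w, hw⟩, hwx, huniq⟩ := hD.2 (g x)
  obtain ⟨h, hh, h1, h2⟩ := (cubic_exists_inv hg)
  obtain ⟨v, hv, hgv⟩ := (cubic_exists_lat hh) hw
  have key : ∀ y, g (y + v) = g y + w := by
    intro y
    have := hgv (g y)
    rw [h1 y] at this
    rw [← this, h2]
  refine ⟨⟨v, hv⟩, ?_, ?_⟩
  · show g (v + x) ∈ D
    rw [add_comm, key, add_comm]
    exact hwx
  · rintro ⟨v', hv'⟩ hv'x
    have hv'x' : g (v' + x) ∈ D := hv'x
    obtain ⟨w', hw', hgw'⟩ := (cubic_exists_lat hg) hv'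
    have h3 := huniq ⟨w', hw'⟩ (by
      show w' + g x ∈ D
      rw [add_comm, ← hgw', add_comm]; exact hv'x')
    have h4 : w' = w := congrArg Subtype.val h3
    apply Subtype.ext
    show v' = v
    have h5 : g (x + v') = g (x + v) := by rw [hgw', key, h4]
    have h6 := (cubic_injective hg) h5
    exact add_left_cancel h6

/-- change of variables on cells. -/
theorem cubic_setIntegral_image {F : Type*} [NormedAddCommGroup F] [NormedSpace ℝ F]
    {g : EE n → EE n} (hg : IsCubicIsometry g) {E : Set (EE n)} (hE : MeasurableSet E)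
    (hper : IsLatticePeriodic E) {f : EE n → F} (hf : PeriodicFun f) :
    ∫ x in (g '' E) ∩ unitCell n, f x = ∫ x in E ∩ unitCell n, f (g x) := by
  have hfg : PeriodicFun (fun x => f (g x)) := by
    intro v hv x
    obtain ⟨w, hw, h⟩ := (cubic_exists_lat hg) hv
    simp only [h x, hf w hw]
  have hemb : MeasurableEmbedding g := by
    obtain ⟨h, hh, h1, h2⟩ := (cubic_exists_inv hg)
    exact (MeasurableEquiv.mk (Equiv.mk g h h1 h2) (cubic_measurePreserving hg).measurable
      (cubic_measurePreserving hh).measurable).measurableEmbedding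
  have h1 := (cubic_measurePreserving hg).setIntegral_preimage_emb hemb f ((g '' E) ∩ unitCell n)
  have h2 : g ⁻¹' ((g '' E) ∩ unitCell n) = E ∩ g ⁻¹' (unitCell n) := by
    rw [preimage_inter, preimage_image_eq _ (cubic_injective hg)]
  rw [← h1, h2]
  exact ((cubic_isCell_preimage hg) (isCell_unitCell n)).setIntegral_inter_eq (isCell_unitCell n) hE hper hfg

theorem cubic_periodicVolume_image {g : EE n → EE n} (hg : IsCubicIsometry g)
    {E : Set (EE n)} (hE : MeasurableSet E) (hper : IsLatticePeriodic E) :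
    periodicVolume (g '' E) = periodicVolume E := by
  have h := (cubic_setIntegral_image hg) hE hper (f := fun _ => (1:ℝ)) (fun _ _ _ => rfl)
  simpa [periodicVolume, measureReal_def] using h

theorem divergence_conj (A : EE n ≃ₗᵢ[ℝ] EE n) (c : EE n) {φ : EE n → EE n}
    (hφ : Differentiable ℝ φ) (x : EE n) :
    divergence (fun y => A.symm (φ (A y + c))) x = divergence φ (A x + c) := by
  have hd : HasFDerivAt (fun y => A.symm (φ (A y + c)))
      ((A.symm : EE n →L[ℝ] EE n).comp ((fderiv ℝ φ (A x + c)).comp (A : EE n →L[ℝ] EE n))) x := by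
    have h1 : HasFDerivAt (fun y => A y + c) (A : EE n →L[ℝ] EE n) x :=
      ((A : EE n →L[ℝ] EE n).hasFDerivAt (x := x)).add_const c
    have h2 : HasFDerivAt φ (fderiv ℝ φ (A x + c)) (A x + c) := (hφ _).hasFDerivAt
    exact ((A.symm : EE n →L[ℝ] EE n).hasFDerivAt).comp x (h2.comp x h1)
  have htr : ∀ L : EE n →L[ℝ] EE n, ∑ i, L (EuclideanSpace.single i 1) i
      = LinearMap.trace ℝ (EE n) (L : EE n →ₗ[ℝ] EE n) := by
    intro L
    rw [LinearMap.trace_eq_sum_inner _ (EuclideanSpace.basisFun (Fin n) ℝ)]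
    refine Finset.sum_congr rfl fun i _ => ?_
    simp [EuclideanSpace.inner_single_left]
  unfold divergence
  rw [hd.fderiv, htr, htr]
  set L : EE n →ₗ[ℝ] EE n := (fderiv ℝ φ (A x + c) : EE n →ₗ[ℝ] EE n) with hL
  have : (((A.symm : EE n →L[ℝ] EE n).comp ((fderiv ℝ φ (A x + c)).comp (A : EE n →L[ℝ] EE n)) :
      EE n →L[ℝ] EE n) : EE n →ₗ[ℝ] EE n)
      = A.symm.toLinearEquiv.conj L := by
    ext y; rfl
  rw [this, LinearMap.trace_conj']

theorem cubic_periodicPerimeter_image_le {g : EE n → EE n} (hg : IsCubicIsometry g)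
    {E : Set (EE n)} (hE : MeasurableSet E) (hper : IsLatticePeriodic E) :
    periodicPerimeter (g '' E) ≤ periodicPerimeter E := by
  have hg' := hg
  obtain ⟨σ, ε, hε, c, hgeq⟩ := (cubic_exists_eq hg)
  set A := signPermL σ ε hε
  unfold periodicPerimeter
  refine iSup_le fun φ => ?_
  rw [(cubic_setIntegral_image hg') hE hper (PeriodicFun.divergence φ.2.2.1)]
  have hadm : IsAdmissibleField (fun y => A.symm (φ.1 (A y + c))) := by
    refine ⟨?_, ?_, ?_⟩
    · exact A.symm.contDiff.comp (φ.2.1.comp (A.contDiff.add contDiff_const))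
    · intro v hv x
      obtain ⟨w, hw, h⟩ := (cubic_exists_lat hg') hv
      have h' := h x
      rw [hgeq] at h'
      simp only at h'
      simp only [h', φ.2.2.1 w hw]
    · intro x
      rw [A.symm.norm_map]
      exact φ.2.2.2 _
  have heq : ∫ x in E ∩ unitCell n, divergence φ.1 (g x)
      = ∫ x in E ∩ unitCell n, divergence (fun y => A.symm (φ.1 (A y + c))) x := by
    congr 1
    ext x
    rw [divergence_conj A c (φ.2.1.differentiable one_ne_zero) x, hgeq]
  rw [heq]
  exact le_iSup (fun ψ : {φ : EE n → EE n // IsAdmissibleField φ} =>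
    ENNReal.ofReal (∫ x in E ∩ unitCell n, divergence ψ.1 x)) ⟨_, hadm⟩

theorem cubic_periodicPerimeter_image {g : EE n → EE n} (hg : IsCubicIsometry g)
    {E : Set (EE n)} (hE : MeasurableSet E) (hper : IsLatticePeriodic E) :
    periodicPerimeter (g '' E) = periodicPerimeter E := by
  refine le_antisymm ((cubic_periodicPerimeter_image_le hg) hE hper) ?_
  obtain ⟨h, hh, h1, h2⟩ := (cubic_exists_inv hg)
  have h3 := (cubic_periodicPerimeter_image_le hh) ((cubic_measurableSet_image hg) hE) ((cubic_periodic_image hg) hper)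
  have h4 : h '' (g '' E) = E := by
    rw [image_image]
    simp [h1]
  rwa [h4] at h3

/-! ### congruence -/

theorem congr_periodicVolume_eq {E F : Set (EE n)} (h : CongruentModNull E F)
    (hF : MeasurableSet F) (hper : IsLatticePeriodic F) : periodicVolume E = periodicVolume F := by
  obtain ⟨g, hg, h⟩ := h
  rw [periodicVolume_congr (ae_eq_of_symmDiff h), (cubic_periodicVolume_image hg) hF hper]

theorem congr_periodicPerimeter_eq {E F : Set (EE n)} (h : CongruentModNull E F)
    (hF : MeasurableSet F) (hper : IsLatticePeriodic F) :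
    periodicPerimeter E = periodicPerimeter F := by
  obtain ⟨g, hg, h⟩ := h
  rw [periodicPerimeter_congr (ae_eq_of_symmDiff h), (cubic_periodicPerimeter_image hg) hF hper]

theorem congruentModNull_of_ae {E F : Set (EE n)} (h : E =ᵐ[(volume : Measure (EE n))] F) :
    CongruentModNull E F := by
  refine ⟨fun x => x, isCubicIsometry_id, ?_⟩
  rw [image_id']
  exact measure_symmDiff_eq_zero_iff.2 h

theorem congruentModNull_image {g : EE n → EE n} (hg : IsCubicIsometry g) (E : Set (EE n)) :
    CongruentModNull (g '' E) E := ⟨g, hg, by simp⟩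

theorem congruentModNull_preimage {g : EE n → EE n} (hg : IsCubicIsometry g) (E : Set (EE n)) :
    CongruentModNull (g ⁻¹' E) E := by
  obtain ⟨h, hh, h1, h2⟩ := (cubic_exists_inv hg)
  refine ⟨h, hh, ?_⟩
  rw [cubic_image_eq_preimage h2 h1]
  simp

theorem congr_refl (E : Set (EE n)) : CongruentModNull E E :=
  congruentModNull_of_ae (ae_eq_refl E)

theorem cubic_image_ae_eq {g : EE n → EE n} (hg : IsCubicIsometry g)
    {E F : Set (EE n)} (h : E =ᵐ[(volume : Measure (EE n))] F) :
    (g '' E : Set (EE n)) =ᵐ[(volume : Measure (EE n))] (g '' F : Set (EE n)) := by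
  obtain ⟨k, hk, h1, h2⟩ := (cubic_exists_inv hg)
  rw [cubic_image_eq_preimage h1 h2, cubic_image_eq_preimage h1 h2]
  exact (cubic_measurePreserving hk).quasiMeasurePreserving.preimage_ae_eq h

theorem congr_trans {E F G : Set (EE n)} (h : CongruentModNull E F)
    (h' : CongruentModNull F G) : CongruentModNull E G := by
  obtain ⟨g, hg, h⟩ := h
  obtain ⟨k, hk, h'⟩ := h'
  refine ⟨fun x => g (k x), (cubic_comp hg) hk, ?_⟩
  rw [measure_symmDiff_eq_zero_iff] at *
  have h3 := (cubic_image_ae_eq hg) h'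
  rw [image_image] at h3
  exact h.trans h3

theorem congr_symm {E F : Set (EE n)} (h : CongruentModNull E F) :
    CongruentModNull F E := by
  obtain ⟨g, hg, h⟩ := h
  obtain ⟨k, hk, h1, h2⟩ := (cubic_exists_inv hg)
  refine ⟨k, hk, ?_⟩
  rw [measure_symmDiff_eq_zero_iff] at *
  have h3 := (cubic_image_ae_eq hk) h
  rw [image_image] at h3
  simp only [h1, image_id'] at h3
  exact h3.symm

end Crest.Agent.R214.Inv
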