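import Crest.Agent.R214.Core1
import Crest.Agent.R214.InvPer

/-!
# Inv: invariance of volume and perimeter

Admissible fields are transported: for `g x = (ε i * x (σ i) + c i)` the field
`ψ = (linear part)⁻¹ ∘ φ ∘ g` is admissible with `div ψ = (div φ) ∘ g`, and integrals over the cell of
periodic functions are invariant (the linear part maps `ℤⁿ` onto `ℤⁿ` and preserves the measure; a
periodic function has the same integral over every fundamental domain,
`MeasureTheory.IsAddFundamentalDomain`, or split signs/permutation/translation).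
-/

set_option autoImplicit false
open MeasureTheory Crest.GeometryTopology.PeriodicPerimeter Filter
open scoped ENNReal NNReal Topology
noncomputable section
namespace Crest.Agent.R214

theorem per_congr {n : ℕ} {A B : Set (Eu n)} (h : A =ᵐ[volume] B) :
    periodicPerimeter A = periodicPerimeter B :=
  Inv.periodicPerimeter_congr h

theorem vol_congr {n : ℕ} {A B : Set (Eu n)} (h : A =ᵐ[volume] B) :
    periodicVolume A = periodicVolume B :=
  Inv.periodicVolume_congr h

theorem per_compl {n : ℕ} (A : Set (Eu n)) (hA : MeasurableSet A) :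
    periodicPerimeter Aᶜ = periodicPerimeter A :=
  Inv.periodicPerimeter_compl hA

theorem vol_compl {n : ℕ} (A : Set (Eu n)) (hA : MeasurableSet A) :
    periodicVolume Aᶜ = 1 - periodicVolume A :=
  Inv.periodicVolume_compl hA

/-- cubic isometries -/
theorem per_preimage {n : ℕ} (g : Eu n → Eu n) (hg : IsCubicIsometry g) (A : Set (Eu n))
    (hA : MeasurableSet A) (hp : IsLatticePeriodic A) :
    periodicPerimeter (g ⁻¹' A) = periodicPerimeter A := by
  obtain ⟨k, hk, h1, h2⟩ := Inv.cubic_exists_inv hg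
  rw [← Inv.cubic_image_eq_preimage h2 h1]
  exact Inv.cubic_periodicPerimeter_image hk hA hp

theorem vol_preimage {n : ℕ} (g : Eu n → Eu n) (hg : IsCubicIsometry g) (A : Set (Eu n))
    (hA : MeasurableSet A) (hp : IsLatticePeriodic A) :
    periodicVolume (g ⁻¹' A) = periodicVolume A := by
  obtain ⟨k, hk, h1, h2⟩ := Inv.cubic_exists_inv hg
  rw [← Inv.cubic_image_eq_preimage h2 h1]
  exact Inv.cubic_periodicVolume_image hk hA hp

theorem cubic_bijective {n : ℕ} (g : Eu n → Eu n) (hg : IsCubicIsometry g) :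
    Function.Bijective g := by
  obtain ⟨k, _, h1, h2⟩ := Inv.cubic_exists_inv hg
  exact ⟨Function.LeftInverse.injective h1, Function.RightInverse.surjective h2⟩

theorem cubic_inverse {n : ℕ} (g : Eu n → Eu n) (hg : IsCubicIsometry g) :
    ∃ g' : Eu n → Eu n, IsCubicIsometry g' ∧ Function.LeftInverse g' g ∧
      Function.RightInverse g' g := by
  obtain ⟨k, hk, h1, h2⟩ := Inv.cubic_exists_inv hg
  exact ⟨k, hk, h1, h2⟩

theorem periodic_preimage {n : ℕ} (g : Eu n → Eu n) (hg : IsCubicIsometry g) (A : Set (Eu n))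
    (hp : IsLatticePeriodic A) : IsLatticePeriodic (g ⁻¹' A) :=
  Inv.cubic_periodic_preimage hg hp

theorem measurePreserving_cubic {n : ℕ} (g : Eu n → Eu n) (hg : IsCubicIsometry g) :
    MeasurePreserving g volume volume :=
  Inv.cubic_measurePreserving hg

theorem isCubicIsometry_pm {n : ℕ} (σ : Equiv.Perm (Fin n)) :
    IsCubicIsometry (fun x : Eu n => (WithLp.toLp 2 (fun i => x (σ i)) : Eu n)) :=
  ⟨σ, fun _ => 1, 0, fun _ => Or.inl rfl, fun x i => by simp⟩

theorem pm_eq_preimage {n : ℕ} (σ : Equiv.Perm (Fin n)) (A : Set (Eu n)) :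
    pm σ A = (fun x : Eu n => (WithLp.toLp 2 (fun i => x (σ i)) : Eu n)) ⁻¹' A := rfl

theorem isCubicIsometry_tr {n : ℕ} (c : Eu n) : IsCubicIsometry (fun x : Eu n => x - c) :=
  ⟨Equiv.refl _, fun _ => 1, -c, fun _ => Or.inl rfl, fun x i => by simp [sub_eq_add_neg]⟩

theorem tr_eq_preimage {n : ℕ} (c : Eu n) (A : Set (Eu n)) :
    tr c A = (fun x : Eu n => x - c) ⁻¹' A := rfl

theorem per_pm {n : ℕ} (σ : Equiv.Perm (Fin n)) (A : Set (Eu n)) (hA : MeasurableSet A)
    (hp : IsLatticePeriodic A) : periodicPerimeter (pm σ A) = periodicPerimeter A :=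
  per_preimage _ (isCubicIsometry_pm σ) A hA hp

theorem vol_pm {n : ℕ} (σ : Equiv.Perm (Fin n)) (A : Set (Eu n)) (hA : MeasurableSet A)
    (hp : IsLatticePeriodic A) : periodicVolume (pm σ A) = periodicVolume A :=
  vol_preimage _ (isCubicIsometry_pm σ) A hA hp

theorem measurableSet_pm {n : ℕ} (σ : Equiv.Perm (Fin n)) {A : Set (Eu n)}
    (hA : MeasurableSet A) : MeasurableSet (pm σ A) :=
  (measurePreserving_cubic _ (isCubicIsometry_pm σ)).measurable hA

theorem periodic_pm {n : ℕ} (σ : Equiv.Perm (Fin n)) {A : Set (Eu n)}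
    (hp : IsLatticePeriodic A) : IsLatticePeriodic (pm σ A) :=
  periodic_preimage _ (isCubicIsometry_pm σ) A hp

theorem pm_pm {n : ℕ} (σ τ : Equiv.Perm (Fin n)) (A : Set (Eu n)) :
    pm σ (pm τ A) = pm (σ * τ) A := rfl

theorem pm_congr {n : ℕ} (σ : Equiv.Perm (Fin n)) {A B : Set (Eu n)} (h : A =ᵐ[volume] B) :
    pm σ A =ᵐ[volume] pm σ B :=
  (measurePreserving_cubic _ (isCubicIsometry_pm σ)).quasiMeasurePreserving.preimage_ae_eq h

theorem per_tr {n : ℕ} (c : Eu n) (A : Set (Eu n)) (hA : MeasurableSet A)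
    (hp : IsLatticePeriodic A) : periodicPerimeter (tr c A) = periodicPerimeter A :=
  per_preimage _ (isCubicIsometry_tr c) A hA hp

theorem vol_tr {n : ℕ} (c : Eu n) (A : Set (Eu n)) (hA : MeasurableSet A)
    (hp : IsLatticePeriodic A) : periodicVolume (tr c A) = periodicVolume A :=
  vol_preimage _ (isCubicIsometry_tr c) A hA hp

end Crest.Agent.R214
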