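import Mathlib
import Crest.Prelude.Def_PeriodicPerimeter

/-!
R214, basic layer: the integer lattice, fundamental domains (cells), periodic integration.
-/

set_option autoImplicit false

open MeasureTheory Set
open Crest.GeometryTopology.PeriodicPerimeter

noncomputable section

namespace Crest.Agent.R214.Inv

/-- Shorthand for Euclidean `n`-space. -/
abbrev EE (n : ℕ) := EuclideanSpace ℝ (Fin n)

/-- The integer lattice as an additive subgroup. -/
def Lat (n : ℕ) : AddSubgroup (EE n) where
  carrier := {v | HasIntegerCoords v}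
  zero_mem' := fun _ => ⟨0, by simp⟩
  add_mem' := by
    intro a b ha hb i
    obtain ⟨m, hm⟩ := ha i
    obtain ⟨k, hk⟩ := hb i
    exact ⟨m + k, by simp [hm, hk]⟩
  neg_mem' := by
    intro a ha i
    obtain ⟨m, hm⟩ := ha i
    exact ⟨-m, by simp [hm]⟩

theorem mem_Lat {n : ℕ} {v : EE n} : v ∈ Lat n ↔ HasIntegerCoords v := Iff.rfl

theorem hasIntegerCoords_zero {n : ℕ} : HasIntegerCoords (0 : EE n) := (Lat n).zero_mem

theorem hic_add {n : ℕ} {v w : EE n} (hv : HasIntegerCoords v)
    (hw : HasIntegerCoords w) : HasIntegerCoords (v + w) := (Lat n).add_mem hv hw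

theorem hic_neg {n : ℕ} {v : EE n} (hv : HasIntegerCoords v) :
    HasIntegerCoords (-v) := (Lat n).neg_mem hv

theorem hic_sub {n : ℕ} {v w : EE n} (hv : HasIntegerCoords v)
    (hw : HasIntegerCoords w) : HasIntegerCoords (v - w) := (Lat n).sub_mem hv hw

/-- The lattice vector with given integer coordinates. -/
def latVec {n : ℕ} (m : Fin n → ℤ) : EE n := WithLp.toLp 2 fun i => (m i : ℝ)

@[simp] theorem latVec_apply {n : ℕ} (m : Fin n → ℤ) (i : Fin n) : latVec m i = m i := rfl

theorem hasIntegerCoords_latVec {n : ℕ} (m : Fin n → ℤ) : HasIntegerCoords (latVec m) :=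
  fun i => ⟨m i, rfl⟩

instance {n : ℕ} : Countable (Lat n) := by
  have : Function.Surjective (fun m : Fin n → ℤ => (⟨latVec m, hasIntegerCoords_latVec m⟩ : Lat n)) := by
    rintro ⟨v, hv⟩
    have hv' : HasIntegerCoords v := hv
    choose m hm using hv'
    refine ⟨m, ?_⟩
    apply Subtype.ext
    ext i
    simp [hm]
  exact this.countable

/-- The half-open cell with corner `c`. -/
def cellAt {n : ℕ} (c : EE n) : Set (EE n) := {x | ∀ i, c i ≤ x i ∧ x i < c i + 1}

theorem unitCell_eq_cellAt (n : ℕ) : unitCell n = cellAt (0 : EE n) := by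
  ext x; simp [unitCell, cellAt]

theorem measurable_coord {n : ℕ} (i : Fin n) : Measurable (fun x : EE n => x i) := by
  fun_prop

theorem measurableSet_cellAt {n : ℕ} (c : EE n) : MeasurableSet (cellAt c) := by
  have : cellAt c = ⋂ i, {x : EE n | c i ≤ x i ∧ x i < c i + 1} := by
    ext x; simp [cellAt]
  rw [this]
  refine MeasurableSet.iInter fun i => ?_
  exact (measurableSet_le measurable_const (measurable_coord i)).inter
    (measurableSet_lt (measurable_coord i) measurable_const)

theorem measurableSet_unitCell (n : ℕ) : MeasurableSet (unitCell n) := by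
  rw [unitCell_eq_cellAt]; exact measurableSet_cellAt _

/-- A measurable set meeting each lattice orbit exactly once. -/
def IsCell {n : ℕ} (D : Set (EE n)) : Prop :=
  MeasurableSet D ∧ ∀ x : EE n, ∃! v : Lat n, v +ᵥ x ∈ D

theorem IsCell.fd {n : ℕ} {D : Set (EE n)} (h : IsCell D) :
    IsAddFundamentalDomain (Lat n) D (volume : Measure (EE n)) :=
  IsAddFundamentalDomain.mk' h.1.nullMeasurableSet h.2

theorem isCell_cellAt {n : ℕ} (c : EE n) : IsCell (cellAt c) := by
  refine ⟨measurableSet_cellAt c, fun x => ?_⟩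
  refine ⟨⟨latVec fun i => -⌊x i - c i⌋, hasIntegerCoords_latVec _⟩, ?_, ?_⟩
  · intro i
    have h1 := Int.floor_le (x i - c i)
    have h2 := Int.lt_floor_add_one (x i - c i)
    show c i ≤ (latVec (fun i => -⌊x i - c i⌋) + x) i ∧ (latVec (fun i => -⌊x i - c i⌋) + x) i < c i + 1
    simp only [PiLp.add_apply, latVec_apply, Int.cast_neg]
    constructor <;> linarith
  · rintro ⟨v, hv⟩ hvx
    apply Subtype.ext
    ext i
    obtain ⟨m, hm⟩ := hv i
    have h : c i ≤ (v + x) i ∧ (v + x) i < c i + 1 := hvx i
    simp only [PiLp.add_apply, hm] at h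
    have : ⌊x i - c i⌋ = -m := by
      rw [Int.floor_eq_iff]
      push_cast
      constructor <;> linarith
    simp [hm, this]

theorem isCell_unitCell (n : ℕ) : IsCell (unitCell n) := by
  rw [unitCell_eq_cellAt]; exact isCell_cellAt _

/-- A real function invariant under the lattice. -/
def PeriodicFun {n : ℕ} {β : Type*} (f : EE n → β) : Prop :=
  ∀ v, HasIntegerCoords v → ∀ x, f (x + v) = f x

instance {n : ℕ} : VAddInvariantMeasure (Lat n) (EE n) (volume : Measure (EE n)) :=
  inferInstance

instance {n : ℕ} : MeasurableVAdd (Lat n) (EE n) := inferInstance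

/-- integrals of periodic functions over two cells agree. -/
theorem IsCell.setIntegral_eq {n : ℕ} {F : Type*} [NormedAddCommGroup F] [NormedSpace ℝ F]
    {D D' : Set (EE n)} (h : IsCell D) (h' : IsCell D') {f : EE n → F} (hf : PeriodicFun f) :
    ∫ x in D, f x = ∫ x in D', f x := by
  refine h.fd.setIntegral_eq h'.fd ?_
  rintro ⟨v, hv⟩ x
  show f (v + x) = f x
  rw [add_comm]; exact hf v hv x

theorem IsCell.measure_inter_eq {n : ℕ} {D D' : Set (EE n)} (h : IsCell D) (h' : IsCell D')
    {E : Set (EE n)} (hE : MeasurableSet E) (hper : IsLatticePeriodic E) :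
    volume (E ∩ D) = volume (E ∩ D') := by
  refine h.fd.measure_set_eq h'.fd hE ?_
  rintro ⟨v, hv⟩
  ext x
  show v + x ∈ E ↔ x ∈ E
  rw [add_comm]; exact hper v hv x

/-- integrals of periodic functions over periodic sets, cells changed. -/
theorem IsCell.setIntegral_inter_eq {n : ℕ} {F : Type*} [NormedAddCommGroup F] [NormedSpace ℝ F]
    {D D' : Set (EE n)} (h : IsCell D) (h' : IsCell D') {E : Set (EE n)} (hE : MeasurableSet E)
    (hper : IsLatticePeriodic E) {f : EE n → F} (hf : PeriodicFun f) :
    ∫ x in E ∩ D, f x = ∫ x in E ∩ D', f x := by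
  classical
  have key : ∀ D₀ : Set (EE n), ∫ x in E ∩ D₀, f x = ∫ x in D₀, E.indicator f x := by
    intro D₀
    rw [setIntegral_indicator hE, inter_comm]
  rw [key, key]
  refine h.setIntegral_eq h' ?_
  intro v hv x
  by_cases hx : x ∈ E
  · rw [indicator_of_mem hx, indicator_of_mem ((hper v hv x).2 hx), hf v hv x]
  · rw [indicator_of_notMem hx, indicator_of_notMem (fun h => hx ((hper v hv x).1 h))]

theorem volume_unitCell (n : ℕ) : volume (unitCell n) = 1 := by
  have h : unitCell n = (WithLp.ofLp : EE n → (Fin n → ℝ)) ⁻¹' (Set.pi univ fun _ => Ico (0:ℝ) 1) := by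
    ext x; simp [unitCell]
  rw [h, (PiLp.volume_preserving_ofLp (Fin n)).measure_preimage
    (MeasurableSet.univ_pi fun _ => measurableSet_Ico).nullMeasurableSet]
  simp [volume_pi, Measure.pi_pi]

theorem IsCell.volume_eq_one {n : ℕ} {D : Set (EE n)} (h : IsCell D) : volume D = 1 := by
  rw [h.fd.measure_eq (isCell_unitCell n).fd, volume_unitCell]

theorem volume_inter_unitCell_lt_top {n : ℕ} (E : Set (EE n)) : volume (E ∩ unitCell n) < ⊤ :=
  lt_of_le_of_lt (measure_mono inter_subset_right) (by rw [volume_unitCell]; simp)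

instance {n : ℕ} : IsFiniteMeasure ((volume : Measure (EE n)).restrict (unitCell n)) :=
  ⟨by rw [Measure.restrict_apply_univ, volume_unitCell]; simp⟩

end Crest.Agent.R214.Inv
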