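import Crest.Agent.R214.RigTest

set_option autoImplicit false

/-! Row 214, rigidity: the periodic distance function, smooth periodic functions built from it and
the calibrating fields. -/

open MeasureTheory Set Filter Topology Crest.GeometryTopology.PeriodicPerimeter
open scoped ContDiff

noncomputable section

namespace Crest.Agent.R214.Rig

variable {n : ℕ}

/-- signed distance to the nearest integer -/
def dd (t : ℝ) : ℝ := t - round t

theorem abs_dd_le_half (t : ℝ) : |dd t| ≤ 1 / 2 := abs_sub_round t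

theorem abs_dd_le (t : ℝ) (m : ℤ) : |dd t| ≤ |t - m| := round_le t m

theorem abs_dd_le_add (s t : ℝ) : |dd s| ≤ |s - t| + |dd t| := by
  calc |dd s| ≤ |s - round t| := abs_dd_le s _
    _ = |(s - t) + dd t| := by congr 1; unfold dd; ring
    _ ≤ |s - t| + |dd t| := abs_add_le _ _

theorem continuous_abs_dd : Continuous (fun t => |dd t|) := by
  rw [Metric.continuous_iff]
  intro t ε hε
  refine ⟨ε, hε, fun s hs => ?_⟩
  rw [Real.dist_eq] at hs ⊢
  rw [abs_lt]
  have h1 := abs_dd_le_add s t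
  have h2 := abs_dd_le_add t s
  rw [abs_sub_comm t s] at h2
  constructor <;> linarith

theorem continuous_dd_sq : Continuous (fun t => dd t ^ 2) := by
  have : (fun t => dd t ^ 2) = fun t => |dd t| ^ 2 := by
    funext t
    rw [sq_abs]
  rw [this]
  exact continuous_abs_dd.pow 2

theorem dd_add_int (t : ℝ) (m : ℤ) : dd (t + m) = dd t := by
  unfold dd
  rw [round_add_intCast]
  push_cast
  ring

theorem round_eq_of_abs_lt {t : ℝ} {m : ℤ} (h : |t - m| < 1 / 2) : round t = m := by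
  have h1 : |dd t| ≤ |t - m| := abs_dd_le t m
  have h2 : |(round t : ℝ) - m| < 1 := by
    calc |(round t : ℝ) - m| = |(t - m) - dd t| := by congr 1; unfold dd; ring
      _ ≤ |t - m| + |dd t| := abs_sub _ _
      _ < 1 := by linarith
  have h3 : |round t - m| < 1 := by
    have : ((|round t - m| : ℤ) : ℝ) < 1 := by
      push_cast
      exact h2
    exact_mod_cast this
  have h4 := Int.abs_lt_one_iff.1 h3
  linarith

theorem dd_eventually {t : ℝ} (h : |dd t| < 1 / 2) : ∀ᶠ s : ℝ in 𝓝 t, dd s = s - round t := by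
  have hc : Continuous (fun s : ℝ => |s - round t|) := (continuous_id.sub continuous_const).abs
  have : ∀ᶠ s : ℝ in 𝓝 t, |s - round t| < 1 / 2 := hc.continuousAt.eventually_lt
    continuousAt_const (by exact h)
  filter_upwards [this] with s hs
  unfold dd
  rw [round_eq_of_abs_lt hs]

/-- `φ ∘ dd` is smooth when `φ` vanishes near `±1/2` -/
theorem contDiff_comp_dd {φ : ℝ → ℝ} {m : ℕ∞} (hφ : ContDiff ℝ m φ) {b : ℝ} (hb : b < 1 / 2)
    (h0 : ∀ t, b ≤ |t| → φ t = 0) : ContDiff ℝ m (fun t => φ (dd t)) := by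
  rw [contDiff_iff_contDiffAt]
  intro t
  by_cases h : |dd t| < 1 / 2
  · have h1 : (fun s => φ (dd s)) =ᶠ[𝓝 t] fun s => φ (s - round t) := by
      filter_upwards [dd_eventually h] with s hs
      rw [hs]
    refine ContDiffAt.congr_of_eventuallyEq ?_ h1
    exact (hφ.comp (contDiff_id.sub contDiff_const)).contDiffAt
  · have h1 : (fun s => φ (dd s)) =ᶠ[𝓝 t] fun _ => 0 := by
      have h2 : b < |dd t| := by linarith
      have h3 : ∀ᶠ s in 𝓝 t, b < |dd s| :=
        continuousAt_const.eventually_lt continuous_abs_dd.continuousAt h2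
      filter_upwards [h3] with s hs
      exact h0 _ hs.le
    exact contDiffAt_const.congr_of_eventuallyEq h1

/-- a smooth odd-like cutoff of the identity: `= t` for `|t| ≤ r`, `= 0` for `|t| ≥ (r + 1/2)/2` -/
def cutId (r : ℝ) (hr : 0 < r) (hr2 : r < 1 / 2) : ℝ → ℝ :=
  fun t => t * (⟨r, (r + 1/2)/2, hr, by linarith⟩ : ContDiffBump (0:ℝ)) t

theorem contDiff_cutId {r : ℝ} (hr : 0 < r) (hr2 : r < 1 / 2) : ContDiff ℝ ∞ (cutId r hr hr2) :=
  contDiff_id.mul (ContDiffBump.contDiff _)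

theorem cutId_eq {r : ℝ} (hr : 0 < r) (hr2 : r < 1 / 2) {t : ℝ} (ht : |t| ≤ r) :
    cutId r hr hr2 t = t := by
  unfold cutId
  rw [ContDiffBump.one_of_mem_closedBall, mul_one]
  simpa using ht

theorem cutId_zero {r : ℝ} (hr : 0 < r) (hr2 : r < 1 / 2) {t : ℝ} (ht : (r + 1/2)/2 ≤ |t|) :
    cutId r hr hr2 t = 0 := by
  unfold cutId
  rw [ContDiffBump.zero_of_le_dist, mul_zero]
  simpa using ht

/-- the smooth periodic function equal to `dd` on `|dd| ≤ r` -/
def pp (r : ℝ) (hr : 0 < r) (hr2 : r < 1 / 2) (t : ℝ) : ℝ := cutId r hr hr2 (dd t)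

theorem contDiff_pp {r : ℝ} (hr : 0 < r) (hr2 : r < 1 / 2) : ContDiff ℝ ∞ (pp r hr hr2) :=
  contDiff_comp_dd (m := ⊤) (contDiff_cutId hr hr2) (b := (r + 1/2)/2) (by linarith)
    (fun _ ht => cutId_zero hr hr2 ht)

theorem pp_eq {r : ℝ} (hr : 0 < r) (hr2 : r < 1 / 2) {t : ℝ} (ht : |dd t| ≤ r) :
    pp r hr hr2 t = dd t := cutId_eq hr hr2 ht

theorem pp_add_int {r : ℝ} (hr : 0 < r) (hr2 : r < 1 / 2) (t : ℝ) (m : ℤ) :
    pp r hr hr2 (t + m) = pp r hr hr2 t := by
  unfold pp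
  rw [dd_add_int]

theorem deriv_pp {r : ℝ} (hr : 0 < r) (hr2 : r < 1 / 2) {t : ℝ} (ht : |dd t| < r) :
    HasDerivAt (pp r hr hr2) 1 t := by
  have h1 : pp r hr hr2 =ᶠ[𝓝 t] fun s => s - round t := by
    have h2 : ∀ᶠ s in 𝓝 t, |dd s| < r :=
      continuous_abs_dd.continuousAt.eventually_lt continuousAt_const ht
    filter_upwards [h2, dd_eventually (lt_trans ht hr2)] with s hs hs2
    rw [pp_eq hr hr2 hs.le, hs2]
  refine HasDerivAt.congr_of_eventuallyEq ?_ h1
  exact (hasDerivAt_id t).sub_const _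

/-- squared periodic distance in the coordinates `J` -/
def rho2 (J : Finset (Fin n)) (x : En n) : ℝ := ∑ j ∈ J, dd (x j) ^ 2

theorem rho2_nonneg (J : Finset (Fin n)) (x : En n) : 0 ≤ rho2 J x :=
  Finset.sum_nonneg fun _ _ => sq_nonneg _

theorem continuous_rho2 (J : Finset (Fin n)) : Continuous (rho2 (n := n) J) := by
  unfold rho2
  refine continuous_finsetSum _ fun j _ => ?_
  exact continuous_dd_sq.comp (EuclideanSpace.proj (𝕜 := ℝ) j).continuous

theorem rho2_per (J : Finset (Fin n)) : IsPer (rho2 (n := n) J) := by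
  intro v hv x
  unfold rho2
  refine Finset.sum_congr rfl fun j _ => ?_
  obtain ⟨m, hm⟩ := hv j
  have : (x + v) j = x j + m := by rw [← hm]; rfl
  rw [this, dd_add_int]

theorem rho2_add_ei (J : Finset (Fin n)) {i : Fin n} (hi : i ∉ J) (x : En n) (t : ℝ) :
    rho2 J (x + t • ei i) = rho2 J x := by
  unfold rho2
  refine Finset.sum_congr rfl fun j hj => ?_
  have hji : j ≠ i := fun e => hi (e ▸ hj)
  have : (x + t • ei i) j = x j := by simp [ei, hji]
  rw [this]

theorem abs_dd_le_of_rho2 {J : Finset (Fin n)} {x : En n} {r : ℝ} (hr : 0 < r)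
    (h : rho2 J x < r ^ 2) {j : Fin n} (hj : j ∈ J) : |dd (x j)| < r := by
  have h1 : dd (x j) ^ 2 ≤ rho2 J x :=
    Finset.single_le_sum (f := fun j => dd (x j) ^ 2) (fun _ _ => sq_nonneg _) hj
  apply lt_of_pow_lt_pow_left₀ 2 hr.le
  rw [sq_abs]
  linarith

/-- the smooth periodic vector `(pp (x j))_{j ∈ J}` -/
def vv (J : Finset (Fin n)) (r : ℝ) (hr : 0 < r) (hr2 : r < 1 / 2) (x : En n) : En n :=
  ∑ j ∈ J, pp r hr hr2 (x j) • ei j

theorem sum_smul_ei_apply (J : Finset (Fin n)) (c : Fin n → ℝ) (l : Fin n) :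
    (∑ j ∈ J, c j • ei j : En n) l = if l ∈ J then c l else 0 := by
  have : (∑ j ∈ J, c j • ei j : En n) l = ∑ j ∈ J, (c j • (ei j : En n)) l := by
    simp
  rw [this]
  simp [ei]

theorem vv_apply (J : Finset (Fin n)) {r : ℝ} (hr : 0 < r) (hr2 : r < 1 / 2) (x : En n)
    (l : Fin n) : vv J r hr hr2 x l = if l ∈ J then pp r hr hr2 (x l) else 0 :=
  sum_smul_ei_apply J (fun j => pp r hr hr2 (x j)) l

theorem contDiff_vv (J : Finset (Fin n)) {r : ℝ} (hr : 0 < r) (hr2 : r < 1 / 2) :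
    ContDiff ℝ ∞ (vv (n := n) J r hr hr2) := by
  unfold vv
  refine ContDiff.sum fun j _ => ?_
  exact ((contDiff_pp hr hr2).comp (EuclideanSpace.proj (𝕜 := ℝ) j).contDiff).smul contDiff_const

theorem vv_per (J : Finset (Fin n)) {r : ℝ} (hr : 0 < r) (hr2 : r < 1 / 2) :
    IsPer (vv (n := n) J r hr hr2) := by
  intro v hv x
  unfold vv
  refine Finset.sum_congr rfl fun j _ => ?_
  obtain ⟨m, hm⟩ := hv j
  have : (x + v) j = x j + m := by rw [← hm]; rfl
  rw [this, pp_add_int]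

theorem vv_add_ei (J : Finset (Fin n)) {r : ℝ} (hr : 0 < r) (hr2 : r < 1 / 2) {i : Fin n}
    (hi : i ∉ J) (x : En n) (t : ℝ) : vv J r hr hr2 (x + t • ei i) = vv J r hr hr2 x := by
  unfold vv
  refine Finset.sum_congr rfl fun j hj => ?_
  have hji : j ≠ i := fun e => hi (e ▸ hj)
  have : (x + t • ei i) j = x j := by simp [ei, hji]
  rw [this]

theorem norm_vv_sq (J : Finset (Fin n)) {r : ℝ} (hr : 0 < r) (hr2 : r < 1 / 2) (x : En n) :
    ‖vv J r hr hr2 x‖ ^ 2 = ∑ j ∈ J, pp r hr hr2 (x j) ^ 2 := by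
  rw [EuclideanSpace.norm_sq_eq]
  simp only [vv_apply, Real.norm_eq_abs, sq_abs]
  rw [← Finset.sum_filter_add_sum_filter_not Finset.univ (· ∈ J)]
  have h1 : ∑ l ∈ Finset.univ.filter (· ∉ J), (if l ∈ J then pp r hr hr2 (x l) else 0) ^ 2 = 0 := by
    apply Finset.sum_eq_zero
    intro l hl
    rw [Finset.mem_filter] at hl
    simp [hl.2]
  rw [h1, add_zero]
  have h2 : Finset.univ.filter (· ∈ J) = J := by ext; simp
  rw [h2]
  refine Finset.sum_congr rfl fun l hl => ?_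
  simp [hl]

theorem norm_vv_sq_of_lt (J : Finset (Fin n)) {r : ℝ} (hr : 0 < r) (hr2 : r < 1 / 2) {x : En n}
    (h : rho2 J x < r ^ 2) : ‖vv J r hr hr2 x‖ ^ 2 = rho2 J x := by
  rw [norm_vv_sq]
  unfold rho2
  refine Finset.sum_congr rfl fun j hj => ?_
  rw [pp_eq hr hr2 (abs_dd_le_of_rho2 hr h hj).le]

/-- the normalising factor -/
def nf (lam : ℝ) (s : ℝ) : ℝ :=
  (1 - Real.smoothTransition ((s - lam ^ 2) / (1 - lam ^ 2)))
    + Real.smoothTransition ((s - lam ^ 2) / (1 - lam ^ 2)) / (1 + s ^ 2)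

theorem contDiff_nf (lam : ℝ) : ContDiff ℝ ∞ (nf lam) := by
  unfold nf
  have h1 : ContDiff ℝ ∞ (fun s : ℝ => Real.smoothTransition ((s - lam ^ 2) / (1 - lam ^ 2))) :=
    Real.smoothTransition.contDiff.comp ((contDiff_id.sub contDiff_const).div_const _)
  refine (contDiff_const.sub h1).add (h1.div ?_ fun s => by positivity)
  exact contDiff_const.add (contDiff_id.pow 2)

theorem nf_eq_one {lam s : ℝ} (hlam : lam ^ 2 < 1) (hs : s ≤ lam ^ 2) : nf lam s = 1 := by
  unfold nf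
  rw [Real.smoothTransition.zero_of_nonpos]
  · simp
  · exact div_nonpos_of_nonpos_of_nonneg (by linarith) (by linarith)

theorem nf_nonneg {lam s : ℝ} : 0 ≤ nf lam s := by
  unfold nf
  have h1 := Real.smoothTransition.nonneg ((s - lam ^ 2) / (1 - lam ^ 2))
  have h2 := Real.smoothTransition.le_one ((s - lam ^ 2) / (1 - lam ^ 2))
  have h3 : 0 ≤ Real.smoothTransition ((s - lam ^ 2) / (1 - lam ^ 2)) / (1 + s ^ 2) := by positivity
  linarith

theorem nf_le_one {lam s : ℝ} : nf lam s ≤ 1 := by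
  unfold nf
  have h1 := Real.smoothTransition.nonneg ((s - lam ^ 2) / (1 - lam ^ 2))
  have h3 : Real.smoothTransition ((s - lam ^ 2) / (1 - lam ^ 2)) / (1 + s ^ 2)
      ≤ Real.smoothTransition ((s - lam ^ 2) / (1 - lam ^ 2)) :=
    div_le_self h1 (by nlinarith [sq_nonneg s])
  linarith

theorem nf_sq_mul_le {lam s : ℝ} (hlam : lam ^ 2 < 1) (hs : 0 ≤ s) : nf lam s ^ 2 * s ≤ 1 := by
  rcases le_total s 1 with h | h
  · have h1 := nf_nonneg (lam := lam) (s := s)
    have h2 := nf_le_one (lam := lam) (s := s)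
    have h3 : nf lam s ^ 2 ≤ 1 := by nlinarith
    nlinarith
  · have h1 : nf lam s = 1 / (1 + s ^ 2) := by
      unfold nf
      rw [Real.smoothTransition.one_of_one_le]
      · simp
      · rw [one_le_div (by linarith)]
        linarith
    rw [h1, div_pow, one_pow, div_mul_eq_mul_div, one_mul, div_le_one (by positivity)]
    nlinarith [sq_nonneg s, sq_nonneg (s ^ 2)]

/-- the calibrating field `β_lam` -/
def beta (J : Finset (Fin n)) (r : ℝ) (hr : 0 < r) (hr2 : r < 1 / 2) (lam : ℝ) (x : En n) : En n :=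
  (nf lam (‖(lam / r) • vv J r hr hr2 x‖ ^ 2)) • ((lam / r) • vv J r hr hr2 x)

section beta

variable (J : Finset (Fin n)) {r : ℝ} (hr : 0 < r) (hr2 : r < 1 / 2) {lam : ℝ}

theorem contDiff_beta : ContDiff ℝ ∞ (beta (n := n) J r hr hr2 lam) := by
  unfold beta
  have h1 : ContDiff ℝ ∞ (fun x : En n => (lam / r) • vv J r hr hr2 x) :=
    (contDiff_vv J hr hr2).const_smul _
  exact ((contDiff_nf lam).comp (h1.norm_sq ℝ)).smul h1

theorem beta_per : IsPer (beta (n := n) J r hr hr2 lam) := by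
  intro v hv x
  unfold beta
  rw [vv_per J hr hr2 v hv x]

theorem beta_add_ei {i : Fin n} (hi : i ∉ J) (x : En n) (t : ℝ) :
    beta J r hr hr2 lam (x + t • ei i) = beta J r hr hr2 lam x := by
  unfold beta
  rw [vv_add_ei J hr hr2 hi]

theorem norm_beta_le (hlam : lam ^ 2 < 1) (x : En n) : ‖beta J r hr hr2 lam x‖ ≤ 1 := by
  unfold beta
  set w := (lam / r) • vv J r hr hr2 x
  rw [norm_smul, Real.norm_eq_abs, abs_of_nonneg nf_nonneg]
  have h1 := nf_sq_mul_le hlam (sq_nonneg ‖w‖)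
  have h2 : (nf lam (‖w‖ ^ 2) * ‖w‖) ^ 2 ≤ 1 := by rw [mul_pow]; exact h1
  have h3 : 0 ≤ nf lam (‖w‖ ^ 2) * ‖w‖ := mul_nonneg nf_nonneg (norm_nonneg _)
  nlinarith

theorem beta_eq (hlam : lam ^ 2 < 1) {x : En n} (h : rho2 J x < r ^ 2) :
    beta J r hr hr2 lam x = (lam / r) • vv J r hr hr2 x := by
  unfold beta
  rw [nf_eq_one hlam, one_smul]
  rw [norm_smul, mul_pow, norm_vv_sq_of_lt J hr hr2 h, Real.norm_eq_abs, sq_abs, div_pow]
  rw [div_mul_eq_mul_div, div_le_iff₀ (by positivity)]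
  have := sq_nonneg lam
  nlinarith

theorem norm_beta_sq (hlam : lam ^ 2 < 1) {x : En n} (h : rho2 J x < r ^ 2) :
    ‖beta J r hr hr2 lam x‖ ^ 2 = (lam / r) ^ 2 * rho2 J x := by
  rw [beta_eq J hr hr2 hlam h, norm_smul, mul_pow, norm_vv_sq_of_lt J hr hr2 h, Real.norm_eq_abs,
    sq_abs]

theorem beta_apply_i (x : En n) {i : Fin n} (hi : i ∉ J) : beta J r hr hr2 lam x i = 0 := by
  unfold beta
  simp [vv_apply, hi]

theorem isOpen_D : IsOpen {x : En n | rho2 J x < r ^ 2} :=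
  isOpen_lt (continuous_rho2 J) continuous_const

theorem divergence_beta (hlam : lam ^ 2 < 1) {x : En n} (h : rho2 J x < r ^ 2) :
    divergence (beta J r hr hr2 lam) x = lam / r * J.card := by
  have h1 : beta J r hr hr2 lam =ᶠ[𝓝 x] fun y => (lam / r) • vv J r hr hr2 y := by
    filter_upwards [(isOpen_D J).mem_nhds h] with y hy
    exact beta_eq J hr hr2 hlam hy
  have h2 : ∀ j ∈ J, HasFDerivAt (fun y : En n => pp r hr hr2 (y j) • (ei j : En n))
      ((((1 : ℝ) • (EuclideanSpace.proj (𝕜 := ℝ) j : En n →L[ℝ] ℝ))).smulRight (ei j)) x := by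
    intro j hj
    have h3 : HasDerivAt (pp r hr hr2) 1 ((EuclideanSpace.proj (𝕜 := ℝ) j : En n →L[ℝ] ℝ) x) :=
      deriv_pp hr hr2 (abs_dd_le_of_rho2 hr h hj)
    have h4 := h3.comp_hasFDerivAt x ((EuclideanSpace.proj (𝕜 := ℝ) j : En n →L[ℝ] ℝ).hasFDerivAt)
    exact h4.smul_const (ei j)
  have h5 : HasFDerivAt (vv J r hr hr2)
      (∑ j ∈ J, (((1 : ℝ) • (EuclideanSpace.proj (𝕜 := ℝ) j : En n →L[ℝ] ℝ))).smulRight (ei j)) x := by
    unfold vv
    exact HasFDerivAt.fun_sum h2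
  have h6 := (h5.const_smul (lam / r)).congr_of_eventuallyEq h1
  unfold divergence
  rw [h6.fderiv]
  have h7 : ∀ l : Fin n, (((lam / r) • ∑ j ∈ J, (((1 : ℝ) • (EuclideanSpace.proj (𝕜 := ℝ) j :
      En n →L[ℝ] ℝ))).smulRight (ei j)) (EuclideanSpace.single l (1:ℝ))) l
      = if l ∈ J then lam / r else 0 := by
    intro l
    simp only [smul_apply, sum_apply, ContinuousLinearMap.smulRight_apply, one_smul,
      PiLp.smul_apply, smul_eq_mul]
    rw [sum_smul_ei_apply J (fun j => (EuclideanSpace.proj (𝕜 := ℝ) j : En n →L[ℝ] ℝ)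
      (EuclideanSpace.single l (1:ℝ))) l]
    split_ifs <;> simp
  simp only [h7]
  rw [Finset.sum_ite_mem]
  simp [mul_comm]

end beta

end Crest.Agent.R214.Rig
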