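import Crest.Agent.R214.Cell

set_option autoImplicit false

/-! Row 214, Lemma A: mollification of a periodic set of finite perimeter. -/

open MeasureTheory Set Filter Topology Crest.GeometryTopology.PeriodicPerimeter
open scoped ContDiff Convolution

noncomputable section

namespace Crest.Agent.R214

variable {n : ℕ}

/-- a fixed sequence of bump functions shrinking to the origin -/
def bmp (n : ℕ) (k : ℕ) : ContDiffBump (0 : En n) where
  rIn := 1 / (2 * ((k : ℝ) + 1))
  rOut := 1 / ((k : ℝ) + 1)
  rIn_pos := by positivity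
  rIn_lt_rOut := by
    have h : (0 : ℝ) < (k : ℝ) + 1 := by positivity
    rw [div_lt_div_iff₀ (by positivity) h]
    linarith

/-- the mollifying kernels -/
def ker (k : ℕ) : En n → ℝ := (bmp n k).normed volume

/-- characteristic function -/
def chi (S : Set (En n)) : En n → ℝ := S.indicator (fun _ => (1 : ℝ))

/-- the mollification of the characteristic function of `S` -/
def moll (S : Set (En n)) (k : ℕ) : En n → ℝ :=
  (ker k) ⋆[ContinuousLinearMap.lsmul ℝ ℝ, volume] (chi S)

theorem moll_apply (S : Set (En n)) (k : ℕ) (x : En n) :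
    moll S k x = ∫ t, ker k t * chi S (x - t) := by
  simp [moll, convolution_def]

theorem chi_nonneg (S : Set (En n)) (x : En n) : 0 ≤ chi S x := by
  unfold chi
  exact Set.indicator_nonneg (fun _ _ => zero_le_one) x

theorem chi_le_one (S : Set (En n)) (x : En n) : chi S x ≤ 1 := by
  unfold chi
  by_cases h : x ∈ S <;> simp [h]

theorem measurable_chi {S : Set (En n)} (hS : MeasurableSet S) : Measurable (chi S) :=
  measurable_const.indicator hS

theorem chi_per {S : Set (En n)} (hp : IsLatticePeriodic S) : IsPer (chi S) := by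
  intro v hv x
  unfold chi
  by_cases h : x ∈ S
  · have h' : x + v ∈ S := (hp v hv x).2 h
    simp [h, h']
  · have h' : x + v ∉ S := fun h'' => h ((hp v hv x).1 h'')
    simp [h, h']

theorem locallyIntegrable_chi {S : Set (En n)} (hS : MeasurableSet S) :
    LocallyIntegrable (chi S) (volume : Measure (En n)) :=
  (locallyIntegrable_const (1 : ℝ)).indicator hS

theorem ker_nonneg (k : ℕ) (x : En n) : 0 ≤ ker k x := (bmp n k).nonneg_normed x

theorem integrable_ker (k : ℕ) : Integrable (ker (n := n) k) := (bmp n k).integrable_normed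

theorem integral_ker (k : ℕ) : ∫ x : En n, ker k x = 1 := (bmp n k).integral_normed

theorem continuous_ker (k : ℕ) : Continuous (ker (n := n) k) := (bmp n k).continuous_normed

theorem contDiff_moll {S : Set (En n)} (hS : MeasurableSet S) (k : ℕ) :
    ContDiff ℝ ∞ (moll S k) :=
  HasCompactSupport.contDiff_convolution_left _ (bmp n k).hasCompactSupport_normed
    (bmp n k).contDiff_normed (locallyIntegrable_chi hS)

theorem moll_per {S : Set (En n)} (hp : IsLatticePeriodic S) (k : ℕ) : IsPer (moll S k) := by
  intro v hv x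
  rw [moll_apply, moll_apply]
  congr 1
  funext t
  have : x + v - t = (x - t) + v := by abel
  rw [this, chi_per hp v hv]

theorem integrable_ker_mul_chi {S : Set (En n)} (hS : MeasurableSet S) (k : ℕ) (x : En n) :
    Integrable (fun t => ker k t * chi S (x - t)) := by
  refine (integrable_ker (n := n) k).mul_bdd (c := 1) ?_ ?_
  · exact ((measurable_chi hS).comp (measurable_const.sub measurable_id)).aestronglyMeasurable
  · refine Eventually.of_forall fun t => ?_
    rw [Real.norm_eq_abs, abs_of_nonneg (chi_nonneg S _)]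
    exact chi_le_one S _

theorem moll_nonneg (S : Set (En n)) (k : ℕ) (x : En n) : 0 ≤ moll S k x := by
  rw [moll_apply]
  exact integral_nonneg fun t => mul_nonneg (ker_nonneg k t) (chi_nonneg S _)

theorem moll_le_one {S : Set (En n)} (hS : MeasurableSet S) (k : ℕ) (x : En n) :
    moll S k x ≤ 1 := by
  rw [moll_apply, ← integral_ker (n := n) k]
  refine integral_mono (integrable_ker_mul_chi hS k x) (integrable_ker k) fun t => ?_
  exact mul_le_of_le_one_right (ker_nonneg k t) (chi_le_one S _)

theorem ae_tendsto_moll {S : Set (En n)} (hS : MeasurableSet S) :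
    ∀ᵐ x : En n, Tendsto (fun k => moll S k x) atTop (𝓝 (chi S x)) := by
  have h1 : Tendsto (fun k : ℕ => (bmp n k).rOut) atTop (𝓝 0) :=
    tendsto_one_div_add_atTop_nhds_zero_nat
  refine ContDiffBump.ae_convolution_tendsto_right_of_locallyIntegrable (K := 2) h1 ?_
    (locallyIntegrable_chi hS)
  refine Eventually.of_forall fun k => ?_
  change 1 / ((k : ℝ) + 1) ≤ 2 * (1 / (2 * ((k : ℝ) + 1)))
  have : (0 : ℝ) < (k : ℝ) + 1 := by positivity
  apply le_of_eq
  field_simp

/-- translates of admissible fields are admissible -/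
theorem IsAdmissibleField.translate {ψ : En n → En n} (h : IsAdmissibleField ψ) (t : En n) :
    IsAdmissibleField (fun x => ψ (x + t)) := by
  refine ⟨h.1.comp (contDiff_id.add contDiff_const), ?_, fun x => h.2.2 _⟩
  intro v hv x
  have : x + v + t = (x + t) + v := by abel
  simp only [this]
  exact h.2.1 v hv _

theorem divergence_translate (ψ : En n → En n) (t x : En n) :
    divergence (fun y => ψ (y + t)) x = divergence ψ (x + t) := by
  unfold divergence
  rw [fderiv_comp_add_right]

theorem continuous_divergence {ψ : En n → En n} (h : ContDiff ℝ 1 ψ) :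
    Continuous (divergence ψ) := by
  unfold divergence
  refine continuous_finsetSum _ fun i _ => ?_
  have h1 : Continuous (fun x => fderiv ℝ ψ x (EuclideanSpace.single i 1)) :=
    (h.continuous_fderiv one_ne_zero).clm_apply continuous_const
  exact (EuclideanSpace.proj (𝕜 := ℝ) i).continuous.comp h1

theorem IsPer.divergence {ψ : En n → En n} (h : IsPer ψ) : IsPer (divergence ψ) := by
  intro v hv x
  have := h.fderiv v hv x
  simp only at this
  simp only [Crest.GeometryTopology.PeriodicPerimeter.divergence, this]

theorem integral_le_perimeter {S : Set (En n)} (hP : periodicPerimeter S ≠ ⊤)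
    {ψ : En n → En n} (h : IsAdmissibleField ψ) :
    ∫ x in S ∩ unitCell n, divergence ψ x ≤ (periodicPerimeter S).toReal := by
  have h1 : ENNReal.ofReal (∫ x in S ∩ unitCell n, divergence ψ x) ≤ periodicPerimeter S :=
    le_iSup (fun φ : {φ : En n → En n // IsAdmissibleField φ} =>
      ENNReal.ofReal (∫ x in S ∩ unitCell n, divergence φ.1 x)) ⟨ψ, h⟩
  exact (ENNReal.ofReal_le_iff_le_toReal hP).1 h1

theorem integral_chi_mul {S : Set (En n)} (hS : MeasurableSet S) (g : En n → ℝ) :
    ∫ x in unitCell n, chi S x * g x = ∫ x in S ∩ unitCell n, g x := by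
  have : (fun x => chi S x * g x) = S.indicator g := by
    funext x
    unfold chi
    by_cases h : x ∈ S <;> simp [h]
  rw [this, setIntegral_indicator hS, Set.inter_comm]

/-- duality estimate for the mollified function -/
theorem integral_moll_mul_divergence_le {S : Set (En n)} (hS : MeasurableSet S)
    (hp : IsLatticePeriodic S) (hP : periodicPerimeter S ≠ ⊤) (k : ℕ)
    {ψ : En n → En n} (h : IsAdmissibleField ψ) :
    ∫ x in unitCell n, moll S k x * divergence ψ x ≤ (periodicPerimeter S).toReal := by
  have hDc : Continuous (divergence ψ) := continuous_divergence h.1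
  have hDp : IsPer (divergence ψ) := IsPer.divergence h.2.1
  obtain ⟨C, hC⟩ := hDp.exists_bound hDc
  have hint : Integrable (Function.uncurry fun x t => ker k t * chi S (x - t) * divergence ψ x)
      (((volume : Measure (En n)).restrict (unitCell n)).prod volume) := by
    have hk : Integrable (fun z : En n × En n => ker k z.2)
        (((volume : Measure (En n)).restrict (unitCell n)).prod volume) :=
      (integrable_ker k).comp_snd _
    have hm1 : Measurable (fun z : En n × En n => chi S (z.1 - z.2) * divergence ψ z.1) :=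
      ((measurable_chi hS).comp (measurable_fst.sub measurable_snd)).mul
        (hDc.measurable.comp measurable_fst)
    have := hk.mul_bdd (c := C) hm1.aestronglyMeasurable
      (Eventually.of_forall fun z => by
        rw [norm_mul]
        calc ‖chi S (z.1 - z.2)‖ * ‖divergence ψ z.1‖ ≤ 1 * C := by
              apply mul_le_mul _ (hC _) (norm_nonneg _) zero_le_one
              rw [Real.norm_eq_abs, abs_of_nonneg (chi_nonneg S _)]
              exact chi_le_one S _
          _ = C := one_mul C)
    refine this.congr (Eventually.of_forall fun z => ?_)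
    simp only [Function.uncurry]
    ring
  have h1 : ∫ x in unitCell n, moll S k x * divergence ψ x
      = ∫ t, ∫ x in unitCell n, ker k t * chi S (x - t) * divergence ψ x := by
    rw [← integral_integral_swap hint]
    congr 1
    funext x
    rw [moll_apply, ← integral_mul_const]
  have h2 : ∀ t : En n, ∫ x in unitCell n, ker k t * chi S (x - t) * divergence ψ x
      ≤ ker k t * (periodicPerimeter S).toReal := by
    intro t
    have h3 : ∫ x in unitCell n, chi S (x - t) * divergence ψ x
        = ∫ x in S ∩ unitCell n, divergence (fun y => ψ (y + t)) x := by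
      have hG : IsPer (fun x => chi S x * divergence ψ (x + t)) := by
        intro v hv x
        have e : x + v + t = (x + t) + v := by abel
        simp only
        rw [e, hDp v hv, chi_per hp v hv]
      have h4 := integral_cell_add hG (-t)
      simp only [divergence_translate]
      rw [← integral_chi_mul hS (fun x => divergence ψ (x + t)), ← h4]
      congr 1
      funext x
      simp [sub_eq_add_neg]
    have h5 : ∫ x in unitCell n, ker k t * chi S (x - t) * divergence ψ x
        = ker k t * ∫ x in unitCell n, chi S (x - t) * divergence ψ x := by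
      rw [← integral_const_mul]
      congr 1
      funext x
      ring
    rw [h5, h3]
    exact mul_le_mul_of_nonneg_left (integral_le_perimeter hP (IsAdmissibleField.translate h t)) (ker_nonneg k t)
  rw [h1]
  calc ∫ t, ∫ x in unitCell n, ker k t * chi S (x - t) * divergence ψ x
      ≤ ∫ t : En n, ker k t * (periodicPerimeter S).toReal :=
        integral_mono hint.integral_prod_right ((integrable_ker k).mul_const _) h2
    _ = (periodicPerimeter S).toReal := by
        rw [integral_mul_const, integral_ker, one_mul]

/-- integration by parts on the torus -/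
theorem integral_mul_divergence {f : En n → ℝ} (hf : ContDiff ℝ 1 f) (hfp : IsPer f)
    {ψ : En n → En n} (h : ContDiff ℝ 1 ψ) (hψ : IsPer ψ) :
    ∫ x in unitCell n, f x * divergence ψ x = - ∫ x in unitCell n, fderiv ℝ f x (ψ x) := by
  have hcoord : ∀ i : Fin n, ContDiff ℝ 1 (fun x => ψ x i) := fun i =>
    (EuclideanSpace.proj (𝕜 := ℝ) i).contDiff.comp h
  have h1 : ∀ i : Fin n, ∫ x in unitCell n,
      fderiv ℝ (fun y => f y * ψ y i) x (EuclideanSpace.single i 1) = 0 := fun i =>
    integral_cell_fderiv_eq_zero (fun v hv x => by simp only [hfp v hv x, hψ v hv x])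
      (hf.mul (hcoord i)) _
  have h2 : ∀ (i : Fin n) (x : En n),
      fderiv ℝ (fun y => f y * ψ y i) x (EuclideanSpace.single i 1)
        = f x * fderiv ℝ ψ x (EuclideanSpace.single i 1) i
          + ψ x i * fderiv ℝ f x (EuclideanSpace.single i 1) := by
    intro i x
    have d1 : HasFDerivAt f (fderiv ℝ f x) x := (hf.differentiable one_ne_zero x).hasFDerivAt
    have d2 : HasFDerivAt ψ (fderiv ℝ ψ x) x := (h.differentiable one_ne_zero x).hasFDerivAt
    have d3 : HasFDerivAt (fun y => ψ y i)
        ((EuclideanSpace.proj (𝕜 := ℝ) i).comp (fderiv ℝ ψ x)) x :=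
      (EuclideanSpace.proj (𝕜 := ℝ) i).hasFDerivAt.comp x d2
    have d4 : HasFDerivAt (fun y => f y * ψ y i) _ x := d1.mul d3
    rw [d4.fderiv]
    simp
  have h3 : ∀ x : En n, ∑ i, fderiv ℝ (fun y => f y * ψ y i) x (EuclideanSpace.single i 1)
      = f x * divergence ψ x + fderiv ℝ f x (ψ x) := by
    intro x
    simp only [h2, Finset.sum_add_distrib]
    congr 1
    · rw [divergence, Finset.mul_sum]
    · have hx : ψ x = ∑ i, ψ x i • (EuclideanSpace.single i (1 : ℝ) : En n) := by
        ext j
        simp [Pi.single_apply]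
      conv_rhs => rw [hx]
      rw [map_sum]
      simp
  have hi1 : Integrable (fun x => f x * divergence ψ x)
      ((volume : Measure (En n)).restrict (unitCell n)) := by
    refine IsPer.integrableOn (F := fun x => f x * divergence ψ x) ?_
      (hf.continuous.mul (continuous_divergence h))
    intro v hv x
    simp only [hfp v hv x, IsPer.divergence hψ v hv x]
  have hi2 : Integrable (fun x => fderiv ℝ f x (ψ x))
      ((volume : Measure (En n)).restrict (unitCell n)) := by
    refine IsPer.integrableOn (F := fun x => fderiv ℝ f x (ψ x)) ?_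
      ((hf.continuous_fderiv one_ne_zero).clm_apply h.continuous)
    intro v hv x
    have := hfp.fderiv v hv x
    simp only at this ⊢
    rw [this, hψ v hv x]
  have h4 : ∫ x in unitCell n, (f x * divergence ψ x + fderiv ℝ f x (ψ x)) = 0 := by
    simp only [← h3]
    rw [integral_finsetSum]
    · exact Finset.sum_eq_zero fun i _ => h1 i
    · intro i _
      refine IsPer.integrableOn
        (F := fun x => fderiv ℝ (fun y => f y * ψ y i) x (EuclideanSpace.single i 1)) ?_ ?_
      · intro v hv x
        have hp : IsPer (fun y => f y * ψ y i) := fun v hv x => by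
          simp only [hfp v hv x, hψ v hv x]
        have := hp.fderiv v hv x
        simp only at this ⊢
        rw [this]
      · exact ((hf.mul (hcoord i)).continuous_fderiv one_ne_zero).clm_apply continuous_const
  rw [integral_add hi1 hi2] at h4
  linarith

/-- the gradient of a `C^∞` function -/
def grad (f : En n → ℝ) (x : En n) : En n :=
  (InnerProductSpace.toDual ℝ (En n)).symm (fderiv ℝ f x)

theorem norm_grad (f : En n → ℝ) (x : En n) : ‖grad f x‖ = ‖fderiv ℝ f x‖ := by
  simp [grad]

theorem fderiv_grad (f : En n → ℝ) (x : En n) : fderiv ℝ f x (grad f x) = ‖fderiv ℝ f x‖ ^ 2 := by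
  have h : fderiv ℝ f x (grad f x) = inner ℝ (grad f x) (grad f x) := by
    rw [grad, InnerProductSpace.toDual_symm_apply]
  rw [h, real_inner_self_eq_norm_sq, norm_grad]

theorem contDiff_grad {f : En n → ℝ} (hf : ContDiff ℝ ∞ f) : ContDiff ℝ 1 (grad f) := by
  unfold grad
  have h1 : ContDiff ℝ 1 (fun x => fderiv ℝ f x) := hf.fderiv_right (m := 1) (by norm_cast)
  exact ((InnerProductSpace.toDual ℝ (En n)).symm.toContinuousLinearEquiv.contDiff).comp h1

theorem IsPer.grad {f : En n → ℝ} (hf : IsPer f) : IsPer (grad f) := by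
  intro v hv x
  have := hf.fderiv v hv x
  simp only at this
  simp only [R214.grad, this]

/-- a smooth periodic function tested against all admissible fields controls its total variation -/
theorem integral_norm_fderiv_le {f : En n → ℝ} (hf : ContDiff ℝ ∞ f) (hp : IsPer f) {P : ℝ}
    (hP : ∀ ψ : En n → En n, IsAdmissibleField ψ →
      ∫ x in unitCell n, f x * divergence ψ x ≤ P) :
    ∫ x in unitCell n, ‖fderiv ℝ f x‖ ≤ P := by
  refine le_of_forall_pos_le_add fun δ hδ => ?_
  set q : En n → ℝ := fun x => Real.sqrt (‖grad f x‖ ^ 2 + δ ^ 2) with hq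
  have hqpos : ∀ x, 0 < q x := fun x => Real.sqrt_pos.2 (by positivity)
  have hg := contDiff_grad hf
  have hqc : ContDiff ℝ 1 q := by
    refine ContDiff.sqrt ?_ (fun x => by positivity)
    exact (hg.norm_sq ℝ).add contDiff_const
  set ψ : En n → En n := fun x => -((q x)⁻¹ • grad f x) with hψ
  have hadm : IsAdmissibleField ψ := by
    refine ⟨?_, ?_, ?_⟩
    · exact ((hqc.inv fun x => (hqpos x).ne').smul hg).neg
    · intro v hv x
      have := hp.grad v hv x
      simp only [hψ, hq, this]
    · intro x
      rw [hψ]
      simp only [norm_neg, norm_smul, norm_inv, Real.norm_eq_abs, abs_of_pos (hqpos x)]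
      rw [inv_mul_le_one₀ (hqpos x)]
      apply Real.le_sqrt_of_sq_le
      nlinarith [sq_nonneg δ]
  have h1 := hP ψ hadm
  have hf1 : ContDiff ℝ 1 f := hf.of_le (by norm_cast)
  rw [integral_mul_divergence hf1 hp hadm.1 hadm.2.1] at h1
  have h2 : ∀ x, -(fderiv ℝ f x (ψ x)) = ‖fderiv ℝ f x‖ ^ 2 / q x := by
    intro x
    simp only [hψ, map_neg, map_smul, fderiv_grad, smul_eq_mul, neg_neg]
    field_simp
  have h3 : ∀ x, ‖fderiv ℝ f x‖ - δ ≤ -(fderiv ℝ f x (ψ x)) := by
    intro x
    rw [h2, le_div_iff₀ (hqpos x)]
    have h4 : q x ≤ ‖fderiv ℝ f x‖ + δ := by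
      rw [hq]
      simp only [norm_grad]
      apply Real.sqrt_le_iff.2
      constructor
      · positivity
      · nlinarith [norm_nonneg (fderiv ℝ f x)]
    by_cases h5 : ‖fderiv ℝ f x‖ - δ ≤ 0
    · have := hqpos x
      nlinarith [sq_nonneg ‖fderiv ℝ f x‖]
    · push Not at h5
      calc (‖fderiv ℝ f x‖ - δ) * q x ≤ (‖fderiv ℝ f x‖ - δ) * (‖fderiv ℝ f x‖ + δ) :=
            mul_le_mul_of_nonneg_left h4 h5.le
        _ ≤ ‖fderiv ℝ f x‖ ^ 2 := by nlinarith [sq_nonneg δ]
  have hi : Integrable (fun x => ‖fderiv ℝ f x‖) ((volume : Measure (En n)).restrict (unitCell n)) := by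
    refine IsPer.integrableOn (F := fun x => ‖fderiv ℝ f x‖) ?_
      (hf1.continuous_fderiv one_ne_zero).norm
    intro v hv x
    have := hp.fderiv v hv x
    simp only at this ⊢
    rw [this]
  have hi2 : Integrable (fun x => -(fderiv ℝ f x (ψ x)))
      ((volume : Measure (En n)).restrict (unitCell n)) := by
    refine IsPer.integrableOn (F := fun x => -(fderiv ℝ f x (ψ x))) ?_
      ((hf1.continuous_fderiv one_ne_zero).clm_apply hadm.1.continuous).neg
    intro v hv x
    have := hp.fderiv v hv x
    simp only at this ⊢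
    rw [this, hadm.2.1 v hv x]
  have h6 : ∫ x in unitCell n, (‖fderiv ℝ f x‖ - δ)
      ≤ ∫ x in unitCell n, -(fderiv ℝ f x (ψ x)) :=
    integral_mono (hi.sub (integrable_const δ)) hi2 h3
  rw [integral_sub hi (integrable_const δ), integral_neg] at h6
  simp only [integral_const, smul_eq_mul] at h6
  have h7 : ((volume : Measure (En n)).restrict (unitCell n)).real Set.univ = 1 := by
    simp
  rw [h7, one_mul] at h6
  linarith

/-- the total variation of the mollification is at most the perimeter -/
theorem integral_norm_fderiv_moll_le {S : Set (En n)} (hS : MeasurableSet S)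
    (hp : IsLatticePeriodic S) (hP : periodicPerimeter S ≠ ⊤) (k : ℕ) :
    ∫ x in unitCell n, ‖fderiv ℝ (moll S k) x‖ ≤ (periodicPerimeter S).toReal :=
  integral_norm_fderiv_le (contDiff_moll hS k) (moll_per hp k) fun _ h =>
    integral_moll_mul_divergence_le hS hp hP k h

/-- LEMMA A, packaged. -/
theorem exists_mollification {S : Set (En n)} (hS : MeasurableSet S)
    (hp : IsLatticePeriodic S) (hP : periodicPerimeter S ≠ ⊤) :
    ∃ f : ℕ → En n → ℝ, (∀ k, ContDiff ℝ ∞ (f k)) ∧ (∀ k, IsPer (f k)) ∧
      (∀ k x, 0 ≤ f k x) ∧ (∀ k x, f k x ≤ 1) ∧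
      (∀ᵐ x : En n, Tendsto (fun k => f k x) atTop (𝓝 (chi S x))) ∧
      (∀ k, ∫ x in unitCell n, ‖fderiv ℝ (f k) x‖ ≤ (periodicPerimeter S).toReal) :=
  ⟨moll S, contDiff_moll hS, moll_per hp, moll_nonneg S, moll_le_one hS, ae_tendsto_moll hS,
    integral_norm_fderiv_moll_le hS hp hP⟩

/-- testing against bounded measurable fields -/
theorem neg_integral_fderiv_apply_le {f : En n → ℝ} (hf : ContDiff ℝ ∞ f) (hp : IsPer f) {P : ℝ}
    (hP : ∫ x in unitCell n, ‖fderiv ℝ f x‖ ≤ P)
    {Φ : En n → En n} (hΦ : ∀ x, ‖Φ x‖ ≤ 1) :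
    -∫ x in unitCell n, fderiv ℝ f x (Φ x) ≤ P := by
  have hf1 : ContDiff ℝ 1 f := hf.of_le (by norm_cast)
  have hi : Integrable (fun x => ‖fderiv ℝ f x‖) ((volume : Measure (En n)).restrict (unitCell n)) := by
    refine IsPer.integrableOn (F := fun x => ‖fderiv ℝ f x‖) ?_
      (hf1.continuous_fderiv one_ne_zero).norm
    intro v hv x
    have := hp.fderiv v hv x
    simp only at this ⊢
    rw [this]
  refine le_trans ?_ hP
  refine le_trans (neg_le_abs _) ?_
  rw [← Real.norm_eq_abs]
  refine le_trans (norm_integral_le_integral_norm _) ?_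
  refine integral_mono_of_nonneg (Eventually.of_forall fun x => norm_nonneg _) hi
    (Eventually.of_forall fun x => ?_)
  calc ‖fderiv ℝ f x (Φ x)‖ ≤ ‖fderiv ℝ f x‖ * ‖Φ x‖ := (fderiv ℝ f x).le_opNorm _
    _ ≤ ‖fderiv ℝ f x‖ * 1 := mul_le_mul_of_nonneg_left (hΦ x) (norm_nonneg _)
    _ = ‖fderiv ℝ f x‖ := mul_one _

end Crest.Agent.R214
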