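import Mathlib
import Crest.Prelude.Def_PeriodicPerimeter
import Crest.Agent.R214.PerBasic

/-!
# R214: fibres in a coordinate direction, Steiner symmetrisation (structure)
-/

open MeasureTheory Crest.GeometryTopology.PeriodicPerimeter
open scoped Pointwise

namespace Crest.Agent.R214

variable {n : ℕ}

/-- coordinate vector -/
noncomputable def ev (i : Fin n) : EuclideanSpace ℝ (Fin n) := EuclideanSpace.single i 1

@[simp] theorem ev_self (i : Fin n) : ev i i = 1 := by simp [ev]

@[simp] theorem ev_ne {i j : Fin n} (h : j ≠ i) : ev i j = 0 := by simp [ev, h]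

theorem ev_apply (i j : Fin n) : ev i j = if j = i then 1 else 0 := by
  by_cases h : j = i
  · subst h; simp
  · simp [h]

theorem norm_ev (i : Fin n) : ‖ev i‖ = 1 := by simp [ev]

theorem hasIntegerCoords_ev (i : Fin n) : HasIntegerCoords (ev i) := by
  intro j
  by_cases h : j = i
  · subst h; exact ⟨1, by simp⟩
  · exact ⟨0, by simp [h]⟩

theorem hasIntegerCoords_int_smul_ev (i : Fin n) (m : ℤ) : HasIntegerCoords ((m : ℝ) • ev i) := by
  intro j
  by_cases h : j = i
  · subst h; exact ⟨m, by simp⟩
  · exact ⟨0, by simp [h]⟩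

/-- projection killing the `i`-th coordinate -/
noncomputable def pr (i : Fin n) (x : EuclideanSpace ℝ (Fin n)) : EuclideanSpace ℝ (Fin n) :=
  x - x i • ev i

theorem continuous_pr (i : Fin n) : Continuous (pr i) := by
  unfold pr; fun_prop

@[simp] theorem pr_apply_self (i : Fin n) (x : EuclideanSpace ℝ (Fin n)) : pr i x i = 0 := by
  simp [pr]

@[simp] theorem pr_apply_ne {i j : Fin n} (h : j ≠ i) (x : EuclideanSpace ℝ (Fin n)) :
    pr i x j = x j := by
  simp [pr, h]

theorem pr_add_smul_ev (i : Fin n) (x : EuclideanSpace ℝ (Fin n)) (t : ℝ) :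
    pr i (x + t • ev i) = pr i x := by
  ext j
  by_cases h : j = i
  · subst h; simp
  · simp [h]

theorem pr_add_smul_ev_ne {i j : Fin n} (h : j ≠ i) (x : EuclideanSpace ℝ (Fin n)) (t : ℝ) :
    pr i (x + t • ev j) = pr i x + t • ev j := by
  ext k
  by_cases hk : k = i
  · subst hk; simp [ev_ne h.symm]
  · simp [hk]

theorem add_smul_eq_pr (i : Fin n) (x : EuclideanSpace ℝ (Fin n)) (t : ℝ) :
    x + t • ev i = pr i x + (x i + t) • ev i := by
  unfold pr; rw [add_smul]; abel

/-- average over fibres -/
theorem cell_avg {f : EuclideanSpace ℝ (Fin n) → ℝ} (hf : BMP f) (i : Fin n) :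
    ∫ x in unitCell n, f x = ∫ x in unitCell n, ∫ t in (0:ℝ)..1, f (x + t • ev i) := by
  obtain ⟨C, hC⟩ := hf.bdd
  have h1 : ∀ t : ℝ, ∫ x in unitCell n, f (x + t • ev i) = ∫ x in unitCell n, f x :=
    fun t => hf.integral_translate (t • ev i)
  have h2 : ∫ x in unitCell n, f x
      = ∫ t in Set.Ioc (0:ℝ) 1, ∫ x in unitCell n, f (x + t • ev i) := by
    simp_rw [h1]
    simp
  rw [h2, integral_integral_swap]
  · simp_rw [intervalIntegral.integral_of_le (zero_le_one' ℝ)]
  · apply Integrable.of_bound (C := C)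
    · apply Measurable.aestronglyMeasurable
      have := hf.meas
      have h3 : Measurable fun p : ℝ × EuclideanSpace ℝ (Fin n) => p.2 + p.1 • ev i := by fun_prop
      exact hf.meas.comp h3
    · exact Filter.Eventually.of_forall fun p => hC _

theorem measurable_fiber_integral {f : EuclideanSpace ℝ (Fin n) → ℝ} (hf : Measurable f)
    (i : Fin n) (a b : ℝ) (hab : a ≤ b) : Measurable fun x => ∫ t in a..b, f (x + t • ev i) := by
  have h3 : Measurable fun p : EuclideanSpace ℝ (Fin n) × ℝ => f (p.1 + p.2 • ev i) :=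
    hf.comp (by fun_prop)
  simp_rw [intervalIntegral.integral_of_le hab]
  exact (h3.stronglyMeasurable.integral_prod_right').measurable

/-- periodic function restricted to a fibre -/
theorem fiber_periodic {F : Type*} {f : EuclideanSpace ℝ (Fin n) → F}
    (hf : ∀ v, HasIntegerCoords v → ∀ x, f (x + v) = f x) (i : Fin n)
    (x : EuclideanSpace ℝ (Fin n)) : Function.Periodic (fun t : ℝ => f (x + t • ev i)) 1 := by
  intro t
  simp only
  rw [add_smul, one_smul, ← add_assoc, hf _ (hasIntegerCoords_ev i)]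

/-- invariance along the `i`-th direction -/
def FInv (i : Fin n) {F : Type*} (f : EuclideanSpace ℝ (Fin n) → F) : Prop :=
  ∀ x (t : ℝ), f (x + t • ev i) = f x

theorem FInv.pr {i : Fin n} {F : Type*} {f : EuclideanSpace ℝ (Fin n) → F} (hf : FInv i f) (x) :
    f (pr i x) = f x := by
  have := hf x (-x i)
  rw [← this]; congr 1; unfold R214.pr; rw [neg_smul, sub_eq_add_neg]

theorem FInv.congr {i : Fin n} {F : Type*} {f : EuclideanSpace ℝ (Fin n) → F} (hf : FInv i f)
    {x y : EuclideanSpace ℝ (Fin n)} (h : ∀ j, j ≠ i → x j = y j) : f x = f y := by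
  rw [← hf.pr x, ← hf.pr y]
  congr 1
  ext j
  by_cases hj : j = i
  · subst hj; simp
  · simp [hj, h j hj]

theorem avg_inv {f : EuclideanSpace ℝ (Fin n) → ℝ}
    (hf : ∀ v, HasIntegerCoords v → ∀ x, f (x + v) = f x) (i : Fin n) :
    FInv i (fun x => ∫ t in (0:ℝ)..1, f (x + t • ev i)) := by
  intro x s
  simp only
  have h1 : ∀ t : ℝ, x + s • ev i + t • ev i = x + (t + s) • ev i := by
    intro t; rw [add_smul]; abel
  simp_rw [h1]
  rw [intervalIntegral.integral_comp_add_right (fun t => f (x + t • ev i)) s]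
  have := (fiber_periodic hf i x).intervalIntegral_add_eq 0 s
  simp only [zero_add] at this ⊢
  rw [this, add_comm]

theorem round_of_mem {τ : ℝ} (h : τ ∈ Set.Ico (-(1/2 : ℝ)) (1/2)) : round τ = 0 := by
  rw [round_eq, Int.floor_eq_iff]
  constructor
  · push_cast; linarith [h.1]
  · push_cast; linarith [h.2]

theorem round_add_one' (τ : ℝ) : |τ + 1 - round (τ + 1)| = |τ - round τ| := by
  rw [round_add_one]; push_cast; congr 1; ring

/-- the region which is a centred arc of length `u x` in each fibre -/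
def region (i : Fin n) (u : EuclideanSpace ℝ (Fin n) → ℝ) : Set (EuclideanSpace ℝ (Fin n)) :=
  {x : EuclideanSpace ℝ (Fin n) | |x i - ((round (x i) : ℤ) : ℝ)| < u x / 2}

theorem mem_region {i : Fin n} {u : EuclideanSpace ℝ (Fin n) → ℝ} {x : EuclideanSpace ℝ (Fin n)} :
    x ∈ region i u ↔ |x i - ((round (x i) : ℤ) : ℝ)| < u x / 2 := Iff.rfl

theorem measurable_abs_sub_round (i : Fin n) :
    Measurable fun x : EuclideanSpace ℝ (Fin n) => |x i - ((round (x i) : ℤ) : ℝ)| := by
  have : Measurable fun y : ℝ => |y - ((round y : ℤ) : ℝ)| := by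
    simp_rw [round_eq]
    fun_prop
  exact this.comp (by fun_prop)

theorem measurableSet_region (i : Fin n) {u : EuclideanSpace ℝ (Fin n) → ℝ} (hu : Measurable u) :
    MeasurableSet (region i u) :=
  measurableSet_lt (measurable_abs_sub_round i) (hu.div_const 2)

theorem region_periodic (i : Fin n) {u : EuclideanSpace ℝ (Fin n) → ℝ}
    (hu : ∀ v, HasIntegerCoords v → ∀ x, u (x + v) = u x) : IsLatticePeriodic (region i u) := by
  intro v hv x
  obtain ⟨m, hm⟩ := hv i
  rw [mem_region, mem_region, hu v hv, PiLp.add_apply, hm, round_add_intCast]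
  push_cast
  rw [show x i + (m:ℝ) - (round (x i) + m) = x i - round (x i) by ring]

/-- integral over a region which is a centred interval in each fibre -/
theorem region_integral {g u : EuclideanSpace ℝ (Fin n) → ℝ} (hg : BMP g) (i : Fin n)
    (hu : BMP u) (hinv : FInv i u) (h0 : ∀ x, 0 ≤ u x) (h1 : ∀ x, u x ≤ 1) :
    ∫ x in unitCell n, Set.indicator (region i u) g x
      = ∫ x in unitCell n, ∫ τ in (-u x / 2)..(u x / 2), g (pr i x + τ • ev i) := by
  have hms := measurableSet_region i hu.meas
  have hper := region_periodic i hu.per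
  have hbmp : BMP (Set.indicator (region i u) g) := by
    refine ⟨hg.meas.indicator hms, ?_, ?_⟩
    · obtain ⟨C, hC⟩ := hg.bdd
      refine ⟨C, fun x => ?_⟩
      unfold Set.indicator
      split_ifs
      · exact hC x
      · simpa using (abs_nonneg _).trans (hC x)
    · intro v hv x
      unfold Set.indicator
      by_cases h : x ∈ region i u
      · rw [if_pos h, if_pos ((hper v hv x).2 h), hg.per v hv]
      · rw [if_neg h, if_neg (fun h' => h ((hper v hv x).1 h'))]
  rw [cell_avg hbmp i]
  congr 1
  ext x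
  set G : ℝ → ℝ := fun τ => if |τ - round τ| < u x / 2 then g (pr i x + τ • ev i) else 0 with hG
  have hGp : Function.Periodic G 1 := by
    intro τ
    simp only [hG]
    have h5 : g (pr i x + (τ + 1) • ev i) = g (pr i x + τ • ev i) :=
      fiber_periodic hg.per i (pr i x) τ
    rw [round_add_one', h5]
  have e1 : ∀ t : ℝ, Set.indicator (region i u) g (x + t • ev i)
      = G (t + x i) := by
    intro t
    simp only [hG, Set.indicator, mem_region]
    have a1 : (x + t • ev i) i = t + x i := by simp [add_comm]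
    rw [a1, hinv x t, add_smul_eq_pr, add_comm (x i) t]
  simp_rw [e1]
  rw [intervalIntegral.integral_comp_add_right G]
  have e2 := hGp.intervalIntegral_add_eq (0 + x i) (-(1/2))
  rw [show (1:ℝ) + x i = 0 + x i + 1 by ring, e2]
  rw [intervalIntegral.integral_of_le (by norm_num), intervalIntegral.integral_of_le (by
    linarith [h0 x])]
  have e3 : ∀ τ ∈ Set.Ioo (-(1/2:ℝ)) (1/2),
      G τ = Set.indicator (Set.Ioo (-u x / 2) (u x / 2)) (fun τ => g (pr i x + τ • ev i)) τ := by
    intro τ hτ
    simp only [hG, round_of_mem ⟨hτ.1.le, hτ.2⟩, Int.cast_zero, sub_zero, Set.indicator,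
      Set.mem_Ioo, abs_lt]
    rw [show -(u x / 2) = -u x / 2 by ring]
  rw [show -(1/2 : ℝ) + 1 = 1/2 by norm_num, integral_Ioc_eq_integral_Ioo,
    setIntegral_congr_fun measurableSet_Ioo e3, integral_Ioc_eq_integral_Ioo,
    setIntegral_indicator measurableSet_Ioo]
  congr 2
  ext τ
  simp only [Set.mem_inter_iff, Set.mem_Ioo]
  constructor
  · rintro ⟨_, h⟩; exact h
  · rintro ⟨h, h'⟩
    refine ⟨⟨?_, ?_⟩, h, h'⟩ <;> linarith [h1 x]

/-- fibre length of a set -/
noncomputable def flen (i : Fin n) (S : Set (EuclideanSpace ℝ (Fin n)))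
    (x : EuclideanSpace ℝ (Fin n)) : ℝ :=
  ∫ t in (0:ℝ)..1, chi S (x + t • ev i)

/-- Steiner symmetrisation in direction `i` (periodic) -/
def steiner (i : Fin n) (S : Set (EuclideanSpace ℝ (Fin n))) :
    Set (EuclideanSpace ℝ (Fin n)) :=
  region i (flen i S)

theorem flen_nonneg (i : Fin n) (S : Set (EuclideanSpace ℝ (Fin n))) (x) : 0 ≤ flen i S x :=
  intervalIntegral.integral_nonneg zero_le_one fun _ _ => chi_nonneg S _

theorem chi_fiber_intervalIntegrable {S : Set (EuclideanSpace ℝ (Fin n))} (hS : MeasurableSet S)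
    (x y : EuclideanSpace ℝ (Fin n)) (a b : ℝ) :
    IntervalIntegrable (fun t : ℝ => chi S (x + t • y)) volume a b := by
  have h : Measurable fun t : ℝ => chi S (x + t • y) :=
    (measurable_const.indicator hS).comp (by fun_prop)
  rw [intervalIntegrable_iff]
  refine Measure.integrableOn_of_bounded (M := 1) ?_ h.aestronglyMeasurable ?_
  · simp
  · exact Filter.Eventually.of_forall fun t => by
      rw [Real.norm_eq_abs, abs_of_nonneg (chi_nonneg S _)]; exact chi_le_one S _

theorem flen_le_one (i : Fin n) {S : Set (EuclideanSpace ℝ (Fin n))} (hS : MeasurableSet S) (x) :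
    flen i S x ≤ 1 := by
  have h := intervalIntegral.integral_mono_on (zero_le_one' ℝ)
    (chi_fiber_intervalIntegrable hS x (ev i) 0 1)
    (_root_.intervalIntegrable_const (c := (1:ℝ))) (fun t _ => chi_le_one S (x + t • ev i))
  simpa [flen] using h

theorem flen_inv (i : Fin n) {S : Set (EuclideanSpace ℝ (Fin n))} (hS : MeasurableSet S)
    (hper : IsLatticePeriodic S) : FInv i (flen i S) := avg_inv (chi_bmp hS hper).per i

theorem flen_bmp (i : Fin n) {S : Set (EuclideanSpace ℝ (Fin n))} (hS : MeasurableSet S)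
    (hper : IsLatticePeriodic S) : BMP (flen i S) where
  meas := measurable_fiber_integral (chi_bmp hS hper).meas i 0 1 zero_le_one
  bdd := ⟨1, fun x => by rw [abs_of_nonneg (flen_nonneg i S x)]; exact flen_le_one i hS x⟩
  per := fun v hv x => by
    unfold flen
    congr 1
    ext t
    rw [show x + v + t • ev i = (x + t • ev i) + v by abel, (chi_bmp hS hper).per v hv]

theorem measurableSet_steiner (i : Fin n) {S : Set (EuclideanSpace ℝ (Fin n))}
    (hS : MeasurableSet S) (hper : IsLatticePeriodic S) : MeasurableSet (steiner i S) :=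
  measurableSet_region i (flen_bmp i hS hper).meas

theorem steiner_periodic (i : Fin n) {S : Set (EuclideanSpace ℝ (Fin n))}
    (hS : MeasurableSet S) (hper : IsLatticePeriodic S) : IsLatticePeriodic (steiner i S) :=
  region_periodic i (flen_bmp i hS hper).per

/-- volume of a periodic set as an integral -/
theorem integral_chi {S : Set (EuclideanSpace ℝ (Fin n))} (hS : MeasurableSet S) :
    ∫ x in unitCell n, chi S x = periodicVolume S := by
  unfold chi periodicVolume
  rw [integral_indicator hS]
  simp [Measure.real, Measure.restrict_apply, hS]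

theorem integral_flen (i : Fin n) {S : Set (EuclideanSpace ℝ (Fin n))} (hS : MeasurableSet S)
    (hper : IsLatticePeriodic S) : ∫ x in unitCell n, flen i S x = periodicVolume S := by
  rw [← integral_chi hS, cell_avg (chi_bmp hS hper) i]
  rfl

/-- Steiner symmetrisation preserves the volume -/
theorem periodicVolume_steiner (i : Fin n) {S : Set (EuclideanSpace ℝ (Fin n))}
    (hS : MeasurableSet S) (hper : IsLatticePeriodic S) :
    periodicVolume (steiner i S) = periodicVolume S := by
  rw [← integral_chi (measurableSet_steiner i hS hper), ← integral_flen i hS hper]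
  have h1 : BMP (fun _ : EuclideanSpace ℝ (Fin n) => (1:ℝ)) :=
    ⟨measurable_const, ⟨1, fun x => by simp⟩, fun _ _ _ => rfl⟩
  have := region_integral h1 i (flen_bmp i hS hper) (flen_inv i hS hper) (flen_nonneg i S)
    (flen_le_one i hS)
  have h2 : ∀ x, Set.indicator (region i (flen i S)) (fun _ => (1:ℝ)) x
      = chi (steiner i S) x := fun x => rfl
  simp_rw [h2] at this
  rw [this]
  congr 1
  ext x
  simp
  ring


theorem flen_mono (i : Fin n) {S : Set (EuclideanSpace ℝ (Fin n))} (hS : MeasurableSet S)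
    {x y : EuclideanSpace ℝ (Fin n)}
    (h : ∀ t : ℝ, x + t • ev i ∈ S → y + t • ev i ∈ S) : flen i S x ≤ flen i S y := by
  unfold flen
  apply intervalIntegral.integral_mono_on zero_le_one
    (chi_fiber_intervalIntegrable hS x (ev i) 0 1) (chi_fiber_intervalIntegrable hS y (ev i) 0 1)
  intro t _
  unfold chi Set.indicator
  by_cases h1 : x + t • ev i ∈ S
  · rw [if_pos h1, if_pos (h t h1)]
  · rw [if_neg h1]; split_ifs <;> simp

/-- `S` is symmetric decreasing (on the circle) in the `j`-th coordinate -/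
def SymDecAt (j : Fin n) (S : Set (EuclideanSpace ℝ (Fin n))) : Prop :=
  ∀ x ∈ S, ∀ y : EuclideanSpace ℝ (Fin n), (∀ k, k ≠ j → y k = x k) →
    |y j - ((round (y j) : ℤ) : ℝ)| ≤ |x j - ((round (x j) : ℤ) : ℝ)| → y ∈ S

theorem symDecAt_region (i : Fin n) {u : EuclideanSpace ℝ (Fin n) → ℝ} (hu : FInv i u) :
    SymDecAt i (region i u) := by
  intro x hx y hk hj
  rw [mem_region] at hx ⊢
  rw [hu.congr (x := y) (y := x) hk]
  exact hj.trans_lt hx

theorem symDecAt_steiner_self (i : Fin n) {S : Set (EuclideanSpace ℝ (Fin n))}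
    (hS : MeasurableSet S) (hper : IsLatticePeriodic S) : SymDecAt i (steiner i S) :=
  symDecAt_region i (flen_inv i hS hper)

/-- Steiner symmetrisation in direction `i` preserves `SymDecAt j` -/
theorem symDecAt_steiner (i j : Fin n) (hij : j ≠ i) {S : Set (EuclideanSpace ℝ (Fin n))}
    (hS : MeasurableSet S) (hper : IsLatticePeriodic S) (h : SymDecAt j S) :
    SymDecAt j (steiner i S) := by
  intro x hx y hk hj
  have hx' : |x i - ((round (x i) : ℤ) : ℝ)| < flen i S x / 2 := hx
  show |y i - ((round (y i) : ℤ) : ℝ)| < flen i S y / 2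
  rw [hk i hij.symm]
  refine hx'.trans_le ?_
  gcongr
  apply flen_mono i hS
  intro t ht
  refine h _ ht _ ?_ ?_
  · intro k hkj
    simp [hk k hkj]
  · simpa [hij] using hj

/-- fibre lengths of a region -/
theorem flen_region (i : Fin n) {u : EuclideanSpace ℝ (Fin n) → ℝ} (hu : BMP u)
    (hinv : FInv i u) (h0 : ∀ x, 0 ≤ u x) (h1 : ∀ x, u x ≤ 1) (x : EuclideanSpace ℝ (Fin n)) :
    flen i (region i u) x = u x := by
  unfold flen
  set G : ℝ → ℝ := fun τ => if |τ - round τ| < u x / 2 then 1 else 0 with hG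
  have hGp : Function.Periodic G 1 := by
    intro τ
    simp only [hG]
    rw [round_add_one']
  have e1 : ∀ t : ℝ, chi (region i u) (x + t • ev i) = G (t + x i) := by
    intro t
    simp only [hG, chi, Set.indicator, mem_region]
    have a1 : (x + t • ev i) i = t + x i := by simp [add_comm]
    rw [a1, hinv x t]
  simp_rw [e1]
  rw [intervalIntegral.integral_comp_add_right G]
  have e2 := hGp.intervalIntegral_add_eq (0 + x i) (-(1/2))
  rw [show (1:ℝ) + x i = 0 + x i + 1 by ring, e2]
  rw [intervalIntegral.integral_of_le (by norm_num)]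
  have e3 : ∀ τ ∈ Set.Ioo (-(1/2:ℝ)) (1/2),
      G τ = Set.indicator (Set.Ioo (-u x / 2) (u x / 2)) (fun τ => 1) τ := by
    intro τ hτ
    simp only [hG, round_of_mem ⟨hτ.1.le, hτ.2⟩, Int.cast_zero, sub_zero, Set.indicator,
      Set.mem_Ioo, abs_lt]
    rw [show -(u x / 2) = -u x / 2 by ring]
  rw [show -(1/2 : ℝ) + 1 = 1/2 by norm_num, integral_Ioc_eq_integral_Ioo,
    setIntegral_congr_fun measurableSet_Ioo e3,
    setIntegral_indicator measurableSet_Ioo]
  have e4 : Set.Ioo (-(1 / 2 : ℝ)) (1 / 2) ∩ Set.Ioo (-u x / 2) (u x / 2)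
      = Set.Ioo (-u x / 2) (u x / 2) := by
    ext τ
    simp only [Set.mem_inter_iff, Set.mem_Ioo]
    constructor
    · rintro ⟨_, h⟩; exact h
    · rintro ⟨h, h'⟩
      refine ⟨⟨?_, ?_⟩, h, h'⟩ <;> linarith [h1 x]
  rw [e4]
  simp only [integral_const, MeasurableSet.univ, measureReal_restrict_apply, Set.univ_inter,
    Real.volume_real_Ioo, smul_eq_mul, mul_one]
  rw [max_eq_left (by linarith [h0 x])]
  ring

/-- fibre lengths are preserved by Steiner symmetrisation -/
theorem flen_steiner (i : Fin n) {S : Set (EuclideanSpace ℝ (Fin n))} (hS : MeasurableSet S)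
    (hper : IsLatticePeriodic S) (x) : flen i (steiner i S) x = flen i S x :=
  flen_region i (flen_bmp i hS hper) (flen_inv i hS hper) (flen_nonneg i S) (flen_le_one i hS) x

end Crest.Agent.R214
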