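import Mathlib
import Crest.Prelude.Def_PeriodicPerimeter
import Crest.Agent.R214.Mollify
import Crest.Agent.R214.PerBasic
import Crest.Agent.R214.Fiber

/-!
# R214: the Steiner inequality `periodicPerimeter (steiner i S) ≤ periodicPerimeter S`
-/

open MeasureTheory Crest.GeometryTopology.PeriodicPerimeter Filter Topology
open scoped Pointwise

namespace Crest.Agent.R214

variable {n : ℕ}

/-- differentiation under an interval integral, continuous data -/
theorem hasDerivAt_param {F F' : ℝ → ℝ → ℝ} (hF : Continuous (Function.uncurry F))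
    (hF' : Continuous (Function.uncurry F'))
    (hd : ∀ s t, HasDerivAt (fun s => F s t) (F' s t) s) (a b s : ℝ) :
    HasDerivAt (fun s => ∫ t in a..b, F s t) (∫ t in a..b, F' s t) s := by
  obtain ⟨C, hC⟩ := ((isCompact_closedBall s 1).prod (isCompact_uIcc (a := a) (b := b)))
    |>.exists_bound_of_continuousOn hF'.continuousOn
  have hFs : ∀ s, Continuous (F s) := fun s => by
    have := hF.comp (Continuous.prodMk_right s)
    exact this
  have hFs' : ∀ s, Continuous (F' s) := fun s => by
    have := hF'.comp (Continuous.prodMk_right s)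
    exact this
  refine (intervalIntegral.hasDerivAt_integral_of_dominated_loc_of_deriv_le (bound := fun _ => C)
    (Metric.closedBall_mem_nhds s zero_lt_one) ?_ ?_ ?_ ?_ ?_ ?_).2
  · exact Eventually.of_forall fun s => (hFs s).aestronglyMeasurable
  · exact (hFs s).intervalIntegrable _ _
  · exact (hFs' s).aestronglyMeasurable
  · exact Eventually.of_forall fun t ht x hx => hC (x, t) ⟨hx, Set.uIoc_subset_uIcc ht⟩
  · exact _root_.intervalIntegrable_const
  · exact Eventually.of_forall fun t _ x _ => hd x t

/-- the integral of a directional derivative in a coordinate direction vanishes -/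
theorem integral_eq_zero_of_hasDerivAt {f g : EuclideanSpace ℝ (Fin n) → ℝ} (i : Fin n)
    (hf : ∀ v, HasIntegerCoords v → ∀ x, f (x + v) = f x) (hgc : Continuous g)
    (hg : ∀ v, HasIntegerCoords v → ∀ x, g (x + v) = g x)
    (hd : ∀ x (t : ℝ), HasDerivAt (fun t : ℝ => f (x + t • ev i)) (g (x + t • ev i)) t) :
    ∫ x in unitCell n, g x = 0 := by
  rw [cell_avg (BMP.of_continuous hgc hg) i]
  have h3 : ∀ x : EuclideanSpace ℝ (Fin n), ∫ t in (0:ℝ)..1, g (x + t • ev i) = 0 := by
    intro x
    rw [intervalIntegral.integral_eq_sub_of_hasDerivAt (fun t _ => hd x t)]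
    · have := hf _ (hasIntegerCoords_ev i) x
      simp [this]
    · apply Continuous.intervalIntegrable
      fun_prop
  simp_rw [h3]
  simp

/-- fderiv along coordinates of a composition with a line -/
theorem hasDerivAt_line {g : EuclideanSpace ℝ (Fin n) → ℝ} (hg : ContDiff ℝ 1 g)
    {c : ℝ → EuclideanSpace ℝ (Fin n)} {c' : EuclideanSpace ℝ (Fin n)} {t : ℝ}
    (hc : HasDerivAt c c' t) : HasDerivAt (fun t => g (c t)) (fderiv ℝ g (c t) c') t :=
  ((hg.differentiable (by norm_num) (c t)).hasFDerivAt).comp_hasDerivAt t hc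

/-- Leibniz rule, integrated -/
theorem leibniz_integral {g u du : EuclideanSpace ℝ (Fin n) → ℝ} {i j : Fin n} (hij : j ≠ i)
    (hg : ContDiff ℝ 1 g) (hgp : ∀ v, HasIntegerCoords v → ∀ x, g (x + v) = g x)
    (huc : Continuous u) (hup : ∀ v, HasIntegerCoords v → ∀ x, u (x + v) = u x)
    (hdc : Continuous du) (hdp : ∀ v, HasIntegerCoords v → ∀ x, du (x + v) = du x)
    (hd : ∀ x (t : ℝ), HasDerivAt (fun t : ℝ => u (x + t • ev j)) (du (x + t • ev j)) t) :
    ∫ x in unitCell n, ((∫ τ in (-u x / 2)..(u x / 2), fderiv ℝ g (pr i x + τ • ev i) (ev j))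
      + du x / 2 * (g (pr i x + (u x / 2) • ev i) + g (pr i x + (-u x / 2) • ev i))) = 0 := by
  have hgc : Continuous g := hg.continuous
  have hfc : Continuous (fderiv ℝ g) := hg.continuous_fderiv (by norm_num)
  have hprc := continuous_pr (n := n) i
  set Ψ : EuclideanSpace ℝ (Fin n) → ℝ := fun x =>
    u x * ∫ σ in (-(1/2:ℝ))..(1/2), g (pr i x + (u x * σ) • ev i) with hΨ
  set G : EuclideanSpace ℝ (Fin n) → ℝ := fun x =>
    du x * (∫ σ in (-(1/2:ℝ))..(1/2), g (pr i x + (u x * σ) • ev i))
      + u x * (∫ σ in (-(1/2:ℝ))..(1/2),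
        fderiv ℝ g (pr i x + (u x * σ) • ev i) (ev j + (du x * σ) • ev i)) with hG
  have hprp : ∀ v, HasIntegerCoords v → ∀ x : EuclideanSpace ℝ (Fin n), ∀ t : ℝ,
      ∃ w, HasIntegerCoords w ∧ pr i (x + v) + t • ev i = pr i x + t • ev i + w := by
    intro v hv x t
    refine ⟨pr i v, ?_, ?_⟩
    · intro k
      by_cases hk : k = i
      · subst hk; exact ⟨0, by simp⟩
      · obtain ⟨m, hm⟩ := hv k
        exact ⟨m, by simp [hk, hm]⟩
    · unfold pr
      simp only [PiLp.add_apply, add_smul]
      abel
  have hΨp : ∀ v, HasIntegerCoords v → ∀ x, Ψ (x + v) = Ψ x := by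
    intro v hv x
    simp only [hΨ, hup v hv]
    congr 2
    ext σ
    obtain ⟨w, hw, e⟩ := hprp v hv x (u x * σ)
    rw [e, hgp w hw]
  have hGp : ∀ v, HasIntegerCoords v → ∀ x, G (x + v) = G x := by
    intro v hv x
    simp only [hG, hup v hv, hdp v hv]
    congr 2
    · congr 1
      ext σ
      obtain ⟨w, hw, e⟩ := hprp v hv x (u x * σ)
      rw [e, hgp w hw]
    · congr 1
      ext σ
      obtain ⟨w, hw, e⟩ := hprp v hv x (u x * σ)
      rw [e, fderiv_periodic hgp w hw]
  have hGc : Continuous G := by
    simp only [hG]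
    refine (hdc.mul ?_).add (huc.mul ?_)
    · apply intervalIntegral.continuous_parametric_intervalIntegral_of_continuous'
      exact hgc.comp (by fun_prop)
    · apply intervalIntegral.continuous_parametric_intervalIntegral_of_continuous'
      refine (hfc.comp ?_).clm_apply ?_ <;> fun_prop
  have hΨd : ∀ x (t : ℝ), HasDerivAt (fun t : ℝ => Ψ (x + t • ev j)) (G (x + t • ev j)) t := by
    intro x t
    simp only [hΨ, hG]
    refine (hd x t).mul ?_
    have key := hasDerivAt_param
      (F := fun t σ => g (pr i (x + t • ev j) + (u (x + t • ev j) * σ) • ev i))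
      (F' := fun t σ => fderiv ℝ g (pr i (x + t • ev j) + (u (x + t • ev j) * σ) • ev i)
        (ev j + (du (x + t • ev j) * σ) • ev i)) ?_ ?_ ?_ (-(1/2)) (1/2) t
    · exact key
    · simp only [Function.uncurry_def]
      exact hgc.comp (by fun_prop)
    · simp only [Function.uncurry_def]
      refine (hfc.comp ?_).clm_apply ?_ <;> fun_prop
    · intro s σ
      apply hasDerivAt_line hg
      have h1 : HasDerivAt (fun t : ℝ => pr i (x + t • ev j)) (ev j) s := by
        simp_rw [pr_add_smul_ev_ne hij]
        simpa using ((hasDerivAt_id s).smul_const (ev j)).const_add (pr i x)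
      exact h1.add (((hd x s).mul_const σ).smul_const (ev i))
  have hzero := integral_eq_zero_of_hasDerivAt j hΨp hGc hGp hΨd
  rw [← hzero]
  congr 1
  ext x
  simp only [hG]
  -- split the fderiv
  have e1 : (∫ σ in (-(1/2:ℝ))..(1/2),
        fderiv ℝ g (pr i x + (u x * σ) • ev i) (ev j + (du x * σ) • ev i))
      = (∫ σ in (-(1/2:ℝ))..(1/2), fderiv ℝ g (pr i x + (u x * σ) • ev i) (ev j))
        + du x * ∫ σ in (-(1/2:ℝ))..(1/2),
          σ * fderiv ℝ g (pr i x + (u x * σ) • ev i) (ev i) := by
    rw [← intervalIntegral.integral_const_mul, ← intervalIntegral.integral_add]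
    · congr 1; ext σ
      rw [map_add, map_smul, smul_eq_mul]; ring
    · apply Continuous.intervalIntegrable
      refine (hfc.comp ?_).clm_apply ?_ <;> fun_prop
    · apply Continuous.intervalIntegrable
      refine continuous_const.mul (continuous_id.mul ?_)
      refine (hfc.comp ?_).clm_apply ?_ <;> fun_prop
  have e2 : u x * (∫ σ in (-(1/2:ℝ))..(1/2),
          σ * fderiv ℝ g (pr i x + (u x * σ) • ev i) (ev i))
      = 1/2 * (g (pr i x + (u x / 2) • ev i) + g (pr i x + (-u x / 2) • ev i))
        - ∫ σ in (-(1/2:ℝ))..(1/2), g (pr i x + (u x * σ) • ev i) := by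
    have hder : ∀ σ : ℝ, HasDerivAt (fun σ : ℝ => σ * g (pr i x + (u x * σ) • ev i))
        (1 * g (pr i x + (u x * σ) • ev i)
          + σ * fderiv ℝ g (pr i x + (u x * σ) • ev i) (u x • ev i)) σ := by
      intro σ
      refine (hasDerivAt_id σ).mul ?_
      apply hasDerivAt_line hg
      have : HasDerivAt (fun σ : ℝ => (u x * σ) • ev i) (u x • ev i) σ := by
        simpa using ((hasDerivAt_id σ).const_mul (u x)).smul_const (ev i)
      simpa using this.const_add (pr i x)
    have hint := intervalIntegral.integral_eq_sub_of_hasDerivAt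
      (a := -(1/2:ℝ)) (b := 1/2) (fun σ _ => hder σ) (by
        apply Continuous.intervalIntegrable
        refine (continuous_const.mul (hgc.comp (by fun_prop))).add
          (continuous_id.mul ?_)
        refine (hfc.comp ?_).clm_apply ?_ <;> fun_prop)
    rw [intervalIntegral.integral_add] at hint
    · simp only [one_mul, map_smul, smul_eq_mul] at hint
      have h5 : ∫ σ in (-(1/2:ℝ))..(1/2),
          σ * (u x * fderiv ℝ g (pr i x + (u x * σ) • ev i) (ev i))
          = u x * ∫ σ in (-(1/2:ℝ))..(1/2),
          σ * fderiv ℝ g (pr i x + (u x * σ) • ev i) (ev i) := by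
        rw [← intervalIntegral.integral_const_mul]
        congr 1; ext σ; ring
      rw [h5] at hint
      rw [show u x / 2 = u x * (1/2) by ring, show -u x / 2 = u x * (-(1/2)) by ring]
      linarith
    · apply Continuous.intervalIntegrable
      exact continuous_const.mul (hgc.comp (by fun_prop))
    · apply Continuous.intervalIntegrable
      refine (continuous_id.mul ?_)
      refine (hfc.comp ?_).clm_apply ?_ <;> fun_prop
  have e3 : u x * (∫ σ in (-(1/2:ℝ))..(1/2), fderiv ℝ g (pr i x + (u x * σ) • ev i) (ev j))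
      = ∫ τ in (-u x / 2)..(u x / 2), fderiv ℝ g (pr i x + τ • ev i) (ev j) := by
    rw [intervalIntegral.mul_integral_comp_mul_left
      (f := fun τ => fderiv ℝ g (pr i x + τ • ev i) (ev j))]
    congr 1 <;> ring
  rw [e1]
  linear_combination -e3 - du x * e2


/-- fibre average -/
noncomputable def fav (i : Fin n) (f : EuclideanSpace ℝ (Fin n) → ℝ)
    (x : EuclideanSpace ℝ (Fin n)) : ℝ := ∫ t in (0:ℝ)..1, f (x + t • ev i)

theorem fav_per (i : Fin n) {f : EuclideanSpace ℝ (Fin n) → ℝ}
    (hf : ∀ v, HasIntegerCoords v → ∀ x, f (x + v) = f x) :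
    ∀ v, HasIntegerCoords v → ∀ x, fav i f (x + v) = fav i f x := by
  intro v hv x
  unfold fav
  congr 1
  ext t
  rw [show x + v + t • ev i = (x + t • ev i) + v by abel, hf v hv]

theorem fav_inv (i : Fin n) {f : EuclideanSpace ℝ (Fin n) → ℝ}
    (hf : ∀ v, HasIntegerCoords v → ∀ x, f (x + v) = f x) : FInv i (fav i f) := avg_inv hf i

theorem continuous_fav (i : Fin n) {f : EuclideanSpace ℝ (Fin n) → ℝ} (hf : Continuous f) :
    Continuous (fav i f) := by
  unfold fav
  apply intervalIntegral.continuous_parametric_intervalIntegral_of_continuous'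
  exact hf.comp (by fun_prop)

theorem fav_mono (i : Fin n) {f g : EuclideanSpace ℝ (Fin n) → ℝ} (hf : Continuous f)
    (hg : Continuous g) (h : ∀ x, f x ≤ g x) (x) : fav i f x ≤ fav i g x := by
  unfold fav
  apply intervalIntegral.integral_mono_on zero_le_one
  · apply Continuous.intervalIntegrable; exact hf.comp (by fun_prop)
  · apply Continuous.intervalIntegrable; exact hg.comp (by fun_prop)
  · intro t _; exact h _

theorem fav_const (i : Fin n) (c : ℝ) (x) : fav i (fun _ => c) x = c := by
  simp [fav]

theorem fav_hasDerivAt (i j : Fin n) {f : EuclideanSpace ℝ (Fin n) → ℝ} (hf : ContDiff ℝ 1 f)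
    (x) (t : ℝ) : HasDerivAt (fun t : ℝ => fav i f (x + t • ev j))
      (fav i (fun y => fderiv ℝ f y (ev j)) (x + t • ev j)) t := by
  have hfc : Continuous (fderiv ℝ f) := hf.continuous_fderiv (by norm_num)
  unfold fav
  refine hasDerivAt_param (F := fun t s => f (x + t • ev j + s • ev i))
    (F' := fun t s => fderiv ℝ f (x + t • ev j + s • ev i) (ev j)) ?_ ?_ ?_ 0 1 t
  · simp only [Function.uncurry_def]
    exact hf.continuous.comp (by fun_prop)
  · simp only [Function.uncurry_def]
    refine (hfc.comp ?_).clm_apply ?_ <;> fun_prop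
  · intro s σ
    apply hasDerivAt_line hf
    have : HasDerivAt (fun t : ℝ => x + t • ev j) (ev j) s := by
      simpa using ((hasDerivAt_id s).smul_const (ev j)).const_add x
    exact this.add_const _

theorem fderiv_coord {φ : EuclideanSpace ℝ (Fin n) → EuclideanSpace ℝ (Fin n)}
    (h1 : ContDiff ℝ 1 φ) (j : Fin n) (x v) :
    fderiv ℝ (fun x => φ x j) x v = fderiv ℝ φ x v j := by
  have h3 := (h1.differentiable (by norm_num) x).hasFDerivAt
  have h4 := (EuclideanSpace.proj (𝕜 := ℝ) j : EuclideanSpace ℝ (Fin n) →L[ℝ] ℝ).hasFDerivAt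
    (x := φ x)
  have h5 := h4.comp x h3
  have h6 : fderiv ℝ (fun x => φ x j) x = _ := h5.fderiv
  rw [h6]; rfl

theorem divergence_eq_sum {φ : EuclideanSpace ℝ (Fin n) → EuclideanSpace ℝ (Fin n)}
    (h1 : ContDiff ℝ 1 φ) (x) :
    divergence φ x = ∑ j, fderiv ℝ (fun x => φ x j) x (ev j) := by
  unfold divergence
  refine Finset.sum_congr rfl fun j _ => ?_
  rw [fderiv_coord h1]; rfl

/-- continuity of a fibre integral with symmetric variable limits -/
theorem continuous_sym_integral {g u : EuclideanSpace ℝ (Fin n) → ℝ} (i : Fin n)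
    (hg : Continuous g) (hu : Continuous u) :
    Continuous fun x => ∫ τ in (-u x / 2)..(u x / 2), g (pr i x + τ • ev i) := by
  have hprc := continuous_pr (n := n) i
  have hc : Continuous (Function.uncurry fun (x : EuclideanSpace ℝ (Fin n)) (τ : ℝ) =>
      g (pr i x + τ • ev i)) := by
    simp only [Function.uncurry_def]
    exact hg.comp (by fun_prop)
  have h1 := intervalIntegral.continuous_parametric_intervalIntegral_of_continuous (μ := volume)
    (a₀ := (0:ℝ)) hc (s := fun x => u x / 2) (by fun_prop)
  have h2 := intervalIntegral.continuous_parametric_intervalIntegral_of_continuous (μ := volume)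
    (a₀ := (0:ℝ)) hc (s := fun x => -u x / 2) (by fun_prop)
  have h3 : (fun x => ∫ τ in (-u x / 2)..(u x / 2), g (pr i x + τ • ev i))
      = fun x => (∫ τ in (0:ℝ)..(u x / 2), g (pr i x + τ • ev i))
        - ∫ τ in (0:ℝ)..(-u x / 2), g (pr i x + τ • ev i) := by
    ext x
    have hi : ∀ a b : ℝ, IntervalIntegrable (fun τ => g (pr i x + τ • ev i)) volume a b := by
      intro a b
      apply Continuous.intervalIntegrable
      exact hg.comp (by fun_prop)
    rw [← intervalIntegral.integral_interval_sub_left (hi 0 (u x / 2)) (hi 0 (-u x / 2))]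
  rw [h3]
  exact h1.sub h2

theorem pr_shift_per {i : Fin n} {F : Type*} {g : EuclideanSpace ℝ (Fin n) → F}
    (hg : ∀ v, HasIntegerCoords v → ∀ x, g (x + v) = g x) (v) (hv : HasIntegerCoords v) (x)
    (t : ℝ) : g (pr i (x + v) + t • ev i) = g (pr i x + t • ev i) := by
  have : pr i (x + v) + t • ev i = pr i x + t • ev i + pr i v := by
    unfold pr
    simp only [PiLp.add_apply, add_smul]
    abel
  rw [this, hg]
  intro k
  by_cases hk : k = i
  · subst hk; exact ⟨0, by simp⟩
  · obtain ⟨m, hm⟩ := hv k
    exact ⟨m, by simp [hk, hm]⟩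

/-- the divergence of an admissible field over the region of arcs of length `u` -/
theorem region_divergence {φ : EuclideanSpace ℝ (Fin n) → EuclideanSpace ℝ (Fin n)}
    (h1 : ContDiff ℝ 1 φ) (h2 : ∀ v, HasIntegerCoords v → ∀ x, φ (x + v) = φ x) (i : Fin n)
    {u : EuclideanSpace ℝ (Fin n) → ℝ} {du : Fin n → EuclideanSpace ℝ (Fin n) → ℝ}
    (huc : Continuous u) (hup : ∀ v, HasIntegerCoords v → ∀ x, u (x + v) = u x)
    (hdc : ∀ j, Continuous (du j))
    (hdp : ∀ j, ∀ v, HasIntegerCoords v → ∀ x, du j (x + v) = du j x)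
    (hd : ∀ j x (t : ℝ), HasDerivAt (fun t : ℝ => u (x + t • ev j)) (du j (x + t • ev j)) t) :
    ∫ x in unitCell n, (∫ τ in (-u x / 2)..(u x / 2), divergence φ (pr i x + τ • ev i))
      = ∫ x in unitCell n, ∑ j, (if j = i then
          φ (pr i x + (u x / 2) • ev i) i - φ (pr i x + (-u x / 2) • ev i) i
        else -(du j x / 2 * (φ (pr i x + (u x / 2) • ev i) j
          + φ (pr i x + (-u x / 2) • ev i) j))) := by
  have hprc := continuous_pr (n := n) i
  have hcomp : ∀ j, ContDiff ℝ 1 (fun x => φ x j) := by
    intro j; fun_prop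
  have hcompc : ∀ j, Continuous (fun x => φ x j) := fun j => (hcomp j).continuous
  have hcper : ∀ j, ∀ v, HasIntegerCoords v → ∀ x, φ (x + v) j = φ x j := by
    intro j v hv x; rw [h2 v hv]
  have hcd : ∀ j, Continuous fun x => fderiv ℝ (fun x => φ x j) x (ev j) := fun j =>
    ((hcomp j).continuous_fderiv (by norm_num)).clm_apply continuous_const
  set T : Fin n → EuclideanSpace ℝ (Fin n) → ℝ := fun j x =>
    ∫ τ in (-u x / 2)..(u x / 2), fderiv ℝ (fun x => φ x j) (pr i x + τ • ev i) (ev j) with hT
  have hTc : ∀ j, Continuous (T j) := fun j => continuous_sym_integral i (hcd j) huc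
  have hTp : ∀ j, ∀ v, HasIntegerCoords v → ∀ x, T j (x + v) = T j x := by
    intro j v hv x
    simp only [hT, hup v hv]
    congr 1
    ext τ
    exact pr_shift_per (g := fun x => fderiv ℝ (fun x => φ x j) x (ev j)) (fun v hv x => by
      rw [fderiv_periodic (hcper j) v hv x]) v hv x τ
  have e1 : ∀ x, (∫ τ in (-u x / 2)..(u x / 2), divergence φ (pr i x + τ • ev i))
      = ∑ j, T j x := by
    intro x
    simp_rw [divergence_eq_sum h1]
    rw [intervalIntegral.integral_finsetSum]
    intro j _
    apply Continuous.intervalIntegrable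
    exact (hcd j).comp (by fun_prop)
  simp_rw [e1]
  rw [integral_finsetSum _ fun j _ => (BMP.of_continuous (hTc j) (hTp j)).integrableOn]
  rw [integral_finsetSum]
  · refine Finset.sum_congr rfl fun j _ => ?_
    by_cases hj : j = i
    · subst hj
      simp only [if_true]
      congr 1
      ext x
      simp only [hT]
      have hder : ∀ τ : ℝ, HasDerivAt (fun τ : ℝ => φ (pr j x + τ • ev j) j)
          (fderiv ℝ (fun x => φ x j) (pr j x + τ • ev j) (ev j)) τ := by
        intro τ
        apply hasDerivAt_line (hcomp j)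
        simpa using ((hasDerivAt_id τ).smul_const (ev j)).const_add (pr j x)
      rw [intervalIntegral.integral_eq_sub_of_hasDerivAt (fun τ _ => hder τ)]
      apply Continuous.intervalIntegrable
      exact (hcd j).comp (by fun_prop)
    · simp only [if_neg hj]
      have h3 := leibniz_integral hj (hcomp j) (hcper j) huc hup (hdc j) (hdp j) (hd j)
      rw [integral_add] at h3
      · rw [integral_neg]
        linarith
      · exact (BMP.of_continuous (hTc j) (hTp j)).integrableOn
      · refine (BMP.of_continuous ?_ ?_).integrableOn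
        · have := hdc j
          have h5 := hcompc j
          exact (this.div_const 2).mul ((h5.comp (by fun_prop)).add (h5.comp (by fun_prop)))
        · intro v hv x
          have q := fun t => pr_shift_per (i := i) h2 v hv x t
          rw [hdp j v hv, hup v hv, q, q]
  · intro j _
    refine (BMP.of_continuous ?_ ?_).integrableOn
    · by_cases hj : j = i
      · simp only [if_pos hj]
        have h5 := hcompc i
        exact (h5.comp (by fun_prop)).sub (h5.comp (by fun_prop))
      · simp only [if_neg hj]
        have := hdc j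
        have h5 := hcompc j
        exact ((this.div_const 2).mul ((h5.comp (by fun_prop)).add (h5.comp (by fun_prop)))).neg
    · intro v hv x
      have q := fun t => pr_shift_per (i := i) h2 v hv x t
      rw [hdp j v hv, hup v hv, q, q]

end Crest.Agent.R214
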