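import Mathlib
import Crest.Prelude.Def_PeriodicPerimeter
import Crest.Agent.R214.RigField
import Crest.Agent.R214.InvBase
import Crest.Agent.R214.SteinerPer

/-!
# R214: a bounded periodic function with vanishing weak gradient on a tube is constant there
-/

set_option autoImplicit false

open MeasureTheory Set Filter Topology Crest.GeometryTopology.PeriodicPerimeter
open scoped ContDiff Pointwise

noncomputable section

namespace Crest.Agent.R214.Rig

variable {n : ℕ}

/-! ### averages of smooth functions are smooth -/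

theorem hasFDerivAt_avg {F : Type} [NormedAddCommGroup F] [NormedSpace ℝ F] [CompleteSpace F]
    (e : En n) {g : En n → F} (hg : ContDiff ℝ 1 g) (x : En n) :
    HasFDerivAt (fun x => ∫ t in (0:ℝ)..1, g (x + t • e))
      (∫ t in (0:ℝ)..1, fderiv ℝ g (x + t • e)) x := by
  have hgc := hg.continuous
  have hfc : Continuous (fderiv ℝ g) := hg.continuous_fderiv (by norm_num)
  have hfc2 : Continuous fun p : En n × ℝ => fderiv ℝ g (p.1 + p.2 • e) := hfc.comp (by fun_prop)
  obtain ⟨C, hC⟩ := ((isCompact_closedBall x 1).prod (isCompact_uIcc (a := (0:ℝ)) (b := 1)))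
    |>.exists_bound_of_continuousOn hfc2.continuousOn
  refine intervalIntegral.hasFDerivAt_integral_of_dominated_of_fderiv_le (bound := fun _ => C)
    (F := fun x t => g (x + t • e)) (F' := fun x t => fderiv ℝ g (x + t • e))
    (Metric.closedBall_mem_nhds x zero_lt_one) ?_ ?_ ?_ ?_ ?_ ?_
  · exact Eventually.of_forall fun y => (hgc.comp (by fun_prop)).aestronglyMeasurable
  · apply Continuous.intervalIntegrable
    exact hgc.comp (by fun_prop)
  · exact (hfc.comp (by fun_prop)).aestronglyMeasurable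
  · exact Eventually.of_forall fun t ht y hy => hC (y, t) ⟨hy, uIoc_subset_uIcc ht⟩
  · exact _root_.intervalIntegrable_const
  · refine Eventually.of_forall fun t _ y _ => ?_
    have h1 := (hg.differentiable (by norm_num) (y + t • e)).hasFDerivAt
    have h2 : HasFDerivAt (fun y : En n => y + t • e) (ContinuousLinearMap.id ℝ (En n)) y :=
      (hasFDerivAt_id y).add_const _
    have h3 := h1.comp y h2
    rw [ContinuousLinearMap.comp_id] at h3
    exact h3

theorem contDiff_avg_nat (e : En n) (m : ℕ) : ∀ {F : Type} [NormedAddCommGroup F]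
    [NormedSpace ℝ F] [CompleteSpace F] {g : En n → F}, ContDiff ℝ m g →
    ContDiff ℝ m (fun x => ∫ t in (0:ℝ)..1, g (x + t • e)) := by
  induction m with
  | zero =>
    intro F _ _ _ g hg
    rw [Nat.cast_zero, contDiff_zero] at hg ⊢
    apply intervalIntegral.continuous_parametric_intervalIntegral_of_continuous'
    exact hg.comp (by fun_prop)
  | succ m ih =>
    intro F _ _ _ g hg
    have hg1 : ContDiff ℝ 1 g := hg.of_le (by
      push_cast
      exact le_add_self)
    rw [Nat.cast_succ, contDiff_succ_iff_fderiv] at hg ⊢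
    refine ⟨fun x => (hasFDerivAt_avg e hg1 x).differentiableAt, by simp, ?_⟩
    have : fderiv ℝ (fun x => ∫ t in (0:ℝ)..1, g (x + t • e))
        = fun x => ∫ t in (0:ℝ)..1, fderiv ℝ g (x + t • e) := by
      ext1 x
      exact (hasFDerivAt_avg e hg1 x).fderiv
    rw [this]
    exact ih hg.2.2

theorem contDiff_avg (e : En n) {g : En n → ℝ} (hg : ContDiff ℝ ∞ g) :
    ContDiff ℝ ∞ (fun x => ∫ t in (0:ℝ)..1, g (x + t • e)) := by
  rw [contDiff_infty] at hg ⊢
  intro m
  exact contDiff_avg_nat e m (hg m)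

theorem contDiff_fav (i : Fin n) {g : En n → ℝ} (hg : ContDiff ℝ ∞ g) :
    ContDiff ℝ ∞ (fav i g) := contDiff_avg (ev i) hg

theorem fderiv_fav (i : Fin n) {g : En n → ℝ} (hg : ContDiff ℝ 1 g) (x h : En n) :
    fderiv ℝ (fav i g) x h = fav i (fun y => fderiv ℝ g y h) x := by
  have h1 := (hasFDerivAt_avg (ev i) hg x).fderiv
  have h2 : fderiv ℝ (fav i g) x = ∫ t in (0:ℝ)..1, fderiv ℝ g (x + t • ev i) := h1
  rw [h2]
  unfold fav
  have hfc : Continuous (fderiv ℝ g) := hg.continuous_fderiv (by norm_num)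
  have hi : IntervalIntegrable (fun t : ℝ => fderiv ℝ g (x + t • ev i)) volume 0 1 := by
    apply Continuous.intervalIntegrable
    exact hfc.comp (by fun_prop)
  rw [ContinuousLinearMap.intervalIntegral_apply hi]

/-! ### periodisation of a function with small support -/

/-- representative of `x` in the cell centred at `x₀` -/
def rep (x₀ x : En n) : En n := x₀ + WithLp.toLp 2 (fun j => dd (x j - x₀ j))

@[simp] theorem rep_apply (x₀ x : En n) (j : Fin n) : rep x₀ x j = x₀ j + dd (x j - x₀ j) := rfl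

/-- periodisation -/
def perz (x₀ : En n) (g : En n → ℝ) (x : En n) : ℝ := g (rep x₀ x)

theorem rep_add_int (x₀ x v : En n) (hv : HasIntegerCoords v) : rep x₀ (x + v) = rep x₀ x := by
  ext j
  obtain ⟨m, hm⟩ := hv j
  simp only [rep_apply, PiLp.add_apply, hm]
  rw [show x j + (m : ℝ) - x₀ j = (x j - x₀ j) + m by ring, dd_add_int]

theorem perz_per (x₀ : En n) (g : En n → ℝ) : IsPer (perz x₀ g) := by
  intro v hv x
  unfold perz
  rw [rep_add_int x₀ x v hv]

theorem rep_sub (x₀ x : En n) : ∃ v : En n, HasIntegerCoords v ∧ rep x₀ x = x + v := by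
  refine ⟨WithLp.toLp 2 (fun j => -((round (x j - x₀ j) : ℤ) : ℝ)), ?_, ?_⟩
  · intro j
    exact ⟨-round (x j - x₀ j), by simp⟩
  · ext j
    simp only [rep_apply, PiLp.add_apply]
    unfold dd
    ring

theorem contDiff_perz {x₀ : En n} {g : En n → ℝ} (hg : ContDiff ℝ ∞ g) {δ : ℝ} (hδ : δ < 1 / 2)
    (hs : ∀ x, g x ≠ 0 → ∀ j, |x j - x₀ j| ≤ δ) : ContDiff ℝ ∞ (perz x₀ g) := by
  rw [contDiff_iff_contDiffAt]
  intro x
  by_cases h : ∀ j, |dd (x j - x₀ j)| < 1 / 2
  · have he : perz x₀ g =ᶠ[𝓝 x] fun y => g (y + WithLp.toLp 2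
        (fun j => -((round (x j - x₀ j) : ℤ) : ℝ))) := by
      have h1 : ∀ j, ∀ᶠ y : En n in 𝓝 x, dd (y j - x₀ j) = y j - x₀ j - round (x j - x₀ j) := by
        intro j
        have hc : Tendsto (fun y : En n => y j - x₀ j) (𝓝 x) (𝓝 (x j - x₀ j)) := by
          have : Continuous fun y : En n => y j - x₀ j := by fun_prop
          exact this.tendsto x
        exact hc.eventually (dd_eventually (h j))
      filter_upwards [eventually_all.2 h1] with y hy
      unfold perz
      congr 1
      ext j
      simp only [rep_apply, PiLp.add_apply, hy j]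
      ring
    exact ContDiffAt.congr_of_eventuallyEq (by
      apply ContDiff.contDiffAt
      exact hg.comp (contDiff_id.add contDiff_const)) he
  · push Not at h
    obtain ⟨j, hj⟩ := h
    have he : perz x₀ g =ᶠ[𝓝 x] fun _ => 0 := by
      have hc : Continuous fun y : En n => |dd (y j - x₀ j)| :=
        continuous_abs_dd.comp (by fun_prop)
      have : ∀ᶠ y : En n in 𝓝 x, δ < |dd (y j - x₀ j)| :=
        hc.continuousAt.eventually_const_lt (hδ.trans_le hj)
      filter_upwards [this] with y hy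
      unfold perz
      by_contra hne
      have := hs _ hne j
      simp only [rep_apply] at this
      rw [show x₀ j + dd (y j - x₀ j) - x₀ j = dd (y j - x₀ j) by ring] at this
      linarith
    exact ContDiffAt.congr_of_eventuallyEq contDiffAt_const he

/-- unfolding -/
theorem integral_mul_perz {x₀ : En n} {g f : En n → ℝ} (hf : IsPer f) {δ : ℝ} (hδ : δ < 1 / 2)
    (hs : ∀ x, g x ≠ 0 → ∀ j, |x j - x₀ j| ≤ δ) :
    ∫ x in unitCell n, f x * perz x₀ g x = ∫ x, f x * g x := by
  set c : En n := x₀ - WithLp.toLp 2 (fun _ => (1/2 : ℝ)) with hc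
  have h1 : ∫ x in unitCell n, f x * perz x₀ g x
      = ∫ x in Inv.cellAt c, f x * perz x₀ g x := by
    refine (Inv.isCell_unitCell n).setIntegral_eq (Inv.isCell_cellAt c) ?_
    intro v hv x
    show f (x + v) * perz x₀ g (x + v) = f x * perz x₀ g x
    rw [hf v hv, perz_per x₀ g v hv]
  rw [h1]
  have h2 : ∫ x in Inv.cellAt c, f x * perz x₀ g x = ∫ x in Inv.cellAt c, f x * g x := by
    refine setIntegral_congr_fun (Inv.measurableSet_cellAt c) ?_
    intro x hx
    have : rep x₀ x = x := by
      ext j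
      have hxj := hx j
      have e : c j = x₀ j - 1/2 := by simp [hc]
      rw [e] at hxj
      have hr : round (x j - x₀ j) = 0 := round_of_mem ⟨by linarith [hxj.1], by linarith [hxj.2]⟩
      simp only [rep_apply]
      unfold dd
      rw [hr]; push_cast; ring
    simp only [perz, this]
  rw [h2]
  refine setIntegral_eq_integral_of_forall_compl_eq_zero fun x hx => ?_
  by_cases hgx : g x = 0
  · rw [hgx, mul_zero]
  · exfalso
    apply hx
    intro j
    have := abs_le.1 (hs x hgx j)
    have e : c j = x₀ j - 1/2 := by simp [hc]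
    rw [e]
    constructor <;> linarith [this.1, this.2]


/-! ### the main argument -/

theorem integral_mul_fav' (i : Fin n) {a g : En n → ℝ} (ha : BMP a) (hai : FInv i a)
    (hg : BMP g) : ∫ x in unitCell n, a x * g x = ∫ x in unitCell n, a x * fav i g x := by
  rw [cell_avg (ha.mul hg) i]
  congr 1
  ext x
  unfold fav
  rw [← intervalIntegral.integral_const_mul]
  congr 1
  ext t
  rw [hai x t]

theorem fderiv_eq_sum' (f : En n → ℝ) (x v : En n) :
    fderiv ℝ f x v = ∑ j, v j * fderiv ℝ f x (ev j) := by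
  have hv : v = ∑ j, v j • ev j := by
    ext k
    simp [ev_apply, Finset.sum_apply]
  conv_lhs => rw [hv]
  rw [map_sum]
  simp

theorem divergence_smul_const {g : En n → ℝ} (hg : ContDiff ℝ 1 g) (c x : En n) :
    divergence (fun y => g y • c) x = fderiv ℝ g x c := by
  unfold divergence
  rw [fderiv_eq_sum' g x c]
  refine Finset.sum_congr rfl fun j _ => ?_
  have h1 := (hg.differentiable (by norm_num) x).hasFDerivAt.smul_const c
  rw [h1.fderiv]
  simp only [ContinuousLinearMap.smulRight_apply, PiLp.smul_apply, smul_eq_mul]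
  rw [mul_comm]
  rfl

section main

variable {w : En n → ℝ} (hm : Measurable w) {C : ℝ} (hb : ∀ x, |w x| ≤ C) (hper : IsPer w)
  {i : Fin n} (hinv : ∀ x (t : ℝ), w (x + t • ei i) = w x)
  {J : Finset (Fin n)} (hi : i ∉ J) {r : ℝ} (hr : 0 < r)
  (hw : ∀ η : En n → En n, ContDiff ℝ ∞ η → IsPer η → (∀ x, η x i = 0) →
    (∀ x (t : ℝ), η (x + t • ei i) = η x) →
    (∃ r', 0 ≤ r' ∧ r' < r ∧ ∀ x, η x ≠ 0 → rho2 J x ≤ r' ^ 2) →
    ∫ x in unitCell n, w x * divergence η x = 0)

include hm hb hper hinv hi hw in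
theorem weak_grad_zero {G : En n → ℝ} (hG : ContDiff ℝ ∞ G) (hGp : IsPer G) {r' : ℝ}
    (h0 : 0 ≤ r') (hr' : r' < r) (hs : ∀ x, G x ≠ 0 → rho2 J x ≤ r' ^ 2) (h : En n) :
    ∫ x in unitCell n, w x * fderiv ℝ G x h = 0 := by
  have hG1 : ContDiff ℝ 1 G := hG.of_le (by norm_cast)
  have hfc : Continuous (fderiv ℝ G) := hG1.continuous_fderiv (by norm_num)
  have hwB : BMP w := ⟨hm, ⟨C, hb⟩, hper⟩
  have hwI : FInv i w := hinv
  have hgB : BMP (fun x => fderiv ℝ G x h) := BMP.of_continuous
    (hfc.clm_apply continuous_const) (fun v hv x => by rw [fderiv_periodic hGp v hv x])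
  rw [integral_mul_fav' i hwB hwI hgB]
  set c : En n := pr i h with hc
  set η : En n → En n := fun x => fav i G x • c with hη
  have hη1 : ContDiff ℝ ∞ η := (contDiff_fav i hG).smul contDiff_const
  have hηp : IsPer η := fun v hv x => by
    simp only [hη]; rw [fav_per i hGp v hv x]
  have hηi : ∀ x, η x i = 0 := fun x => by simp [hη, hc]
  have hηinv : ∀ x (t : ℝ), η (x + t • ei i) = η x := fun x t => by
    simp only [hη]
    rw [show fav i G (x + t • ei i) = fav i G x from fav_inv i hGp x t]
  have hηs : ∃ r', 0 ≤ r' ∧ r' < r ∧ ∀ x, η x ≠ 0 → rho2 J x ≤ r' ^ 2 := by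
    refine ⟨r', h0, hr', fun x hx => ?_⟩
    by_contra hcon
    apply hx
    have hz : ∀ t : ℝ, G (x + t • ev i) = 0 := by
      intro t
      by_contra hne
      apply hcon
      have := hs _ hne
      rwa [show x + t • ev i = x + t • ei i from rfl, rho2_add_ei J hi x t] at this
    simp only [hη]
    have : fav i G x = 0 := by
      unfold fav
      simp_rw [hz]
      simp
    rw [this, zero_smul]
  have key := hw η hη1 hηp hηi hηinv hηs
  rw [← key]
  congr 1
  ext x
  congr 1
  have hfav1 : ContDiff ℝ 1 (fav i G) := (contDiff_fav i hG).of_le (by norm_cast)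
  have e1 : divergence η x = fderiv ℝ (fav i G) x c := divergence_smul_const hfav1 c x
  rw [e1, hc]
  have e2 : fderiv ℝ (fav i G) x (ev i) = 0 := by
    rw [fderiv_fav i hG1 x (ev i)]
    unfold fav
    have hder : ∀ t : ℝ, HasDerivAt (fun t : ℝ => G (x + t • ev i))
        (fderiv ℝ G (x + t • ev i) (ev i)) t := by
      intro t
      apply hasDerivAt_line hG1
      simpa using ((hasDerivAt_id t).smul_const (ev i)).const_add x
    rw [intervalIntegral.integral_eq_sub_of_hasDerivAt (fun t _ => hder t)]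
    · have := hGp _ (hasIntegerCoords_ev i) x
      simp [this]
    · apply Continuous.intervalIntegrable
      exact (hfc.comp (by fun_prop)).clm_apply continuous_const
  unfold pr
  rw [map_sub, map_smul, e2, smul_zero, sub_zero, fderiv_fav i hG1 x h]

include hm hb hper hinv hi hw in
theorem translate_zero {G : En n → ℝ} (hG : ContDiff ℝ ∞ G) (hGp : IsPer G) {r' : ℝ}
    (h0 : 0 ≤ r') (hr' : r' < r) (h : En n)
    (hs : ∀ t ∈ Icc (0:ℝ) 1, ∀ x, G (x - t • h) ≠ 0 → rho2 J x ≤ r' ^ 2) :
    ∫ x in unitCell n, (w (x + h) - w x) * G x = 0 := by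
  have hG1 : ContDiff ℝ 1 G := hG.of_le (by norm_cast)
  have hGc : Continuous G := hG.continuous
  have hfc : Continuous (fderiv ℝ G) := hG1.continuous_fderiv (by norm_num)
  have hwB : BMP w := ⟨hm, ⟨C, hb⟩, hper⟩
  have hGB : BMP G := BMP.of_continuous hGc hGp
  have hfB : BMP (fun x => fderiv ℝ G x h) := BMP.of_continuous
    (hfc.clm_apply continuous_const) (fun v hv x => by rw [fderiv_periodic hGp v hv x])
  have e1 : ∫ x in unitCell n, (w (x + h) - w x) * G x
      = ∫ x in unitCell n, w x * (G (x - h) - G x) := by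
    have a1 : ∫ x in unitCell n, w (x + h) * G x = ∫ x in unitCell n, w x * G (x - h) := by
      have hb1 : BMP (fun x => w x * G (x - h)) := by
        refine hwB.mul ?_
        have := hGB.translate (-h)
        simpa [sub_eq_add_neg] using this
      have := hb1.integral_translate h
      rw [← this]
      congr 1
      ext x
      rw [add_sub_cancel_right]
    simp_rw [sub_mul, mul_sub]
    rw [integral_sub ((hwB.translate h).mul hGB).integrableOn (hwB.mul hGB).integrableOn,
      integral_sub _ (hwB.mul hGB).integrableOn, a1]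
    have hb1 : BMP (fun x => w x * G (x - h)) := by
      refine hwB.mul ?_
      have := hGB.translate (-h)
      simpa [sub_eq_add_neg] using this
    exact hb1.integrableOn
  have e2 : ∀ x, G (x - h) - G x = ∫ t in (0:ℝ)..1, -(fderiv ℝ G (x - t • h) h) := by
    intro x
    have hder : ∀ t : ℝ, HasDerivAt (fun t : ℝ => G (x - t • h))
        (-(fderiv ℝ G (x - t • h) h)) t := by
      intro t
      have h1 : HasDerivAt (fun t : ℝ => x - t • h) (-h) t := by
        simpa using ((hasDerivAt_id t).smul_const h).const_sub x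
      have := hasDerivAt_line hG1 h1
      rwa [map_neg] at this
    rw [intervalIntegral.integral_eq_sub_of_hasDerivAt (fun t _ => hder t)]
    · simp
    · apply Continuous.intervalIntegrable
      exact ((hfc.comp (by fun_prop)).clm_apply continuous_const).neg
  rw [e1]
  simp_rw [e2]
  have e3 : ∀ x, w x * ∫ t in (0:ℝ)..1, -(fderiv ℝ G (x - t • h) h)
      = ∫ t in Ioc (0:ℝ) 1, w x * -(fderiv ℝ G (x - t • h) h) := by
    intro x
    rw [← intervalIntegral.integral_const_mul, intervalIntegral.integral_of_le zero_le_one]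
  simp_rw [e3]
  obtain ⟨C', hC'⟩ := hfB.bdd
  rw [integral_integral_swap]
  · have e4 : ∀ t ∈ Ioc (0:ℝ) 1, ∫ x in unitCell n, w x * -(fderiv ℝ G (x - t • h) h) = 0 := by
      intro t ht
      have e5 := weak_grad_zero hm hb hper hinv hi hw (G := fun x => G (x - t • h)) (r' := r')
        (hG.comp (contDiff_id.sub contDiff_const)) (fun v hv x => by
          show G (x + v - t • h) = G (x - t • h)
          rw [show x + v - t • h = (x - t • h) + v by abel, hGp v hv]) h0 hr'
        (fun x hx => hs t ⟨ht.1.le, ht.2⟩ x hx) h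
      have e6 : ∀ x, fderiv ℝ (fun x => G (x - t • h)) x h = fderiv ℝ G (x - t • h) h := by
        intro x
        rw [fderiv_comp_sub (f := G)]
      simp_rw [e6] at e5
      simp_rw [mul_neg]
      rw [integral_neg, e5, neg_zero]
    rw [setIntegral_congr_fun measurableSet_Ioc e4]
    simp
  · apply Integrable.of_bound (C := C * C')
    · apply Measurable.aestronglyMeasurable
      have m1 : Measurable fun p : En n × ℝ => w p.1 := hm.comp measurable_fst
      have m2 : Continuous fun p : En n × ℝ => fderiv ℝ G (p.1 - p.2 • h) h :=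
        (hfc.comp (by fun_prop)).clm_apply continuous_const
      exact m1.mul m2.measurable.neg
    · refine Eventually.of_forall fun p => ?_
      simp only [Function.uncurry]
      rw [norm_mul, norm_neg, Real.norm_eq_abs, Real.norm_eq_abs]
      exact mul_le_mul (hb _) (hC' _) (abs_nonneg _) ((abs_nonneg _).trans (hb 0))

end main

/-! ### from vanishing translations to constancy -/

/-- projection to the coordinates in `J` -/
def pJ (J : Finset (Fin n)) (x : En n) : En n := WithLp.toLp 2 (fun j => if j ∈ J then x j else 0)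

theorem pJ_add (J : Finset (Fin n)) (x y : En n) : pJ J (x + y) = pJ J x + pJ J y := by
  ext j
  simp only [pJ, PiLp.add_apply]
  split_ifs <;> simp

theorem pJ_smul (J : Finset (Fin n)) (t : ℝ) (x : En n) : pJ J (t • x) = t • pJ J x := by
  ext j
  simp only [pJ, PiLp.smul_apply, smul_eq_mul]
  split_ifs <;> simp

theorem norm_pJ_sq (J : Finset (Fin n)) (x : En n) : ‖pJ J x‖ ^ 2 = ∑ j ∈ J, x j ^ 2 := by
  rw [EuclideanSpace.norm_sq_eq]
  have : ∀ j, ‖pJ J x j‖ ^ 2 = if j ∈ J then x j ^ 2 else 0 := by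
    intro j
    simp only [pJ]
    split_ifs <;> simp
  simp_rw [this]
  simp

theorem norm_pJ_le (J : Finset (Fin n)) {x : En n} {δ : ℝ} (hδ : 0 ≤ δ) (h : ∀ j, |x j| ≤ δ) :
    ‖pJ J x‖ ≤ Real.sqrt n * δ := by
  have h1 : ‖pJ J x‖ ^ 2 ≤ n * δ ^ 2 := by
    rw [norm_pJ_sq]
    calc ∑ j ∈ J, x j ^ 2 ≤ ∑ j ∈ J, δ ^ 2 := Finset.sum_le_sum fun j _ => by
          rw [← sq_abs]; exact pow_le_pow_left₀ (abs_nonneg _) (h j) 2
      _ = J.card * δ ^ 2 := by simp
      _ ≤ n * δ ^ 2 := by
        gcongr
        simpa using J.card_le_univ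
  have h2 : Real.sqrt n * δ = Real.sqrt (n * δ ^ 2) := by
    rw [Real.sqrt_mul (Nat.cast_nonneg n), Real.sqrt_sq hδ]
  rw [h2]
  exact Real.le_sqrt_of_sq_le h1

theorem continuous_pJ (J : Finset (Fin n)) : Continuous (pJ (n := n) J) := by
  unfold pJ
  refine (PiLp.continuous_toLp 2 _).comp ?_
  refine continuous_pi fun j => ?_
  by_cases hj : j ∈ J
  · simp only [if_pos hj]; fun_prop
  · simp only [if_neg hj]; exact continuous_const

/-- the convex set in the universal cover -/
def CJ (J : Finset (Fin n)) (r : ℝ) : Set (En n) := {x | ‖pJ J x‖ < r}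

theorem isOpen_CJ (J : Finset (Fin n)) (r : ℝ) : IsOpen (CJ (n := n) J r) :=
  isOpen_lt (continuous_pJ J).norm continuous_const

theorem rho2_le_norm_pJ (J : Finset (Fin n)) (x : En n) : rho2 J x ≤ ‖pJ J x‖ ^ 2 := by
  rw [norm_pJ_sq]
  unfold rho2
  refine Finset.sum_le_sum fun j _ => ?_
  rw [← sq_abs, ← sq_abs (x j)]
  have := abs_dd_le (x j) 0
  simp only [Int.cast_zero, sub_zero] at this
  exact pow_le_pow_left₀ (abs_nonneg _) this 2

section main2

variable {w : En n → ℝ} (hm : Measurable w) {C : ℝ} (hb : ∀ x, |w x| ≤ C) (hper : IsPer w)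
  {i : Fin n} (hinv : ∀ x (t : ℝ), w (x + t • ei i) = w x)
  {J : Finset (Fin n)} (hi : i ∉ J) {r : ℝ} (hr : 0 < r)
  (hw : ∀ η : En n → En n, ContDiff ℝ ∞ η → IsPer η → (∀ x, η x i = 0) →
    (∀ x (t : ℝ), η (x + t • ei i) = η x) →
    (∃ r', 0 ≤ r' ∧ r' < r ∧ ∀ x, η x ≠ 0 → rho2 J x ≤ r' ^ 2) →
    ∫ x in unitCell n, w x * divergence η x = 0)

include hm hb hper hinv hi hw in
theorem local_translate {h x₁ : En n} (hx1 : x₁ ∈ CJ J r) (hx2 : x₁ + h ∈ CJ J r) :
    ∃ U : Set (En n), IsOpen U ∧ x₁ ∈ U ∧ ∀ᵐ x, x ∈ U → w (x + h) - w x = 0 := by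
  set M := max ‖pJ J x₁‖ ‖pJ J (x₁ + h)‖ with hM
  have hMr : M < r := max_lt hx1 hx2
  have hM0 : 0 ≤ M := (norm_nonneg _).trans (le_max_left _ _)
  set δ := min (1/4) ((r - M) / (2 * (Real.sqrt n + 1))) with hδ
  have hsn : 0 ≤ Real.sqrt n := Real.sqrt_nonneg _
  have hδ0 : 0 < δ := lt_min (by norm_num) (div_pos (by linarith) (by positivity))
  have hδ1 : δ < 1/2 := (min_le_left _ _).trans_lt (by norm_num)
  have hδ2 : Real.sqrt n * δ ≤ (r - M) / 2 := by
    have h1 : δ ≤ (r - M) / (2 * (Real.sqrt n + 1)) := min_le_right _ _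
    have h2 : (Real.sqrt n + 1) * δ ≤ (r - M) / 2 := by
      rw [le_div_iff₀ (by positivity)] at h1
      linarith
    nlinarith
  set r' := (M + r) / 2 with hr'
  refine ⟨{y | ∀ j, |y j - x₁ j| < δ}, ?_, ?_, ?_⟩
  · have : {y : En n | ∀ j, |y j - x₁ j| < δ} = ⋂ j, {y : En n | |y j - x₁ j| < δ} := by
      ext y; simp
    rw [this]
    refine isOpen_iInter_of_finite fun j => isOpen_lt (by fun_prop) continuous_const
  · intro j; simpa using hδ0
  · have hU : IsOpen {y : En n | ∀ j, |y j - x₁ j| < δ} := by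
      have : {y : En n | ∀ j, |y j - x₁ j| < δ} = ⋂ j, {y : En n | |y j - x₁ j| < δ} := by
        ext y; simp
      rw [this]
      refine isOpen_iInter_of_finite fun j => isOpen_lt (by fun_prop) continuous_const
    have hwB : BMP w := ⟨hm, ⟨C, hb⟩, hper⟩
    have hfB : BMP (fun x => w (x + h) - w x) := (hwB.translate h).sub hwB
    have hloc : LocallyIntegrable (fun x => w (x + h) - w x) (volume : Measure (En n)) := by
      obtain ⟨C', hC'⟩ := hfB.bdd
      have h1 : LocallyIntegrable (fun _ : En n => C') volume := locallyIntegrable_const _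
      exact h1.mono hfB.meas.aestronglyMeasurable (Eventually.of_forall fun x => by
        rw [Real.norm_eq_abs, Real.norm_eq_abs]
        exact (hC' x).trans (le_abs_self _))
    refine hU.ae_eq_zero_of_integral_contDiff_smul_eq_zero (hloc.locallyIntegrableOn _) ?_
    intro g hg hgc hgs
    have hsupp : ∀ x, g x ≠ 0 → ∀ j, |x j - x₁ j| ≤ δ := fun x hx j => by
      have : x ∈ tsupport g := subset_tsupport g hx
      exact (hgs this j).le
    have e1 : ∫ x, g x • (w (x + h) - w x) = ∫ x, (w (x + h) - w x) * g x := by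
      congr 1; ext x; rw [smul_eq_mul, mul_comm]
    rw [e1]
    refine (integral_mul_perz (f := fun x => w (x + h) - w x) (x₀ := x₁) (g := g) hfB.per hδ1
      hsupp).symm.trans ?_
    refine translate_zero hm hb hper hinv hi hw (contDiff_perz hg hδ1 hsupp) (perz_per x₁ g)
      (r' := r') (by linarith) (by linarith) h ?_
    intro t ht x hx
    obtain ⟨v, hv, hrep⟩ := rep_sub x₁ (x - t • h)
    have h3 := hsupp (rep x₁ (x - t • h)) hx
    set z := rep x₁ (x - t • h) with hz
    have h4 : x + v = z + t • h := by rw [hrep]; abel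
    have h5 : rho2 J x = rho2 J (z + t • h) := by
      rw [← h4]; exact (rho2_per J v hv x).symm
    rw [h5]
    refine (rho2_le_norm_pJ J _).trans ?_
    have h6 : z + t • h = ((1 - t) • x₁ + t • (x₁ + h)) + (z - x₁) := by
      rw [sub_smul, one_smul, smul_add]; abel
    have h7 : ‖pJ J (z + t • h)‖ ≤ r' := by
      rw [h6, pJ_add, pJ_add, pJ_smul, pJ_smul]
      have a1 : ‖(1 - t) • pJ J x₁ + t • pJ J (x₁ + h)‖ ≤ M := by
        refine (norm_add_le _ _).trans ?_
        rw [norm_smul, norm_smul, Real.norm_of_nonneg (by linarith [ht.2]),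
          Real.norm_of_nonneg ht.1]
        have b1 : ‖pJ J x₁‖ ≤ M := le_max_left _ _
        have b2 : ‖pJ J (x₁ + h)‖ ≤ M := le_max_right _ _
        nlinarith [ht.1, ht.2]
      have a2 : ‖pJ J (z - x₁)‖ ≤ Real.sqrt n * δ := by
        apply norm_pJ_le J hδ0.le
        intro j
        exact h3 j
      refine (norm_add_le _ _).trans ?_
      rw [hr']
      linarith
    exact pow_le_pow_left₀ (norm_nonneg _) h7 2

include hm hb hper hinv hi hw in
theorem ae_translate (h : En n) :
    ∀ᵐ x, ¬ (x ∈ CJ J r ∧ x + h ∈ CJ J r ∧ w x ≠ w (x + h)) := by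
  rw [ae_iff]
  simp only [not_not]
  apply measure_null_of_locally_null
  rintro x₁ ⟨h1, h2, -⟩
  obtain ⟨U, hU, hxU, hae⟩ := local_translate hm hb hper hinv hi hw h1 h2
  rw [ae_iff] at hae
  refine ⟨{x | ¬ (x ∈ U → w (x + h) - w x = 0)}, ?_, hae⟩
  have : U ∈ 𝓝[{x | x ∈ CJ J r ∧ x + h ∈ CJ J r ∧ w x ≠ w (x + h)}] x₁ :=
    mem_nhdsWithin_of_mem_nhds (hU.mem_nhds hxU)
  filter_upwards [this, self_mem_nhdsWithin] with x hx hx2
  rw [Classical.not_imp]
  exact ⟨hx, fun h0 => hx2.2.2 (by linarith)⟩

include hm hb hper hinv hi hw hr in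
theorem const_on_CJ : ∃ c0, ∀ᵐ x : En n, x ∈ CJ J r → w x = c0 := by
  have hCm : MeasurableSet (CJ (n := n) J r) := (isOpen_CJ J r).measurableSet
  set N : Set (En n × En n) := {p | p.1 ∈ CJ J r ∧ p.2 ∈ CJ J r ∧ w p.1 ≠ w p.2} with hN
  have hNm : MeasurableSet N := by
    have a1 : MeasurableSet {p : En n × En n | p.1 ∈ CJ J r} := measurable_fst hCm
    have a2 : MeasurableSet {p : En n × En n | p.2 ∈ CJ J r} := measurable_snd hCm
    have a3 : MeasurableSet {p : En n × En n | w p.1 ≠ w p.2} :=
      (measurableSet_eq_fun (hm.comp measurable_fst) (hm.comp measurable_snd)).compl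
    exact a1.inter (a2.inter a3)
  have hmp := measurePreserving_prod_add (volume : Measure (En n)) (volume : Measure (En n))
  have hN0 : ((volume : Measure (En n)).prod volume) N = 0 := by
    rw [← hmp.measure_preimage hNm.nullMeasurableSet]
    rw [Measure.prod_apply_symm (hmp.measurable hNm)]
    rw [lintegral_eq_zero_iff]
    · refine Eventually.of_forall fun h => ?_
      have := ae_translate hm hb hper hinv hi hw h
      rw [ae_iff] at this
      simp only [not_not] at this
      exact this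
    · exact measurable_measure_prodMk_right (hmp.measurable hNm)
  have hae := (Measure.measure_prod_null hNm).1 hN0
  -- pick a good point
  have hpos : (volume : Measure (En n)) (CJ J r) ≠ 0 := by
    refine ((isOpen_CJ J r).measure_pos volume ⟨0, ?_⟩).ne'
    show ‖pJ J (0 : En n)‖ < r
    have : pJ J (0 : En n) = 0 := by
      have := pJ_smul J 0 (0 : En n)
      simpa using this
    rw [this, norm_zero]; exact hr
  have hex : ∃ x₀ ∈ CJ (n := n) J r, volume (Prod.mk x₀ ⁻¹' N) = 0 := by
    by_contra hcon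
    push Not at hcon
    apply hpos
    refine measure_mono_null ?_ (ae_iff.1 hae)
    intro x hx
    exact hcon x hx
  obtain ⟨x₀, hx₀, h0⟩ := hex
  refine ⟨w x₀, ?_⟩
  rw [ae_iff]
  refine measure_mono_null ?_ h0
  intro y hy
  rw [mem_ofPred_eq, Classical.not_imp] at hy
  exact ⟨hx₀, hy.1, fun h => hy.2 h.symm⟩

include hm hb hper hinv hi hw hr in
/-- a bounded periodic function, invariant in direction `i`, with vanishing weak gradient on the
tube `{rho2 J < r²}`, is constant there. -/
theorem const_of_weak (_hr2 : r < 1/2) : ∃ c0, ∀ᵐ x : En n, rho2 J x < r ^ 2 → w x = c0 := by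
  obtain ⟨c0, hc⟩ := const_on_CJ hm hb hper hinv hi hr hw
  refine ⟨c0, ?_⟩
  have h1 : ∀ v : latt n, ∀ᵐ x : En n, x + (v : En n) ∈ CJ J r → w (x + (v : En n)) = c0 := by
    intro v
    have := (measurePreserving_add_right (volume : Measure (En n)) (v : En n)).quasiMeasurePreserving
    exact this.ae hc
  filter_upwards [ae_all_iff.2 h1] with x hx hlt
  obtain ⟨v, hv, hrep⟩ := rep_sub 0 x
  have hv' : v ∈ latt n := (mem_latt v).2 hv
  have h2 := hx ⟨v, hv'⟩
  have h3 : x + v ∈ CJ J r := by
    show ‖pJ J (x + v)‖ < r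
    rw [← hrep]
    have h4 : ‖pJ J (rep 0 x)‖ ^ 2 = rho2 J x := by
      rw [norm_pJ_sq]
      unfold rho2
      refine Finset.sum_congr rfl fun j _ => ?_
      simp
    have h5 : ‖pJ J (rep 0 x)‖ ^ 2 < r ^ 2 := by rw [h4]; exact hlt
    exact lt_of_pow_lt_pow_left₀ 2 hr.le h5
  have h4 := h2 h3
  rw [← h4]
  exact (hper v hv x).symm

end main2

end Crest.Agent.R214.Rig

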