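import Crest.Agent.R214.RigVar4

set_option autoImplicit false

/-! Row 214, rigidity of Steiner symmetrisation for the model regions. -/

open MeasureTheory Set Filter Topology Crest.GeometryTopology.PeriodicPerimeter
open scoped ContDiff

noncomputable section

namespace Crest.Agent.R214.Rig

variable {n : ℕ}

/-- the statement `const_of_weak` -/
def ConstOfWeak (n : ℕ) : Prop :=
  ∀ (w : En n → ℝ), Measurable w → ∀ (C : ℝ), (∀ x, |w x| ≤ C) → IsPer w →
    ∀ (i : Fin n), (∀ (x : En n) (t : ℝ), w (x + t • ei i) = w x) →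
    ∀ (J : Finset (Fin n)), i ∉ J → ∀ (r : ℝ), 0 < r → r < 1 / 2 →
    (∀ η : En n → En n, ContDiff ℝ ∞ η → IsPer η → (∀ x, η x i = 0) →
      (∀ (x : En n) (t : ℝ), η (x + t • ei i) = η x) →
      (∃ r', 0 ≤ r' ∧ r' < r ∧ ∀ x, η x ≠ 0 → rho2 J x ≤ r' ^ 2) →
      ∫ x in unitCell n, w x * divergence η x = 0) →
    ∃ c0, ∀ᵐ x : En n, rho2 J x < r ^ 2 → w x = c0

/-- a property holding at a.e. point of a.e. line holds a.e. (periodic measurable version) -/
theorem ae_of_ae_line {S : Set (En n)} (hS : MeasurableSet S) (hp : IsLatticePeriodic S) (i : Fin n)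
    (h : ∀ᵐ x : En n, ∀ᵐ t : ℝ, x + t • ei i ∉ S) : ∀ᵐ x : En n, x ∉ S := by
  have h1 : ∀ᵐ x : En n, flen S i x = 0 := by
    filter_upwards [h] with x hx
    unfold flen
    have : ∫ t in (0:ℝ)..1, ind (fib S i x) t = ∫ t in (0:ℝ)..1, (0:ℝ) := by
      apply intervalIntegral.integral_congr_ae
      filter_upwards [hx] with t ht _
      exact ind_of_notMem ht
    rw [this]
    simp
  have h0 : periodicVolume S = 0 := by
    rw [← integral_flen hS hp i]
    have : ∫ x in unitCell n, flen S i x = ∫ x in unitCell n, (0:ℝ) :=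
      integral_congr_ae (ae_restrict_of_ae h1)
    rw [this]
    simp
  have h2 : (volume : Measure (En n)) (S ∩ unitCell n) = 0 := by
    unfold periodicVolume at h0
    rw [ENNReal.toReal_eq_zero_iff] at h0
    rcases h0 with h0 | h0
    · exact h0
    · exact absurd h0 (ne_top_of_le_ne_top (volume_unitCell_lt_top n).ne
        (measure_mono Set.inter_subset_right))
  exact measure_eq_zero_iff_ae_notMem.1 (null_of_periodicVolume hp h2)

theorem dd_zero : dd 0 = 0 := by simp [dd]

theorem dd_periodic (t : ℝ) : dd (t + 1) = dd t := by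
  have := dd_add_int t 1
  simpa using this

theorem measurable_dd : Measurable dd := by
  unfold dd
  exact measurable_id.sub ((Measurable.of_discrete (f := fun m : ℤ => (m : ℝ))).comp measurable_rnd)

/-- the model region centred at `c` in direction `i` -/
def region (i : Fin n) (J : Finset (Fin n)) (r c : ℝ) : Set (En n) :=
  {y | dd (y i - c) ^ 2 + rho2 J y < r ^ 2}

theorem measurableSet_region (i : Fin n) (J : Finset (Fin n)) (r c : ℝ) :
    MeasurableSet (region i J r c) := by
  unfold region
  have h1 : Continuous (fun y : En n => dd (y i - c) ^ 2) :=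
    continuous_dd_sq.comp ((EuclideanSpace.proj (𝕜 := ℝ) i).continuous.sub continuous_const)
  exact (isOpen_lt (h1.add (continuous_rho2 J)) continuous_const).measurableSet

theorem region_per (i : Fin n) (J : Finset (Fin n)) (r c : ℝ) :
    IsLatticePeriodic (region i J r c) := by
  intro v hv x
  obtain ⟨m, hm⟩ := hv i
  unfold region
  simp only [Set.mem_ofPred_eq]
  have : (x + v) i - c = (x i - c) + m := by
    have : (x + v) i = x i + m := by rw [← hm]; rfl
    rw [this]; ring
  rw [this, dd_add_int, rho2_per J v hv x]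

theorem Model.rigid {E : Set (En n)} {i : Fin n} {J : Finset (Fin n)} {r : ℝ} (h : Model E i J r)
    (hC : ConstOfWeak n) :
    ∃ c0 : ℝ, ∀ᵐ y : En n, y ∈ E ↔ y ∈ region i J r c0 := by
  -- the clipped phase functions are a.e. constant
  have hconst : ∀ θ : ℝ, ∃ c0, ∀ᵐ x : En n, rho2 J x < r ^ 2 → wt E i J r θ x = c0 := by
    intro θ
    set w : En n → ℝ := fun x => max (-1) (min 1 (wt E i J r θ x)) with hw
    have hae : ∀ᵐ x : En n, w x = wt E i J r θ x := by
      filter_upwards [h.ae_abs_wt_le θ] with x hx
      have := abs_le.1 hx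
      simp only [hw]
      rw [min_eq_right this.2, max_eq_right this.1]
    have hm : Measurable w := measurable_const.max (measurable_const.min (measurable_wt h.meas θ))
    have hb : ∀ x, |w x| ≤ 1 := by
      intro x
      rw [abs_le]
      exact ⟨le_max_left _ _, max_le (by norm_num) (min_le_left _ _)⟩
    have hp : IsPer w := by
      intro v hv x
      simp only [hw, wt_per h.per θ v hv x]
    have hinv : ∀ (x : En n) (t : ℝ), w (x + t • ei i) = w x := by
      intro x t
      simp only [hw, wt_inv h.per h.hi]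
    obtain ⟨c0, hc0⟩ := hC w hm 1 hb hp i hinv J h.hi r h.hr h.hr2 (by
      intro η hη hηp hηi hηinv hηs
      have hT : TestField i J r η := ⟨hη.of_le (by norm_cast), hηp, hηi, hηinv, hηs⟩
      rw [← h.weak_zero θ hT]
      apply integral_congr_ae
      filter_upwards [ae_restrict_of_ae hae] with x hx
      rw [hx])
    refine ⟨c0, ?_⟩
    filter_upwards [hc0, hae] with x hx1 hx2 hxD
    rw [← hx2]
    exact hx1 hxD
  obtain ⟨A, hA⟩ := hconst 0
  obtain ⟨B, hB⟩ := hconst (1 / 4)
  -- the disc has positive measure, so that A² + B² = 1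
  have hpos : (volume : Measure (En n)) {x | rho2 J x < r ^ 2} ≠ 0 := by
    have hne : ({x : En n | rho2 J x < r ^ 2}).Nonempty := by
      refine ⟨0, ?_⟩
      change rho2 J 0 < r ^ 2
      have : rho2 J (0 : En n) = 0 := by
        unfold rho2
        apply Finset.sum_eq_zero
        intro j _
        have : (0 : En n) j = 0 := rfl
        rw [this, dd_zero]
        simp
      rw [this]
      have := h.hr
      positivity
    exact ((isOpen_D J).measure_pos volume hne).ne'
  have hAB : A ^ 2 + B ^ 2 = 1 := by
    have h1 : ∀ᵐ x : En n, rho2 J x < r ^ 2 → A ^ 2 + B ^ 2 = 1 := by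
      filter_upwards [h.ae_wt, hA, hB] with x hx hxA hxB hxD
      obtain ⟨c, -, hc⟩ := hx hxD
      rw [← hxA hxD, ← hxB hxD, hc, hc]
      have e : 2 * Real.pi * ((x i - 1 / 4) + c) = 2 * Real.pi * ((x i - 0) + c) - Real.pi / 2 := by ring
      rw [e, Real.cos_sub_pi_div_two]
      exact Real.cos_sq_add_sin_sq _
    by_contra hcon
    apply hpos
    rw [ae_iff] at h1
    refine measure_mono_null ?_ h1
    intro x hx
    simp only [Classical.not_imp, Set.mem_ofPred_eq]
    exact ⟨hx, hcon⟩
  -- the common phase
  obtain ⟨φ, hφ1, hφ2⟩ : ∃ φ : ℝ, Real.cos φ = A ∧ Real.sin φ = B := by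
    have hn : ‖(⟨A, B⟩ : ℂ)‖ = 1 := by
      rw [Complex.norm_def, Complex.normSq_mk]
      have : A * A + B * B = 1 := by nlinarith
      rw [this, Real.sqrt_one]
    have h0 : (⟨A, B⟩ : ℂ) ≠ 0 := by
      intro h0
      rw [h0] at hn
      simp at hn
    refine ⟨Complex.arg ⟨A, B⟩, ?_, ?_⟩
    · rw [Complex.cos_arg h0, hn]; simp
    · rw [Complex.sin_arg, hn]; simp
  set c0 := φ / (2 * Real.pi) with hc0
  have hpi := Real.pi_pos
  have hφ : φ = 2 * Real.pi * c0 := by rw [hc0]; field_simp
  refine ⟨c0, ?_⟩
  -- a.e. line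
  have hline : ∀ᵐ x : En n, ∀ᵐ t : ℝ, (x + t • ei i ∈ E ↔ x + t • ei i ∈ region i J r c0) := by
    filter_upwards [h.ae_wt, hA, hB, h.len, ae_line h.ae_mem i] with x hx hxA hxB hlen hmem
    by_cases hxD : rho2 J x < r ^ 2
    · obtain ⟨c, harc, hc⟩ := hx hxD
      have e0 : wt E i J r 0 x = A := hxA hxD
      have e1 : wt E i J r (1/4) x = B := hxB hxD
      rw [hc] at e0 e1
      have e : 2 * Real.pi * ((x i - 1 / 4) + c) = 2 * Real.pi * ((x i - 0) + c) - Real.pi / 2 := by ring
      rw [e, Real.cos_sub_pi_div_two] at e1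
      have hone : Real.cos (2 * Real.pi * (x i - 0 + c) - 2 * Real.pi * c0) = 1 := by
        rw [Real.cos_sub, e0, e1, ← hφ, hφ1, hφ2]
        nlinarith
      rw [Real.cos_eq_one_iff] at hone
      obtain ⟨m, hm⟩ := hone
      have hcc : c = c0 - x i + m := by
        have h2 : (2 * Real.pi) * (x i + c - c0 - m) = 0 := by linarith
        have h3 : x i + c - c0 - m = 0 := by
          rcases mul_eq_zero.1 h2 with h4 | h4
          · linarith
          · exact h4
        linarith
      filter_upwards [harc] with t ht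
      have h5 : x + t • ei i ∈ E ↔ t ∈ arc c (uu J r x) := ht
      rw [h5]
      unfold arc region
      simp only [Set.mem_ofPred_eq]
      rw [rho2_add_ei J h.hi]
      have h6 : (x + t • ei i) i = x i + t := by simp [ei]
      rw [h6]
      have h7 : |t - c - round (t - c)| = |dd (x i + t - c0)| := by
        have : t - c = (x i + t - c0) + ((-m : ℤ) : ℝ) := by rw [hcc]; push_cast; ring
        change |dd (t - c)| = _
        rw [this, dd_add_int]
      rw [h7]
      have h8 : uu J r x / 2 = Real.sqrt (r ^ 2 - rho2 J x) := by unfold uu; ring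
      rw [h8, Real.lt_sqrt (abs_nonneg _), sq_abs]
      constructor <;> intro h9 <;> linarith
    · filter_upwards [hmem] with t ht
      constructor
      · intro h1
        have := ht h1
        rw [rho2_add_ei J h.hi] at this
        exact absurd this hxD
      · intro h1
        unfold region at h1
        simp only [Set.mem_ofPred_eq] at h1
        rw [rho2_add_ei J h.hi] at h1
        have := sq_nonneg (dd ((x + t • ei i) i - c0))
        exact absurd (by linarith) hxD
  -- conclude
  set S1 : Set (En n) := E \ region i J r c0 with hS1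
  set S2 : Set (En n) := region i J r c0 \ E with hS2
  have hRm := measurableSet_region i J r c0
  have hRp := region_per i J r c0
  have k1 : ∀ᵐ x : En n, x ∉ S1 := by
    apply ae_of_ae_line (h.meas.diff hRm) _ i
    · filter_upwards [hline] with x hx
      filter_upwards [hx] with t ht h1
      exact h1.2 (ht.1 h1.1)
    · intro v hv x
      simp only [Set.mem_sdiff, h.per v hv x, hRp v hv x]
  have k2 : ∀ᵐ x : En n, x ∉ S2 := by
    apply ae_of_ae_line (hRm.diff h.meas) _ i
    · filter_upwards [hline] with x hx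
      filter_upwards [hx] with t ht h1
      exact h1.2 (ht.2 h1.1)
    · intro v hv x
      simp only [Set.mem_sdiff, h.per v hv x, hRp v hv x]
  filter_upwards [k1, k2] with x h1 h2
  constructor
  · intro h3
    by_contra h4
    exact h1 ⟨h3, h4⟩
  · intro h3
    by_contra h4
    exact h2 ⟨h3, h4⟩

end Crest.Agent.R214.Rig
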