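import Crest.Agent.R214.Geo
import Crest.Agent.R214.Inv
import Crest.Agent.R214.RigMain
import Crest.Agent.R214.RigConst

/-!
# BallRigid: if the lines of `A` in direction `0` have the lengths of the lines of a ball, and `A` has
the perimeter of the ball, then `A` is a ball (any dimension `n+1 ≥ 2`)

Corollary of helper36's `Rig.Model.rigid` (RigMain.lean) and helper915's `Rig.const_of_weak`
(RigConst.lean), applied to the translate of `A` centred at the axis.
-/

set_option autoImplicit false
open MeasureTheory Crest.GeometryTopology.PeriodicPerimeter Filter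
open scoped ENNReal NNReal Topology
noncomputable section
namespace Crest.Agent.R214

theorem ae_tl {n : ℕ} {P : Eu n → Prop} (h : ∀ᵐ y : Eu n, P y) : ∀ᵐ x : Eu (n + 1), P (tl x) := by
  have h1 : ∀ᵐ p : ℝ × Eu n, P p.2 := Measure.quasiMeasurePreserving_snd.ae h
  rw [← (measurePreserving_cons (n := n)).map_eq, measurableEmbedding_cons.ae_map_iff]
  simpa using h1

theorem constOfWeak (n : ℕ) : Rig.ConstOfWeak n := by
  intro w hm C hb hper i hinv J hi r hr hr2 hw
  exact Rig.const_of_weak hm hb hper hinv hi hr hw hr2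

/-- the fibre length of helper36's track in terms of `mln` -/
private theorem flen_zero_eq_mln {n : ℕ} {A : Set (Eu (n + 1))} (hA : MeasurableSet A)
    (hp : IsLatticePeriodic A) (x : Eu (n + 1)) : Rig.flen A 0 x = mln A (tl x) := by
  set y := tl x with hy
  have e1 : ∀ t : ℝ, Rig.ind (Rig.fib A 0 x) t = (ln A y).indicator (fun _ => (1 : ℝ)) (x 0 + t) := by
    intro t
    have hx : x + t • Rig.ei 0 = cons (x 0 + t) y := by
      ext i
      refine Fin.cases ?_ (fun i => ?_) i
      · simp [Rig.ei]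
      · simp [Rig.ei, hy, tl]
    have hiff : t ∈ Rig.fib A 0 x ↔ x 0 + t ∈ ln A y := by
      show x + t • Rig.ei 0 ∈ A ↔ cons (x 0 + t) y ∈ A
      rw [hx]
    by_cases h : t ∈ Rig.fib A 0 x
    · rw [Rig.ind_of_mem h, Set.indicator_of_mem (hiff.1 h)]
    · rw [Rig.ind_of_notMem h, Set.indicator_of_notMem (fun h' => h (hiff.2 h'))]
  have hper : Function.Periodic ((ln A y).indicator (fun _ => (1 : ℝ))) 1 := by
    intro t
    by_cases h : t ∈ ln A y
    · rw [Set.indicator_of_mem h, Set.indicator_of_mem ((ln_add_one hp y t).2 h)]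
    · rw [Set.indicator_of_notMem h,
        Set.indicator_of_notMem (fun h' => h ((ln_add_one hp y t).1 h'))]
  unfold Rig.flen
  simp only [e1]
  rw [intervalIntegral.integral_comp_add_left (fun t => (ln A y).indicator (fun _ => (1 : ℝ)) t) (x 0),
    add_zero, hper.intervalIntegral_add_eq (x 0) 0, zero_add,
    intervalIntegral.integral_of_le zero_le_one, ← integral_Ico_eq_integral_Ioc,
    integral_indicator (measurableSet_ln hA y), setIntegral_const, smul_eq_mul, mul_one,
    Measure.real, Measure.restrict_apply (measurableSet_ln hA y)]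
  rfl

theorem ball_rigid {n : ℕ} (hn : 1 ≤ n) (A : Set (Eu (n + 1))) (hA : MeasurableSet A)
    (hp : IsLatticePeriodic A) (ρ : ℝ) (h0 : 0 < ρ) (h1 : ρ < 1 / 2) (c : Eu n)
    (hm : ∀ᵐ y ∂(volume : Measure (Eu n)),
      mln A y = 2 * Real.sqrt (ρ ^ 2 - ∑ i, dZ (y i - c i) ^ 2))
    (hP : periodicPerimeter A ≤ ENNReal.ofReal ((n + 1) * periodicVolume A / ρ)) :
    ∃ a : ℝ, A =ᵐ[volume] PB (cons a c) ρ := by
  set J : Finset (Fin (n + 1)) := Finset.univ.map (Fin.succEmb n) with hJ
  set E : Set (Eu (n + 1)) := tr (cons 0 (-c)) A with hE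
  have hEiso := isCubicIsometry_tr (cons (0 : ℝ) (-c) : Eu (n + 1))
  have hEm : MeasurableSet E := (measurePreserving_cubic _ hEiso).measurable hA
  have hEp : IsLatticePeriodic E := periodic_preimage _ hEiso A hp
  have hEP : periodicPerimeter E = periodicPerimeter A := per_tr _ A hA hp
  have hEV : periodicVolume E = periodicVolume A := vol_tr _ A hA hp
  have hrho : ∀ x : Eu (n + 1), Rig.rho2 J x = ∑ i : Fin n, dZ (x i.succ) ^ 2 := by
    intro x
    rw [Rig.rho2, hJ, Finset.sum_map]
    refine Finset.sum_congr rfl fun i _ => ?_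
    simp [Rig.dd, dZ, sq_abs]
  have hlnE : ∀ y : Eu n, mln E y = mln A (y + c) := by
    intro y
    have : ln E y = ln A (y + c) := by
      ext t
      show cons t y - cons 0 (-c) ∈ A ↔ cons t (y + c) ∈ A
      have e : cons t y - cons 0 (-c) = cons t (y + c) := by
        ext i
        refine Fin.cases ?_ (fun i => ?_) i
        · simp
        · simp
      rw [e]
    unfold mln
    rw [this]
  have hmE : ∀ᵐ y : Eu n, mln E y = 2 * Real.sqrt (ρ ^ 2 - ∑ i, dZ (y i) ^ 2) := by
    have := (measurePreserving_add_right (volume : Measure (Eu n)) c).quasiMeasurePreserving.ae hm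
    filter_upwards [this] with y hy
    rw [hlnE, hy]
    simp
  have hlen : ∀ᵐ x : Eu (n + 1), Rig.flen E 0 x = Rig.uu J ρ x := by
    filter_upwards [ae_tl hmE] with x hx
    rw [flen_zero_eq_mln hEm hEp, hx, Rig.uu, hrho]
    rfl
  have hvol : ∫ x in unitCell (n + 1), Rig.uu J ρ x = periodicVolume A := by
    rw [← hEV, ← Rig.integral_flen hEm hEp 0]
    exact (integral_congr_ae (ae_restrict_of_ae hlen)).symm
  have hcard : J.card = n := by simp [hJ]
  have hmod : Rig.Model E 0 J ρ :=
    { meas := hEm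
      per := hEp
      fin := by rw [hEP]; exact (lt_of_le_of_lt hP ENNReal.ofReal_lt_top).ne
      hi := by simp [hJ, Fin.succ_ne_zero]
      hr := h0
      hr2 := h1
      len := hlen
      le := by
        rw [hEP, hcard, hvol]
        refine (ENNReal.toReal_mono ENNReal.ofReal_ne_top hP).trans ?_
        rw [ENNReal.toReal_ofReal (by have := vol_nonneg A; positivity)]
        apply le_of_eq
        ring }
  obtain ⟨c0, hc0⟩ := hmod.rigid (constOfWeak _)
  refine ⟨c0, ?_⟩
  have hq := (measurePreserving_cubic _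
    (isCubicIsometry_tr (cons (0 : ℝ) c : Eu (n + 1)))).quasiMeasurePreserving.ae hc0
  rw [Filter.eventuallyEq_set]
  filter_upwards [hq] with z hz
  have e1 : z - cons 0 c ∈ E ↔ z ∈ A := by
    show z - cons 0 c - cons 0 (-c) ∈ A ↔ z ∈ A
    have e : z - cons 0 c - cons 0 (-c) = z := by
      ext i
      refine Fin.cases ?_ (fun i => ?_) i
      · simp
      · simp
    rw [e]
  have e2 : z - cons 0 c ∈ Rig.region 0 J ρ c0 ↔ z ∈ PB (cons c0 c) ρ := by
    show Rig.dd ((z - cons 0 c) 0 - c0) ^ 2 + Rig.rho2 J (z - cons 0 c) < ρ ^ 2 ↔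
      ∑ i, dZ (z i - (cons c0 c) i) ^ 2 < ρ ^ 2
    rw [hrho, Fin.sum_univ_succ]
    have e3 : Rig.dd ((z - cons 0 c) 0 - c0) ^ 2 = dZ (z 0 - (cons c0 c) 0) ^ 2 := by
      simp [Rig.dd, dZ, sq_abs]
    rw [e3]
    simp
  rw [← e1, ← e2]
  exact hz

end Crest.Agent.R214
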