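import Crest.Prelude.Def_PeriodicPerimeter

set_option autoImplicit false

/-! Row 214: lattice-periodic integration over the unit cell of `EuclideanSpace ℝ (Fin n)`. -/

open MeasureTheory Set Filter Topology Crest.GeometryTopology.PeriodicPerimeter

noncomputable section

namespace Crest.Agent.R214

/-- abbreviation for the ambient space -/
abbrev En (n : ℕ) := EuclideanSpace ℝ (Fin n)

/-- lattice periodic functions -/
def IsPer {n : ℕ} {G : Type*} (F : En n → G) : Prop :=
  ∀ v, HasIntegerCoords v → ∀ x, F (x + v) = F x

/-- the integer lattice as an additive subgroup -/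
def latt (n : ℕ) : AddSubgroup (En n) :=
  (Submodule.span ℤ (Set.range (EuclideanSpace.basisFun (Fin n) ℝ).toBasis)).toAddSubgroup

theorem mem_latt {n : ℕ} (v : En n) : v ∈ latt n ↔ HasIntegerCoords v := by
  unfold latt HasIntegerCoords
  rw [Submodule.mem_toAddSubgroup, Module.Basis.mem_span_iff_repr_mem]
  refine forall_congr' fun i => ?_
  simp [eq_comm]

instance (n : ℕ) : Countable (latt n) := by
  unfold latt
  change Countable (Submodule.span ℤ (Set.range (EuclideanSpace.basisFun (Fin n) ℝ).toBasis))
  infer_instance

theorem unitCell_eq (n : ℕ) :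
    unitCell n = ZSpan.fundamentalDomain (EuclideanSpace.basisFun (Fin n) ℝ).toBasis := by
  ext x
  simp [unitCell, ZSpan.mem_fundamentalDomain]

theorem measurableSet_unitCell (n : ℕ) : MeasurableSet (unitCell n) := by
  rw [unitCell_eq]
  exact ZSpan.fundamentalDomain_measurableSet _

theorem isAddFundamentalDomain_unitCell (n : ℕ) :
    IsAddFundamentalDomain (latt n) (unitCell n) (volume : Measure (En n)) := by
  rw [unitCell_eq]
  exact ZSpan.isAddFundamentalDomain' _ _

theorem existsUnique_cell {n : ℕ} (x : En n) : ∃! g : latt n, g +ᵥ x ∈ unitCell n := by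
  rw [unitCell_eq]
  exact ZSpan.exist_unique_vadd_mem_fundamentalDomain _ x

theorem exists_cell {n : ℕ} (x : En n) : ∃ v : En n, HasIntegerCoords v ∧ x + v ∈ unitCell n := by
  obtain ⟨g, hg, -⟩ := existsUnique_cell x
  refine ⟨g, (mem_latt _).1 g.2, ?_⟩
  rw [add_comm]
  exact hg

theorem isAddFundamentalDomain_translate {n : ℕ} (v : En n) :
    IsAddFundamentalDomain (latt n) {x : En n | x + v ∈ unitCell n} (volume : Measure (En n)) := by
  refine IsAddFundamentalDomain.mk' ?_ ?_
  · exact ((measurable_add_const v) (measurableSet_unitCell n)).nullMeasurableSet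
  · intro x
    obtain ⟨g, hg, hu⟩ := existsUnique_cell (x + v)
    refine ⟨g, ?_, ?_⟩
    · change (g : En n) + x + v ∈ unitCell n
      change (g : En n) + (x + v) ∈ unitCell n at hg
      rwa [add_assoc]
    · intro g' hg'
      apply hu
      change (g' : En n) + (x + v) ∈ unitCell n
      change (g' : En n) + x + v ∈ unitCell n at hg'
      rwa [← add_assoc]

theorem integral_cell_add {n : ℕ} {G : Type*} [NormedAddCommGroup G] [NormedSpace ℝ G]
    {F : En n → G} (hF : IsPer F) (v : En n) :
    ∫ x in unitCell n, F (x + v) = ∫ x in unitCell n, F x := by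
  have h1 : ∫ x in {x : En n | x + (-v) ∈ unitCell n}, F x = ∫ x in unitCell n, F x := by
    refine (isAddFundamentalDomain_translate (-v)).setIntegral_eq
      (isAddFundamentalDomain_unitCell n) ?_
    intro g x
    change F ((g : En n) + x) = F x
    rw [add_comm]
    exact hF _ ((mem_latt _).1 g.2) x
  rw [← h1]
  have h2 := (measurePreserving_add_right (volume : Measure (En n)) v).setIntegral_preimage_emb
    (measurableEmbedding_addRight v) F {x : En n | x + (-v) ∈ unitCell n}
  rw [← h2]
  congr 2
  ext x
  simp

theorem lintegral_cell_add {n : ℕ} {F : En n → ENNReal} (hF : IsPer F) (v : En n) :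
    ∫⁻ x in unitCell n, F (x + v) = ∫⁻ x in unitCell n, F x := by
  have h1 : ∫⁻ x in {x : En n | x + (-v) ∈ unitCell n}, F x = ∫⁻ x in unitCell n, F x := by
    refine (isAddFundamentalDomain_translate (-v)).setLIntegral_eq
      (isAddFundamentalDomain_unitCell n) _ ?_
    intro g x
    change F ((g : En n) + x) = F x
    rw [add_comm]
    exact hF _ ((mem_latt _).1 g.2) x
  rw [← h1]
  have h2 := (measurePreserving_add_right (volume : Measure (En n)) v).setLIntegral_comp_preimage_emb
    (measurableEmbedding_addRight v) F {x : En n | x + (-v) ∈ unitCell n}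
  rw [← h2]
  congr 2
  ext x
  simp

theorem volume_unitCell (n : ℕ) : (volume : Measure (En n)) (unitCell n) = 1 := by
  rw [unitCell_eq]
  have h := (EuclideanSpace.basisFun (Fin n) ℝ).volume_parallelepiped
  rw [measure_congr (ZSpan.fundamentalDomain_ae_parallelepiped _ volume)]
  simpa using h

theorem volume_unitCell_lt_top (n : ℕ) : (volume : Measure (En n)) (unitCell n) < ⊤ := by
  rw [volume_unitCell]; exact ENNReal.one_lt_top

instance (n : ℕ) : IsProbabilityMeasure ((volume : Measure (En n)).restrict (unitCell n)) := by
  constructor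
  rw [Measure.restrict_apply_univ, volume_unitCell]

theorem norm_le_of_mem_cell {n : ℕ} {x : En n} (hx : x ∈ unitCell n) : ‖x‖ ≤ Real.sqrt n := by
  rw [EuclideanSpace.norm_eq]
  apply Real.sqrt_le_sqrt
  calc ∑ i, ‖x i‖ ^ 2 ≤ ∑ _i : Fin n, (1 : ℝ) := by
        apply Finset.sum_le_sum
        intro i _
        have := hx i
        rw [Real.norm_eq_abs, sq_abs]
        nlinarith [this.1, this.2]
    _ = n := by simp

theorem IsPer.exists_bound {n : ℕ} {G : Type*} [NormedAddCommGroup G] {F : En n → G}
    (hF : IsPer F) (hc : Continuous F) : ∃ C, ∀ x, ‖F x‖ ≤ C := by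
  obtain ⟨C, hC⟩ := (isCompact_closedBall (0 : En n) (Real.sqrt n)).exists_bound_of_continuousOn
    hc.continuousOn
  refine ⟨C, fun x => ?_⟩
  obtain ⟨v, hv, hx⟩ := exists_cell x
  rw [← hF v hv x]
  apply hC
  simpa using norm_le_of_mem_cell hx

theorem IsPer.fderiv {n : ℕ} {G : Type*} [NormedAddCommGroup G] [NormedSpace ℝ G] {F : En n → G}
    (hF : IsPer F) : IsPer (fun x => fderiv ℝ F x) := by
  intro v hv x
  have h : (fun y => F (y + v)) = F := funext (hF v hv)
  have := fderiv_comp_add_right (𝕜 := ℝ) (f := F) (x := x) v
  rw [h] at this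
  exact this.symm

theorem IsPer.integrableOn {n : ℕ} {G : Type*} [NormedAddCommGroup G] {F : En n → G}
    (hF : IsPer F) (hc : Continuous F) : IntegrableOn F (unitCell n) := by
  obtain ⟨C, hC⟩ := hF.exists_bound hc
  exact Measure.integrableOn_of_bounded (volume_unitCell_lt_top n).ne
    hc.aestronglyMeasurable (Eventually.of_forall hC)

/-- the integral of a directional derivative of a `C¹` periodic function over the cell vanishes -/
theorem integral_cell_fderiv_eq_zero {n : ℕ} {F : En n → ℝ}
    (hF : IsPer F) (hc : ContDiff ℝ 1 F) (w : En n) :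
    ∫ x in unitCell n, fderiv ℝ F x w = 0 := by
  have hcont : Continuous (fun x => fderiv ℝ F x w) :=
    (hc.continuous_fderiv one_ne_zero).clm_apply continuous_const
  have hper : IsPer (fun x => fderiv ℝ F x w) := by
    intro v hv x
    have := hF.fderiv v hv x
    simp only at this ⊢
    rw [this]
  obtain ⟨C, hC⟩ := hper.exists_bound hcont
  have hd : HasDerivAt (fun t : ℝ => ∫ x in unitCell n, F (x + t • w))
      (∫ x in unitCell n, fderiv ℝ F x w) 0 := by
    have key := hasDerivAt_integral_of_dominated_loc_of_deriv_le
      (μ := (volume : Measure (En n)).restrict (unitCell n)) (𝕜 := ℝ)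
      (F := fun t x => F (x + t • w)) (F' := fun t x => fderiv ℝ F (x + t • w) w)
      (x₀ := (0 : ℝ)) (s := Set.univ) (bound := fun _ => C) Filter.univ_mem
      (Eventually.of_forall fun t => by
        have : Continuous (fun x : En n => F (x + t • w)) :=
          hc.continuous.comp (continuous_id.add continuous_const)
        exact this.aestronglyMeasurable)
      (by
        have := hF.integrableOn hc.continuous
        simpa [IntegrableOn] using this)
      (by
        have : Continuous (fun x : En n => fderiv ℝ F (x + (0:ℝ) • w) w) := by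
          simpa using hcont
        exact this.aestronglyMeasurable)
      (Eventually.of_forall fun x t _ => hC _)
      (integrable_const _)
      (Eventually.of_forall fun x t _ => by
        have h1 : HasFDerivAt F (fderiv ℝ F (x + t • w)) (x + t • w) :=
          (hc.differentiable one_ne_zero _).hasFDerivAt
        have h2 : HasDerivAt (fun t : ℝ => x + t • w) w t := by
          simpa using ((hasDerivAt_id t).smul_const w).const_add x
        exact h1.comp_hasDerivAt t h2)
    simpa using key.2
  have hconst : (fun t : ℝ => ∫ x in unitCell n, F (x + t • w))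
      = fun _ => ∫ x in unitCell n, F x := by
    funext t
    exact integral_cell_add hF (t • w)
  rw [hconst] at hd
  exact hd.unique (hasDerivAt_const _ _)

end Crest.Agent.R214
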