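import Mathlib

/-!
# Row 214: the kernel certificate checker (definitions)

Positions are naturals in units `1/4000`; slopes and offsets of the affine function `w` in units
`1/1000`; values of the polygon `g ≤ J²` in units `1/10⁵`; values of `ρ ≤ √(1 - w²/g)` in units
`1/8192`.
-/

namespace Crest.Agent.R214.Cert

/-- integer square root: Newton steps from above; the callers re-check the result -/
def nsq (q : ℕ) : ℕ :=
  let x := (8192 + q / 8192) / 2
  let x := (x + q / x) / 2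
  let x := (x + q / x) / 2
  let x := (x + q / x) / 2
  let x := (x + q / x) / 2
  (x + q / x) / 2

/-- the test for a candidate `ρ` -/
def vr (a d r : ℕ) : Bool := Nat.ble (a + d * (r * r)) (d * 67108864) && Nat.ble r 8192

def rhoAux (a d r : ℕ) : ℕ :=
  bif vr a d r then r else bif vr a d (r - 1) then r - 1 else 0

/-- `ρ` at a node: `ω²·2²⁶ + d·ρ² ≤ d·2²⁶` is re-checked. -/
def rho (ω d : ℕ) : ℕ :=
  rhoAux (ω * ω * 67108864) d (nsq (67108864 - (ω * ω * 67108864 / d + 1)))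

/-- scaled `w` at position `x` -/
def om (pp pn lp ln x : ℕ) : ℕ := pp * 4000 + lp * x - (pn * 4000 + ln * x)

/-- scan the nodes from the current one (`x`, `r`) up to `G1` -/
def scan (fin : ℕ → ℕ → Bool) (pp pn lp ln B1 G0 G1 : ℕ) :
    List (ℕ × ℕ) → ℕ → ℕ → ℕ → ℕ → Bool
  | [], _, _, _, _ => false
  | (x', d') :: t, x, r, s, k =>
    bif Nat.ble (om pp pn lp ln x' * om pp pn lp ln x') d' && Nat.ble x' G1 then
      let r' := rho (om pp pn lp ln x') d'
      let s' := bif Nat.ble B1 x && Nat.ble x' G0 then s + (r + r') * (x' - x) else s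
      let k' := bif Nat.ble x' G0 then k else min k (min r r')
      bif Nat.beq x' G1 then fin s' k'
      else scan fin pp pn lp ln B1 G0 G1 t x' r' s' k'
    else false

/-- find the starting node `B0` and scan -/
def start (fin : ℕ → ℕ → Bool) (pp pn lp ln B0 B1 G0 G1 : ℕ) : List (ℕ × ℕ) → Bool
  | [] => false
  | (x, d) :: t =>
    bif Nat.beq x B0 then
      bif Nat.ble (om pp pn lp ln x * om pp pn lp ln x) d then
        bif Nat.beq x G1 then fin 0 0
        else scan fin pp pn lp ln B1 G0 G1 t x (rho (om pp pn lp ln x) d) 0 8192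
      else false
    else start fin pp pn lp ln B0 B1 G0 G1 t

/-- upper bound of the Legendre transform of the profile, in units `1e-7` -/
def mHi (L : ℤ) : ℤ :=
  if L ≤ 0 then 10000000 - 5000 * L
  else if L ≤ 1570 then 10000000 - (100000000 * L) / 31416
  else if L < 2250 then 7854000000 / L + 1
  else if L ≤ 3000 then ((18000 - 4 * L) * 31416) / 81 + 1
  else 20944000000000 / (L * L) + 1

def lookup (x : ℕ) : List (ℕ × ℕ) → ℕ
  | [] => 0
  | (y, v) :: t => bif Nat.beq x y then v else lookup x t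

/-- numerator of `Iq` for slope `D` (units `1/1000`), in units `1/(30·10¹⁶)` -/
def iqN (D : ℤ) : ℤ :=
  if D * D ≤ 45000000 then 300000000000000000 - 500000000 * (D * D) - (D * D) * (D * D)
  else 300000000000000000 - 500000000 * (D * D) - 3 * ((D * D) * (D * D))

/-- final test, two zones (`h = 1/10`); common denominator `65536·3·10²³` -/
def fin2 (ell : List (ℕ × ℕ)) (P L : ℤ) (B1 G0 G1 a1 sg cs D : ℕ) (s k : ℕ) : Bool :=
  let k' : ℤ := bif Nat.ble B1 G0 then (k : ℤ) else 0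
  let l0 : ℤ := lookup G0 ell
  let l1 : ℤ := lookup G1 ell
  let la : ℤ := lookup a1 ell
  let N := iqN D
  let K : ℤ := 17694720000000000000000000 * P + 300000000000000000000 * (s : ℤ)
      - 1966080000000000000000 * mHi L
  let K1 : ℤ := K + 600000000000000000000 * (k' * ((G1 : ℤ) - G0))
  decide (L ≤ D) && Nat.ble G1 a1 && Nat.ble a1 4000 && Nat.ble D 9999 &&
  decide (40 * (l0 - la) ≤ ((D : ℤ) - L) * ((a1 : ℤ) - G0)) &&
  decide (40 * (l1 - la) ≤ ((D : ℤ) - L) * ((a1 : ℤ) - G1)) &&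
  decide (0 < K + 65536 * (l0 * N) - 491520000000000000000 * (L * G0)) &&
  decide (0 < K1 + 65536 * (l1 * N) - 491520000000000000000 * (L * G1)) &&
  (Nat.beq a1 4000 ||
    (let Lp := max L 0
     let Ln := max (-L) 0
     let ca : ℤ := 19660800000000000000 * ((cs : ℤ) * la)
       - 491520000000000000000 * (Lp * a1)
     let c1 : ℤ := - 491520000000000000000 * (Lp * 4000)
     let d0 : ℤ := 491520000000000000000 * (Ln * G0)
     let d1 : ℤ := 491520000000000000000 * (Ln * G1)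
     Nat.ble (sg * sg + cs * cs) 1000000 &&
     decide (0 < K + ca + 4915200000000000000000 * ((sg : ℤ) * ((a1 : ℤ) - G0)) + d0) &&
     decide (0 < K + c1 + 4915200000000000000000 * ((sg : ℤ) * ((4000 : ℤ) - G0)) + d0) &&
     decide (0 < K1 + ca + 4915200000000000000000 * ((sg : ℤ) * ((a1 : ℤ) - G1)) + d1) &&
     decide (0 < K1 + c1 + 4915200000000000000000 * ((sg : ℤ) * ((4000 : ℤ) - G1)) + d1)))

/-- final test, one zone; common denominator `65536·10⁷` -/
def fin1 (P L : ℤ) (s : ℕ) (_k : ℕ) : Bool :=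
  decide (0 < 655360000 * P + 10000 * (s : ℤ) - 65536 * mHi L)

inductive Tok
  | b (m : ℕ)
  | g (m : ℕ)
  | s
  | l (pp pn lp ln a1 sg cs D : ℕ)

structure Par where
  two : Bool
  gmin : ℕ
  nodes : List (ℕ × ℕ)
  ell : List (ℕ × ℕ)

def leafOK (π : Par) (pp pn lp ln a1 sg cs D B0 B1 G0 G1 : ℕ) : Bool :=
  Nat.ble (pn * 4000 + ln * B0) (pp * 4000 + lp * B0) &&
  Nat.ble (pn * 4000 + ln * G1) (pp * 4000 + lp * G1) &&
  bif π.two then
    start (fin2 π.ell ((pp : ℤ) - pn) ((lp : ℤ) - ln) B1 G0 G1 a1 sg cs D)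
      pp pn lp ln B0 B1 G0 G1 π.nodes
  else start (fin1 ((pp : ℤ) - pn) ((lp : ℤ) - ln)) pp pn lp ln B0 B1 G0 G1 π.nodes

def skipOK (π : Par) (B0 B1 G0 G1 : ℕ) : Bool :=
  Nat.ble (G1 + 1) B0 || (Nat.ble B1 80 && Nat.ble 3920 G0) || (!π.two && Nat.ble G1 π.gmin)

def run (π : Par) : List Tok → List (ℕ × ℕ × ℕ × ℕ) → Bool
  | [], [] => true
  | [], _ :: _ => false
  | _ :: _, [] => false
  | Tok.b m :: ts, (B0, B1, G0, G1) :: bs => run π ts ((B0, m, G0, G1) :: (m, B1, G0, G1) :: bs)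
  | Tok.g m :: ts, (B0, B1, G0, G1) :: bs => run π ts ((B0, B1, G0, m) :: (B0, B1, m, G1) :: bs)
  | Tok.s :: ts, (B0, B1, G0, G1) :: bs => skipOK π B0 B1 G0 G1 && run π ts bs
  | Tok.l pp pn lp ln a1 sg cs D :: ts, (B0, B1, G0, G1) :: bs =>
      leafOK π pp pn lp ln a1 sg cs D B0 B1 G0 G1 && run π ts bs

/-! ### node lists -/

def f1 (tT : List ℕ) (q j x : ℕ) : ℤ :=
  ((tT.getD j 0 + 5 * j * x : ℕ) : ℤ) - ((20 * q * j : ℕ) : ℤ)

def n2 (e x : ℕ) : ℕ := 10000000 * (4000 - x) + 31415 * (e * e)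

def cell1 (a b : ℤ) (d d' : ℕ) : Bool :=
  decide (0 ≤ a) && decide (0 ≤ b) && decide ((d : ℤ) ≤ 4 * ((a + b) * (4 * a - (a + b)))) &&
    decide ((d' : ℤ) ≤ 4 * ((a + b) * (4 * b - (a + b))))

def cell2 (a b e d d' : ℕ) : Bool :=
  Nat.ble (d * (400 * (e * e)) + (a + b) * (a + b)) ((a + b) * (4 * a)) &&
    Nat.ble (d' * (400 * (e * e)) + (a + b) * (a + b)) ((a + b) * (4 * b))

def cellOK (tT : List ℕ) (two : Bool) (e q j x x' d d' : ℕ) : Bool :=
  Nat.ble (x + 1) x' && Nat.ble x' 4000 && Nat.ble j 50 &&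
  Nat.ble d (12566000000 * x) && Nat.ble d' (12566000000 * x') &&
  cell1 (f1 tT q j x) (f1 tT q j x') d d' &&
  (bif two && Nat.ble (31416 * (e * e)) ((4000 - x') * 10000000) then
    cell2 (n2 e x) (n2 e x') e d d'
  else Nat.ble d (12566000000 * (4000 - x)) && Nat.ble d' (12566000000 * (4000 - x')))

def chainOK (tT : List ℕ) (two : Bool) (e q : ℕ) :
    ℕ → ℕ → List (ℕ × ℕ) → List ℕ → Bool
  | _, _, [], _ => true
  | _, _, _ :: _, [] => false
  | x, d, (x', d') :: t, j :: js =>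
    cellOK tT two e q j x x' d d' && chainOK tT two e q x' d' t js

def ellOK (e : ℕ) : List (ℕ × ℕ) → Bool
  | [] => true
  | (x, v) :: t =>
    Nat.ble x 4000 &&
    (bif Nat.ble (31416 * (e * e)) ((4000 - x) * 10000000) then Nat.ble (400 * v * e) (n2 e x)
      else Nat.ble (v * v) (7853750 * (4000 - x))) && ellOK e t

def nodesOK (tT : List ℕ) (two : Bool) (e q : ℕ) (js : List ℕ) : List (ℕ × ℕ) → Bool
  | [] => false
  | (x, d) :: t => Nat.beq x 0 && Nat.beq d 0 && chainOK tT two e q x d t js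

end Crest.Agent.R214.Cert
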