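import Crest.Agent.R214.Exact

/-!
# Row 214: the Legendre bound of the (half) profile `min (m0 v) 1`

Every line `lam * v + M` with `LegOK lam M` lies above the profile on `[0, 1/2]`.
-/

set_option autoImplicit false

open Real

namespace Crest.Agent.R214

/-- Sufficient conditions for `min (m0 v) 1 ≤ lam * v + M` on `[0, 1/2]`. -/
def LegOK (lam M : ℝ) : Prop :=
  (lam ≤ 0 ∧ 1 - lam / 2 ≤ M) ∨
  (0 ≤ lam ∧ lam ≤ π / 2 ∧ 1 - lam / π ≤ M) ∨
  (0 < lam ∧ π / (4 * lam) ≤ M) ∨
  (9 / 4 ≤ lam ∧ lam ≤ 3 ∧ 2 * π / 9 - 4 * π * lam / 81 ≤ M) ∨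
  (0 < lam ∧ 2 * π / (3 * lam ^ 2) ≤ M)

theorem m0_le_cyl {v lam : ℝ} (hv : 0 ≤ v) (hl : 0 < lam) : m0 v ≤ lam * v + π / (4 * lam) := by
  have hpi := Real.pi_pos
  have hsp : 0 < √π := Real.sqrt_pos.2 hpi
  have hsq : √π ^ 2 = π := Real.sq_sqrt hpi.le
  refine (min_le_right _ _).trans ?_
  refine (cyl_tangent hv (τ := √π / (2 * lam)) (by positivity)).trans (le_of_eq ?_)
  field_simp
  rw [hsq]
  ring

theorem m0_le_sphere {v lam : ℝ} (hv : 0 ≤ v) (hl : 0 < lam) :
    m0 v ≤ lam * v + 2 * π / (3 * lam ^ 2) :=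
  (min_le_left _ _).trans (sphere_tangent hv hl).1

/-- The Legendre bound. -/
theorem legendre {lam M v : ℝ} (hv0 : 0 ≤ v) (hv1 : v ≤ 1 / 2) (h : LegOK lam M) :
    min (m0 v) 1 ≤ lam * v + M := by
  have hpi := Real.pi_pos
  rcases h with ⟨h1, h2⟩ | ⟨h1, h2, h3⟩ | ⟨h1, h2⟩ | ⟨h1, h2, h3⟩ | ⟨h1, h2⟩
  · refine (min_le_right _ _).trans ?_
    nlinarith
  · have e : lam * v + (1 - lam / π) = 1 + lam * (v - 1 / π) := by ring
    rcases le_total (1 / π) v with hv | hv
    · refine (min_le_right _ _).trans ?_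
      have : 0 ≤ lam * (v - 1 / π) := mul_nonneg h1 (by linarith)
      linarith
    · refine (min_le_left _ _).trans ?_
      have h4 := m0_le_cyl (v := v) (lam := π / 2) hv0 (by positivity)
      have h5 : π / 2 * v + π / (4 * (π / 2)) = 1 + π / 2 * (v - 1 / π) := by
        field_simp
        ring
      have h6 : π / 2 * (v - 1 / π) ≤ lam * (v - 1 / π) :=
        mul_le_mul_of_nonpos_right h2 (by linarith)
      linarith
  · exact (min_le_left _ _).trans ((m0_le_cyl hv0 h1).trans (by linarith))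
  · refine (min_le_left _ _).trans ?_
    have e : lam * v + (2 * π / 9 - 4 * π * lam / 81) = 2 * π / 9 + lam * (v - 4 * π / 81) := by
      ring
    rcases le_total (4 * π / 81) v with hv | hv
    · have h4 := m0_le_cyl (v := v) (lam := 9 / 4) hv0 (by norm_num)
      have h5 : 9 / 4 * (v - 4 * π / 81) ≤ lam * (v - 4 * π / 81) :=
        mul_le_mul_of_nonneg_right h1 (by linarith)
      have h6 : 9 / 4 * v + π / (4 * (9 / 4)) = 2 * π / 9 + 9 / 4 * (v - 4 * π / 81) := by ring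
      linarith
    · have h4 := m0_le_sphere (v := v) (lam := 3) hv0 (by norm_num)
      have h5 : 3 * (v - 4 * π / 81) ≤ lam * (v - 4 * π / 81) :=
        mul_le_mul_of_nonpos_right h2 (by linarith)
      have h6 : 3 * v + 2 * π / (3 * 3 ^ 2) = 2 * π / 9 + 3 * (v - 4 * π / 81) := by ring
      linarith
  · exact (min_le_left _ _).trans ((m0_le_sphere hv0 h1).trans (by linarith))

/-- For `v` in the possible range `[B, A]`-type: the same with the constraint built in. -/
theorem legendre' {lam M v : ℝ} (hv0 : 0 ≤ v) (hv1 : v ≤ 1 / 2) (h : LegOK lam M) :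
    min (m0 v) 1 - lam * v ≤ M := by
  have := legendre hv0 hv1 h
  linarith

end Crest.Agent.R214
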