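import Mathlib
import Crest.Prelude.Def_PeriodicPerimeter
import Crest.Agent.R214.Mollify
import Crest.Agent.R214.PerBasic
import Crest.Agent.R214.Fiber
import Crest.Agent.R214.SteinerPer
import Crest.Agent.R214.SteinerIneq

/-!
# R214: the calibration ("field") inequality in a plane spanned by two coordinate directions

For a measurable periodic set `S`, `i ≠ j`, `0 ≤ a`, `a ^ 2 + b ^ 2 ≤ 1`:
`∫_cell (2 a(xᵢ) 1_{0 < |S_x^j| < 1} + b'(xᵢ) |S_x^j|) ≤ Per S`.
-/

open MeasureTheory Crest.GeometryTopology.PeriodicPerimeter Filter Topology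
open scoped Pointwise ContDiff

namespace Crest.Agent.R214

variable {n : ℕ}

/-- almost every fibre is good (copy of `ae_fiber`, to keep this file independent) -/
theorem ae_fiber_field (i : Fin n) {p : EuclideanSpace ℝ (Fin n) → Prop}
    (h : ∀ᵐ y : EuclideanSpace ℝ (Fin n), p y) :
    ∀ᵐ x : EuclideanSpace ℝ (Fin n), ∀ᵐ t : ℝ, p (x + t • ev i) := by
  have hq : Measure.QuasiMeasurePreserving
      (fun z : EuclideanSpace ℝ (Fin n) × ℝ => z.1 + z.2 • ev i)
      ((volume : Measure (EuclideanSpace ℝ (Fin n))).prod (volume : Measure ℝ)) volume := by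
    refine ⟨by fun_prop, ?_⟩
    refine Measure.AbsolutelyContinuous.mk fun s hs h0 => ?_
    rw [Measure.map_apply (by fun_prop) hs, Measure.prod_apply_symm (by
      exact (by fun_prop : Measurable fun z : EuclideanSpace ℝ (Fin n) × ℝ =>
        z.1 + z.2 • ev i) hs)]
    rw [lintegral_eq_zero_iff]
    · refine Eventually.of_forall fun t => ?_
      have e : (fun x : EuclideanSpace ℝ (Fin n) => (x, t)) ⁻¹'
          ((fun z : EuclideanSpace ℝ (Fin n) × ℝ => z.1 + z.2 • ev i) ⁻¹' s)
          = (fun x => x + t • ev i) ⁻¹' s := rfl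
      show volume ((fun x : EuclideanSpace ℝ (Fin n) => (x, t)) ⁻¹'
          ((fun z : EuclideanSpace ℝ (Fin n) × ℝ => z.1 + z.2 • ev i) ⁻¹' s)) = 0
      rw [e, measure_preimage_add_right, h0]
    · apply measurable_measure_prodMk_right
      exact (by fun_prop : Measurable fun z : EuclideanSpace ℝ (Fin n) × ℝ =>
        z.1 + z.2 • ev i) hs
  exact Measure.ae_ae_of_ae_prod (hq.ae h)

/-- on a nontrivial fibre the total variation of the mollifications is asymptotically at least 2 -/
theorem fiber_tv_tendsto (i : Fin n) {S : Set (EuclideanSpace ℝ (Fin n))}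
    {f : ℕ → EuclideanSpace ℝ (Fin n) → ℝ} (hf : ∀ k, ContDiff ℝ 1 (f k))
    (hfp : ∀ k, ∀ v, HasIntegerCoords v → ∀ x, f k (x + v) = f k x)
    {x : EuclideanSpace ℝ (Fin n)}
    (hx : ∀ᵐ t : ℝ, Tendsto (fun k => f k (x + t • ev i)) atTop (𝓝 (chi S (x + t • ev i))))
    (h0 : flen i S x ≠ 0) (h1 : flen i S x ≠ 1) :
    Tendsto (fun k => max (1 - fav i (fun y => |fderiv ℝ (f k) y (ev i)|) x / 2) 0) atTop
      (𝓝 0) := by
  have hex1 : ∃ t ∈ Set.Ioc (0:ℝ) 1, Tendsto (fun k => f k (x + t • ev i)) atTop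
      (𝓝 (1:ℝ)) := by
    by_contra hcon
    push Not at hcon
    apply h0
    unfold flen
    rw [intervalIntegral.integral_of_le zero_le_one]
    apply integral_eq_zero_of_ae
    rw [Filter.EventuallyEq, ae_restrict_iff' measurableSet_Ioc]
    filter_upwards [hx] with t ht htm
    have h7 := hcon t htm
    unfold chi at ht ⊢
    by_cases hm : x + t • ev i ∈ S
    · rw [Set.indicator_of_mem hm] at ht
      exact absurd ht h7
    · rw [Set.indicator_of_notMem hm]; rfl
  have hex0 : ∃ t ∈ Set.Ioc (0:ℝ) 1, Tendsto (fun k => f k (x + t • ev i)) atTop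
      (𝓝 (0:ℝ)) := by
    by_contra hcon
    push Not at hcon
    apply h1
    unfold flen
    rw [intervalIntegral.integral_of_le zero_le_one]
    have : ∫ t in Set.Ioc (0:ℝ) 1, chi S (x + t • ev i) = ∫ t in Set.Ioc (0:ℝ) 1, (1:ℝ) := by
      apply integral_congr_ae
      rw [Filter.EventuallyEq, ae_restrict_iff' measurableSet_Ioc]
      filter_upwards [hx] with t ht htm
      have h7 := hcon t htm
      unfold chi at ht ⊢
      by_cases hm : x + t • ev i ∈ S
      · rw [Set.indicator_of_mem hm]
      · rw [Set.indicator_of_notMem hm] at ht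
        exact absurd ht h7
    rw [this]
    simp
  obtain ⟨t₁, ht₁, hl₁⟩ := hex1
  obtain ⟨t₂, ht₂, hl₂⟩ := hex0
  have hosc : Tendsto (fun k => 1 - |f k (x + t₁ • ev i) - f k (x + t₂ • ev i)|) atTop
      (𝓝 0) := by
    have := (tendsto_const_nhds (x := (1:ℝ))).sub ((hl₁.sub hl₂).abs)
    simpa using this
  have hosc' : Tendsto (fun k => max (1 - |f k (x + t₁ • ev i) - f k (x + t₂ • ev i)|) 0)
      atTop (𝓝 0) := by
    have := (hosc.max (tendsto_const_nhds (x := (0:ℝ))))
    simpa using this
  refine squeeze_zero (fun k => le_max_right _ _) (fun k => ?_) hosc'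
  have b2 := two_mul_le_fav_abs i (hf k) (hfp k) x ht₁ ht₂
  exact max_le_max (by linarith) le_rfl

/-- the representative of `t` modulo `1` in `[-1/2, 1/2)` -/
noncomputable def cr (t : ℝ) : ℝ := t - ((round t : ℤ) : ℝ)

theorem measurable_cr : Measurable cr := by
  unfold cr
  simp_rw [round_eq]
  fun_prop

theorem cr_add_one (t : ℝ) : cr (t + 1) = cr t := by
  unfold cr
  rw [round_add_one]; push_cast; ring

theorem cr_add_int (t : ℝ) (m : ℤ) : cr (t + m) = cr t := by
  unfold cr
  rw [round_add_intCast]; push_cast; ring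

theorem cr_of_mem {t : ℝ} (h : t ∈ Set.Ico (-(1/2 : ℝ)) (1/2)) : cr t = t := by
  unfold cr
  rw [round_of_mem h]; simp

theorem abs_cr_le (t : ℝ) : |cr t| ≤ 1 / 2 := abs_sub_round t

/-- the integral over the cell as an integral of centred fibre integrals -/
theorem cell_avg_centred {G : EuclideanSpace ℝ (Fin n) → ℝ} (hG : BMP G) (i : Fin n) :
    ∫ x in unitCell n, G x
      = ∫ x in unitCell n, ∫ τ in (-(1/2) : ℝ)..(1/2), G (pr i x + τ • ev i) := by
  rw [cell_avg hG i]
  congr 1
  ext x
  have e1 : ∀ t : ℝ, G (x + t • ev i) = G (pr i x + (t + x i) • ev i) := by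
    intro t
    rw [add_smul_eq_pr, add_comm (x i) t]
  simp_rw [e1]
  rw [intervalIntegral.integral_comp_add_right (fun τ => G (pr i x + τ • ev i))]
  have e2 := (fiber_periodic hG.per i (pr i x)).intervalIntegral_add_eq (0 + x i) (-(1/2))
  rw [show (1:ℝ) + x i = 0 + x i + 1 by ring, e2]
  norm_num

/-- functions of a single coordinate in the plane -/
theorem cell_integral_plane {G : EuclideanSpace ℝ (Fin 2) → ℝ} (hG : BMP G) {i j : Fin 2}
    (hij : i ≠ j) (hinv : FInv j G) :
    ∫ x in unitCell 2, G x = ∫ τ in (-(1/2) : ℝ)..(1/2), G (τ • ev i) := by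
  rw [cell_avg_centred hG i]
  have h : ∀ x : EuclideanSpace ℝ (Fin 2), ∀ τ : ℝ, G (pr i x + τ • ev i) = G (τ • ev i) := by
    intro x τ
    refine hinv.congr ?_
    intro k hk
    have : k = i := by omega
    subst this
    simp
  simp_rw [h]
  simp

section field

variable {a b b' : ℝ → ℝ}

theorem bmp_comp_cr {c : ℝ → ℝ} (hc : Measurable c) {C : ℝ} (hC : ∀ t, |t| ≤ 1 / 2 → |c t| ≤ C)
    (i : Fin n) :
    BMP (fun x : EuclideanSpace ℝ (Fin n) => c (cr (x i))) where
  meas := hc.comp (measurable_cr.comp (by fun_prop))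
  bdd := ⟨C, fun x => hC _ (abs_cr_le _)⟩
  per := fun v hv x => by
    obtain ⟨m, hm⟩ := hv i
    have : (x + v) i = x i + m := by simp [hm]
    rw [this, cr_add_int]

theorem cr_coord_fiber (i : Fin n) (x : EuclideanSpace ℝ (Fin n)) {τ : ℝ}
    (hτ : τ ∈ Set.Ico (-(1/2 : ℝ)) (1/2)) : cr ((pr i x + τ • ev i) i) = τ := by
  have : (pr i x + τ • ev i) i = τ := by simp
  rw [this, cr_of_mem hτ]

/-- integration by parts against a function of one coordinate with countably many kinks -/
theorem integral_coord_mul_fderiv (i : Fin n) (hb : Continuous b) (hb2 : b (-(1/2)) = b (1/2))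
    {c : Set ℝ} (hc : c.Countable)
    (hder : ∀ t ∈ Set.Ioo (-(1/2) : ℝ) (1/2) \ c, HasDerivAt b (b' t) t)
    (hbm' : Measurable b') {C : ℝ} (hC : ∀ t, |b' t| ≤ C) {C2 : ℝ}
    (hC2 : ∀ t, |t| ≤ 1 / 2 → |b t| ≤ C2)
    {f : EuclideanSpace ℝ (Fin n) → ℝ} (hf : ContDiff ℝ 1 f)
    (hfp : ∀ v, HasIntegerCoords v → ∀ x, f (x + v) = f x) :
    ∫ x in unitCell n, b (cr (x i)) * fderiv ℝ f x (ev i)
      = - ∫ x in unitCell n, b' (cr (x i)) * f x := by
  have hfc : Continuous (fderiv ℝ f) := hf.continuous_fderiv (by norm_num)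
  have hB1 : BMP (fun x : EuclideanSpace ℝ (Fin n) => b (cr (x i)) * fderiv ℝ f x (ev i)) :=
    (bmp_comp_cr hb.measurable hC2 i).mul (BMP.of_continuous (hfc.clm_apply continuous_const)
      (fun v hv x => by rw [fderiv_periodic hfp v hv x]))
  have hB2 : BMP (fun x : EuclideanSpace ℝ (Fin n) => b' (cr (x i)) * f x) :=
    (bmp_comp_cr hbm' (fun t _ => hC t) i).mul (BMP.of_continuous hf.continuous hfp)
  have key : ∫ x in unitCell n, (b (cr (x i)) * fderiv ℝ f x (ev i) + b' (cr (x i)) * f x)
      = 0 := by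
    rw [cell_avg_centred (hB1.add hB2) i]
    have : ∀ x : EuclideanSpace ℝ (Fin n), ∫ τ in (-(1/2) : ℝ)..(1/2),
        (b (cr ((pr i x + τ • ev i) i)) * fderiv ℝ f (pr i x + τ • ev i) (ev i)
          + b' (cr ((pr i x + τ • ev i) i)) * f (pr i x + τ • ev i)) = 0 := by
      intro x
      have e1 : ∫ τ in (-(1/2) : ℝ)..(1/2),
          (b (cr ((pr i x + τ • ev i) i)) * fderiv ℝ f (pr i x + τ • ev i) (ev i)
            + b' (cr ((pr i x + τ • ev i) i)) * f (pr i x + τ • ev i))
          = ∫ τ in (-(1/2) : ℝ)..(1/2),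
          (b' τ * f (pr i x + τ • ev i) + b τ * fderiv ℝ f (pr i x + τ • ev i) (ev i)) := by
        rw [intervalIntegral.integral_of_le (by norm_num),
          intervalIntegral.integral_of_le (by norm_num), integral_Ioc_eq_integral_Ioo,
          integral_Ioc_eq_integral_Ioo]
        refine setIntegral_congr_fun measurableSet_Ioo ?_
        intro τ hτ
        simp only
        rw [cr_coord_fiber i x ⟨hτ.1.le, hτ.2⟩]
        ring
      rw [e1]
      have hder2 : ∀ τ : ℝ, HasDerivAt (fun τ : ℝ => f (pr i x + τ • ev i))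
          (fderiv ℝ f (pr i x + τ • ev i) (ev i)) τ := by
        intro τ
        apply hasDerivAt_line hf
        simpa using ((hasDerivAt_id τ).smul_const (ev i)).const_add (pr i x)
      have hcf : Continuous fun τ : ℝ => f (pr i x + τ • ev i) :=
        hf.continuous.comp (by fun_prop)
      rw [MeasureTheory.integral_eq_of_hasDerivAt_off_countable
        (fun τ => b τ * f (pr i x + τ • ev i))
        (fun τ => b' τ * f (pr i x + τ • ev i) + b τ * fderiv ℝ f (pr i x + τ • ev i) (ev i))
        hc (hb.mul hcf).continuousOn]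
      · have := fiber_periodic hfp i (pr i x) (-(1/2))
        simp only at this
        rw [show (-(1/2) + 1 : ℝ) = 1/2 by norm_num] at this
        rw [this, hb2]; ring
      · intro τ hτ
        rw [min_eq_left (by norm_num), max_eq_right (by norm_num)] at hτ
        exact (hder τ hτ).mul (hder2 τ)
      · have i1 : Measurable fun τ : ℝ => b' τ * f (pr i x + τ • ev i)
            + b τ * fderiv ℝ f (pr i x + τ • ev i) (ev i) := by
          have m1 : Measurable fun τ : ℝ => fderiv ℝ f (pr i x + τ • ev i) (ev i) := by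
            have : Continuous fun τ : ℝ => fderiv ℝ f (pr i x + τ • ev i) (ev i) :=
              (hfc.comp (by fun_prop)).clm_apply continuous_const
            exact this.measurable
          exact (hbm'.mul hcf.measurable).add (hb.measurable.mul m1)
        obtain ⟨D1, hD1⟩ := bounded_of_continuous_periodic hf.continuous hfp
        obtain ⟨D2, hD2⟩ := bounded_of_continuous_periodic hfc (fderiv_periodic hfp)
        rw [intervalIntegrable_iff]
        refine Measure.integrableOn_of_bounded (M := C * D1 + C2 * D2) ?_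
          i1.aestronglyMeasurable ?_
        · simp
        · rw [Set.uIoc_of_le (by norm_num), ae_restrict_iff' measurableSet_Ioc]
          refine Filter.Eventually.of_forall fun t ht => ?_
          have ht' : |t| ≤ 1 / 2 := abs_le.2 ⟨by linarith [ht.1], ht.2⟩
          have n1 := hD1 (pr i x + t • ev i)
          have n2 : ‖fderiv ℝ f (pr i x + t • ev i) (ev i)‖ ≤ D2 := by
            have := (fderiv ℝ f (pr i x + t • ev i)).le_opNorm (ev i)
            rw [norm_ev, mul_one] at this
            exact this.trans (hD2 _)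
          refine (norm_add_le _ _).trans ?_
          rw [norm_mul, norm_mul]
          refine add_le_add ?_ ?_
          · exact mul_le_mul (hC t) n1 (norm_nonneg _) ((abs_nonneg _).trans (hC t))
          · exact mul_le_mul (hC2 t ht') n2 (norm_nonneg _) ((abs_nonneg _).trans (hC2 t ht'))
    simp_rw [this]
    simp
  rw [integral_add hB1.integrableOn hB2.integrableOn] at key
  linarith

/-- the norm of a plane vector built on two coordinate directions -/
theorem norm_two_ev_le {i j : Fin n} (hij : i ≠ j) {α β : ℝ} (h : α ^ 2 + β ^ 2 ≤ 1) :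
    ‖α • ev i + β • ev j‖ ≤ 1 := by
  rw [EuclideanSpace.norm_eq]
  rw [Real.sqrt_le_one]
  have : ∀ k : Fin n, ‖(α • ev i + β • ev j) k‖ ^ 2
      = (if k = i then α ^ 2 else 0) + (if k = j then β ^ 2 else 0) := by
    intro k
    rw [Real.norm_eq_abs, sq_abs]
    by_cases h1 : k = i
    · subst h1
      simp [hij]
    · by_cases h2 : k = j
      · subst h2; simp [h1]
      · simp [h1, h2]
  simp_rw [this]
  rw [Finset.sum_add_distrib]
  simpa using h

/-- **the field inequality** -/
theorem field_ineq {i j : Fin n} (hij : i ≠ j) {S : Set (EuclideanSpace ℝ (Fin n))}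
    (hS : MeasurableSet S) (hper : IsLatticePeriodic S) (hP : periodicPerimeter S ≠ ⊤)
    (ha : Measurable a) (ha0 : ∀ t, 0 ≤ a t)
    (hb : Continuous b) (hb2 : b (-(1/2)) = b (1/2))
    {c : Set ℝ} (hc : c.Countable)
    (hder : ∀ t ∈ Set.Ioo (-(1/2) : ℝ) (1/2) \ c, HasDerivAt b (b' t) t)
    (hbm' : Measurable b') {C : ℝ} (hC : ∀ t, |b' t| ≤ C)
    (hab : ∀ t, |t| ≤ 1 / 2 → a t ^ 2 + b t ^ 2 ≤ 1) :
    ∫ x in unitCell n, (2 * a (cr (x i)) *
        (if flen j S x ≠ 0 ∧ flen j S x ≠ 1 then (1:ℝ) else 0) + b' (cr (x i)) * flen j S x)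
      ≤ (periodicPerimeter S).toReal := by
  obtain ⟨f, hf, hfp, hf0, hf1, hfl, hfP⟩ := exists_mollification hS hper hP
  set P := (periodicPerimeter S).toReal with hPdef
  have hfc : ∀ k, Continuous (f k) := fun k => (hf k).continuous
  have hfc1 : ∀ k, ContDiff ℝ 1 (f k) := fun k => (hf k).of_le (by norm_cast)
  have hfd : ∀ k, Continuous (fderiv ℝ (f k)) := fun k =>
    (hfc1 k).continuous_fderiv (by norm_num)
  have hba : ∀ t, |t| ≤ 1 / 2 → |a t| ≤ 1 := fun t ht => by
    rw [abs_le_one_iff_mul_self_le_one]; nlinarith [hab t ht, sq_nonneg (b t)]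
  have hbb : ∀ t, |t| ≤ 1 / 2 → |b t| ≤ 1 := fun t ht => by
    rw [abs_le_one_iff_mul_self_le_one]; nlinarith [hab t ht, sq_nonneg (a t)]
  have hB_a : BMP (fun x : EuclideanSpace ℝ (Fin n) => a (cr (x i))) := bmp_comp_cr ha hba i
  have hB_b : BMP (fun x : EuclideanSpace ℝ (Fin n) => b (cr (x i))) :=
    bmp_comp_cr hb.measurable hbb i
  have hB_b' : BMP (fun x : EuclideanSpace ℝ (Fin n) => b' (cr (x i))) :=
    bmp_comp_cr hbm' (fun t _ => hC t) i
  have hB_d : ∀ k (m : Fin n), BMP (fun x => fderiv ℝ (f k) x (ev m)) := fun k m =>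
    BMP.of_continuous ((hfd k).clm_apply continuous_const)
      (fun v hv x => by rw [fderiv_periodic (hfp k) v hv x])
  have hB_f : ∀ k, BMP (f k) := fun k => BMP.of_continuous (hfc k) (hfp k)
  have hfib := ae_fiber_field j hfl
  -- the calibration inequality for the mollifications
  have hcal : ∀ k, (∫ x in unitCell n, a (cr (x i)) * |fderiv ℝ (f k) x (ev j)|)
      - ∫ x in unitCell n, b (cr (x i)) * fderiv ℝ (f k) x (ev i) ≤ P := by
    intro k
    have h1 := neg_integral_fderiv_apply_le (hf k) (hfp k) (hfP k)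
      (Φ := fun x => (b (cr (x i))) • ev i
        + (-(a (cr (x i)) * sg (fderiv ℝ (f k) x (ev j)))) • ev j) (fun x => by
        refine norm_two_ev_le hij ?_
        have := hab (cr (x i)) (abs_cr_le _)
        have h2 := sg_sq (fderiv ℝ (f k) x (ev j))
        calc b (cr (x i)) ^ 2 + (-(a (cr (x i)) * sg (fderiv ℝ (f k) x (ev j)))) ^ 2
            = b (cr (x i)) ^ 2 + a (cr (x i)) ^ 2 * sg (fderiv ℝ (f k) x (ev j)) ^ 2 := by ring
          _ ≤ 1 := by rw [h2]; linarith)
    refine le_trans (le_of_eq ?_) h1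
    rw [← integral_neg, ← integral_sub (hB_a.mul (hB_d k j).abs).integrableOn
      (hB_b.mul (hB_d k i)).integrableOn]
    congr 1
    ext x
    rw [map_add, map_smul, map_smul, smul_eq_mul, smul_eq_mul, ← sg_mul_self]
    ring
  have hcal2 : ∀ k, (∫ x in unitCell n, a (cr (x i)) * fav j (fun y =>
      |fderiv ℝ (f k) y (ev j)|) x) + ∫ x in unitCell n, b' (cr (x i)) * f k x ≤ P := by
    intro k
    have h1 := hcal k
    rw [integral_coord_mul_fderiv i hb hb2 hc hder hbm' hC hbb (hfc1 k) (hfp k)] at h1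
    have h2 : ∫ x in unitCell n, a (cr (x i)) * |fderiv ℝ (f k) x (ev j)|
        = ∫ x in unitCell n, a (cr (x i)) * fav j (fun y => |fderiv ℝ (f k) y (ev j)|) x := by
      rw [cell_avg (hB_a.mul (hB_d k j).abs) j]
      congr 1
      ext x
      unfold fav
      rw [← intervalIntegral.integral_const_mul]
      congr 1
      ext t
      have : (x + t • ev j) i = x i := by simp [hij]
      rw [this]
    rw [h2] at h1
    linarith
  -- indicator of nontrivial fibres
  set χ : EuclideanSpace ℝ (Fin n) → ℝ :=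
    fun x => if flen j S x ≠ 0 ∧ flen j S x ≠ 1 then (1:ℝ) else 0 with hχ
  have hχ0 : ∀ x, 0 ≤ χ x := fun x => by simp only [hχ]; split_ifs <;> norm_num
  have hχ1 : ∀ x, χ x ≤ 1 := fun x => by simp only [hχ]; split_ifs <;> norm_num
  have hBflen := flen_bmp j hS hper
  have hBχ : BMP χ := by
    refine ⟨?_, ⟨1, fun x => by rw [abs_of_nonneg (hχ0 x)]; exact hχ1 x⟩, ?_⟩
    · refine Measurable.ite ?_ measurable_const measurable_const
      exact (((measurableSet_singleton (0:ℝ)).preimage hBflen.meas).compl).inter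
        (((measurableSet_singleton (1:ℝ)).preimage hBflen.meas).compl)
    · intro v hv x
      simp only [hχ, hBflen.per v hv]
  have hTVc : ∀ k, Continuous fun x => fav j (fun y => |fderiv ℝ (f k) y (ev j)|) x := fun k =>
    continuous_fav j (((hfd k).clm_apply continuous_const).abs)
  have hTV0 : ∀ k x, 0 ≤ fav j (fun y => |fderiv ℝ (f k) y (ev j)|) x := fun k x => by
    have := fav_mono j (continuous_const (y := (0:ℝ)))
      (((hfd k).clm_apply continuous_const).abs) (fun x => abs_nonneg _) x (g := fun y =>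
        |fderiv ℝ (f k) y (ev j)|)
    rwa [fav_const] at this
  have hTVp : ∀ k, ∀ v, HasIntegerCoords v → ∀ x, fav j (fun y => |fderiv ℝ (f k) y (ev j)|) (x + v)
      = fav j (fun y => |fderiv ℝ (f k) y (ev j)|) x := fun k =>
    fav_per j (fun v hv x => by rw [fderiv_periodic (hfp k) v hv x])
  -- the error term
  have hRB : ∀ k, BMP (fun x => 2 * (a (cr (x i)) * (χ x *
      max (1 - fav j (fun y => |fderiv ℝ (f k) y (ev j)|) x / 2) 0))) := by
    intro k
    have q1 : BMP (fun x => max (1 - fav j (fun y => |fderiv ℝ (f k) y (ev j)|) x / 2) 0) := by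
      have := hTVc k
      refine BMP.of_continuous (by fun_prop) ?_
      intro v hv x
      rw [hTVp k v hv]
    have q2 : BMP (fun _ : EuclideanSpace ℝ (Fin n) => (2:ℝ)) :=
      ⟨measurable_const, ⟨2, fun _ => by norm_num⟩, fun _ _ _ => rfl⟩
    exact q2.mul (hB_a.mul (hBχ.mul q1))
  have hR : Tendsto (fun k => ∫ x in unitCell n, 2 * (a (cr (x i)) * (χ x *
      max (1 - fav j (fun y => |fderiv ℝ (f k) y (ev j)|) x / 2) 0))) atTop (𝓝 0) := by
    have : Tendsto (fun k => ∫ x in unitCell n, 2 * (a (cr (x i)) * (χ x *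
      max (1 - fav j (fun y => |fderiv ℝ (f k) y (ev j)|) x / 2) 0))) atTop
      (𝓝 (∫ x in unitCell n, (0:ℝ))) := by
      apply tendsto_integral_of_dominated_convergence (fun _ => (2:ℝ))
      · intro k
        exact (hRB k).meas.aestronglyMeasurable
      · exact integrable_const _
      · intro k
        refine Eventually.of_forall fun x => ?_
        have m1 : max (1 - fav j (fun y => |fderiv ℝ (f k) y (ev j)|) x / 2) 0 ≤ 1 :=
          max_le (by linarith [hTV0 k x]) zero_le_one
        have m0 : 0 ≤ max (1 - fav j (fun y => |fderiv ℝ (f k) y (ev j)|) x / 2) 0 :=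
          le_max_right _ _
        have m2 : χ x * max (1 - fav j (fun y => |fderiv ℝ (f k) y (ev j)|) x / 2) 0 ≤ 1 := by
          calc _ ≤ (1:ℝ) * 1 := mul_le_mul (hχ1 x) m1 m0 zero_le_one
            _ = 1 := one_mul 1
        have m3 : 0 ≤ χ x * max (1 - fav j (fun y => |fderiv ℝ (f k) y (ev j)|) x / 2) 0 :=
          mul_nonneg (hχ0 x) m0
        have m4 := ha0 (cr (x i))
        have m5 : a (cr (x i)) ≤ 1 := (le_abs_self _).trans (hba _ (abs_cr_le _))
        rw [Real.norm_eq_abs, abs_of_nonneg (by positivity)]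
        nlinarith
      · refine ae_restrict_of_ae ?_
        filter_upwards [hfib] with x hx
        by_cases hcase : flen j S x ≠ 0 ∧ flen j S x ≠ 1
        · have := fiber_tv_tendsto j hfc1 hfp hx hcase.1 hcase.2
          have h2 := ((this.const_mul (χ x)).const_mul (a (cr (x i)))).const_mul 2
          simpa using h2
        · have : χ x = 0 := by simp only [hχ]; rw [if_neg hcase]
          simp [this]
    simpa using this
  -- convergence of the volume term
  have hV : Tendsto (fun k => ∫ x in unitCell n, b' (cr (x i)) * f k x) atTop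
      (𝓝 (∫ x in unitCell n, b' (cr (x i)) * chi S x)) := by
    apply tendsto_integral_of_dominated_convergence (fun _ => C)
    · intro k; exact (hB_b'.mul (hB_f k)).meas.aestronglyMeasurable
    · exact integrable_const _
    · intro k
      refine Eventually.of_forall fun x => ?_
      rw [norm_mul, Real.norm_eq_abs, Real.norm_eq_abs, abs_of_nonneg (hf0 k x)]
      have hC0 : 0 ≤ C := (abs_nonneg _).trans (hC 0)
      calc |b' (cr (x i))| * f k x ≤ C * 1 := mul_le_mul (hC _) (hf1 k x) (hf0 k x) hC0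
        _ = C := mul_one _
    · refine ae_restrict_of_ae ?_
      filter_upwards [hfl] with x hx
      exact hx.const_mul _
  have hVeq : ∫ x in unitCell n, b' (cr (x i)) * chi S x
      = ∫ x in unitCell n, b' (cr (x i)) * flen j S x := by
    rw [cell_avg (hB_b'.mul (chi_bmp hS hper)) j]
    congr 1
    ext x
    unfold flen
    rw [← intervalIntegral.integral_const_mul]
    congr 1
    ext t
    have : (x + t • ev j) i = x i := by simp [hij]
    rw [this]
  have hB2 : BMP (fun x => 2 * a (cr (x i)) * χ x) := by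
    have q2 : BMP (fun _ : EuclideanSpace ℝ (Fin n) => (2:ℝ)) :=
      ⟨measurable_const, ⟨2, fun _ => by norm_num⟩, fun _ _ _ => rfl⟩
    exact (q2.mul hB_a).mul hBχ
  have hmain : ∀ k, (∫ x in unitCell n, 2 * a (cr (x i)) * χ x)
      + (∫ x in unitCell n, b' (cr (x i)) * f k x)
      - (∫ x in unitCell n, 2 * (a (cr (x i)) * (χ x *
          max (1 - fav j (fun y => |fderiv ℝ (f k) y (ev j)|) x / 2) 0))) ≤ P := by
    intro k
    refine le_trans ?_ (hcal2 k)
    have : (∫ x in unitCell n, 2 * a (cr (x i)) * χ x)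
        - (∫ x in unitCell n, 2 * (a (cr (x i)) * (χ x *
          max (1 - fav j (fun y => |fderiv ℝ (f k) y (ev j)|) x / 2) 0)))
        ≤ ∫ x in unitCell n, a (cr (x i)) * fav j (fun y => |fderiv ℝ (f k) y (ev j)|) x := by
      rw [← integral_sub hB2.integrableOn (hRB k).integrableOn]
      have hBT : BMP (fun x => fav j (fun y => |fderiv ℝ (f k) y (ev j)|) x) :=
        BMP.of_continuous (hTVc k) (hTVp k)
      refine integral_mono (hB2.sub (hRB k)).integrableOn (hB_a.mul hBT).integrableOn ?_
      intro x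
      simp only
      have m4 := ha0 (cr (x i))
      have m6 := le_max_left (1 - fav j (fun y => |fderiv ℝ (f k) y (ev j)|) x / 2) 0
      have m7 : χ x * (1 - max (1 - fav j (fun y => |fderiv ℝ (f k) y (ev j)|) x / 2) 0)
          ≤ fav j (fun y => |fderiv ℝ (f k) y (ev j)|) x / 2 := by
        by_cases hz : 0 ≤ 1 - max (1 - fav j (fun y => |fderiv ℝ (f k) y (ev j)|) x / 2) 0
        · calc _ ≤ 1 * (1 - max (1 - fav j (fun y => |fderiv ℝ (f k) y (ev j)|) x / 2) 0) :=
                mul_le_mul_of_nonneg_right (hχ1 x) hz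
            _ ≤ _ := by linarith
        · have := hTV0 k x
          have h3 := hχ0 x
          push Not at hz
          nlinarith
      have m8 := mul_le_mul_of_nonneg_left m7 m4
      nlinarith
    linarith
  have hlim : Tendsto (fun k => (∫ x in unitCell n, 2 * a (cr (x i)) * χ x)
      + (∫ x in unitCell n, b' (cr (x i)) * f k x)
      - (∫ x in unitCell n, 2 * (a (cr (x i)) * (χ x *
          max (1 - fav j (fun y => |fderiv ℝ (f k) y (ev j)|) x / 2) 0)))) atTop
      (𝓝 ((∫ x in unitCell n, 2 * a (cr (x i)) * χ x)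
      + (∫ x in unitCell n, b' (cr (x i)) * chi S x) - 0)) :=
    (hV.const_add _).sub hR
  have hle := le_of_tendsto' hlim hmain
  rw [sub_zero, hVeq] at hle
  rwa [integral_add hB2.integrableOn (hB_b'.mul hBflen).integrableOn]

end field

end Crest.Agent.R214
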