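import Mathlib
import Crest.Prelude.Def_PeriodicPerimeter
import Crest.Agent.R214.FieldIneq
import Crest.Agent.R214.InvPer

/-!
# R214: sharp lower bounds for the perimeter of symmetric decreasing plane periodic sets
-/

open MeasureTheory Crest.GeometryTopology.PeriodicPerimeter Filter Topology
open scoped Pointwise ContDiff

namespace Crest.Agent.R214

section plane

variable {i j : Fin 2} {S : Set (EuclideanSpace ℝ (Fin 2))}

/-- length of the fibre in direction `j` above the point `τ` of the `i`-th axis -/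
noncomputable def gf (i j : Fin 2) (S : Set (EuclideanSpace ℝ (Fin 2))) (τ : ℝ) : ℝ :=
  flen j S (τ • ev i)

theorem gf_nonneg (τ : ℝ) : 0 ≤ gf i j S τ := flen_nonneg _ _ _

theorem gf_le_one (hS : MeasurableSet S) (τ : ℝ) : gf i j S τ ≤ 1 := flen_le_one _ hS _

theorem measurable_gf (hS : MeasurableSet S) (hper : IsLatticePeriodic S) :
    Measurable (gf i j S) := by
  unfold gf
  exact (flen_bmp j hS hper).meas.comp (by fun_prop)

theorem gf_intervalIntegrable (hS : MeasurableSet S) (hper : IsLatticePeriodic S) (a b : ℝ) :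
    IntervalIntegrable (gf i j S) volume a b := by
  rw [intervalIntegrable_iff]
  refine Measure.integrableOn_of_bounded (M := 1) ?_ (measurable_gf hS hper).aestronglyMeasurable ?_
  · simp
  · exact Filter.Eventually.of_forall fun t => by
      rw [Real.norm_eq_abs, abs_of_nonneg (gf_nonneg _)]; exact gf_le_one hS _

/-- the volume is the integral of the fibre lengths -/
theorem integral_gf (hij : i ≠ j) (hS : MeasurableSet S) (hper : IsLatticePeriodic S) :
    ∫ τ in (-(1/2) : ℝ)..(1/2), gf i j S τ = periodicVolume S := by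
  rw [← integral_flen j hS hper, cell_integral_plane (flen_bmp j hS hper) hij
    (flen_inv j hS hper)]
  rfl

/-- the field inequality in the plane -/
theorem field_ineq_plane (hij : i ≠ j)
    (hS : MeasurableSet S) (hper : IsLatticePeriodic S) (hP : periodicPerimeter S ≠ ⊤)
    {a b b' : ℝ → ℝ} (ha : Measurable a) (ha0 : ∀ t, 0 ≤ a t)
    (hb : Continuous b) (hb2 : b (-(1/2)) = b (1/2))
    {c : Set ℝ} (hc : c.Countable)
    (hder : ∀ t ∈ Set.Ioo (-(1/2) : ℝ) (1/2) \ c, HasDerivAt b (b' t) t)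
    (hbm' : Measurable b') {C : ℝ} (hC : ∀ t, |b' t| ≤ C)
    (hab : ∀ t, |t| ≤ 1 / 2 → a t ^ 2 + b t ^ 2 ≤ 1) :
    ∫ τ in (-(1/2) : ℝ)..(1/2), (2 * a τ *
        (if gf i j S τ ≠ 0 ∧ gf i j S τ ≠ 1 then (1:ℝ) else 0) + b' τ * gf i j S τ)
      ≤ (periodicPerimeter S).toReal := by
  refine le_trans (le_of_eq ?_) (field_ineq hij hS hper hP ha ha0 hb hb2 hc hder hbm' hC hab)
  have hBflen := flen_bmp j hS hper
  have hinv := flen_inv j hS hper
  have hba : ∀ t, |t| ≤ 1 / 2 → |a t| ≤ 1 := fun t ht => by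
    rw [abs_le_one_iff_mul_self_le_one]; nlinarith [hab t ht, sq_nonneg (b t)]
  have hBχ : BMP (fun x => if flen j S x ≠ 0 ∧ flen j S x ≠ 1 then (1:ℝ) else 0) := by
    refine ⟨?_, ⟨1, fun x => by split_ifs <;> simp⟩, ?_⟩
    · refine Measurable.ite ?_ measurable_const measurable_const
      exact (((measurableSet_singleton (0:ℝ)).preimage hBflen.meas).compl).inter
        (((measurableSet_singleton (1:ℝ)).preimage hBflen.meas).compl)
    · intro v hv x
      simp only [hBflen.per v hv]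
  have q2 : BMP (fun _ : EuclideanSpace ℝ (Fin 2) => (2:ℝ)) :=
    ⟨measurable_const, ⟨2, fun _ => by norm_num⟩, fun _ _ _ => rfl⟩
  have hcoord : ∀ (x : EuclideanSpace ℝ (Fin 2)) (t : ℝ), (x + t • ev j) i = x i := by
    intro x t; simp [hij]
  rw [cell_integral_plane (G := fun x => 2 * a (cr (x i)) *
    (if flen j S x ≠ 0 ∧ flen j S x ≠ 1 then (1:ℝ) else 0) + b' (cr (x i)) * flen j S x)
    (((q2.mul (bmp_comp_cr ha hba i)).mul hBχ).add
      ((bmp_comp_cr hbm' (fun t _ => hC t) i).mul hBflen)) hij ?_]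
  · rw [intervalIntegral.integral_of_le (by norm_num),
      intervalIntegral.integral_of_le (by norm_num), integral_Ioc_eq_integral_Ioo,
      integral_Ioc_eq_integral_Ioo]
    refine setIntegral_congr_fun measurableSet_Ioo ?_
    intro τ hτ
    have h1 : (τ • ev i : EuclideanSpace ℝ (Fin 2)) i = τ := by simp
    simp only [h1, cr_of_mem (t := τ) ⟨hτ.1.le, hτ.2⟩]
    rfl
  · intro x t
    simp only [hcoord, hinv x t]

/-- **core inequality**: `ρ` = inner half width, `κ` = bound of the fibre lengths outside -/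
theorem core_ineq (hij : i ≠ j)
    (hS : MeasurableSet S) (hper : IsLatticePeriodic S) (hP : periodicPerimeter S ≠ ⊤)
    {ρ R κ : ℝ} (hρ : 0 < ρ) (hρ2 : ρ < 1 / 2) (hR : ρ ≤ R)
    (h1 : ∀ τ : ℝ, 0 < |τ| → |τ| < ρ → gf i j S τ ≠ 0 ∧ gf i j S τ ≠ 1)
    (h2 : ∀ τ : ℝ, ρ < |τ| → |τ| < 1 / 2 → gf i j S τ ≤ κ) :
    (1 / R) * (∫ τ in (-ρ)..ρ, gf i j S τ) - 2 * ρ / R * κ
      + 2 * ∫ τ in (-ρ)..ρ, Real.sqrt (1 - (τ / R) ^ 2) ≤ (periodicPerimeter S).toReal := by
  have hR0 : 0 < R := hρ.trans_le hR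
  have hd : 0 < 1 / 2 - ρ := by linarith
  obtain ⟨m, hm0, hmd⟩ : ∃ m : ℝ, 0 < m ∧ m * (1 / 2 - ρ) = ρ / R := by
    refine ⟨ρ / R / (1 / 2 - ρ), by positivity, ?_⟩
    exact div_mul_cancel₀ _ hd.ne'
  set c : ℝ := 1 / R + m with hcm
  set b : ℝ → ℝ := fun τ => τ / R - c * (max (τ - ρ) 0 - max (-τ - ρ) 0) with hb
  set b' : ℝ → ℝ := fun τ => if |τ| < ρ then 1 / R else -m with hb'
  set a : ℝ → ℝ := fun τ => Real.sqrt (1 - b τ ^ 2) with ha
  have hbc : Continuous b := by simp only [hb]; fun_prop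
  have hbin : ∀ τ, |τ| ≤ ρ → b τ = τ / R := by
    intro τ hτ
    have := abs_le.1 hτ
    simp only [hb]
    rw [max_eq_right (by linarith), max_eq_right (by linarith)]; ring
  have hbr : ∀ τ, ρ ≤ τ → b τ = m * (1 / 2 - τ) := by
    intro τ hτ
    simp only [hb]
    rw [max_eq_left (by linarith), max_eq_right (by linarith), hcm]
    have e1 : 1 / R * ρ = ρ / R := by ring
    have e2 : τ / R = 1 / R * τ := by ring
    rw [e2]
    linear_combination e1 - hmd
  have hbl : ∀ τ, τ ≤ -ρ → b τ = - (m * (1 / 2 + τ)) := by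
    intro τ hτ
    simp only [hb]
    rw [max_eq_right (by linarith), max_eq_left (by linarith), hcm]
    have e1 : 1 / R * ρ = ρ / R := by ring
    have e2 : τ / R = 1 / R * τ := by ring
    rw [e2]
    linear_combination -e1 + hmd
  have hmρ : m * (1 / 2 - ρ) ≤ 1 := by
    rw [hmd, div_le_one hR0]; exact hR
  have hbabs : ∀ τ, |τ| ≤ 1 / 2 → b τ ^ 2 ≤ 1 := by
    intro τ hτ
    have hτ' := abs_le.1 hτ
    rw [← sq_abs]
    have : |b τ| ≤ 1 := by
      rcases le_total |τ| ρ with h | h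
      · rw [hbin τ h, abs_div, abs_of_pos hR0, div_le_one hR0]
        exact h.trans hR
      · rcases le_abs'.1 h with h' | h'
        · rw [hbl τ h', abs_neg, abs_of_nonneg (mul_nonneg hm0.le (by linarith))]
          refine le_trans ?_ hmρ
          exact mul_le_mul_of_nonneg_left (by linarith) hm0.le
        · rw [hbr τ h', abs_of_nonneg (mul_nonneg hm0.le (by linarith))]
          refine le_trans ?_ hmρ
          exact mul_le_mul_of_nonneg_left (by linarith) hm0.le
    nlinarith [abs_nonneg (b τ)]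
  have hder : ∀ t ∈ Set.Ioo (-(1/2) : ℝ) (1/2) \ {-ρ, ρ}, HasDerivAt b (b' t) t := by
    intro t ht
    have hne1 : t ≠ -ρ := fun h => ht.2 (by simp [h])
    have hne2 : t ≠ ρ := fun h => ht.2 (by simp [h])
    rcases lt_trichotomy t (-ρ) with h | h | h
    · have hb't : b' t = -m := by
        simp only [hb']; rw [if_neg]; rw [not_lt, abs_of_neg (by linarith)]; linarith
      rw [hb't]
      have e1 : HasDerivAt (fun τ : ℝ => -(m * (1 / 2 + τ))) (-m) t := by
        have := (((hasDerivAt_id t).const_add (1/2)).const_mul m).neg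
        rw [mul_one] at this
        exact this
      refine e1.congr_of_eventuallyEq ?_
      filter_upwards [Iio_mem_nhds h] with τ hτ
      exact hbl τ (le_of_lt hτ)
    · exact absurd h hne1
    · rcases lt_trichotomy t ρ with h' | h' | h'
      · have hlt : |t| < ρ := abs_lt.2 ⟨h, h'⟩
        have hb't : b' t = 1 / R := by simp only [hb']; rw [if_pos hlt]
        rw [hb't]
        have e1 : HasDerivAt (fun τ : ℝ => τ / R) (1 / R) t := (hasDerivAt_id t).div_const R
        refine e1.congr_of_eventuallyEq ?_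
        filter_upwards [Ioo_mem_nhds h h'] with τ hτ
        exact hbin τ (abs_le.2 ⟨hτ.1.le, hτ.2.le⟩)
      · exact absurd h' hne2
      · have hb't : b' t = -m := by
          simp only [hb']; rw [if_neg]; rw [not_lt, abs_of_pos (by linarith)]; exact h'.le
        rw [hb't]
        have e1 : HasDerivAt (fun τ : ℝ => m * (1 / 2 - τ)) (-m) t := by
          have := ((hasDerivAt_id t).const_sub (1/2)).const_mul m
          simpa using this
        refine e1.congr_of_eventuallyEq ?_
        filter_upwards [Ioi_mem_nhds h'] with τ hτ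
        exact hbr τ (le_of_lt hτ)
  have hbm' : Measurable b' := by
    refine Measurable.ite ?_ measurable_const measurable_const
    exact measurableSet_lt measurable_id.abs measurable_const
  have hC : ∀ t, |b' t| ≤ max (1 / R) m := by
    intro t
    simp only [hb']
    split_ifs
    · rw [abs_of_pos (by positivity)]; exact le_max_left _ _
    · rw [abs_neg, abs_of_pos hm0]; exact le_max_right _ _
  have hfield := field_ineq_plane hij hS hper hP (a := a) (b := b) (b' := b')
    (by simp only [ha]; exact (Real.continuous_sqrt.comp (by fun_prop)).measurable)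
    (fun t => Real.sqrt_nonneg _) hbc (by
      rw [hbl _ (by linarith), hbr _ (by linarith)]; norm_num)
    (c := {-ρ, ρ}) ((Set.countable_singleton ρ).insert _) hder hbm' hC (by
      intro t ht
      simp only [ha]
      rw [Real.sq_sqrt (by linarith [hbabs t ht])]
      linarith)
  refine le_trans ?_ hfield
  -- lower bound of the integrand
  have hgi := gf_intervalIntegrable (i := i) (j := j) hS hper
  have hint : ∀ u v : ℝ, -(1/2) ≤ u → u ≤ v → v ≤ 1/2 → IntervalIntegrable (fun τ => 2 * a τ *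
        (if gf i j S τ ≠ 0 ∧ gf i j S τ ≠ 1 then (1:ℝ) else 0) + b' τ * gf i j S τ) volume u v := by
    intro u v hu huv hv
    have hgm := measurable_gf (i := i) (j := j) hS hper
    have ham : Measurable a := by
      simp only [ha]; exact (Real.continuous_sqrt.comp (by fun_prop)).measurable
    have hm1 : Measurable (fun τ => 2 * a τ *
        (if gf i j S τ ≠ 0 ∧ gf i j S τ ≠ 1 then (1:ℝ) else 0) + b' τ * gf i j S τ) := by
      refine ((measurable_const.mul ham).mul ?_).add (hbm'.mul hgm)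
      refine Measurable.ite ?_ measurable_const measurable_const
      exact (((measurableSet_singleton (0:ℝ)).preimage hgm).compl).inter
        (((measurableSet_singleton (1:ℝ)).preimage hgm).compl)
    rw [intervalIntegrable_iff]
    refine Measure.integrableOn_of_bounded (M := 2 + max (1 / R) m) ?_ hm1.aestronglyMeasurable ?_
    · simp
    · refine Filter.Eventually.of_forall fun t => ?_
      refine (norm_add_le _ _).trans (add_le_add ?_ ?_)
      · rw [norm_mul, norm_mul, Real.norm_eq_abs, Real.norm_eq_abs, Real.norm_eq_abs]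
        have q1 : |a t| ≤ 1 := by
          simp only [ha]
          rw [abs_of_nonneg (Real.sqrt_nonneg _), Real.sqrt_le_one]
          nlinarith [sq_nonneg (b t)]
        have q2 : |(if gf i j S t ≠ 0 ∧ gf i j S t ≠ 1 then (1:ℝ) else 0)| ≤ 1 := by
          split_ifs <;> simp
        have q3 : |(2:ℝ)| = 2 := by norm_num
        rw [q3]
        have := mul_le_mul q1 q2 (abs_nonneg _) zero_le_one
        nlinarith [abs_nonneg (a t)]
      · rw [norm_mul, Real.norm_eq_abs, Real.norm_eq_abs, abs_of_nonneg (gf_nonneg t)]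
        have := mul_le_mul (hC t) (gf_le_one hS t) (gf_nonneg (i := i) (j := j) (S := S) t)
          ((abs_nonneg _).trans (hC t))
        simpa using this
  have hsplit : ∫ τ in (-(1/2) : ℝ)..(1/2), (2 * a τ *
        (if gf i j S τ ≠ 0 ∧ gf i j S τ ≠ 1 then (1:ℝ) else 0) + b' τ * gf i j S τ)
      = (∫ τ in (-(1/2) : ℝ)..(-ρ), (2 * a τ *
        (if gf i j S τ ≠ 0 ∧ gf i j S τ ≠ 1 then (1:ℝ) else 0) + b' τ * gf i j S τ))
      + (∫ τ in (-ρ)..ρ, (2 * a τ *
        (if gf i j S τ ≠ 0 ∧ gf i j S τ ≠ 1 then (1:ℝ) else 0) + b' τ * gf i j S τ))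
      + (∫ τ in ρ..(1/2), (2 * a τ *
        (if gf i j S τ ≠ 0 ∧ gf i j S τ ≠ 1 then (1:ℝ) else 0) + b' τ * gf i j S τ)) := by
    rw [intervalIntegral.integral_add_adjacent_intervals, 
      intervalIntegral.integral_add_adjacent_intervals]
    · exact hint _ _ (by linarith) (by linarith) (by linarith)
    · exact hint _ _ (by linarith) (by linarith) (by linarith)
    · exact hint _ _ (by linarith) (by linarith) (by linarith)
    · exact hint _ _ (by linarith) (by linarith) (by linarith)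
  rw [hsplit]
  have hout : ∀ u v : ℝ, u ≤ v → (∀ τ ∈ Set.Ioo u v, ρ < |τ| ∧ |τ| < 1 / 2) → -(1/2) ≤ u → v ≤ 1/2 →
      -(m * κ) * (v - u) ≤ ∫ τ in u..v, (2 * a τ *
        (if gf i j S τ ≠ 0 ∧ gf i j S τ ≠ 1 then (1:ℝ) else 0) + b' τ * gf i j S τ) := by
    intro u v huv hτ hu hv
    have : -(m * κ) * (v - u) = ∫ τ in u..v, -(m * κ) := by
      rw [intervalIntegral.integral_const, smul_eq_mul]; ring
    rw [this]
    refine intervalIntegral.integral_mono_on_of_le_Ioo huv ?_ (hint u v hu huv hv) ?_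
    · exact _root_.intervalIntegrable_const
    · intro τ hτm
      have h3 := hτ τ hτm
      have h4 := h2 τ h3.1 h3.2
      have h5 : b' τ = -m := by simp only [hb']; rw [if_neg (not_lt.2 h3.1.le)]
      rw [h5]
      have h6 : 0 ≤ 2 * a τ * (if gf i j S τ ≠ 0 ∧ gf i j S τ ≠ 1 then (1:ℝ) else 0) := by
        have : 0 ≤ a τ := Real.sqrt_nonneg _
        split_ifs <;> positivity
      nlinarith
  have hin : (1 / R) * (∫ τ in (-ρ)..ρ, gf i j S τ) + 2 * ∫ τ in (-ρ)..ρ, Real.sqrt (1 - (τ / R) ^ 2)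
      ≤ ∫ τ in (-ρ)..ρ, (2 * a τ *
        (if gf i j S τ ≠ 0 ∧ gf i j S τ ≠ 1 then (1:ℝ) else 0) + b' τ * gf i j S τ) := by
    have hsc : Continuous fun τ : ℝ => Real.sqrt (1 - (τ / R) ^ 2) :=
      Real.continuous_sqrt.comp (by fun_prop)
    rw [← intervalIntegral.integral_const_mul, ← intervalIntegral.integral_const_mul,
      ← intervalIntegral.integral_add ((hgi _ _).const_mul _)
        ((hsc.intervalIntegrable _ _).const_mul _)]
    refine le_of_eq ?_
    rw [intervalIntegral.integral_of_le (by linarith),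
      intervalIntegral.integral_of_le (by linarith), integral_Ioc_eq_integral_Ioo,
      integral_Ioc_eq_integral_Ioo]
    refine setIntegral_congr_ae measurableSet_Ioo ?_
    have h0 : ∀ᵐ τ : ℝ, τ ≠ 0 := by
      rw [ae_iff]; simp
    filter_upwards [h0] with τ hτ0 hτ
    have hτlt : |τ| < ρ := abs_lt.2 ⟨hτ.1, hτ.2⟩
    have h5 : b' τ = 1 / R := by simp only [hb']; rw [if_pos hτlt]
    have h6 := h1 τ (abs_pos.2 hτ0) hτlt
    have h7 : a τ = Real.sqrt (1 - (τ / R) ^ 2) := by
      simp only [ha]; rw [hbin τ hτlt.le]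
    rw [if_pos h6, h5, h7]; ring
  have ho1 := hout (-(1/2)) (-ρ) (by linarith) (by
    intro τ hτ
    have : τ < 0 := by linarith [hτ.2]
    rw [abs_of_neg this]
    constructor <;> linarith [hτ.1, hτ.2]) (by linarith) (by linarith)
  have ho2 := hout ρ (1/2) (by linarith) (by
    intro τ hτ
    have : 0 < τ := by linarith [hτ.1]
    rw [abs_of_pos this]
    exact ⟨hτ.1, hτ.2⟩) (by linarith) (by linarith)
  have hmκ : m * κ * (1 / 2 - ρ) = ρ / R * κ := by
    rw [← hmd]; ring
  have : 2 * ρ / R * κ = 2 * (m * κ * (1 / 2 - ρ)) := by rw [hmκ]; ring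
  rw [this]
  nlinarith

/-! ### fibre lengths of symmetric decreasing sets -/

theorem flen_centred {n : ℕ} {S : Set (EuclideanSpace ℝ (Fin n))} (hper : IsLatticePeriodic S)
    (j : Fin n) (x : EuclideanSpace ℝ (Fin n)) :
    flen j S x = ∫ τ in (-(1/2) : ℝ)..(1/2), chi S (pr j x + τ • ev j) := by
  unfold flen
  have e1 : ∀ t : ℝ, chi S (x + t • ev j) = chi S (pr j x + (t + x j) • ev j) := by
    intro t
    rw [add_smul_eq_pr, add_comm (x j) t]
  simp_rw [e1]
  rw [intervalIntegral.integral_comp_add_right (fun τ => chi S (pr j x + τ • ev j))]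
  have e2 := (fiber_periodic (chi_per hper) j (pr j x)).intervalIntegral_add_eq (0 + x j) (-(1/2))
  rw [show (1:ℝ) + x j = 0 + x j + 1 by ring, e2]
  norm_num

theorem abs_cr_of_le {t : ℝ} (h : |t| ≤ 1 / 2) : |cr t| = |t| := by
  rcases (abs_le.1 h).2.lt_or_eq with h1 | h1
  · rw [cr_of_mem ⟨(abs_le.1 h).1, h1⟩]
  · subst h1
    have : cr (1 / 2) = -(1 / 2) := by
      have := cr_add_one (-(1 / 2))
      rw [show (-(1 / 2) + 1 : ℝ) = 1 / 2 by norm_num] at this
      rw [this]
      exact cr_of_mem ⟨le_rfl, by norm_num⟩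
    rw [this, abs_neg]

theorem flen_le_of_notMem {n : ℕ} {S : Set (EuclideanSpace ℝ (Fin n))}
    (hS : MeasurableSet S) (hper : IsLatticePeriodic S) {j : Fin n} (hd : SymDecAt j S)
    {x : EuclideanSpace ℝ (Fin n)} {t : ℝ} (ht0 : 0 ≤ t) (ht : t ≤ 1 / 2)
    (hx : pr j x + t • ev j ∉ S) : flen j S x ≤ 2 * t := by
  rw [flen_centred hper]
  have h1 : ∫ τ in (-(1/2) : ℝ)..(1/2), chi S (pr j x + τ • ev j)
      ≤ ∫ τ in (-(1/2) : ℝ)..(1/2), Set.indicator (Set.Ioo (-t) t) (fun _ => (1:ℝ)) τ := by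
    refine intervalIntegral.integral_mono_on_of_le_Ioo (by norm_num)
      (chi_fiber_intervalIntegrable hS _ _ _ _) ?_ ?_
    · rw [intervalIntegrable_iff]
      exact (integrableOn_const (by simp)).indicator measurableSet_Ioo
    · intro τ hτ
      by_cases hm : τ ∈ Set.Ioo (-t) t
      · rw [Set.indicator_of_mem hm]; exact chi_le_one S _
      · rw [Set.indicator_of_notMem hm]
        refine le_of_eq ?_
        unfold chi
        rw [Set.indicator_of_notMem]
        intro hmem
        apply hx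
        refine hd _ hmem _ ?_ ?_
        · intro k hk
          simp [hk]
        · have e1 : (pr j x + t • ev j) j = t := by simp
          have e2 : (pr j x + τ • ev j) j = τ := by simp
          rw [e1, e2]
          change |cr t| ≤ |cr τ|
          have hτ2 : |τ| ≤ 1 / 2 := abs_le.2 ⟨hτ.1.le, hτ.2.le⟩
          rw [abs_cr_of_le hτ2, abs_cr_of_le (by rw [abs_of_nonneg ht0]; exact ht),
            abs_of_nonneg ht0]
          by_contra hc
          push Not at hc
          exact hm (abs_lt.1 hc)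
  refine h1.trans ?_
  rw [intervalIntegral.integral_of_le (by norm_num), integral_indicator measurableSet_Ioo,
    Measure.restrict_restrict measurableSet_Ioo]
  simp only [integral_const, smul_eq_mul, mul_one]
  rw [measureReal_restrict_apply_univ]
  calc volume.real (Set.Ioo (-t) t ∩ Set.Ioc (-(1/2)) (1/2)) ≤ volume.real (Set.Ioo (-t) t) :=
        measureReal_mono Set.inter_subset_left (by simp)
    _ = 2 * t := by
        rw [Real.volume_real_Ioo_of_le (by linarith)]; ring

theorem le_flen_of_mem {n : ℕ} {S : Set (EuclideanSpace ℝ (Fin n))}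
    (hS : MeasurableSet S) (hper : IsLatticePeriodic S) {j : Fin n} (hd : SymDecAt j S)
    {x : EuclideanSpace ℝ (Fin n)} {t : ℝ} (ht0 : 0 ≤ t) (ht : t ≤ 1 / 2)
    (hx : pr j x + t • ev j ∈ S) : 2 * t ≤ flen j S x := by
  rw [flen_centred hper]
  have h1 : ∫ τ in (-(1/2) : ℝ)..(1/2), Set.indicator (Set.Ioo (-t) t) (fun _ => (1:ℝ)) τ
      ≤ ∫ τ in (-(1/2) : ℝ)..(1/2), chi S (pr j x + τ • ev j) := by
    refine intervalIntegral.integral_mono_on_of_le_Ioo (by norm_num) ?_
      (chi_fiber_intervalIntegrable hS _ _ _ _) ?_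
    · rw [intervalIntegrable_iff]
      exact (integrableOn_const (by simp)).indicator measurableSet_Ioo
    · intro τ hτ
      by_cases hm : τ ∈ Set.Ioo (-t) t
      · rw [Set.indicator_of_mem hm]
        refine le_of_eq ?_
        unfold chi
        rw [Set.indicator_of_mem]
        refine hd _ hx _ ?_ ?_
        · intro k hk
          simp [hk]
        · have e1 : (pr j x + t • ev j) j = t := by simp
          have e2 : (pr j x + τ • ev j) j = τ := by simp
          rw [e1, e2]
          change |cr τ| ≤ |cr t|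
          have hτ2 : |τ| ≤ 1 / 2 := abs_le.2 ⟨hτ.1.le, hτ.2.le⟩
          rw [abs_cr_of_le hτ2, abs_cr_of_le (by rw [abs_of_nonneg ht0]; exact ht),
            abs_of_nonneg ht0]
          exact (abs_lt.2 hm).le
      · rw [Set.indicator_of_notMem hm]; exact chi_nonneg S _
  refine le_trans ?_ h1
  rw [intervalIntegral.integral_of_le (by norm_num), integral_indicator measurableSet_Ioo,
    Measure.restrict_restrict measurableSet_Ioo]
  simp only [integral_const, smul_eq_mul, mul_one]
  rw [measureReal_restrict_apply_univ]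
  have : Set.Ioo (-t) t ∩ Set.Ioc (-(1/2)) (1/2) = Set.Ioo (-t) t := by
    refine Set.inter_eq_left.2 fun τ hτ => ⟨by linarith [hτ.1], by linarith [hτ.2]⟩
  rw [this, Real.volume_real_Ioo_of_le (by linarith)]
  linarith

theorem gf_anti (hS : MeasurableSet S) (hij : i ≠ j) (hd : SymDecAt i S) {τ τ' : ℝ}
    (h : |τ| ≤ |τ'|) (h' : |τ'| ≤ 1 / 2) : gf i j S τ' ≤ gf i j S τ := by
  unfold gf
  apply flen_mono j hS
  intro t ht
  refine hd _ ht _ ?_ ?_
  · intro k hk
    have : k = j := by omega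
    subst this
    simp [hij.symm]
  · have e1 : (τ • ev i + t • ev j : EuclideanSpace ℝ (Fin 2)) i = τ := by simp [hij]
    have e2 : (τ' • ev i + t • ev j : EuclideanSpace ℝ (Fin 2)) i = τ' := by simp [hij]
    rw [e1, e2]
    change |cr τ| ≤ |cr τ'|
    rw [abs_cr_of_le (h.trans h'), abs_cr_of_le h']
    exact h

/-- `S` contains the (open) arm in direction `i` at height `h` -/
def Arm (i j : Fin 2) (S : Set (EuclideanSpace ℝ (Fin 2))) (h : ℝ) : Prop :=
  ∀ t : ℝ, 0 ≤ t → t < 1 / 2 → t • ev i + h • ev j ∈ S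

/-- `S` touches the far side in direction `i` -/
def Touch (i j : Fin 2) (S : Set (EuclideanSpace ℝ (Fin 2))) : Prop :=
  ∃ h : ℝ, 0 < h ∧ h ≤ 1 / 2 ∧ Arm i j S h

theorem pr_smul_ev (hij : i ≠ j) (τ : ℝ) :
    pr j (τ • ev i : EuclideanSpace ℝ (Fin 2)) = τ • ev i := by
  unfold pr
  simp [hij.symm]

theorem exists_gf_le_of_not_arm (hij : i ≠ j) (hS : MeasurableSet S) (hper : IsLatticePeriodic S)
    (hd : SymDecAt j S) {h : ℝ} (h0 : 0 ≤ h) (h1 : h ≤ 1 / 2) (hA : ¬ Arm i j S h) :
    ∃ t : ℝ, 0 ≤ t ∧ t < 1 / 2 ∧ gf i j S t ≤ 2 * h := by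
  unfold Arm at hA
  push Not at hA
  obtain ⟨t, ht0, ht1, ht⟩ := hA
  refine ⟨t, ht0, ht1, ?_⟩
  unfold gf
  refine flen_le_of_notMem hS hper hd h0 h1 ?_
  rwa [pr_smul_ev hij]

theorem le_gf_of_arm (hij : i ≠ j) (hS : MeasurableSet S) (hper : IsLatticePeriodic S)
    (hdi : SymDecAt i S) (hd : SymDecAt j S) {h : ℝ} (h0 : 0 ≤ h) (h1 : h ≤ 1 / 2)
    (hA : Arm i j S h) {τ : ℝ} (hτ : |τ| < 1 / 2) : 2 * h ≤ gf i j S τ := by
  refine le_trans ?_ (gf_anti hS hij hdi (τ := τ) (τ' := |τ|) (by simp) (by simpa using hτ.le))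
  unfold gf
  refine le_flen_of_mem hS hper hd h0 h1 ?_
  rw [pr_smul_ev hij]
  exact hA _ (abs_nonneg _) hτ

/-- if `S` does not touch the far side in direction `j`, no fibre in direction `j` is full -/
theorem gf_lt_one_of_not_touch (hij : i ≠ j) (hS : MeasurableSet S) (hper : IsLatticePeriodic S)
    (hdi : SymDecAt i S) (hd : SymDecAt j S) (hA : ¬ Touch j i S) {τ : ℝ} (hτ0 : 0 < |τ|)
    (hτ : |τ| ≤ 1 / 2) : gf i j S τ < 1 := by
  have hna : ¬ Arm j i S |τ| := fun h => hA ⟨|τ|, hτ0, hτ, h⟩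
  unfold Arm at hna
  push Not at hna
  obtain ⟨t, ht0, ht1, ht⟩ := hna
  have h1 := gf_anti hS hij hdi (τ := |τ|) (τ' := τ) (by simp) hτ (j := j)
  have h2 : gf i j S |τ| ≤ 2 * t := by
    unfold gf
    refine flen_le_of_notMem hS hper hd ht0 ht1.le ?_
    rw [pr_smul_ev hij, add_comm]
    exact ht
  linarith

/-- full extent with positive far trace or at least positive fibres everywhere -/
theorem bound_full (hij : i ≠ j)
    (hS : MeasurableSet S) (hper : IsLatticePeriodic S) (hP : periodicPerimeter S ≠ ⊤)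
    (hdi : SymDecAt i S)
    (hnt : ∀ τ : ℝ, 0 < |τ| → |τ| < 1 / 2 → gf i j S τ < 1)
    (hpos : ∀ τ : ℝ, |τ| < 1 / 2 → 0 < gf i j S τ)
    {q R : ℝ} (hq : ∃ t : ℝ, 0 ≤ t ∧ t < 1 / 2 ∧ gf i j S t ≤ q) (hR : 1 / 2 ≤ R) :
    (1 / R) * (periodicVolume S - q)
      + 2 * (∫ τ in (-(1/2) : ℝ)..(1/2), Real.sqrt (1 - (τ / R) ^ 2))
      ≤ (periodicPerimeter S).toReal := by
  obtain ⟨t, ht0, ht1, ht⟩ := hq
  have hgi := gf_intervalIntegrable (i := i) (j := j) hS hper
  have hsc : Continuous fun τ : ℝ => Real.sqrt (1 - (τ / R) ^ 2) :=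
    Real.continuous_sqrt.comp (by fun_prop)
  set Φ : ℝ → ℝ := fun ρ => (1 / R) * (∫ τ in (-ρ)..ρ, gf i j S τ) - 2 * ρ / R * q
      + 2 * ∫ τ in (-ρ)..ρ, Real.sqrt (1 - (τ / R) ^ 2) with hΦ
  have hΦc : Continuous Φ := by
    have c1 : Continuous fun ρ : ℝ => ∫ τ in (-ρ)..ρ, gf i j S τ := by
      have h6 : (fun ρ : ℝ => ∫ τ in (-ρ)..ρ, gf i j S τ)
          = fun ρ => (∫ τ in (0:ℝ)..ρ, gf i j S τ) - ∫ τ in (0:ℝ)..(-ρ), gf i j S τ := by
        ext ρ
        rw [← intervalIntegral.integral_interval_sub_left (hgi _ _) (hgi _ _)]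
      rw [h6]
      have hp := intervalIntegral.continuous_primitive (μ := volume) (fun a b => hgi a b) 0
      exact hp.sub (hp.comp continuous_neg)
    have c2 : Continuous fun ρ : ℝ => ∫ τ in (-ρ)..ρ, Real.sqrt (1 - (τ / R) ^ 2) := by
      have h6 : (fun ρ : ℝ => ∫ τ in (-ρ)..ρ, Real.sqrt (1 - (τ / R) ^ 2))
          = fun ρ => (∫ τ in (0:ℝ)..ρ, Real.sqrt (1 - (τ / R) ^ 2))
            - ∫ τ in (0:ℝ)..(-ρ), Real.sqrt (1 - (τ / R) ^ 2) := by
        ext ρ
        rw [← intervalIntegral.integral_interval_sub_left (hsc.intervalIntegrable _ _)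
          (hsc.intervalIntegrable _ _)]
      rw [h6]
      have hp := intervalIntegral.continuous_primitive (μ := volume)
        (fun a b => hsc.intervalIntegrable a b) 0
      exact hp.sub (hp.comp continuous_neg)
    simp only [hΦ]
    fun_prop
  have hlim : Φ (1/2) ≤ (periodicPerimeter S).toReal := by
    have h1 : Tendsto Φ (𝓝[<] (1/2)) (𝓝 (Φ (1/2))) :=
      (hΦc.tendsto _).mono_left nhdsWithin_le_nhds
    refine le_of_tendsto h1 ?_
    have h2 : ∀ᶠ ρ in 𝓝[<] (1/2 : ℝ), ρ ∈ Set.Ioo t (1/2) :=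
      Ioo_mem_nhdsLT ht1
    filter_upwards [h2] with ρ hρ
    refine core_ineq hij hS hper hP (by linarith [hρ.1]) hρ.2 (hρ.2.le.trans hR) ?_ ?_
    · intro τ h3 h4
      exact ⟨(hpos τ (h4.trans hρ.2)).ne', (hnt τ h3 (h4.trans hρ.2)).ne⟩
    · intro τ h3 h4
      refine le_trans (gf_anti hS hij hdi (τ := t) (τ' := τ) ?_ h4.le) ht
      rw [abs_of_nonneg ht0]
      exact (hρ.1.trans h3).le
  refine le_trans (le_of_eq ?_) hlim
  simp only [hΦ]
  rw [integral_gf hij hS hper]
  ring

/-- extent less than full -/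
theorem bound_extent (hij : i ≠ j)
    (hS : MeasurableSet S) (hper : IsLatticePeriodic S) (hP : periodicPerimeter S ≠ ⊤)
    {ρ R : ℝ} (hρ : 0 < ρ) (hρ2 : ρ < 1 / 2) (hR : ρ ≤ R)
    (h1 : ∀ τ : ℝ, 0 < |τ| → |τ| < ρ → gf i j S τ ≠ 0 ∧ gf i j S τ ≠ 1)
    (h2 : ∀ τ : ℝ, ρ < |τ| → |τ| < 1 / 2 → gf i j S τ = 0) :
    (1 / R) * periodicVolume S + 2 * ∫ τ in (-ρ)..ρ, Real.sqrt (1 - (τ / R) ^ 2)
      ≤ (periodicPerimeter S).toReal := by
  have h := core_ineq hij hS hper hP hρ hρ2 hR h1 (κ := 0) (fun τ h3 h4 => (h2 τ h3 h4).le)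
  have hgi := gf_intervalIntegrable (i := i) (j := j) hS hper
  have e : periodicVolume S = ∫ τ in (-ρ)..ρ, gf i j S τ := by
    rw [← integral_gf hij hS hper,
      ← intervalIntegral.integral_add_adjacent_intervals (hgi (-(1/2)) (-ρ)) (hgi (-ρ) (1/2)),
      ← intervalIntegral.integral_add_adjacent_intervals (hgi (-ρ) ρ) (hgi ρ (1/2))]
    have z1 : ∫ τ in (-(1/2) : ℝ)..(-ρ), gf i j S τ = 0 := by
      rw [intervalIntegral.integral_of_le (by linarith), integral_Ioc_eq_integral_Ioo]
      refine setIntegral_eq_zero_of_forall_eq_zero fun τ hτ => ?_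
      have : τ < 0 := by linarith [hτ.2]
      exact h2 τ (by rw [abs_of_neg this]; linarith [hτ.2]) (by rw [abs_of_neg this]; linarith [hτ.1])
    have z2 : ∫ τ in ρ..(1/2), gf i j S τ = 0 := by
      rw [intervalIntegral.integral_of_le (by linarith), integral_Ioc_eq_integral_Ioo]
      refine setIntegral_eq_zero_of_forall_eq_zero fun τ hτ => ?_
      have : 0 < τ := by linarith [hτ.1]
      exact h2 τ (by rw [abs_of_pos this]; exact hτ.1) (by rw [abs_of_pos this]; exact hτ.2)
    rw [z1, z2]; ring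
  rw [e]
  linarith

end plane

end Crest.Agent.R214
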