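import Mathlib
import Crest.Prelude.Def_PeriodicPerimeter
import Crest.Agent.R214.Types

/-!
# R214: sharp lower bounds for the perimeter of symmetric decreasing plane periodic sets, II
-/

open MeasureTheory Crest.GeometryTopology.PeriodicPerimeter Filter Topology
open scoped Pointwise ContDiff

namespace Crest.Agent.R214

/-- relative isoperimetric bound of a quarter with extent `≤ e` (unit scaling) -/
noncomputable def Ufun (s e : ℝ) : ℝ :=
  if Real.pi * e ^ 2 ≤ 4 * s then s / e + Real.pi * e / 4 else Real.sqrt (Real.pi * s)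

/-- the integral `∫₀¹ √(1 - (x / R)²) dx` -/
noncomputable def Ifun (R : ℝ) : ℝ := ∫ x in (0:ℝ)..1, Real.sqrt (1 - (x / R) ^ 2)

theorem integral_sqrt_disc {ρ : ℝ} (hρ : 0 < ρ) :
    ∫ τ in (-ρ)..ρ, Real.sqrt (1 - (τ / ρ) ^ 2) = Real.pi * ρ / 2 := by
  rw [intervalIntegral.integral_comp_div (fun y => Real.sqrt (1 - y ^ 2)) hρ.ne']
  rw [neg_div, div_self hρ.ne', integral_sqrt_one_sub_sq, smul_eq_mul]
  ring

theorem integral_sqrt_half {R : ℝ} :
    ∫ τ in (-(1/2) : ℝ)..(1/2), Real.sqrt (1 - (τ / (R / 2)) ^ 2) = Ifun R := by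
  unfold Ifun
  have e1 : ∀ τ : ℝ, Real.sqrt (1 - (τ / (R / 2)) ^ 2) = Real.sqrt (1 - ((2 * τ) / R) ^ 2) := by
    intro τ
    congr 2
    rcases eq_or_ne R 0 with h | h
    · subst h; simp
    · congr 1
      field_simp
  simp_rw [e1]
  rw [intervalIntegral.integral_comp_mul_left (fun y => Real.sqrt (1 - (y / R) ^ 2))
    (by norm_num : (2:ℝ) ≠ 0)]
  have hsc : Continuous fun τ : ℝ => Real.sqrt (1 - (τ / R) ^ 2) :=
    Real.continuous_sqrt.comp (by fun_prop)
  have e2 : ∫ x in (2 * -(1/2) : ℝ)..(2 * (1/2)), Real.sqrt (1 - (x / R) ^ 2)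
      = 2 * ∫ x in (0:ℝ)..1, Real.sqrt (1 - (x / R) ^ 2) := by
    rw [show (2 * -(1/2) : ℝ) = -1 by norm_num, show (2 * (1/2) : ℝ) = 1 by norm_num,
      ← intervalIntegral.integral_add_adjacent_intervals (hsc.intervalIntegrable (-1) 0)
        (hsc.intervalIntegrable 0 1)]
    have e3 := intervalIntegral.integral_comp_neg (a := 0) (b := 1)
      (fun x => Real.sqrt (1 - (x / R) ^ 2))
    simp only [neg_zero] at e3
    rw [← e3]
    have e4 : ∀ x : ℝ, Real.sqrt (1 - (-x / R) ^ 2) = Real.sqrt (1 - (x / R) ^ 2) := by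
      intro x; congr 2; ring
    simp_rw [e4]
    ring
  rw [e2, smul_eq_mul]
  ring

theorem Ifun_one : Ifun 1 = Real.pi / 4 := by
  rw [← integral_sqrt_half, integral_sqrt_disc (by norm_num : (0:ℝ) < 1 / 2)]
  ring

theorem amgm_disc {s r : ℝ} (hs : 0 ≤ s) (hr : 0 < r) :
    2 * Real.sqrt (Real.pi * s) ≤ s / r + Real.pi * r := by
  have h1 : Real.sqrt (Real.pi * s) = Real.sqrt (Real.pi * r) * Real.sqrt (s / r) := by
    rw [← Real.sqrt_mul (by positivity)]
    congr 1
    field_simp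
  rw [h1]
  have h2 := Real.sq_sqrt (show 0 ≤ Real.pi * r by positivity)
  have h3 := Real.sq_sqrt (show 0 ≤ s / r by positivity)
  nlinarith [sq_nonneg (Real.sqrt (Real.pi * r) - Real.sqrt (s / r))]

theorem sqrt_le_Ufun {s e : ℝ} (hs : 0 ≤ s) (he : 0 < e) :
    Real.sqrt (Real.pi * s) ≤ Ufun s e := by
  unfold Ufun
  split_ifs with h
  · have := amgm_disc hs (half_pos he)
    have e1 : s / (e / 2) + Real.pi * (e / 2) = 2 * (s / e + Real.pi * e / 4) := by
      field_simp; ring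
    rw [e1] at this
    linarith
  · exact le_rfl

theorem Ufun_le {s e e' : ℝ} (hs : 0 ≤ s) (he' : 0 < e') (hee : e' ≤ e) :
    Ufun s e ≤ s / e' + Real.pi * e' / 4 := by
  have he : 0 < e := he'.trans_le hee
  unfold Ufun
  split_ifs with h
  · have h1 : s / e' + Real.pi * e' / 4 - (s / e + Real.pi * e / 4)
        = (e - e') * (4 * s - Real.pi * e * e') / (4 * e * e') := by
      field_simp; ring
    have h2 : 0 ≤ (e - e') * (4 * s - Real.pi * e * e') / (4 * e * e') := by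
      apply div_nonneg _ (by positivity)
      apply mul_nonneg (by linarith)
      have : Real.pi * e * e' ≤ Real.pi * e ^ 2 := by
        rw [mul_assoc, sq]
        exact mul_le_mul_of_nonneg_left (mul_le_mul_of_nonneg_left hee he.le) Real.pi_pos.le
      linarith
    linarith
  · have := amgm_disc hs (half_pos he')
    have e1 : s / (e' / 2) + Real.pi * (e' / 2) = 2 * (s / e' + Real.pi * e' / 4) := by
      field_simp; ring
    rw [e1] at this
    linarith

section plane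

variable {i j : Fin 2} {S : Set (EuclideanSpace ℝ (Fin 2))}

theorem exists_extent (hij : i ≠ j) (hS : MeasurableSet S) (hdi : SymDecAt i S) :
    ∃ ρ : ℝ, 0 ≤ ρ ∧ ρ ≤ 1 / 2 ∧ (∀ τ : ℝ, |τ| < ρ → 0 < gf i j S τ) ∧
      (∀ τ : ℝ, ρ < |τ| → |τ| ≤ 1 / 2 → gf i j S τ = 0) := by
  set A : Set ℝ := {u | 0 ≤ u ∧ u ≤ 1 / 2 ∧ (u = 0 ∨ 0 < gf i j S u)} with hA
  have h0 : (0:ℝ) ∈ A := ⟨le_rfl, by norm_num, Or.inl rfl⟩
  have hbdd : BddAbove A := ⟨1/2, fun u hu => hu.2.1⟩
  refine ⟨sSup A, le_csSup hbdd h0, csSup_le ⟨0, h0⟩ fun u hu => hu.2.1, ?_, ?_⟩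
  · intro τ hτ
    obtain ⟨u, hu, hτu⟩ := exists_lt_of_lt_csSup ⟨0, h0⟩ hτ
    have hu0 : 0 < u := (abs_nonneg τ).trans_lt hτu
    have hgu : 0 < gf i j S u := by
      rcases hu.2.2 with h | h
      · exact absurd h hu0.ne'
      · exact h
    refine hgu.trans_le (gf_anti hS hij hdi ?_ ?_)
    · rw [abs_of_pos hu0]; exact hτu.le
    · rw [abs_of_pos hu0]; exact hu.2.1
  · intro τ hτ hτ2
    by_contra hne
    have hpos : 0 < gf i j S τ := lt_of_le_of_ne (gf_nonneg _) (Ne.symm hne)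
    have hpos' : 0 < gf i j S |τ| := hpos.trans_le (gf_anti hS hij hdi (by simp) hτ2)
    exact absurd (le_csSup hbdd (show |τ| ∈ A from ⟨abs_nonneg _, hτ2, Or.inr hpos'⟩)) (not_le.2 hτ)

/-- positive fibres everywhere, none of them full: the perimeter is at least `2` -/
theorem two_le_of_full (hij : i ≠ j)
    (hS : MeasurableSet S) (hper : IsLatticePeriodic S) (hP : periodicPerimeter S ≠ ⊤)
    (hnt : ∀ τ : ℝ, 0 < |τ| → |τ| < 1 / 2 → gf i j S τ < 1)
    (hpos : ∀ τ : ℝ, |τ| < 1 / 2 → 0 < gf i j S τ) :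
    2 ≤ (periodicPerimeter S).toReal := by
  have h := field_ineq_plane hij hS hper hP (a := fun _ => 1) (b := fun _ => 0) (b' := fun _ => 0)
    measurable_const (fun _ => zero_le_one) continuous_const rfl (c := ∅) Set.countable_empty
    (fun t _ => hasDerivAt_const _ _) measurable_const (C := 0) (fun t => by simp)
    (fun t _ => by norm_num)
  refine le_trans (le_of_eq ?_) h
  have e1 : ∫ τ in (-(1/2) : ℝ)..(1/2), (2 * (1:ℝ) *
        (if gf i j S τ ≠ 0 ∧ gf i j S τ ≠ 1 then (1:ℝ) else 0) + 0 * gf i j S τ)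
      = ∫ τ in (-(1/2) : ℝ)..(1/2), (2:ℝ) := by
    rw [intervalIntegral.integral_of_le (by norm_num),
      intervalIntegral.integral_of_le (by norm_num), integral_Ioc_eq_integral_Ioo,
      integral_Ioc_eq_integral_Ioo]
    refine setIntegral_congr_ae measurableSet_Ioo ?_
    have h0 : ∀ᵐ τ : ℝ, τ ≠ 0 := by
      rw [ae_iff]; simp
    filter_upwards [h0] with τ hτ0 hτ
    have hτlt : |τ| < 1 / 2 := abs_lt.2 ⟨hτ.1, hτ.2⟩
    rw [if_pos ⟨(hpos τ hτlt).ne', (hnt τ (abs_pos.2 hτ0) hτlt).ne⟩]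
    ring
  rw [e1]
  simp
  norm_num

/-- **type 0 bound** (with extent): no full fibre, and either not full extent or zero trace -/
theorem type0_bound (hij : i ≠ j)
    (hS : MeasurableSet S) (hper : IsLatticePeriodic S) (hP : periodicPerimeter S ≠ ⊤)
    (hdi : SymDecAt i S)
    (hnt : ∀ τ : ℝ, 0 < |τ| → |τ| < 1 / 2 → gf i j S τ < 1)
    (hz : ∀ ε : ℝ, 0 < ε → ∃ t : ℝ, 0 ≤ t ∧ t < 1 / 2 ∧ gf i j S t ≤ ε)
    {e : ℝ} (he : 0 < e) (hee : e ≤ 1)
    (hext : ∀ τ : ℝ, e / 2 < |τ| → |τ| < 1 / 2 → gf i j S τ = 0) :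
    2 * Ufun (periodicVolume S) e ≤ (periodicPerimeter S).toReal := by
  set s := periodicVolume S with hs
  have hs0 : 0 ≤ s := Inv.periodicVolume_nonneg S
  obtain ⟨ρ, hρ0, hρ1, hin, hout⟩ := exists_extent hij hS hdi (S := S)
  rcases hρ0.eq_or_lt with h | hρpos
  · -- empty
    have : s = 0 := by
      rw [hs, ← integral_gf hij hS hper]
      rw [intervalIntegral.integral_of_le (by norm_num), integral_Ioc_eq_integral_Ioo]
      have : ∫ t in Set.Ioo (-(1/2) : ℝ) (1/2), gf i j S t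
          = ∫ t in Set.Ioo (-(1/2) : ℝ) (1/2), (0:ℝ) := by
        refine setIntegral_congr_ae measurableSet_Ioo ?_
        have h0 : ∀ᵐ τ : ℝ, τ ≠ 0 := by
          rw [ae_iff]; simp
        filter_upwards [h0] with τ hτ0 hτ
        exact hout τ (by rw [← h]; exact abs_pos.2 hτ0) (abs_le.2 ⟨hτ.1.le, hτ.2.le⟩)
      rw [this]; simp
    rw [this]
    have h1 : Ufun 0 e = 0 := by
      unfold Ufun
      rw [if_neg]
      · simp
      · have := Real.pi_pos
        have : 0 < Real.pi * e ^ 2 := by positivity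
        linarith
    rw [h1]; simp
  rcases hρ1.eq_or_lt with h | hρlt
  · -- full extent
    have he1 : e = 1 := by
      by_contra hne
      have hlt : e < 1 := lt_of_le_of_ne hee hne
      have h3 : (e / 2 + 1 / 2) / 2 < 1 / 2 := by linarith
      have h4 : |(e / 2 + 1 / 2) / 2| = (e / 2 + 1 / 2) / 2 := abs_of_pos (by linarith)
      have h1 := hin ((e / 2 + 1 / 2) / 2) (by rw [h4, h]; exact h3)
      have h2 := hext ((e / 2 + 1 / 2) / 2) (by rw [h4]; linarith) (by rw [h4]; exact h3)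
      linarith
    subst he1
    have key : ∀ ε : ℝ, 0 < ε → 2 * (s + Real.pi / 4) ≤ (periodicPerimeter S).toReal + 2 * ε := by
      intro ε hε
      have h1 := bound_full hij hS hper hP hdi hnt (fun τ hτ => hin τ (by rw [h]; exact hτ))
        (hz ε hε) (le_refl (1/2 : ℝ))
      rw [integral_sqrt_disc (by norm_num : (0:ℝ) < 1/2), ← hs] at h1
      have : 1 / (1 / 2 : ℝ) = 2 := by norm_num
      rw [this] at h1
      linarith
    have h2 : 2 * (s + Real.pi / 4) ≤ (periodicPerimeter S).toReal := by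
      refine le_of_forall_pos_le_add fun ε hε => ?_
      have := key (ε / 2) (half_pos hε)
      linarith
    have h3 := Ufun_le hs0 (zero_lt_one) (le_refl (1:ℝ))
    have h4 : s / 1 + Real.pi * 1 / 4 = s + Real.pi / 4 := by ring
    rw [h4] at h3
    linarith
  · have hρe : 2 * ρ ≤ e := by
      by_contra hc
      push Not at hc
      have h4 : |(e / 2 + ρ) / 2| = (e / 2 + ρ) / 2 := abs_of_pos (by linarith)
      have h1 := hin ((e / 2 + ρ) / 2) (by rw [h4]; linarith)
      have h2 := hext ((e / 2 + ρ) / 2) (by rw [h4]; linarith) (by rw [h4]; linarith)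
      linarith
    have h1 := bound_extent hij hS hper hP hρpos hρlt le_rfl (fun τ h3 h4 =>
      ⟨(hin τ h4).ne', (hnt τ h3 (h4.trans hρlt)).ne⟩) (fun τ h3 h4 => hout τ h3 h4.le)
    rw [integral_sqrt_disc hρpos, ← hs] at h1
    have h2 := Ufun_le hs0 (by linarith : 0 < 2 * ρ) hρe
    have h3 : s / (2 * ρ) + Real.pi * (2 * ρ) / 4 = (1 / ρ * s + 2 * (Real.pi * ρ / 2)) / 2 := by
      field_simp; ring
    rw [h3] at h2
    linarith

/-- **type 1 bound** -/
theorem type1_bound (hij : i ≠ j)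
    (hS : MeasurableSet S) (hper : IsLatticePeriodic S) (hP : periodicPerimeter S ≠ ⊤)
    (hdi : SymDecAt i S)
    (hnt : ∀ τ : ℝ, 0 < |τ| → |τ| < 1 / 2 → gf i j S τ < 1)
    (hpos : ∀ τ : ℝ, |τ| < 1 / 2 → 0 < gf i j S τ)
    {q : ℝ} (hq : ∀ q' : ℝ, q < q' → ∃ t : ℝ, 0 ≤ t ∧ t < 1 / 2 ∧ gf i j S t ≤ q')
    {R : ℝ} (hR : 1 ≤ R) :
    2 * (Ifun R + (periodicVolume S - q) / R) ≤ (periodicPerimeter S).toReal := by
  have hR0 : 0 < R := by linarith
  refine le_of_forall_pos_le_add fun ε hε => ?_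
  have h1 := bound_full hij hS hper hP hdi hnt hpos (hq (q + ε * R / 2) (by
    have : 0 < ε * R / 2 := by positivity
    linarith)) (by linarith : (1:ℝ) / 2 ≤ R / 2)
  rw [integral_sqrt_half] at h1
  have h2 : 1 / (R / 2) * (periodicVolume S - (q + ε * R / 2))
      = 2 * ((periodicVolume S - q) / R) - ε := by
    field_simp; ring
  rw [h2] at h1
  linarith

end plane

end Crest.Agent.R214
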