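import Crest.Agent.R214.CertScan
import Crest.Agent.R214.Legendre
import Crest.Agent.R214.Types2

/-!
# Row 214: soundness of the certificate checker, II: the final tests
-/

set_option autoImplicit false

open Real Set MeasureTheory

namespace Crest.Agent.R214.Cert

theorem pi_lo : (3.1415 : ℝ) < π := Real.pi_gt_d4
theorem pi_hi : π < (3.1416 : ℝ) := Real.pi_lt_d4

theorem floor_le (a b : ℤ) (hb : 0 < b) : ((a / b : ℤ) : ℝ) * b ≤ a := by
  exact_mod_cast Int.ediv_mul_le a hb.ne'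

theorem lt_floor (a b : ℤ) (hb : 0 < b) : (a : ℝ) < (((a / b : ℤ) : ℝ) + 1) * b := by
  exact_mod_cast Int.lt_ediv_add_one_mul_self a hb

theorem mHi_sound (L : ℤ) : LegOK ((L : ℝ) / 1000) ((mHi L : ℝ) / 10000000) := by
  have h1 := pi_lo
  have h2 := pi_hi
  have hp := Real.pi_pos
  unfold mHi LegOK
  by_cases c1 : L ≤ 0
  · rw [if_pos c1]
    have c1' : (L : ℝ) ≤ 0 := by exact_mod_cast c1
    left
    refine ⟨by linarith, ?_⟩
    push_cast
    linarith
  rw [if_neg c1]
  have c1' : (0 : ℝ) < L := by exact_mod_cast not_le.1 c1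
  by_cases c2 : L ≤ 1570
  · rw [if_pos c2]
    have c2' : (L : ℝ) ≤ 1570 := by exact_mod_cast c2
    right; left
    refine ⟨by positivity, by linarith, ?_⟩
    have hf := floor_le (100000000 * L) 31416 (by norm_num)
    push_cast at hf ⊢
    have h3 : (L : ℝ) / 1000 / 3.1416 ≤ (L : ℝ) / 1000 / π := by
      apply div_le_div_of_nonneg_left (by positivity) hp h2.le
    have h4 : (L : ℝ) / 1000 / 3.1416 = 100000000 * L / 31416 / 10000000 := by
      norm_num; ring
    have h5 : ((100000000 * L / 31416 : ℤ) : ℝ) ≤ 100000000 * L / 31416 := by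
      rw [le_div_iff₀ (by norm_num)]; exact hf
    push_cast at h5
    linarith
  rw [if_neg c2]
  by_cases c3 : L < 2250
  · rw [if_pos c3]
    right; right; left
    refine ⟨by positivity, ?_⟩
    have hf := lt_floor 7854000000 L (not_le.1 c1)
    have : π / (4 * ((L : ℝ) / 1000)) = 250 * π / L := by field_simp; ring
    rw [this, div_le_iff₀ c1']
    push_cast at hf ⊢
    have : ((7854000000 / L : ℤ) : ℝ) + 1 = (((7854000000 / L : ℤ) : ℝ) + 1) := rfl
    nlinarith
  rw [if_neg c3]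
  have c3' : (2250 : ℝ) ≤ L := by exact_mod_cast not_lt.1 c3
  by_cases c4 : L ≤ 3000
  · rw [if_pos c4]
    have c4' : (L : ℝ) ≤ 3000 := by exact_mod_cast c4
    right; right; right; left
    refine ⟨by linarith, by linarith, ?_⟩
    have hf := lt_floor ((18000 - 4 * L) * 31416) 81 (by norm_num)
    push_cast at hf ⊢
    have e : 2 * π / 9 - 4 * π * ((L : ℝ) / 1000) / 81 = π * ((18000 - 4 * L) / 81000) := by ring
    rw [e]
    have h3 : π * ((18000 - 4 * (L : ℝ)) / 81000) ≤ 3.1416 * ((18000 - 4 * L) / 81000) :=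
      mul_le_mul_of_nonneg_right h2.le (by
        apply div_nonneg _ (by norm_num)
        linarith)
    have h4 : (3.1416 : ℝ) * ((18000 - 4 * L) / 81000) =
        ((18000 - 4 * L) * 31416) / 81 / 10000000 := by norm_num; ring
    linarith
  · rw [if_neg c4]
    right; right; right; right
    refine ⟨by positivity, ?_⟩
    have hLL : 0 < L * L := by
      have := not_le.1 c1
      positivity
    have hf := lt_floor 20944000000000 (L * L) hLL
    have hLr : (0 : ℝ) < (L : ℝ) * L := by positivity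
    have : 2 * π / (3 * ((L : ℝ) / 1000) ^ 2) = (2000000 / 3 * π) / (L * L) := by
      field_simp; ring
    rw [this, div_le_iff₀ hLr]
    push_cast at hf ⊢
    nlinarith

theorem fin1_sound {P L : ℤ} {s k : ℕ} (h : fin1 P L s k = true) :
    (mHi L : ℝ) / 10000000 < (P : ℝ) / 1000 + (s : ℝ) / 65536000 := by
  unfold fin1 at h
  have h1 := of_decide_eq_true h
  have h2 : (0 : ℝ) < 655360000 * (P : ℝ) + 10000 * (s : ℝ) - 65536 * (mHi L : ℝ) := by
    exact_mod_cast h1
  have e : (P : ℝ) / 1000 + (s : ℝ) / 65536000 - (mHi L : ℝ) / 10000000 =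
      (655360000 * (P : ℝ) + 10000 * (s : ℝ) - 65536 * (mHi L : ℝ)) / 655360000000 := by ring
  have : 0 < (P : ℝ) / 1000 + (s : ℝ) / 65536000 - (mHi L : ℝ) / 10000000 := by
    rw [e]; positivity
  linarith

/-- lower bound for `∫₀^{1/10} √(1 - (Dx)²)` -/
theorem iq_sound {D : ℤ} (h0 : 0 ≤ D) (h1 : D ≤ 9999) :
    (iqN D : ℝ) / 3000000000000000000 ≤
      ∫ x in (0 : ℝ)..(1 / 10), √(1 - ((D : ℝ) / 1000 * x) ^ 2) := by
  have h0' : (0 : ℝ) ≤ D := by exact_mod_cast h0
  have h1' : (D : ℝ) ≤ 9999 := by exact_mod_cast h1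
  have hc : Continuous fun x : ℝ => √(1 - ((D : ℝ) / 1000 * x) ^ 2) :=
    Real.continuous_sqrt.comp (by fun_prop)
  -- general polynomial bound
  have key : ∀ c : ℝ, 1 / 8 ≤ c → (∀ x ∈ Icc (0 : ℝ) (1 / 10),
      1 - ((D : ℝ) / 1000 * x) ^ 2 / 2 - c * ((D : ℝ) / 1000 * x) ^ 4 ≤
        √(1 - ((D : ℝ) / 1000 * x) ^ 2)) →
      1 / 10 - ((D : ℝ) / 1000) ^ 2 / 6000 - c * ((D : ℝ) / 1000) ^ 4 / 500000 ≤
        ∫ x in (0 : ℝ)..(1 / 10), √(1 - ((D : ℝ) / 1000 * x) ^ 2) := by
    intro c _ hx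
    have hi : ∫ x in (0 : ℝ)..(1 / 10),
        (1 - ((D : ℝ) / 1000 * x) ^ 2 / 2 - c * ((D : ℝ) / 1000 * x) ^ 4) =
        1 / 10 - ((D : ℝ) / 1000) ^ 2 / 6000 - c * ((D : ℝ) / 1000) ^ 4 / 500000 := by
      have e : ∀ x : ℝ, 1 - ((D : ℝ) / 1000 * x) ^ 2 / 2 - c * ((D : ℝ) / 1000 * x) ^ 4 =
          1 - (((D : ℝ) / 1000) ^ 2 / 2) * x ^ 2 - (c * ((D : ℝ) / 1000) ^ 4) * x ^ 4 := by
        intro x; ring
      simp_rw [e]
      rw [intervalIntegral.integral_sub (by apply Continuous.intervalIntegrable; fun_prop)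
        (by apply Continuous.intervalIntegrable; fun_prop),
        intervalIntegral.integral_sub (by simp)
        (by apply Continuous.intervalIntegrable; fun_prop),
        intervalIntegral.integral_const_mul, intervalIntegral.integral_const_mul,
        integral_pow, integral_pow, intervalIntegral.integral_const]
      norm_num
      ring
    rw [← hi]
    refine intervalIntegral.integral_mono_on (by norm_num) ?_ (hc.intervalIntegrable _ _) hx
    apply Continuous.intervalIntegrable; fun_prop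
  have hy : ∀ x ∈ Icc (0 : ℝ) (1 / 10), 0 ≤ ((D : ℝ) / 1000 * x) ^ 2 ∧
      ((D : ℝ) / 1000 * x) ^ 2 ≤ ((D : ℝ) * D) / 100000000 := by
    intro x hx
    refine ⟨sq_nonneg _, ?_⟩
    have : (D : ℝ) / 1000 * x ≤ (D : ℝ) / 10000 := by
      have := mul_le_mul_of_nonneg_left hx.2 (show (0 : ℝ) ≤ (D : ℝ) / 1000 by positivity)
      linarith
    have h3 : 0 ≤ (D : ℝ) / 1000 * x := mul_nonneg (by positivity) hx.1
    nlinarith
  unfold iqN
  by_cases hc1 : D * D ≤ 45000000
  · rw [if_pos hc1]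
    have hc1' : (D : ℝ) * D ≤ 45000000 := by exact_mod_cast hc1
    have := key (1 / 6) (by norm_num) ?_
    · push_cast
      refine le_trans (le_of_eq ?_) this
      ring
    · intro x hx
      obtain ⟨ha, hb⟩ := hy x hx
      have e4 : ((D : ℝ) / 1000 * x) ^ 4 = (((D : ℝ) / 1000 * x) ^ 2) ^ 2 := by ring
      rw [e4]
      generalize ((D : ℝ) / 1000 * x) ^ 2 = y at ha hb ⊢
      have hb' : y ≤ 45 / 100 := by linarith
      apply Real.le_sqrt_of_sq_le
      nlinarith [mul_nonneg ha ha, mul_nonneg (mul_nonneg ha ha) ha,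
        mul_nonneg (mul_nonneg ha ha) (sub_nonneg.2 hb'),
        mul_nonneg (mul_nonneg (mul_nonneg ha ha) ha) (sub_nonneg.2 hb')]
  · rw [if_neg hc1]
    have := key (1 / 2) (by norm_num) ?_
    · push_cast
      refine le_trans (le_of_eq ?_) this
      ring
    · intro x hx
      obtain ⟨ha, hb⟩ := hy x hx
      have e4 : ((D : ℝ) / 1000 * x) ^ 4 = (((D : ℝ) / 1000 * x) ^ 2) ^ 2 := by ring
      rw [e4]
      generalize ((D : ℝ) / 1000 * x) ^ 2 = y at ha hb ⊢
      have hb' : y ≤ 1 := by nlinarith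
      apply Real.le_sqrt_of_sq_le
      have : (1 - y / 2 - 1 / 2 * y ^ 2) ^ 2 = (1 - y) * ((1 - y) * (1 + y / 2) ^ 2) := by ring
      rw [this]
      have h3 : (1 - y) * (1 + y / 2) ^ 2 ≤ 1 := by nlinarith [mul_nonneg ha ha, mul_nonneg (mul_nonneg ha ha) ha]
      nlinarith

end Crest.Agent.R214.Cert
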