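import Crest.Agent.R214.CertFin

/-!
# Row 214: soundness of the certificate checker, III: the two-zone final test
-/

set_option autoImplicit false

open Real Set MeasureTheory

namespace Crest.Agent.R214.Cert

/-- supporting lines of `Ufun` -/
theorem Ufun_support {s e : ℝ} (hs : 0 < s) (he : 0 < e) :
    ∃ a b : ℝ, (∀ t, 0 ≤ t → Ufun t e ≤ a * t + b) ∧ a * s + b = Ufun s e := by
  have hp := Real.pi_pos
  by_cases h : π * e ^ 2 ≤ 4 * s
  · refine ⟨1 / e, π * e / 4, fun t ht => ?_, ?_⟩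
    · have := Ufun_le ht he le_rfl
      rw [one_div_mul_eq_div]
      exact this
    · unfold Ufun
      rw [if_pos h, one_div_mul_eq_div]
  · have h' := not_le.1 h
    set r := 2 * √(s / π) with hr
    have hsp : 0 < s / π := by positivity
    have hr0 : 0 < r := by positivity
    have hr2 : r ^ 2 = 4 * (s / π) := by
      rw [hr, mul_pow, Real.sq_sqrt hsp.le]; norm_num
    have hre : r ≤ e := by
      apply le_of_sq_le_sq _ he.le |> fun h => h
      rw [hr2]
      have : 4 * (s / π) = (4 * s) / π := by ring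
      rw [this, div_le_iff₀ hp]
      linarith
    refine ⟨1 / r, π * r / 4, fun t ht => ?_, ?_⟩
    · have := Ufun_le ht hr0 hre
      rw [one_div_mul_eq_div]
      exact this
    · unfold Ufun
      rw [if_neg h, one_div_mul_eq_div]
      have e1 : √(π * s) = π * r / 2 := by
        rw [Real.sqrt_eq_iff_mul_self_eq (by positivity) (by positivity)]
        have : π * r / 2 * (π * r / 2) = π ^ 2 * r ^ 2 / 4 := by ring
        rw [this, hr2]
        field_simp
      rw [e1]
      have e2 : s / r = π * r / 4 := by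
        rw [div_eq_iff hr0.ne']
        have : π * r / 4 * r = π * r ^ 2 / 4 := by ring
        rw [this, hr2]
        field_simp
      rw [e2]; ring

theorem Ufun_zero {e : ℝ} (he : 0 < e) : Ufun 0 e = 0 := by
  unfold Ufun
  have : ¬ (π * e ^ 2 ≤ 4 * 0) := by
    rw [mul_zero, not_le]; positivity
  rw [if_neg this]
  simp

theorem Ufun_nonneg {s e : ℝ} (hs : 0 ≤ s) (he : 0 < e) : 0 ≤ Ufun s e :=
  (Real.sqrt_nonneg _).trans (sqrt_le_Ufun hs he)

/-- chord inequality for `Ufun` -/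
theorem Ufun_chord {s t e θ : ℝ} (hs : 0 ≤ s) (ht : 0 ≤ t) (he : 0 < e) (h0 : 0 ≤ θ)
    (h1 : θ ≤ 1) : (1 - θ) * Ufun s e + θ * Ufun t e ≤ Ufun ((1 - θ) * s + θ * t) e := by
  have hm : 0 ≤ (1 - θ) * s + θ * t := by
    have := sub_nonneg.2 h1
    positivity
  rcases hm.eq_or_lt with h | h
  · have h2 : (1 - θ) * s = 0 := by nlinarith [mul_nonneg (sub_nonneg.2 h1) hs, mul_nonneg h0 ht]
    have h3 : θ * t = 0 := by nlinarith [mul_nonneg (sub_nonneg.2 h1) hs, mul_nonneg h0 ht]
    rw [← h, Ufun_zero he]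
    have h4 : (1 - θ) * Ufun s e = 0 := by
      rcases mul_eq_zero.1 h2 with h5 | h5
      · rw [h5, zero_mul]
      · rw [h5, Ufun_zero he, mul_zero]
    have h5 : θ * Ufun t e = 0 := by
      rcases mul_eq_zero.1 h3 with h6 | h6
      · rw [h6, zero_mul]
      · rw [h6, Ufun_zero he, mul_zero]
    rw [h4, h5, add_zero]
  · obtain ⟨a, b, hab, heq⟩ := Ufun_support h he
    rw [← heq]
    have h2 := mul_le_mul_of_nonneg_left (hab s hs) (sub_nonneg.2 h1)
    have h3 := mul_le_mul_of_nonneg_left (hab t ht) h0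
    nlinarith

/-- the integer inequalities contained in the final test -/
theorem fin2_unpack {ell : List (ℕ × ℕ)} {P L : ℤ} {B1 G0 G1 a1 sg cs D s k : ℕ}
    (h : fin2 ell P L B1 G0 G1 a1 sg cs D s k = true) :
    ∃ kk l0 l1 la m N : ℤ, kk = (if B1 ≤ G0 then (k : ℤ) else 0) ∧ l0 = (lookup G0 ell : ℕ) ∧
      l1 = (lookup G1 ell : ℕ) ∧ la = (lookup a1 ell : ℕ) ∧ m = mHi L ∧ N = iqN D ∧
      L ≤ D ∧ G1 ≤ a1 ∧ a1 ≤ 4000 ∧ D ≤ 9999 ∧
      40 * (l0 - la) ≤ ((D : ℤ) - L) * ((a1 : ℤ) - G0) ∧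
      40 * (l1 - la) ≤ ((D : ℤ) - L) * ((a1 : ℤ) - G1) ∧
      0 < 17694720000000000000000000 * P + 300000000000000000000 * (s : ℤ)
        - 1966080000000000000000 * m + 65536 * (l0 * N) - 491520000000000000000 * (L * G0) ∧
      0 < 17694720000000000000000000 * P + 300000000000000000000 * (s : ℤ)
        - 1966080000000000000000 * m + 600000000000000000000 * (kk * ((G1 : ℤ) - G0))
        + 65536 * (l1 * N) - 491520000000000000000 * (L * G1) ∧
      (a1 = 4000 ∨ (sg * sg + cs * cs ≤ 1000000 ∧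
        0 < 17694720000000000000000000 * P + 300000000000000000000 * (s : ℤ)
          - 1966080000000000000000 * m +
          (19660800000000000000 * ((cs : ℤ) * la) - 491520000000000000000 * (max L 0 * a1))
          + 4915200000000000000000 * ((sg : ℤ) * ((a1 : ℤ) - G0))
          + 491520000000000000000 * (max (-L) 0 * G0) ∧
        0 < 17694720000000000000000000 * P + 300000000000000000000 * (s : ℤ)
          - 1966080000000000000000 * m +
          (- 491520000000000000000 * (max L 0 * 4000))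
          + 4915200000000000000000 * ((sg : ℤ) * ((4000 : ℤ) - G0))
          + 491520000000000000000 * (max (-L) 0 * G0) ∧
        0 < 17694720000000000000000000 * P + 300000000000000000000 * (s : ℤ)
          - 1966080000000000000000 * m + 600000000000000000000 * (kk * ((G1 : ℤ) - G0)) +
          (19660800000000000000 * ((cs : ℤ) * la) - 491520000000000000000 * (max L 0 * a1))
          + 4915200000000000000000 * ((sg : ℤ) * ((a1 : ℤ) - G1))
          + 491520000000000000000 * (max (-L) 0 * G1) ∧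
        0 < 17694720000000000000000000 * P + 300000000000000000000 * (s : ℤ)
          - 1966080000000000000000 * m + 600000000000000000000 * (kk * ((G1 : ℤ) - G0)) +
          (- 491520000000000000000 * (max L 0 * 4000))
          + 4915200000000000000000 * ((sg : ℤ) * ((4000 : ℤ) - G1))
          + 491520000000000000000 * (max (-L) 0 * G1))) := by
  have hk : (bif Nat.ble B1 G0 then (k : ℤ) else 0) = (if B1 ≤ G0 then (k : ℤ) else 0) := by
    by_cases hc : B1 ≤ G0
    · rw [if_pos hc, Nat.ble_eq.mpr hc, cond_true]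
    · rw [if_neg hc]
      have : Nat.ble B1 G0 = false := by
        rw [Bool.eq_false_iff]; intro h2; exact hc (Nat.le_of_ble_eq_true h2)
      rw [this, cond_false]
  unfold fin2 at h
  simp only [Bool.and_eq_true, Bool.or_eq_true, decide_eq_true_eq, Nat.ble_eq,
    hk] at h
  obtain ⟨⟨⟨⟨⟨⟨⟨⟨h1, h2⟩, h3⟩, h4⟩, h5⟩, h6⟩, h7⟩, h8⟩, h9⟩ := h
  refine ⟨_, _, _, _, _, _, rfl, rfl, rfl, rfl, rfl, rfl, h1, h2, h3, h4, h5, h6, h7, h8, ?_⟩
  rcases h9 with h9 | ⟨⟨⟨⟨h9, h10⟩, h11⟩, h12⟩, h13⟩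
  · exact Or.inl (Nat.eq_of_beq_eq_true h9)
  · exact Or.inr ⟨h9, h10, h11, h12, h13⟩

theorem conv_pos {θ x y : ℝ} (h0 : 0 ≤ θ) (h1 : θ ≤ 1) (hx : 0 < x) (hy : 0 < y) :
    0 < (1 - θ) * x + θ * y := by
  rcases h0.eq_or_lt with h | h
  · rw [← h]; linarith
  · have := mul_pos h hy
    have := mul_nonneg (sub_nonneg.2 h1) hx.le
    linarith

theorem max_scale (x : ℝ) : max (x / 1000) 0 = max x 0 / 1000 := by
  rcases le_total x 0 with h | h
  · rw [max_eq_right h, max_eq_right (by linarith), zero_div]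
  · rw [max_eq_left h, max_eq_left (by linarith)]

theorem exists_weight {a b x : ℝ} (h1 : a ≤ x) (h2 : x ≤ b) :
    ∃ θ : ℝ, 0 ≤ θ ∧ θ ≤ 1 ∧ x = (1 - θ) * a + θ * b := by
  rcases (h1.trans h2).eq_or_lt with h | h
  · exact ⟨0, le_rfl, zero_le_one, by linarith⟩
  · refine ⟨(x - a) / (b - a), div_nonneg (by linarith) (by linarith), ?_, ?_⟩
    · rw [div_le_one (by linarith)]; linarith
    · have : b - a ≠ 0 := by linarith [sub_pos.2 h]
      field_simp
      ring

set_option maxHeartbeats 1000000 in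
theorem fin2_sound {ell : List (ℕ × ℕ)} {P L : ℤ} {B1 G0 G1 a1 sg cs D s k : ℕ}
    (h : fin2 ell P L B1 G0 G1 a1 sg cs D s k = true) {e : ℝ} (he : 0 < e)
    (hell : ∀ x, x ≤ 4000 → ((lookup x ell : ℕ) : ℝ) / 100000 ≤ Ufun (1 - (x : ℝ) / 4000) e)
    {G I : ℝ} (hg0 : (G0 : ℝ) / 4000 ≤ G) (hg1 : G ≤ (G1 : ℝ) / 4000)
    (hI : (s : ℝ) / 65536000 + (if B1 ≤ G0 then (k : ℝ) else 0) / 8192 * (G - (G0 : ℝ) / 4000) ≤ I)
    {A : ℝ} (hGA : G ≤ A) (hA1 : A ≤ 1) :
    (∃ (D : ℝ) (Lf : ℝ → ℝ), 0 ≤ D ∧ D * (1 / 10) < 1 ∧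
      (∀ x ∈ Icc G 1, Lf x ≤ Ufun (1 - x) e) ∧
      (∀ x ∈ Icc G A, ∀ c ∈ Icc (0 : ℝ) 1,
        c * Lf G + (D - (L : ℝ) / 1000) * G ≤ c * Lf x + (D - (L : ℝ) / 1000) * x) ∧
      (mHi L : ℝ) / 10000000 < (1 - 1 / 10) * ((P : ℝ) / 1000) + I +
        Lf G * (∫ x in (0 : ℝ)..(1 / 10), √(1 - (D * x) ^ 2)) -
        (L : ℝ) / 1000 * (1 / 10 * G)) ∨
    (∃ σ : ℝ, 0 ≤ σ ∧ σ ≤ 1 ∧
      (mHi L : ℝ) / 10000000 < (1 - 1 / 10) * ((P : ℝ) / 1000) + I +
        1 / 10 * √(1 - σ ^ 2) * Ufun (1 - A) e + σ * (A - G) -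
        max ((L : ℝ) / 1000) 0 * (1 / 10 * A) + max (-((L : ℝ) / 1000)) 0 * (1 / 10 * G)) := by
  obtain ⟨kk, l0, l1, la, m, N, rfl, hl0, hl1, hla, hm, hN, h1, h2, h3, h4, h5, h6, h7, h8, h9⟩ :=
    fin2_unpack h
  have hkk : (((if B1 ≤ G0 then (k : ℤ) else 0 : ℤ)) : ℝ) = (if B1 ≤ G0 then (k : ℝ) else 0) := by
    split <;> simp
  have hkk0 : (0 : ℝ) ≤ (if B1 ≤ G0 then (k : ℝ) else 0) := by
    split
    · exact Nat.cast_nonneg _
    · exact le_rfl
  generalize (if B1 ≤ G0 then (k : ℤ) else 0) = kz at hkk h8 h9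
  generalize (if B1 ≤ G0 then (k : ℝ) else 0) = kr at hkk hkk0 hI
  have hG01 : G0 ≤ G1 := by
    have : (G0 : ℝ) ≤ G1 := by linarith
    exact_mod_cast this
  -- real data
  have e0 : (l0 : ℝ) / 100000 ≤ Ufun (1 - (G0 : ℝ) / 4000) e := by
    rw [hl0, Int.cast_natCast]
    exact hell G0 (by omega)
  have e1 : (l1 : ℝ) / 100000 ≤ Ufun (1 - (G1 : ℝ) / 4000) e := by
    rw [hl1, Int.cast_natCast]
    exact hell G1 (by omega)
  have ea : (la : ℝ) / 100000 ≤ Ufun (1 - (a1 : ℝ) / 4000) e := by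
    rw [hla, Int.cast_natCast]
    exact hell a1 (by omega)
  have l0n : (0 : ℝ) ≤ l0 := by rw [hl0]; positivity
  have l1n : (0 : ℝ) ≤ l1 := by rw [hl1]; positivity
  have lan : (0 : ℝ) ≤ la := by rw [hla]; positivity
  have hLD : (L : ℝ) ≤ D := by exact_mod_cast h1
  have ha1 : (a1 : ℝ) ≤ 4000 := by exact_mod_cast h3
  have hG1a : (G1 : ℝ) ≤ a1 := by exact_mod_cast h2
  have h5r : 40 * ((l0 : ℝ) - la) ≤ ((D : ℝ) - L) * ((a1 : ℝ) - G0) := by exact_mod_cast h5
  have h6r : 40 * ((l1 : ℝ) - la) ≤ ((D : ℝ) - L) * ((a1 : ℝ) - G1) := by exact_mod_cast h6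
  have hIq := iq_sound (D := (D : ℤ)) (by positivity) (by exact_mod_cast h4)
  rw [← hN] at hIq
  rw [← hm]
  obtain ⟨θ, ht0, ht1, hGθ⟩ := exists_weight hg0 hg1
  have hVG : (1 - θ) * ((l0 : ℝ) / 100000) + θ * ((l1 : ℝ) / 100000) ≤ Ufun (1 - G) e := by
    have hg1' : (G1 : ℝ) / 4000 ≤ 1 := by linarith
    have := Ufun_chord (s := 1 - (G0 : ℝ) / 4000) (t := 1 - (G1 : ℝ) / 4000) (e := e) (θ := θ)
      (by linarith) (by linarith) he ht0 ht1
    have e2 : (1 - θ) * (1 - (G0 : ℝ) / 4000) + θ * (1 - (G1 : ℝ) / 4000) = 1 - G := by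
      rw [hGθ]; ring
    rw [e2] at this
    refine le_trans ?_ this
    have q1 := mul_le_mul_of_nonneg_left e0 (sub_nonneg.2 ht1)
    have q2 := mul_le_mul_of_nonneg_left e1 ht0
    linarith
  set V := (1 - θ) * ((l0 : ℝ) / 100000) + θ * ((l1 : ℝ) / 100000) with hV
  have hV0 : 0 ≤ V := by
    have := sub_nonneg.2 ht1
    positivity
  rcases le_or_gt A ((a1 : ℝ) / 4000) with hAa | hAa
  · left
    have hI7 : (0 : ℝ) < 17694720000000000000000000 * P + 300000000000000000000 * (s : ℝ)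
        - 1966080000000000000000 * m + 65536 * (l0 * N) - 491520000000000000000 * (L * G0) := by
      exact_mod_cast h7
    have hI8 : (0 : ℝ) < 17694720000000000000000000 * P + 300000000000000000000 * (s : ℝ)
        - 1966080000000000000000 * m + 600000000000000000000 * (kz * ((G1 : ℝ) - G0))
        + 65536 * (l1 * N) - 491520000000000000000 * (L * G1) := by
      exact_mod_cast h8
    rw [hkk] at hI8
    refine ⟨(D : ℝ) / 1000, fun x => if x = G then V else Ufun (1 - x) e, by positivity, ?_, ?_,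
      ?_, ?_⟩
    · have : (D : ℝ) ≤ 9999 := by exact_mod_cast h4
      linarith
    · intro x hx
      simp only
      split
      · rename_i hxG
        rw [hxG]; exact hVG
      · exact le_rfl
    · intro x hx c hc
      simp only [if_true]
      by_cases hxG : x = G
      · rw [if_pos hxG, hxG]
      · rw [if_neg hxG]
        have hxG' : G < x := lt_of_le_of_ne hx.1 (Ne.symm hxG)
        obtain ⟨η, hη0, hη1, hxη⟩ := exists_weight (a := G) (b := (a1 : ℝ) / 4000) (x := x) hx.1
          (hx.2.trans hAa)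
        have hU : (1 - η) * V + η * ((la : ℝ) / 100000) ≤ Ufun (1 - x) e := by
          have := Ufun_chord (s := 1 - G) (t := 1 - (a1 : ℝ) / 4000) (e := e) (θ := η)
            (by linarith [hx.2]) (by linarith) he hη0 hη1
          have e2 : (1 - η) * (1 - G) + η * (1 - (a1 : ℝ) / 4000) = 1 - x := by
            rw [hxη]; ring
          rw [e2] at this
          refine le_trans ?_ this
          have q1 := mul_le_mul_of_nonneg_left hVG (sub_nonneg.2 hη1)
          have q2 := mul_le_mul_of_nonneg_left ea hη0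
          linarith
        -- slopes
        have hX : V - (la : ℝ) / 100000 ≤
            ((D : ℝ) / 1000 - (L : ℝ) / 1000) * ((a1 : ℝ) / 4000 - G) := by
          have q1 := mul_le_mul_of_nonneg_left h5r (sub_nonneg.2 ht1)
          have q2 := mul_le_mul_of_nonneg_left h6r ht0
          have e3 : ((D : ℝ) / 1000 - (L : ℝ) / 1000) * ((a1 : ℝ) / 4000 - G) =
              ((1 - θ) * (((D : ℝ) - L) * ((a1 : ℝ) - G0)) +
                θ * (((D : ℝ) - L) * ((a1 : ℝ) - G1))) / 4000000 := by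
            rw [hGθ]; ring
          have e4 : V - (la : ℝ) / 100000 = ((1 - θ) * (40 * ((l0 : ℝ) - la)) +
                θ * (40 * ((l1 : ℝ) - la))) / 4000000 := by
            rw [hV]; ring
          rw [e3, e4]
          gcongr
        have hX0 : 0 ≤ ((D : ℝ) / 1000 - (L : ℝ) / 1000) * ((a1 : ℝ) / 4000 - G) :=
          mul_nonneg (by linarith) (by linarith)
        have hcX : c * (V - (la : ℝ) / 100000) ≤
            ((D : ℝ) / 1000 - (L : ℝ) / 1000) * ((a1 : ℝ) / 4000 - G) := by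
          rcases le_total (V - (la : ℝ) / 100000) 0 with h10 | h10
          · have : c * (V - (la : ℝ) / 100000) ≤ 0 := mul_nonpos_of_nonneg_of_nonpos hc.1 h10
            linarith
          · have : c * (V - (la : ℝ) / 100000) ≤ 1 * (V - (la : ℝ) / 100000) :=
              mul_le_mul_of_nonneg_right hc.2 h10
            linarith
        have q3 := mul_le_mul_of_nonneg_left hU hc.1
        have q4 := mul_le_mul_of_nonneg_left hcX hη0
        have e5 : ((D : ℝ) / 1000 - (L : ℝ) / 1000) * x =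
            ((D : ℝ) / 1000 - (L : ℝ) / 1000) * G +
              η * (((D : ℝ) / 1000 - (L : ℝ) / 1000) * ((a1 : ℝ) / 4000 - G)) := by
          rw [hxη]; ring
        rw [e5]
        nlinarith
    · simp only [if_true]
      have hE0 : 0 < 9 / 10 * ((P : ℝ) / 1000) + (s : ℝ) / 65536000 - (m : ℝ) / 10000000 +
          (l0 : ℝ) / 100000 * ((N : ℝ) / 3000000000000000000) -
          (L : ℝ) / 1000 / 10 * ((G0 : ℝ) / 4000) := by
        have : 9 / 10 * ((P : ℝ) / 1000) + (s : ℝ) / 65536000 - (m : ℝ) / 10000000 +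
          (l0 : ℝ) / 100000 * ((N : ℝ) / 3000000000000000000) -
          (L : ℝ) / 1000 / 10 * ((G0 : ℝ) / 4000) =
          (17694720000000000000000000 * P + 300000000000000000000 * (s : ℝ)
            - 1966080000000000000000 * m + 65536 * (l0 * N) - 491520000000000000000 * (L * G0)) /
            19660800000000000000000000000 := by ring
        rw [this]
        positivity
      have hE1 : 0 < 9 / 10 * ((P : ℝ) / 1000) + (s : ℝ) / 65536000 - (m : ℝ) / 10000000 +
          kr / 8192 * ((G1 : ℝ) / 4000 - (G0 : ℝ) / 4000) +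
          (l1 : ℝ) / 100000 * ((N : ℝ) / 3000000000000000000) -
          (L : ℝ) / 1000 / 10 * ((G1 : ℝ) / 4000) := by
        have : 9 / 10 * ((P : ℝ) / 1000) + (s : ℝ) / 65536000 - (m : ℝ) / 10000000 +
          kr / 8192 * ((G1 : ℝ) / 4000 - (G0 : ℝ) / 4000) +
          (l1 : ℝ) / 100000 * ((N : ℝ) / 3000000000000000000) -
          (L : ℝ) / 1000 / 10 * ((G1 : ℝ) / 4000) =
          (17694720000000000000000000 * P + 300000000000000000000 * (s : ℝ)
            - 1966080000000000000000 * m + 600000000000000000000 * (kr * ((G1 : ℝ) - G0))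
            + 65536 * (l1 * N) - 491520000000000000000 * (L * G1)) /
            19660800000000000000000000000 := by ring
        rw [this]
        positivity
      have hc := conv_pos ht0 ht1 hE0 hE1
      have e6 : (1 - θ) * (9 / 10 * ((P : ℝ) / 1000) + (s : ℝ) / 65536000 - (m : ℝ) / 10000000 +
          (l0 : ℝ) / 100000 * ((N : ℝ) / 3000000000000000000) -
          (L : ℝ) / 1000 / 10 * ((G0 : ℝ) / 4000)) +
          θ * (9 / 10 * ((P : ℝ) / 1000) + (s : ℝ) / 65536000 - (m : ℝ) / 10000000 +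
          kr / 8192 * ((G1 : ℝ) / 4000 - (G0 : ℝ) / 4000) +
          (l1 : ℝ) / 100000 * ((N : ℝ) / 3000000000000000000) -
          (L : ℝ) / 1000 / 10 * ((G1 : ℝ) / 4000)) =
          9 / 10 * ((P : ℝ) / 1000) - (m : ℝ) / 10000000 + ((s : ℝ) / 65536000 +
            kr / 8192 * (G - (G0 : ℝ) / 4000)) + V * ((N : ℝ) / 3000000000000000000) -
            (L : ℝ) / 1000 * (1 / 10 * G) := by
        rw [hV, hGθ]; ring
      rw [e6] at hc
      have q5 := mul_le_mul_of_nonneg_left hIq hV0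
      push_cast at q5
      have e7 : (1 - 1 / 10 : ℝ) * ((P : ℝ) / 1000) = 9 / 10 * ((P : ℝ) / 1000) := by ring
      rw [e7]
      linarith
  · right
    have ha4 : a1 ≠ 4000 := by
      intro h10
      rw [h10] at hAa
      norm_num at hAa
      linarith
    obtain ⟨h9a, h9b, h9c, h9d, h9e⟩ := h9.resolve_left ha4
    have hsc : (sg : ℝ) * sg + (cs : ℝ) * cs ≤ 1000000 := by exact_mod_cast h9a
    have hb : (0 : ℝ) < 17694720000000000000000000 * P + 300000000000000000000 * (s : ℝ)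
          - 1966080000000000000000 * m +
          (19660800000000000000 * ((cs : ℝ) * la) - 491520000000000000000 * (max (L : ℝ) 0 * a1))
          + 4915200000000000000000 * ((sg : ℝ) * ((a1 : ℝ) - G0))
          + 491520000000000000000 * (max (-(L : ℝ)) 0 * G0) := by
      exact_mod_cast h9b
    have hc : (0 : ℝ) < 17694720000000000000000000 * P + 300000000000000000000 * (s : ℝ)
          - 1966080000000000000000 * m +
          (- 491520000000000000000 * (max (L : ℝ) 0 * 4000))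
          + 4915200000000000000000 * ((sg : ℝ) * ((4000 : ℝ) - G0))
          + 491520000000000000000 * (max (-(L : ℝ)) 0 * G0) := by
      exact_mod_cast h9c
    have hd : (0 : ℝ) < 17694720000000000000000000 * P + 300000000000000000000 * (s : ℝ)
          - 1966080000000000000000 * m + 600000000000000000000 * (kz * ((G1 : ℝ) - G0)) +
          (19660800000000000000 * ((cs : ℝ) * la) - 491520000000000000000 * (max (L : ℝ) 0 * a1))
          + 4915200000000000000000 * ((sg : ℝ) * ((a1 : ℝ) - G1))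
          + 491520000000000000000 * (max (-(L : ℝ)) 0 * G1) := by
      exact_mod_cast h9d
    have hee : (0 : ℝ) < 17694720000000000000000000 * P + 300000000000000000000 * (s : ℝ)
          - 1966080000000000000000 * m + 600000000000000000000 * (kz * ((G1 : ℝ) - G0)) +
          (- 491520000000000000000 * (max (L : ℝ) 0 * 4000))
          + 4915200000000000000000 * ((sg : ℝ) * ((4000 : ℝ) - G1))
          + 491520000000000000000 * (max (-(L : ℝ)) 0 * G1) := by
      exact_mod_cast h9e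
    rw [hkk] at hd hee
    have ep : max ((L : ℝ) / 1000) 0 = max (L : ℝ) 0 / 1000 := max_scale _
    have en : max (-((L : ℝ) / 1000)) 0 = max (-(L : ℝ)) 0 / 1000 := by
      rw [← max_scale]; congr 1; ring
    rw [ep, en]
    generalize max (L : ℝ) 0 = Lp at hb hc hd hee ⊢
    generalize max (-(L : ℝ)) 0 = Ln at hb hc hd hee ⊢
    have hsg0 : (0 : ℝ) ≤ sg := Nat.cast_nonneg _
    have hcs0 : (0 : ℝ) ≤ cs := Nat.cast_nonneg _
    refine ⟨(sg : ℝ) / 1000, by positivity, ?_, ?_⟩
    · rw [div_le_one (by norm_num)]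
      nlinarith
    have hroot : (cs : ℝ) / 1000 ≤ √(1 - ((sg : ℝ) / 1000) ^ 2) := by
      apply Real.le_sqrt_of_sq_le
      have : 1 - ((sg : ℝ) / 1000) ^ 2 - ((cs : ℝ) / 1000) ^ 2 =
        (1000000 - ((sg : ℝ) * sg + (cs : ℝ) * cs)) / 1000000 := by ring
      have h10 : 0 ≤ 1 - ((sg : ℝ) / 1000) ^ 2 - ((cs : ℝ) / 1000) ^ 2 := by
        rw [this]
        apply div_nonneg _ (by norm_num)
        linarith
      linarith
    obtain ⟨η, hη0, hη1, hAη⟩ := exists_weight (a := (a1 : ℝ) / 4000) (b := 1) (x := A) hAa.le hA1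
    have hU : (1 - η) * ((la : ℝ) / 100000) ≤ Ufun (1 - A) e := by
      have := Ufun_chord (s := 1 - (a1 : ℝ) / 4000) (t := 0) (e := e) (θ := η)
        (by linarith) le_rfl he hη0 hη1
      rw [Ufun_zero he, mul_zero, add_zero, add_zero] at this
      have e2 : (1 - η) * (1 - (a1 : ℝ) / 4000) = 1 - A := by
        rw [hAη]; ring
      rw [e2] at this
      refine le_trans ?_ this
      exact mul_le_mul_of_nonneg_left ea (sub_nonneg.2 hη1)
    have hprod : (cs : ℝ) / 1000 * ((1 - η) * ((la : ℝ) / 100000)) ≤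
        √(1 - ((sg : ℝ) / 1000) ^ 2) * Ufun (1 - A) e :=
      mul_le_mul hroot hU (mul_nonneg (sub_nonneg.2 hη1) (by positivity)) (Real.sqrt_nonneg _)
    have F00 : 0 < 9 / 10 * ((P : ℝ) / 1000) + (s : ℝ) / 65536000 - (m : ℝ) / 10000000 +
        1 / 10 * ((cs : ℝ) / 1000 * ((la : ℝ) / 100000)) - Lp / 1000 * (1 / 10 * ((a1 : ℝ) / 4000)) +
        (sg : ℝ) / 1000 * ((a1 : ℝ) / 4000 - (G0 : ℝ) / 4000) +
        Ln / 1000 * (1 / 10 * ((G0 : ℝ) / 4000)) := by
      have := div_pos hb (show (0 : ℝ) < 19660800000000000000000000000 by norm_num)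
      refine lt_of_lt_of_eq this ?_
      ring
    have F01 : 0 < 9 / 10 * ((P : ℝ) / 1000) + (s : ℝ) / 65536000 - (m : ℝ) / 10000000 -
        Lp / 1000 * (1 / 10 * 1) +
        (sg : ℝ) / 1000 * (1 - (G0 : ℝ) / 4000) +
        Ln / 1000 * (1 / 10 * ((G0 : ℝ) / 4000)) := by
      have := div_pos hc (show (0 : ℝ) < 19660800000000000000000000000 by norm_num)
      refine lt_of_lt_of_eq this ?_
      ring
    have F10 : 0 < 9 / 10 * ((P : ℝ) / 1000) + (s : ℝ) / 65536000 - (m : ℝ) / 10000000 +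
        kr / 8192 * ((G1 : ℝ) / 4000 - (G0 : ℝ) / 4000) +
        1 / 10 * ((cs : ℝ) / 1000 * ((la : ℝ) / 100000)) - Lp / 1000 * (1 / 10 * ((a1 : ℝ) / 4000)) +
        (sg : ℝ) / 1000 * ((a1 : ℝ) / 4000 - (G1 : ℝ) / 4000) +
        Ln / 1000 * (1 / 10 * ((G1 : ℝ) / 4000)) := by
      have := div_pos hd (show (0 : ℝ) < 19660800000000000000000000000 by norm_num)
      refine lt_of_lt_of_eq this ?_
      ring
    have F11 : 0 < 9 / 10 * ((P : ℝ) / 1000) + (s : ℝ) / 65536000 - (m : ℝ) / 10000000 +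
        kr / 8192 * ((G1 : ℝ) / 4000 - (G0 : ℝ) / 4000) -
        Lp / 1000 * (1 / 10 * 1) +
        (sg : ℝ) / 1000 * (1 - (G1 : ℝ) / 4000) +
        Ln / 1000 * (1 / 10 * ((G1 : ℝ) / 4000)) := by
      have := div_pos hee (show (0 : ℝ) < 19660800000000000000000000000 by norm_num)
      refine lt_of_lt_of_eq this ?_
      ring
    have hT0 := conv_pos hη0 hη1 F00 F01
    have hT1 := conv_pos hη0 hη1 F10 F11
    have hT := conv_pos ht0 ht1 hT0 hT1
    have hkey : 9 / 10 * ((P : ℝ) / 1000) - (m : ℝ) / 10000000 + ((s : ℝ) / 65536000 +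
          kr / 8192 * (G - (G0 : ℝ) / 4000)) +
        1 / 10 * ((cs : ℝ) / 1000 * ((1 - η) * ((la : ℝ) / 100000))) +
        (sg : ℝ) / 1000 * (A - G) - Lp / 1000 * (1 / 10 * A) + Ln / 1000 * (1 / 10 * G) > 0 := by
      refine lt_of_lt_of_eq hT ?_
      rw [hAη, hGθ]
      ring
    have e7 : (1 - 1 / 10 : ℝ) * ((P : ℝ) / 1000) = 9 / 10 * ((P : ℝ) / 1000) := by ring
    have e8 : 1 / 10 * √(1 - ((sg : ℝ) / 1000) ^ 2) * Ufun (1 - A) e =
      1 / 10 * (√(1 - ((sg : ℝ) / 1000) ^ 2) * Ufun (1 - A) e) := by ring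
    rw [e7, e8]
    linarith

end Crest.Agent.R214.Cert
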