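import Crest.Agent.R214.SliceBase

/-!
Row 214, module G5 (dual slicing): slices and fibres along one coordinate, statement of the slicing
inequality.
-/

set_option autoImplicit false

open MeasureTheory Crest.GeometryTopology.PeriodicPerimeter

namespace Crest.Agent.R214.Slice

variable {n : ℕ}

/-- the point with `i`-th coordinate `t` and the other coordinates given by `y` -/
noncomputable def ins (i : Fin (n + 1)) (t : ℝ) (y : En n) : En (n + 1) :=
  WithLp.toLp 2 (i.insertNth t (fun j => y j))

@[simp] theorem ins_same (i : Fin (n + 1)) (t : ℝ) (y : En n) : ins i t y i = t := by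
  simp [ins]

@[simp] theorem ins_succAbove (i : Fin (n + 1)) (t : ℝ) (y : En n) (j : Fin n) :
    ins i t y (i.succAbove j) = y j := by
  simp [ins]

/-- slice `{x_i = t}` of `E` -/
def sliceAt (i : Fin (n + 1)) (E : Set (En (n + 1))) (t : ℝ) : Set (En n) := {y | ins i t y ∈ E}

/-- fibre of `E` in direction `i` over `y` -/
def fiberAt (i : Fin (n + 1)) (E : Set (En (n + 1))) (y : En n) : Set (En 1) :=
  {x | ins i (x 0) y ∈ E}

/-- dual slicing inequality, slices `{x_i = t}` (to be proved in `Slice.lean`) -/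
def SliceIneq (n : ℕ) : Prop :=
  ∀ (i : Fin (n + 1)) (E : Set (En (n + 1))), MeasurableSet E → IsLatticePeriodic E →
    ∀ (a b : ℝ → ℝ) (C : NNReal), Measurable a → LipschitzWith C b → Function.Periodic b 1 →
      (∀ t, 0 ≤ a t) → (∀ t, a t ^ 2 + b t ^ 2 ≤ 1) →
      (∫⁻ t in Set.Ico (0 : ℝ) 1, ENNReal.ofReal (a t) * periodicPerimeter (sliceAt i E t)) +
          ENNReal.ofReal (∫ t in Set.Ico (0 : ℝ) 1, deriv b t * periodicVolume (sliceAt i E t)) ≤
        periodicPerimeter E +
          ENNReal.ofReal (-∫ t in Set.Ico (0 : ℝ) 1, deriv b t * periodicVolume (sliceAt i E t))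

end Crest.Agent.R214.Slice
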