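import Mathlib
import Crest.Prelude.Def_PeriodicPerimeter
import Crest.Agent.R214.Types2

/-!
# R214: sharp lower bounds for the perimeter of symmetric decreasing plane periodic sets, III:
type 2 sets through the complement, and the summary in terms of arms
-/

open MeasureTheory Crest.GeometryTopology.PeriodicPerimeter Filter Topology
open scoped Pointwise ContDiff

namespace Crest.Agent.R214

/-- the complement translated by the half diagonal -/
def dualSet {n : ℕ} (S : Set (EuclideanSpace ℝ (Fin n))) : Set (EuclideanSpace ℝ (Fin n)) :=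
  {x | x + WithLp.toLp 2 (fun _ => (1/2 : ℝ)) ∉ S}

theorem dualSet_eq_image {n : ℕ} (S : Set (EuclideanSpace ℝ (Fin n))) :
    dualSet S = (fun x => x + WithLp.toLp 2 (fun _ => -(1/2 : ℝ))) '' Sᶜ := by
  ext x
  constructor
  · intro hx
    refine ⟨x + WithLp.toLp 2 (fun _ => (1/2 : ℝ)), hx, ?_⟩
    ext k; simp
  · rintro ⟨y, hy, rfl⟩
    show y + WithLp.toLp 2 (fun _ => -(1/2 : ℝ)) + WithLp.toLp 2 (fun _ => (1/2 : ℝ)) ∉ S
    have : y + WithLp.toLp 2 (fun _ => -(1/2 : ℝ)) + WithLp.toLp 2 (fun _ => (1/2 : ℝ)) = y := by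
      ext k; simp
    rwa [this]

variable {n : ℕ} {S : Set (EuclideanSpace ℝ (Fin n))}

theorem measurableSet_dualSet (hS : MeasurableSet S) : MeasurableSet (dualSet S) :=
  (measurable_add_const _ hS).compl

theorem dualSet_periodic (hper : IsLatticePeriodic S) : IsLatticePeriodic (dualSet S) := by
  intro v hv x
  show x + v + _ ∉ S ↔ x + _ ∉ S
  rw [show x + v + WithLp.toLp 2 (fun _ => (1/2 : ℝ))
    = (x + WithLp.toLp 2 (fun _ => (1/2 : ℝ))) + v by abel, hper v hv]

theorem periodicPerimeter_dualSet (hS : MeasurableSet S) (hper : IsLatticePeriodic S) :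
    periodicPerimeter (dualSet S) = periodicPerimeter S := by
  rw [dualSet_eq_image, Inv.cubic_periodicPerimeter_image (Inv.isCubicIsometry_add _) hS.compl
    (Inv.periodic_compl hper), Inv.periodicPerimeter_compl hS]

theorem periodicVolume_dualSet (hS : MeasurableSet S) (hper : IsLatticePeriodic S) :
    periodicVolume (dualSet S) = 1 - periodicVolume S := by
  rw [dualSet_eq_image, Inv.cubic_periodicVolume_image (Inv.isCubicIsometry_add _) hS.compl
    (Inv.periodic_compl hper), Inv.periodicVolume_compl hS]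

theorem abs_cr_neg (t : ℝ) : |cr (-t)| = |cr t| := by
  unfold cr
  rcases abs_cr_le t with h
  by_cases h1 : t - round t = -(1/2)
  · -- boundary case
    have h2 : ((round t : ℤ) : ℝ) = t + 1/2 := by linarith
    have h3 : round (-t) = -(round t) + 1 := by
      rw [round_eq, Int.floor_eq_iff]
      push_cast
      rw [h2]
      constructor <;> linarith
    rw [h3]; push_cast; rw [h2]
    ring_nf
  · have h4 := abs_sub_round t
    rw [abs_le] at h4
    have h5 : -(1/2) < t - round t := lt_of_le_of_ne h4.1 (Ne.symm h1)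
    by_cases h6 : t - round t = 1/2
    · exfalso
      have h7 : round t = round t + 1 := by
        conv_lhs => rw [round_eq, Int.floor_eq_iff.2 (show ((round t + 1 : ℤ) : ℝ) ≤ t + 1/2 ∧
          t + 1/2 < ((round t + 1 : ℤ) : ℝ) + 1 by push_cast; constructor <;> linarith)]
      omega
    have h8 : t - round t < 1/2 := lt_of_le_of_ne h4.2 h6
    have h3 : round (-t) = -(round t) := by
      rw [round_eq, Int.floor_eq_iff]
      push_cast
      constructor <;> linarith
    rw [h3]; push_cast
    rw [← abs_neg]; ring_nf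

theorem abs_cr_add_half (t : ℝ) : |cr (t + 1/2)| = 1/2 - |cr t| := by
  have h1 : t = cr t + ((round t : ℤ) : ℝ) := by unfold cr; ring
  have h2 : cr (t + 1/2) = cr (cr t + 1/2) := by
    conv_lhs => rw [h1]
    rw [show cr t + ((round t : ℤ) : ℝ) + 1/2 = (cr t + 1/2) + ((round t : ℤ) : ℝ) by ring,
      cr_add_int]
  rw [h2]
  have h3 := abs_cr_le t
  rw [abs_le] at h3
  rcases lt_or_ge (cr t) 0 with h | h
  · rw [cr_of_mem ⟨by linarith, by linarith⟩, abs_of_neg h, abs_of_nonneg (by linarith)]
    ring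
  · have h4 : cr (cr t + 1/2) = cr (cr t - 1/2) := by
      rw [← cr_add_one (cr t - 1/2)]; congr 1; ring
    rw [h4, cr_of_mem ⟨by linarith, ?_⟩, abs_of_nonneg h]
    · rcases eq_or_lt_of_le h3.2 with h5 | h5
      · rw [h5]; norm_num
      · rw [abs_of_neg (by linarith)]; ring
    · linarith

theorem symDecAt_dualSet {j : Fin n} (hd : SymDecAt j S) : SymDecAt j (dualSet S) := by
  intro x hx y hk hj
  intro hy
  apply hx
  refine hd _ hy _ ?_ ?_
  · intro k hkj
    simp [hk k hkj]
  · have e1 : ∀ z : EuclideanSpace ℝ (Fin n),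
        (z + (WithLp.toLp 2 (fun _ => (1/2 : ℝ)) : EuclideanSpace ℝ (Fin n))) j = z j + 1/2 := by
      intro z; simp
    rw [e1, e1]
    change |cr (x j + 1/2)| ≤ |cr (y j + 1/2)|
    change |cr (y j)| ≤ |cr (x j)| at hj
    rw [abs_cr_add_half, abs_cr_add_half]
    linarith

theorem flen_dualSet (hS : MeasurableSet S) (j : Fin n) (x : EuclideanSpace ℝ (Fin n)) :
    flen j (dualSet S) x = 1 - flen j S (x + WithLp.toLp 2 (fun _ => (1/2 : ℝ))) := by
  unfold flen
  have e1 : ∀ t : ℝ, chi (dualSet S) (x + t • ev j)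
      = 1 - chi S (x + WithLp.toLp 2 (fun _ => (1/2 : ℝ)) + t • ev j) := by
    intro t
    have : (x + t • ev j ∈ dualSet S) ↔ ¬ (x + WithLp.toLp 2 (fun _ => (1/2 : ℝ)) + t • ev j ∈ S) := by
      show x + t • ev j + WithLp.toLp 2 (fun _ => (1/2 : ℝ)) ∉ S ↔ _
      rw [show x + t • ev j + WithLp.toLp 2 (fun _ => (1/2 : ℝ))
        = x + WithLp.toLp 2 (fun _ => (1/2 : ℝ)) + t • ev j by abel]
    unfold chi
    by_cases h : x + WithLp.toLp 2 (fun _ => (1/2 : ℝ)) + t • ev j ∈ S
    · rw [Set.indicator_of_notMem (by rw [this]; simpa using h), Set.indicator_of_mem h]; norm_num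
    · rw [Set.indicator_of_mem (by rw [this]; exact h), Set.indicator_of_notMem h]; norm_num
  simp_rw [e1]
  rw [intervalIntegral.integral_sub _root_.intervalIntegrable_const
    (chi_fiber_intervalIntegrable hS _ _ _ _)]
  simp

section plane

variable {i j : Fin 2} {S : Set (EuclideanSpace ℝ (Fin 2))}

theorem gf_dualSet (hij : i ≠ j) (hS : MeasurableSet S) (hper : IsLatticePeriodic S) (τ : ℝ) :
    gf i j (dualSet S) τ = 1 - gf i j S (τ + 1/2) := by
  unfold gf
  rw [flen_dualSet hS]
  congr 1
  refine (flen_inv j hS hper).congr ?_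
  intro k hk
  have : k = i := by omega
  subst this
  simp

theorem gf_per (hS : MeasurableSet S) (hper : IsLatticePeriodic S) (τ : ℝ) :
    gf i j S (cr τ) = gf i j S τ := by
  unfold gf cr
  have h := (flen_bmp j hS hper).per (((round τ : ℤ) : ℝ) • ev i)
    (hasIntegerCoords_int_smul_ev i _) ((τ - ((round τ : ℤ) : ℝ)) • ev i)
  rw [← h, ← add_smul]
  congr 2
  ring

/-- **type 2 bound**: `S` has arms in both directions, and the far trace in direction `i` is
at least `q` -/
theorem type2_bound (hij : i ≠ j)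
    (hS : MeasurableSet S) (hper : IsLatticePeriodic S) (hP : periodicPerimeter S ≠ ⊤)
    (hdi : SymDecAt i S) (hdj : SymDecAt j S)
    (hTi : Touch i j S) (hTj : Touch j i S) {q : ℝ} (hq0 : 0 ≤ q)
    (hq : ∀ h : ℝ, 0 < h → h < q / 2 → Arm i j S h) :
    2 * Ufun (1 - periodicVolume S) (1 - q) ≤ (periodicPerimeter S).toReal := by
  have hji : j ≠ i := hij.symm
  have hV : periodicVolume (dualSet S) = 1 - periodicVolume S := periodicVolume_dualSet hS hper
  have hPer : periodicPerimeter (dualSet S) = periodicPerimeter S := periodicPerimeter_dualSet hS hper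
  have hS' := measurableSet_dualSet hS
  have hper' := dualSet_periodic hper
  obtain ⟨hi, hi0, hi1, hAi⟩ := hTi
  obtain ⟨hj, hj0, hj1, hAj⟩ := hTj
  -- fibre lengths of the dual set in direction `i`
  have hg : ∀ τ : ℝ, gf j i (dualSet S) τ = 1 - gf j i S (cr (τ + 1/2)) := by
    intro τ
    rw [gf_dualSet hji hS hper, gf_per hS hper]
  have hfull : ∀ h : ℝ, 0 ≤ h → h ≤ 1/2 → Arm i j S h → ∀ τ : ℝ, |τ| ≤ h → gf j i S τ = 1 := by
    intro h h0 h1 hA τ hτ
    refine le_antisymm (gf_le_one hS _) ?_
    refine le_trans ?_ (gf_anti hS hji hdj (τ := τ) (τ' := h) (by rwa [abs_of_nonneg h0])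
      (by rwa [abs_of_nonneg h0]))
    refine le_of_forall_pos_le_add fun ε hε => ?_
    have h3 : 2 * (max 0 (1/2 - ε/2)) ≤ gf j i S h := by
      unfold gf
      refine le_flen_of_mem hS hper hdi (le_max_left _ _) ?_ ?_
      · refine max_le (by norm_num) (by linarith)
      · rw [pr_smul_ev hji, add_comm]
        exact hA _ (le_max_left _ _) (max_lt (by norm_num) (by linarith))
    have h4 := le_max_right 0 (1/2 - ε/2)
    linarith
  by_cases hq1 : 1 ≤ q
  · -- `S` is (almost) everything
    have hs1 : periodicVolume S = 1 := by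
      rw [← integral_gf hji hS hper]
      rw [intervalIntegral.integral_of_le (by norm_num), integral_Ioc_eq_integral_Ioo]
      have : ∫ t in Set.Ioo (-(1/2) : ℝ) (1/2), gf j i S t
          = ∫ t in Set.Ioo (-(1/2) : ℝ) (1/2), (1:ℝ) := by
        refine setIntegral_congr_ae measurableSet_Ioo ?_
        have h0 : ∀ᵐ τ : ℝ, τ ≠ 0 := by
          rw [ae_iff]; simp
        filter_upwards [h0] with τ hτ0 hτ
        have hτlt : |τ| < 1 / 2 := abs_lt.2 ⟨hτ.1, hτ.2⟩
        exact hfull |τ| (abs_nonneg _) hτlt.le (hq _ (abs_pos.2 hτ0) (by linarith)) τ le_rfl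
      rw [this]
      simp
      norm_num
    rw [hs1]
    unfold Ufun
    have hpi := Real.pi_pos
    rcases hq1.eq_or_lt with h | h
    · rw [← h]; simp
    · rw [if_neg]
      · simp
      · have : 0 < (1 - q) ^ 2 := by
          have : 1 - q ≠ 0 := by linarith
          positivity
        push Not
        have := mul_pos hpi this
        linarith
  push Not at hq1
  rw [← hV, ← hPer]
  refine type0_bound hji hS' hper' (by rw [hPer]; exact hP) (symDecAt_dualSet hdj) ?_ ?_
    (by linarith) (by linarith) ?_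
  · -- no full fibre
    intro τ hτ0 hτ
    rw [hg]
    have h1 : |cr (τ + 1/2)| < 1/2 := by
      rw [abs_cr_add_half, abs_cr_of_le hτ.le]; linarith
    have h2 := le_gf_of_arm hji hS hper hdj hdi hj0.le hj1 hAj h1
    linarith
  · -- zero trace
    intro ε hε
    refine ⟨max 0 (1/2 - hi), le_max_left _ _, max_lt (by norm_num) (by linarith), ?_⟩
    have h0 : max 0 (1/2 - hi) = 1/2 - hi := max_eq_right (by linarith)
    rw [h0, hg]
    rw [hfull hi hi0.le hi1 hAi]
    · linarith
    · rw [abs_cr_add_half, abs_cr_of_le, abs_of_nonneg (by linarith : 0 ≤ 1/2 - hi)]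
      · linarith
      · rw [abs_of_nonneg (by linarith : 0 ≤ 1/2 - hi)]; linarith
  · intro τ hτ0 hτ
    rw [hg]
    have h1 : |cr (τ + 1/2)| = 1/2 - |τ| := by
      rw [abs_cr_add_half, abs_cr_of_le hτ.le]
    have h2 := hfull |cr (τ + 1/2)| (abs_nonneg _) (by rw [h1]; linarith [abs_nonneg τ]) (hq _ (by rw [h1]; linarith)
      (by rw [h1]; linarith)) (cr (τ + 1/2)) le_rfl
    rw [h2]; ring

end plane

end Crest.Agent.R214
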