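import Mathlib
import Crest.Prelude.Def_PeriodicPerimeter
import Crest.Agent.R214.Types3
import Crest.Agent.R214.Arms
import Crest.Agent.R214.SliceDefs

/-!
# R214: types of the plane slices of a symmetric decreasing set in space, and the resulting lower
bounds for the perimeters of the slices
-/

open MeasureTheory Crest.GeometryTopology.PeriodicPerimeter Filter Topology
open scoped Pointwise ContDiff

namespace Crest.Agent.R214

open Slice

/-! ### the function `T` -/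

theorem Ifun_le_one (R : ℝ) : Ifun R ≤ 1 := by
  unfold Ifun
  have hsc : Continuous fun τ : ℝ => Real.sqrt (1 - (τ / R) ^ 2) :=
    Real.continuous_sqrt.comp (by fun_prop)
  calc ∫ x in (0:ℝ)..1, Real.sqrt (1 - (x / R) ^ 2) ≤ ∫ _x in (0:ℝ)..1, (1:ℝ) := by
        refine intervalIntegral.integral_mono_on zero_le_one (hsc.intervalIntegrable _ _)
          _root_.intervalIntegrable_const ?_
        intro x _
        rw [Real.sqrt_le_one]
        nlinarith [sq_nonneg (x / R)]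
    _ = 1 := by simp

/-- `T(d) = sup_{R ≥ 1} (I(R) + d / R)` -/
noncomputable def Tfun (d : ℝ) : ℝ := ⨆ R : Set.Ici (1:ℝ), (Ifun R + d / R)

theorem bddAbove_T (d : ℝ) : BddAbove (Set.range fun R : Set.Ici (1:ℝ) => (Ifun R + d / R)) := by
  refine ⟨1 + |d|, ?_⟩
  rintro _ ⟨R, rfl⟩
  have hR : (1:ℝ) ≤ R := R.2
  have h1 := Ifun_le_one R
  have h2 : d / (R : ℝ) ≤ |d| := by
    rw [div_le_iff₀ (by linarith)]
    nlinarith [le_abs_self d, abs_nonneg d]
  simp only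
  linarith

theorem le_Tfun {R : ℝ} (hR : 1 ≤ R) (d : ℝ) : Ifun R + d / R ≤ Tfun d :=
  le_ciSup (bddAbove_T d) (⟨R, hR⟩ : Set.Ici (1:ℝ))

theorem Tfun_le {d c : ℝ} (h : ∀ R : ℝ, 1 ≤ R → Ifun R + d / R ≤ c) : Tfun d ≤ c :=
  ciSup_le fun R => h R R.2

theorem Tfun_mono {d d' : ℝ} (h : d ≤ d') : Tfun d ≤ Tfun d' :=
  Tfun_le fun R hR => le_trans (by
    have : 0 < R := by linarith
    gcongr) (le_Tfun hR d')

/-! ### plane sets by type -/

section plane

variable {i j : Fin 2} {S : Set (EuclideanSpace ℝ (Fin 2))}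

theorem arm_mono (hij : i ≠ j) (hd : SymDecAt j S) {h h' : ℝ} (h0 : 0 ≤ h') (hh : h' ≤ h)
    (h1 : h ≤ 1 / 2) (hA : Arm i j S h) : Arm i j S h' := by
  intro t ht0 ht1
  refine hd _ (hA t ht0 ht1) _ ?_ ?_
  · intro k hk
    simp [hk]
  · have e : ∀ u : ℝ, (t • ev i + u • ev j : EuclideanSpace ℝ (Fin 2)) j = u := by
      intro u; simp [hij.symm]
    rw [e, e]
    change |cr h'| ≤ |cr h|
    rw [abs_cr_of_le (by rw [abs_of_nonneg h0]; linarith), abs_cr_of_le
      (by rw [abs_of_nonneg (h0.trans hh)]; linarith), abs_of_nonneg h0,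
      abs_of_nonneg (h0.trans hh)]
    exact hh

theorem ofReal_le_of_imp {P : ENNReal} {x : ℝ} (h : P ≠ ⊤ → x ≤ P.toReal) :
    ENNReal.ofReal x ≤ P := by
  by_cases hP : P = ⊤
  · rw [hP]; exact le_top
  · exact ENNReal.ofReal_le_of_le_toReal (h hP)

/-- type 0 -/
theorem planar_type0 (hij : i ≠ j) (hS : MeasurableSet S) (hper : IsLatticePeriodic S)
    (hdi : SymDecAt i S) (hdj : SymDecAt j S) (h1 : ¬ Touch i j S) (h2 : ¬ Touch j i S) :
    ENNReal.ofReal (2 * Real.sqrt (Real.pi * periodicVolume S)) ≤ periodicPerimeter S := by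
  refine ofReal_le_of_imp fun hP => ?_
  have h := type0_bound hij hS hper hP hdi
    (fun τ hτ0 hτ => gf_lt_one_of_not_touch hij hS hper hdi hdj h2 hτ0 hτ.le) (e := 1) ?_
    one_pos le_rfl (fun τ h3 h4 => absurd h3 (not_lt.2 h4.le))
  · have h3 := sqrt_le_Ufun (Inv.periodicVolume_nonneg S) (one_pos (α := ℝ))
    linarith
  · intro ε hε
    have h3 : 0 < min (ε / 2) (1 / 2) := lt_min (half_pos hε) (by norm_num)
    obtain ⟨t, ht0, ht1, ht⟩ := exists_gf_le_of_not_arm hij hS hper hdj h3.le (min_le_right _ _)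
      (fun hA => h1 ⟨_, h3, min_le_right _ _, hA⟩)
    refine ⟨t, ht0, ht1, ht.trans ?_⟩
    have := min_le_left (ε / 2) (1 / 2)
    linarith

/-- type 0 with an extent bound `e` in direction `i`: no point of `S` with `|x_i| > e / 2` -/
theorem planar_type0_extent (hij : i ≠ j) (hS : MeasurableSet S) (hper : IsLatticePeriodic S)
    (hdi : SymDecAt i S) (hdj : SymDecAt j S) (h1 : ¬ Touch i j S) (h2 : ¬ Touch j i S)
    {e : ℝ} (he : 0 < e) (he1 : e ≤ 1)
    (hext : ∀ τ : ℝ, e / 2 < |τ| → |τ| < 1 / 2 → gf i j S τ = 0) :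
    ENNReal.ofReal (2 * Ufun (periodicVolume S) e) ≤ periodicPerimeter S := by
  refine ofReal_le_of_imp fun hP => ?_
  refine type0_bound hij hS hper hP hdi
    (fun τ hτ0 hτ => gf_lt_one_of_not_touch hij hS hper hdi hdj h2 hτ0 hτ.le) ?_
    he he1 hext
  intro ε hε
  have h3 : 0 < min (ε / 2) (1 / 2) := lt_min (half_pos hε) (by norm_num)
  obtain ⟨t, ht0, ht1, ht⟩ := exists_gf_le_of_not_arm hij hS hper hdj h3.le (min_le_right _ _)
    (fun hA => h1 ⟨_, h3, min_le_right _ _, hA⟩)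
  refine ⟨t, ht0, ht1, ht.trans ?_⟩
  have := min_le_left (ε / 2) (1 / 2)
  linarith

/-- type 1 -/
theorem planar_type1 (hij : i ≠ j) (hS : MeasurableSet S) (hper : IsLatticePeriodic S)
    (hdi : SymDecAt i S) (hdj : SymDecAt j S) (h1 : Touch i j S) (h2 : ¬ Touch j i S)
    {q : ℝ} (hq0 : 0 ≤ q) (hq : ∀ h : ℝ, q < 2 * h → h ≤ 1 / 2 → ¬ Arm i j S h) :
    ENNReal.ofReal (2 * max 1 (Tfun (periodicVolume S - q))) ≤ periodicPerimeter S := by
  refine ofReal_le_of_imp fun hP => ?_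
  obtain ⟨h, h0, h12, hA⟩ := h1
  have hnt : ∀ τ : ℝ, 0 < |τ| → |τ| < 1 / 2 → gf i j S τ < 1 := fun τ hτ0 hτ =>
    gf_lt_one_of_not_touch hij hS hper hdi hdj h2 hτ0 hτ.le
  have hpos : ∀ τ : ℝ, |τ| < 1 / 2 → 0 < gf i j S τ := fun τ hτ => by
    have := le_gf_of_arm hij hS hper hdi hdj h0.le h12 hA hτ
    linarith
  have hb : max 1 (Tfun (periodicVolume S - q)) ≤ (periodicPerimeter S).toReal / 2 := by
    refine max_le ?_ (Tfun_le fun R hR => ?_)
    · have := two_le_of_full hij hS hper hP hnt hpos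
      linarith
    · have := type1_bound hij hS hper hP hdi hnt hpos (q := q) ?_ hR
      · linarith
      · intro q' hq'
        by_cases hq1 : 1 < q'
        · exact ⟨0, le_rfl, by norm_num, (gf_le_one hS _).trans hq1.le⟩
        · push Not at hq1
          obtain ⟨t, ht0, ht1, ht⟩ := exists_gf_le_of_not_arm hij hS hper hdj
            (by linarith : 0 ≤ q' / 2) (by linarith) (hq (q' / 2) (by linarith) (by linarith))
          exact ⟨t, ht0, ht1, by linarith⟩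
  linarith

/-- type 2 -/
theorem planar_type2 (hij : i ≠ j) (hS : MeasurableSet S) (hper : IsLatticePeriodic S)
    (hdi : SymDecAt i S) (hdj : SymDecAt j S) (h1 : Touch i j S) (h2 : Touch j i S)
    {q : ℝ} (hq0 : 0 ≤ q) (hq : ∀ h : ℝ, 0 < h → h < q / 2 → Arm i j S h) :
    ENNReal.ofReal (2 * Ufun (1 - periodicVolume S) (1 - q)) ≤ periodicPerimeter S :=
  ofReal_le_of_imp fun hP => type2_bound hij hS hper hP hdi hdj h1 h2 hq0 hq

theorem planar_type2_sqrt (hij : i ≠ j) (hS : MeasurableSet S) (hper : IsLatticePeriodic S)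
    (hdi : SymDecAt i S) (hdj : SymDecAt j S) (h1 : Touch i j S) (h2 : Touch j i S) :
    ENNReal.ofReal (2 * Real.sqrt (Real.pi * (1 - periodicVolume S))) ≤ periodicPerimeter S := by
  refine le_trans (ENNReal.ofReal_le_ofReal ?_) (planar_type2 hij hS hper hdi hdj h1 h2 le_rfl
    (fun h h3 h4 => absurd h4 (by linarith)))
  have := sqrt_le_Ufun (s := 1 - periodicVolume S) (e := 1 - 0)
    (by linarith [Inv.periodicVolume_le_one S]) (by norm_num)
  linarith

end plane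

/-! ### slices -/

section slices

variable {n : ℕ} {F : Set (En (n + 1))} {i : Fin (n + 1)}

theorem continuous_ins (i : Fin (n + 1)) (t : ℝ) : Continuous (ins i t : En n → En (n + 1)) := by
  have h : Continuous fun y : En n => (fun k => ins i t y k) := by
    refine continuous_pi fun k => ?_
    induction k using i.succAboveCases with
    | x => simp only [ins_same]; exact continuous_const
    | p j => simp only [ins_succAbove]; fun_prop
  exact (PiLp.continuous_toLp 2 _).comp h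

theorem measurableSet_sliceAt (hF : MeasurableSet F) (i : Fin (n + 1)) (t : ℝ) :
    MeasurableSet (sliceAt i F t) := (continuous_ins i t).measurable hF

theorem sliceAt_periodic (hF : IsLatticePeriodic F) (i : Fin (n + 1)) (t : ℝ) :
    IsLatticePeriodic (sliceAt i F t) := by
  intro v hv y
  have h1 : HasIntegerCoords (ins i 0 v) := by
    intro k
    induction k using i.succAboveCases with
    | x => exact ⟨0, by simp⟩
    | p j => obtain ⟨m, hm⟩ := hv j; exact ⟨m, by simpa using hm⟩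
  have h2 : ins i t (y + v) = ins i t y + ins i 0 v := by
    ext k
    induction k using i.succAboveCases with
    | x => simp
    | p j => simp
  show ins i t (y + v) ∈ F ↔ ins i t y ∈ F
  rw [h2]
  exact hF _ h1 _

theorem sliceAt_add_one (hF : IsLatticePeriodic F) (i : Fin (n + 1)) (t : ℝ) :
    sliceAt i F (t + 1) = sliceAt i F t := by
  ext y
  have h1 : HasIntegerCoords (ins i 1 (0 : En n)) := by
    intro k
    induction k using i.succAboveCases with
    | x => exact ⟨1, by simp⟩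
    | p j => exact ⟨0, by simp⟩
  have h2 : ins i (t + 1) y = ins i t y + ins i 1 (0 : En n) := by
    ext k
    induction k using i.succAboveCases with
    | x => simp
    | p j => simp
  show ins i (t + 1) y ∈ F ↔ ins i t y ∈ F
  rw [h2]
  exact hF _ h1 _

theorem symDecAt_sliceAt {j : Fin n} (h : SymDecAt (i.succAbove j) F) (t : ℝ) :
    SymDecAt j (sliceAt i F t) := by
  intro x hx y hk hj
  refine h _ hx _ ?_ ?_
  · intro k hkj
    induction k using i.succAboveCases with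
    | x => simp
    | p l =>
      have : l ≠ j := fun e => hkj (by rw [e])
      simp [hk l this]
  · simpa using hj

theorem sliceAt_anti (h : SymDecAt i F) {t t' : ℝ} (htt : |cr t| ≤ |cr t'|) :
    sliceAt i F t' ⊆ sliceAt i F t := by
  intro y hy
  refine h _ hy _ ?_ ?_
  · intro k hki
    induction k using i.succAboveCases with
    | x => exact absurd rfl hki
    | p l => simp
  · rw [ins_same, ins_same]; exact htt

theorem sliceAt_congr (h : SymDecAt i F) {t t' : ℝ} (htt : |cr t| = |cr t'|) :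
    sliceAt i F t = sliceAt i F t' :=
  Set.Subset.antisymm (sliceAt_anti h htt.ge) (sliceAt_anti h htt.le)

end slices

/-! ### the three directions -/

section three

variable {F : Set (En 3)}

/-- both arms are present in the slice `{x_i = h}` -/
def CaseA (i : Fin 3) (F : Set (En 3)) (h : ℝ) : Prop :=
  Touch 0 1 (sliceAt i F h) ∧ Touch 1 0 (sliceAt i F h)

/-- direction `i` is good: the arm of a type 1 slice has trace at most `2 h` -/
def GoodDir (i : Fin 3) (F : Set (En 3)) (h : ℝ) : Prop :=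
  ∀ t : ℝ, 0 < t → t < 1 / 2 →
    (Touch 0 1 (sliceAt i F t) → ¬ Touch 1 0 (sliceAt i F t) → ¬ Arm 0 1 (sliceAt i F t) h) ∧
    (Touch 1 0 (sliceAt i F t) → ¬ Touch 0 1 (sliceAt i F t) → ¬ Arm 1 0 (sliceAt i F t) h)

/-- the point with coordinates `x`, `y`, `z` -/
noncomputable def pt (x y z : ℝ) : En 3 := WithLp.toLp 2 ![x, y, z]

theorem comb_zero (u v : ℝ) : (u • ev 0 + v • ev 1 : En 2) 0 = u := by simp

theorem comb_one (u v : ℝ) : (u • ev 0 + v • ev 1 : En 2) 1 = v := by simp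

theorem ins_two (x y z : ℝ) :
    ins (2 : Fin 3) z (x • ev 0 + y • ev 1 : En 2) = pt x y z := by
  ext k
  fin_cases k
  · exact (ins_succAbove (2 : Fin 3) z (x • ev 0 + y • ev 1 : En 2) 0).trans (comb_zero x y)
  · exact (ins_succAbove (2 : Fin 3) z (x • ev 0 + y • ev 1 : En 2) 1).trans (comb_one x y)
  · exact ins_same (2 : Fin 3) z (x • ev 0 + y • ev 1 : En 2)

theorem ins_one (x y z : ℝ) :
    ins (1 : Fin 3) y (x • ev 0 + z • ev 1 : En 2) = pt x y z := by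
  ext k
  fin_cases k
  · exact (ins_succAbove (1 : Fin 3) y (x • ev 0 + z • ev 1 : En 2) 0).trans (comb_zero x z)
  · exact ins_same (1 : Fin 3) y (x • ev 0 + z • ev 1 : En 2)
  · exact (ins_succAbove (1 : Fin 3) y (x • ev 0 + z • ev 1 : En 2) 1).trans (comb_one x z)

theorem ins_zero (x y z : ℝ) :
    ins (0 : Fin 3) x (y • ev 0 + z • ev 1 : En 2) = pt x y z := by
  ext k
  fin_cases k
  · exact ins_same (0 : Fin 3) x (y • ev 0 + z • ev 1 : En 2)
  · exact (ins_succAbove (0 : Fin 3) x (y • ev 0 + z • ev 1 : En 2) 0).trans (comb_zero y z)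
  · exact (ins_succAbove (0 : Fin 3) x (y • ev 0 + z • ev 1 : En 2) 1).trans (comb_one y z)

/-- arm in direction `x` through `(y, z)` -/
def AX (F : Set (En 3)) (y z : ℝ) : Prop :=
  y ≤ 1 / 2 ∧ z ≤ 1 / 2 ∧ ∀ t : ℝ, 0 ≤ t → t < 1 / 2 → pt t y z ∈ F

/-- arm in direction `y` through `(x, z)` -/
def AY (F : Set (En 3)) (x z : ℝ) : Prop :=
  x ≤ 1 / 2 ∧ z ≤ 1 / 2 ∧ ∀ t : ℝ, 0 ≤ t → t < 1 / 2 → pt x t z ∈ F

/-- arm in direction `z` through `(x, y)` -/
def AZ (F : Set (En 3)) (x y : ℝ) : Prop :=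
  x ≤ 1 / 2 ∧ y ≤ 1 / 2 ∧ ∀ t : ℝ, 0 ≤ t → t < 1 / 2 → pt x y t ∈ F

theorem abs_cr_le_of {u v : ℝ} (h0 : 0 ≤ u) (huv : u ≤ v) (h : v ≤ 1 / 2) : |cr u| ≤ |cr v| := by
  rw [abs_cr_of_le (by rw [abs_of_nonneg h0]; linarith), abs_cr_of_le
    (by rw [abs_of_nonneg (h0.trans huv)]; exact h), abs_of_nonneg h0,
    abs_of_nonneg (h0.trans huv)]
  exact huv

theorem pt_mem_anti (hd : ∀ j, SymDecAt j F) {x y z x' y' z' : ℝ} (hx : |cr x'| ≤ |cr x|)
    (hy : |cr y'| ≤ |cr y|) (hz : |cr z'| ≤ |cr z|) (h : pt x y z ∈ F) : pt x' y' z' ∈ F := by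
  have h1 : pt x' y z ∈ F := by
    refine hd 0 _ h _ ?_ ?_
    · intro k hk; fin_cases k
      · exact absurd rfl hk
      · simp [pt]
      · simp [pt]
    · exact hx
  have h2 : pt x' y' z ∈ F := by
    refine hd 1 _ h1 _ ?_ ?_
    · intro k hk; fin_cases k
      · simp [pt]
      · exact absurd rfl hk
      · simp [pt]
    · exact hy
  refine hd 2 _ h2 _ ?_ ?_
  · intro k hk; fin_cases k
    · simp [pt]
    · simp [pt]
    · exact absurd rfl hk
  · exact hz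

theorem anti_AX (hd : ∀ j, SymDecAt j F) : Anti2 (AX F) := by
  intro p q p' q' hp' hpp hq' hqq h
  exact ⟨hpp.trans h.1, hqq.trans h.2.1, fun t ht0 ht1 => pt_mem_anti hd le_rfl
    (abs_cr_le_of hp'.le hpp h.1) (abs_cr_le_of hq'.le hqq h.2.1) (h.2.2 t ht0 ht1)⟩

theorem anti_AY (hd : ∀ j, SymDecAt j F) : Anti2 (AY F) := by
  intro p q p' q' hp' hpp hq' hqq h
  exact ⟨hpp.trans h.1, hqq.trans h.2.1, fun t ht0 ht1 => pt_mem_anti hd
    (abs_cr_le_of hp'.le hpp h.1) le_rfl (abs_cr_le_of hq'.le hqq h.2.1) (h.2.2 t ht0 ht1)⟩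

theorem anti_AZ (hd : ∀ j, SymDecAt j F) : Anti2 (AZ F) := by
  intro p q p' q' hp' hpp hq' hqq h
  exact ⟨hpp.trans h.1, hqq.trans h.2.1, fun t ht0 ht1 => pt_mem_anti hd
    (abs_cr_le_of hp'.le hpp h.1) (abs_cr_le_of hq'.le hqq h.2.1) le_rfl (h.2.2 t ht0 ht1)⟩

theorem arm01_two {y z : ℝ} (hy : y ≤ 1/2) (hz : z ≤ 1/2) :
    Arm 0 1 (sliceAt 2 F z) y ↔ AX F y z := by
  unfold Arm AX sliceAt
  simp only [Set.mem_ofPred_eq, ins_two]
  exact ⟨fun h => ⟨hy, hz, h⟩, fun h => h.2.2⟩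

theorem arm10_two {x z : ℝ} (hx : x ≤ 1/2) (hz : z ≤ 1/2) :
    Arm 1 0 (sliceAt 2 F z) x ↔ AY F x z := by
  unfold Arm AY sliceAt
  have e : ∀ t : ℝ, (t • ev 1 + x • ev 0 : En 2) = x • ev 0 + t • ev 1 := fun t => add_comm _ _
  simp only [Set.mem_ofPred_eq, e, ins_two]
  exact ⟨fun h => ⟨hx, hz, h⟩, fun h => h.2.2⟩

theorem arm01_one {y z : ℝ} (hy : y ≤ 1/2) (hz : z ≤ 1/2) :
    Arm 0 1 (sliceAt 1 F y) z ↔ AX F y z := by
  unfold Arm AX sliceAt
  simp only [Set.mem_ofPred_eq, ins_one]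
  exact ⟨fun h => ⟨hy, hz, h⟩, fun h => h.2.2⟩

theorem arm10_one {x y : ℝ} (hx : x ≤ 1/2) (hy : y ≤ 1/2) :
    Arm 1 0 (sliceAt 1 F y) x ↔ AZ F x y := by
  unfold Arm AZ sliceAt
  have e : ∀ t : ℝ, (t • ev 1 + x • ev 0 : En 2) = x • ev 0 + t • ev 1 := fun t => add_comm _ _
  simp only [Set.mem_ofPred_eq, e, ins_one]
  exact ⟨fun h => ⟨hx, hy, h⟩, fun h => h.2.2⟩

theorem arm01_zero {x z : ℝ} (hx : x ≤ 1/2) (hz : z ≤ 1/2) :
    Arm 0 1 (sliceAt 0 F x) z ↔ AY F x z := by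
  unfold Arm AY sliceAt
  simp only [Set.mem_ofPred_eq, ins_zero]
  exact ⟨fun h => ⟨hx, hz, h⟩, fun h => h.2.2⟩

theorem arm10_zero {x y : ℝ} (hx : x ≤ 1/2) (hy : y ≤ 1/2) :
    Arm 1 0 (sliceAt 0 F x) y ↔ AZ F x y := by
  unfold Arm AZ sliceAt
  have e : ∀ t : ℝ, (t • ev 1 + y • ev 0 : En 2) = y • ev 0 + t • ev 1 := fun t => add_comm _ _
  simp only [Set.mem_ofPred_eq, e, ins_zero]
  exact ⟨fun h => ⟨hx, hy, h⟩, fun h => h.2.2⟩

theorem touch_iff {D : Set (En 2)} {i j : Fin 2} {A : ℝ → Prop} (hA : ∀ h, h ≤ 1/2 → (Arm i j D h ↔ A h))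
    (hA2 : ∀ h, A h → h ≤ 1/2) : Touch i j D ↔ ∃ h, 0 < h ∧ A h := by
  constructor
  · rintro ⟨h, h0, h1, h2⟩; exact ⟨h, h0, (hA h h1).1 h2⟩
  · rintro ⟨h, h0, h2⟩; exact ⟨h, h0, hA2 h h2, (hA h (hA2 h h2)).2 h2⟩

theorem touch01_two {z : ℝ} (hz : z ≤ 1/2) : Touch 0 1 (sliceAt 2 F z) ↔ ∃ y, 0 < y ∧ AX F y z :=
  touch_iff (fun _ h => arm01_two h hz) (fun _ h => h.1)
theorem touch10_two {z : ℝ} (hz : z ≤ 1/2) : Touch 1 0 (sliceAt 2 F z) ↔ ∃ x, 0 < x ∧ AY F x z :=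
  touch_iff (fun _ h => arm10_two h hz) (fun _ h => h.1)
theorem touch01_one {y : ℝ} (hy : y ≤ 1/2) : Touch 0 1 (sliceAt 1 F y) ↔ ∃ z, 0 < z ∧ AX F y z :=
  touch_iff (fun _ h => arm01_one hy h) (fun _ h => h.2.1)
theorem touch10_one {y : ℝ} (hy : y ≤ 1/2) : Touch 1 0 (sliceAt 1 F y) ↔ ∃ x, 0 < x ∧ AZ F x y :=
  touch_iff (fun _ h => arm10_one h hy) (fun _ h => h.1)
theorem touch01_zero {x : ℝ} (hx : x ≤ 1/2) : Touch 0 1 (sliceAt 0 F x) ↔ ∃ z, 0 < z ∧ AY F x z :=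
  touch_iff (fun _ h => arm01_zero hx h) (fun _ h => h.2.1)
theorem touch10_zero {x : ℝ} (hx : x ≤ 1/2) : Touch 1 0 (sliceAt 0 F x) ↔ ∃ y, 0 < y ∧ AZ F x y :=
  touch_iff (fun _ h => arm10_zero hx h) (fun _ h => h.2.1)

/-- **arms lemma for sets** -/
theorem exists_direction (hd : ∀ j, SymDecAt j F) {h : ℝ} (h0 : 0 < h) (h1 : h ≤ 1 / 2) :
    ∃ i : Fin 3, CaseA i F h ∨ GoodDir i F h := by
  rcases arms_cases (anti_AX hd) (anti_AY hd) (anti_AZ hd) h0 with H | H | H | H | H | H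
  · refine ⟨2, Or.inl ⟨(touch01_two h1).2 H.1, (touch10_two h1).2 H.2⟩⟩
  · refine ⟨1, Or.inl ⟨(touch01_one h1).2 H.1, (touch10_one h1).2 H.2⟩⟩
  · refine ⟨0, Or.inl ⟨(touch01_zero h1).2 H.1, (touch10_zero h1).2 H.2⟩⟩
  · refine ⟨2, Or.inr fun t ht0 ht1 => ?_⟩
    rw [touch01_two ht1.le, touch10_two ht1.le, arm01_two h1 ht1.le, arm10_two h1 ht1.le]
    exact H t ht0
  · refine ⟨1, Or.inr fun t ht0 ht1 => ?_⟩
    rw [touch01_one ht1.le, touch10_one ht1.le, arm01_one ht1.le h1, arm10_one h1 ht1.le]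
    exact H t ht0
  · refine ⟨0, Or.inr fun t ht0 ht1 => ?_⟩
    rw [touch01_zero ht1.le, touch10_zero ht1.le, arm01_zero ht1.le h1, arm10_zero ht1.le h1]
    exact H t ht0

end three

end Crest.Agent.R214
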