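import Mathlib
import Crest.Prelude.Def_PeriodicPerimeter
import Crest.Agent.R214.SliceTypes

/-!
# R214: lower bounds for the perimeters of the slices of a symmetric decreasing set in space
(output of the modules TYPES + ARMS)
-/

open MeasureTheory Crest.GeometryTopology.PeriodicPerimeter Filter Topology
open scoped Pointwise ContDiff

namespace Crest.Agent.R214

open Slice

/-- (half of the) lower bound in a good direction; `h` = bound of the traces of type 1 slices -/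
noncomputable def Jgood (h s : ℝ) : ℝ :=
  min (Real.sqrt (Real.pi * s))
    (min (max 1 (Tfun (s - h))) (Real.sqrt (Real.pi * (1 - s))))

/-- (half of the) lower bound beyond the type 2 zone; `q` = bound of the traces of type 1 slices -/
noncomputable def Jtail (q s : ℝ) : ℝ :=
  min (Real.sqrt (Real.pi * s)) (max 1 (Tfun (s - q)))

section bounds

variable {F : Set (En 3)} {i : Fin 3}

theorem sliceAt_abs (hd : SymDecAt i F) {t : ℝ} (ht : |t| ≤ 1 / 2) :
    sliceAt i F t = sliceAt i F |t| := by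
  refine sliceAt_congr hd ?_
  rw [abs_cr_of_le ht, abs_cr_of_le (by rwa [abs_abs]), abs_abs]

theorem sliceAt_subset (hd : SymDecAt i F) {t t' : ℝ} (h : |t| ≤ |t'|) (h' : |t'| ≤ 1 / 2) :
    sliceAt i F t' ⊆ sliceAt i F t := by
  refine sliceAt_anti hd ?_
  rw [abs_cr_of_le (h.trans h'), abs_cr_of_le h']
  exact h

theorem Arm.mono {k l : Fin 2} {D D' : Set (En 2)} (h : D ⊆ D') {u : ℝ} (hA : Arm k l D u) :
    Arm k l D' u := fun t h0 h1 => h (hA t h0 h1)

theorem Touch.mono {k l : Fin 2} {D D' : Set (En 2)} (h : D ⊆ D') (hT : Touch k l D) :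
    Touch k l D' := by
  obtain ⟨u, h0, h1, h2⟩ := hT
  exact ⟨u, h0, h1, h2.mono h⟩

theorem good_bound (hF : MeasurableSet F) (hper : IsLatticePeriodic F)
    (hd : ∀ j, SymDecAt j F) {h : ℝ} (h0 : 0 < h) (hg : GoodDir i F h)
    {t : ℝ} (ht0 : 0 < |t|) (ht1 : |t| < 1 / 2) :
    ENNReal.ofReal (2 * Jgood (2 * h) (periodicVolume (sliceAt i F t)))
      ≤ periodicPerimeter (sliceAt i F t) := by
  rw [sliceAt_abs (hd i) ht1.le]
  obtain ⟨g1, g2⟩ := hg |t| ht0 ht1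
  have hS := measurableSet_sliceAt hF i |t|
  have hp := sliceAt_periodic hper i |t|
  have hd2 : ∀ j : Fin 2, SymDecAt j (sliceAt i F |t|) := fun j => symDecAt_sliceAt (hd _) _
  have h01 : (0 : Fin 2) ≠ 1 := by decide
  set s := periodicVolume (sliceAt i F |t|) with hs
  have m1 : Jgood (2 * h) s ≤ Real.sqrt (Real.pi * s) := min_le_left _ _
  have m2 : Jgood (2 * h) s ≤ max 1 (Tfun (s - 2 * h)) := (min_le_right _ _).trans (min_le_left _ _)
  have m3 : Jgood (2 * h) s ≤ Real.sqrt (Real.pi * (1 - s)) :=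
    (min_le_right _ _).trans (min_le_right _ _)
  by_cases c1 : Touch 0 1 (sliceAt i F |t|)
  · by_cases c2 : Touch 1 0 (sliceAt i F |t|)
    · refine le_trans (ENNReal.ofReal_le_ofReal (by linarith))
        (planar_type2_sqrt h01 hS hp (hd2 0) (hd2 1) c1 c2)
    · refine le_trans (ENNReal.ofReal_le_ofReal (by linarith))
        (planar_type1 h01 hS hp (hd2 0) (hd2 1) c1 c2 (q := 2 * h) (by linarith) ?_)
      intro h' h1' h2' hA
      exact g1 c1 c2 (arm_mono h01 (hd2 1) h0.le (by linarith) h2' hA)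
  · by_cases c2 : Touch 1 0 (sliceAt i F |t|)
    · refine le_trans (ENNReal.ofReal_le_ofReal (by linarith))
        (planar_type1 h01.symm hS hp (hd2 1) (hd2 0) c2 c1 (q := 2 * h) (by linarith) ?_)
      intro h' h1' h2' hA
      exact g2 c2 c1 (arm_mono h01.symm (hd2 0) h0.le (by linarith) h2' hA)
    · refine le_trans (ENNReal.ofReal_le_ofReal (by linarith))
        (planar_type0 h01 hS hp (hd2 0) (hd2 1) c1 c2)

theorem caseA_aux (hF : MeasurableSet F) (hper : IsLatticePeriodic F)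
    (hd : ∀ j, SymDecAt j F) {k l : Fin 2} (hkl : k ≠ l) {z : ℝ} (hz0 : 0 ≤ z)
    (hin : ∀ t : ℝ, |t| < z → Touch k l (sliceAt i F t) ∧ Touch l k (sliceAt i F t))
    (hout : ∀ t : ℝ, z < t → t < 1 / 2 → ¬ Touch l k (sliceAt i F t)) :
    ∃ q : ℝ, 0 ≤ q ∧ q ≤ 1 ∧
      (∀ q' : ℝ, 0 ≤ q' → q' ≤ q → ∀ t : ℝ, |t| < z →
        ENNReal.ofReal (2 * Ufun (1 - periodicVolume (sliceAt i F t)) (1 - q'))
        ≤ periodicPerimeter (sliceAt i F t)) ∧
      (∀ t : ℝ, z < |t| → |t| < 1 / 2 → ENNReal.ofReal (2 * Jtail q (periodicVolume (sliceAt i F t)))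
        ≤ periodicPerimeter (sliceAt i F t)) := by
  set A : Set ℝ := {u | 0 ≤ u ∧ u ≤ 1 / 2 ∧
    (u = 0 ∨ ∃ w, z < w ∧ w < 1 / 2 ∧ Arm k l (sliceAt i F w) u)} with hA
  have h0 : (0:ℝ) ∈ A := ⟨le_rfl, by norm_num, Or.inl rfl⟩
  have hbdd : BddAbove A := ⟨1/2, fun u hu => hu.2.1⟩
  have hq0 : 0 ≤ sSup A := le_csSup hbdd h0
  have hq1 : sSup A ≤ 1 / 2 := csSup_le ⟨0, h0⟩ fun u hu => hu.2.1
  have hS := fun t => measurableSet_sliceAt hF i t
  have hp := fun t => sliceAt_periodic hper i t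
  have hd2 : ∀ (j : Fin 2) (t : ℝ), SymDecAt j (sliceAt i F t) := fun j t =>
    symDecAt_sliceAt (hd _) _
  refine ⟨2 * sSup A, by linarith, by linarith, ?_, ?_⟩
  · intro q' hq0' hq1' t ht
    obtain ⟨c1, c2⟩ := hin t ht
    refine planar_type2 hkl (hS t) (hp t) (hd2 k t) (hd2 l t) c1 c2 hq0' ?_
    intro u hu0 hu1
    have hu1' : u < sSup A := by linarith
    obtain ⟨v, hv, huv⟩ := exists_lt_of_lt_csSup ⟨0, h0⟩ hu1'
    rcases hv.2.2 with hv0 | ⟨w, hw0, hw1, hw⟩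
    · linarith [hv.1]
    · have hsub : sliceAt i F w ⊆ sliceAt i F t := by
        refine sliceAt_subset (hd i) ?_ ?_
        · rw [abs_of_pos (by linarith : 0 < w)]; linarith
        · rw [abs_of_pos (by linarith : 0 < w)]; exact hw1.le
      exact arm_mono hkl (hd2 l t) hu0.le huv.le hv.2.1 (hw.mono hsub)
  · intro t ht0 ht1
    rw [sliceAt_abs (hd i) ht1.le]
    set s := periodicVolume (sliceAt i F |t|) with hs
    have m1 : Jtail (2 * sSup A) s ≤ Real.sqrt (Real.pi * s) := min_le_left _ _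
    have m2 : Jtail (2 * sSup A) s ≤ max 1 (Tfun (s - 2 * sSup A)) := min_le_right _ _
    have c2 := hout |t| ht0 ht1
    by_cases c1 : Touch k l (sliceAt i F |t|)
    · refine le_trans (ENNReal.ofReal_le_ofReal (by linarith))
        (planar_type1 hkl (hS _) (hp _) (hd2 k _) (hd2 l _) c1 c2 (q := 2 * sSup A) (by linarith) ?_)
      intro u hu hu1 hAu
      have : u ≤ sSup A := le_csSup hbdd ⟨by linarith, hu1, Or.inr ⟨|t|, ht0, ht1, hAu⟩⟩
      linarith
    · refine le_trans (ENNReal.ofReal_le_ofReal (by linarith))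
        (planar_type0 hkl (hS _) (hp _) (hd2 k _) (hd2 l _) c1 c2)

/-- **case A, exact form**: `z` = half width of the type 2 zone, `q` = trace of the surviving arm -/
theorem caseA_bound (hF : MeasurableSet F) (hper : IsLatticePeriodic F)
    (hd : ∀ j, SymDecAt j F) {h : ℝ} (h0 : 0 < h) (h1 : h ≤ 1 / 2) (hA : CaseA i F h) :
    ∃ z q : ℝ, h ≤ z ∧ z ≤ 1 / 2 ∧ 0 ≤ q ∧ q ≤ 1 ∧
      (∀ q' : ℝ, 0 ≤ q' → q' ≤ q → ∀ t : ℝ, |t| < z →
        ENNReal.ofReal (2 * Ufun (1 - periodicVolume (sliceAt i F t)) (1 - q'))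
        ≤ periodicPerimeter (sliceAt i F t)) ∧
      (∀ t : ℝ, z < |t| → |t| < 1 / 2 → ENNReal.ofReal (2 * Jtail q (periodicVolume (sliceAt i F t)))
        ≤ periodicPerimeter (sliceAt i F t)) := by
  set Z : Set ℝ := {w | 0 ≤ w ∧ w ≤ 1 / 2 ∧ CaseA i F w} with hZ
  have hh : h ∈ Z := ⟨h0.le, h1, hA⟩
  have hbdd : BddAbove Z := ⟨1/2, fun u hu => hu.2.1⟩
  have hzh : h ≤ sSup Z := le_csSup hbdd hh
  have hz1 : sSup Z ≤ 1 / 2 := csSup_le ⟨h, hh⟩ fun u hu => hu.2.1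
  have hin : ∀ t : ℝ, |t| < sSup Z → Touch 0 1 (sliceAt i F t) ∧ Touch 1 0 (sliceAt i F t) := by
    intro t ht
    obtain ⟨w, hw, htw⟩ := exists_lt_of_lt_csSup ⟨h, hh⟩ ht
    have hsub : sliceAt i F w ⊆ sliceAt i F t := by
      refine sliceAt_subset (hd i) ?_ ?_
      · rw [abs_of_nonneg hw.1]; exact htw.le
      · rw [abs_of_nonneg hw.1]; exact hw.2.1
    exact ⟨hw.2.2.1.mono hsub, hw.2.2.2.mono hsub⟩
  have hnot : ∀ t : ℝ, sSup Z < t → t < 1 / 2 → ¬ CaseA i F t := by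
    intro t ht0 ht1 hC
    have : t ≤ sSup Z := le_csSup hbdd ⟨by linarith, ht1.le, hC⟩
    linarith
  by_cases hB : ∃ t : ℝ, sSup Z < t ∧ t < 1 / 2 ∧ Touch 1 0 (sliceAt i F t)
  · obtain ⟨t2, h20, h21, hT2⟩ := hB
    have hnB : ∀ t : ℝ, sSup Z < t → t < 1 / 2 → ¬ Touch 0 1 (sliceAt i F t) := by
      intro t ht0 ht1 hT
      rcases le_total t t2 with hle | hle
      · refine hnot t ht0 ht1 ⟨hT, hT2.mono (sliceAt_subset (hd i) ?_ ?_)⟩
        · rw [abs_of_pos (by linarith : 0 < t), abs_of_pos (by linarith : 0 < t2)]; exact hle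
        · rw [abs_of_pos (by linarith : 0 < t2)]; exact h21.le
      · refine hnot t2 h20 h21 ⟨hT.mono (sliceAt_subset (hd i) ?_ ?_), hT2⟩
        · rw [abs_of_pos (by linarith : 0 < t), abs_of_pos (by linarith : 0 < t2)]; exact hle
        · rw [abs_of_pos (by linarith : 0 < t)]; exact ht1.le
    obtain ⟨q, hq0, hq1, hq2, hq3⟩ := caseA_aux hF hper hd (k := 1) (l := 0) (by decide)
      (by linarith : 0 ≤ sSup Z) (fun t ht => (hin t ht).symm) hnB (i := i)
    exact ⟨sSup Z, q, hzh, hz1, hq0, hq1, hq2, hq3⟩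
  · push Not at hB
    obtain ⟨q, hq0, hq1, hq2, hq3⟩ := caseA_aux hF hper hd (k := 0) (l := 1) (by decide)
      (by linarith : 0 ≤ sSup Z) hin hB (i := i)
    exact ⟨sSup Z, q, hzh, hz1, hq0, hq1, hq2, hq3⟩

/-- **case A, fixed zone**: zone 2 is `|t| < h` -/
theorem caseA_bound_fixed (hF : MeasurableSet F) (hper : IsLatticePeriodic F)
    (hd : ∀ j, SymDecAt j F) {h : ℝ} (h0 : 0 < h) (h1 : h ≤ 1 / 2) (hA : CaseA i F h) :
    ∃ z q : ℝ, 0 ≤ q ∧ q ≤ 1 ∧
      (∀ q' : ℝ, 0 ≤ q' → q' ≤ q → ∀ t : ℝ, |t| < h →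
        ENNReal.ofReal (2 * Ufun (1 - periodicVolume (sliceAt i F t)) (1 - q'))
        ≤ periodicPerimeter (sliceAt i F t)) ∧
      (∀ q' : ℝ, 0 ≤ q' → q' ≤ q → ∀ t : ℝ, |t| < 1 / 2 → |t| ≠ z →
        ENNReal.ofReal (2 * min (Jtail q (periodicVolume (sliceAt i F t)))
          (Ufun (1 - periodicVolume (sliceAt i F t)) (1 - q')))
        ≤ periodicPerimeter (sliceAt i F t)) := by
  obtain ⟨z, q, hz, hz1, hq0, hq1, h2, h3⟩ := caseA_bound hF hper hd h0 h1 hA
  refine ⟨z, q, hq0, hq1, fun q' hq0' hq1' t ht => h2 q' hq0' hq1' t (ht.trans_le hz),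
    fun q' hq0' hq1' t ht hne => ?_⟩
  rcases lt_or_gt_of_ne hne with hlt | hgt
  · refine le_trans (ENNReal.ofReal_le_ofReal ?_) (h2 q' hq0' hq1' t hlt)
    have := min_le_right (Jtail q (periodicVolume (sliceAt i F t)))
      (Ufun (1 - periodicVolume (sliceAt i F t)) (1 - q'))
    linarith
  · refine le_trans (ENNReal.ofReal_le_ofReal ?_) (h3 t hgt ht)
    have := min_le_left (Jtail q (periodicVolume (sliceAt i F t)))
      (Ufun (1 - periodicVolume (sliceAt i F t)) (1 - q'))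
    linarith

/-- **output of TYPES + ARMS**: for every threshold `h0 = 2 h` there is a direction with one of the
two families of lower bounds -/
theorem types_output (hF : MeasurableSet F) (hper : IsLatticePeriodic F)
    (hd : ∀ j, SymDecAt j F) {h : ℝ} (h0 : 0 < h) (h1 : h ≤ 1 / 2) :
    ∃ i : Fin 3,
      (∃ z q : ℝ, h ≤ z ∧ z ≤ 1 / 2 ∧ 0 ≤ q ∧ q ≤ 1 ∧
        (∀ q' : ℝ, 0 ≤ q' → q' ≤ q → ∀ t : ℝ, |t| < z →
          ENNReal.ofReal (2 * Ufun (1 - periodicVolume (sliceAt i F t)) (1 - q'))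
          ≤ periodicPerimeter (sliceAt i F t)) ∧
        (∀ t : ℝ, z < |t| → |t| < 1 / 2 →
          ENNReal.ofReal (2 * Jtail q (periodicVolume (sliceAt i F t)))
            ≤ periodicPerimeter (sliceAt i F t))) ∨
      (∀ t : ℝ, 0 < |t| → |t| < 1 / 2 →
        ENNReal.ofReal (2 * Jgood (2 * h) (periodicVolume (sliceAt i F t)))
          ≤ periodicPerimeter (sliceAt i F t)) := by
  obtain ⟨i, hi | hi⟩ := exists_direction hd h0 h1
  · exact ⟨i, Or.inl (caseA_bound hF hper hd h0 h1 hi)⟩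
  · exact ⟨i, Or.inr fun t ht0 ht1 => good_bound hF hper hd h0 hi ht0 ht1⟩

end bounds

end Crest.Agent.R214
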