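import Mathlib

/-!
Table of rational lower bounds for `Iq τ = ∫₀¹ √(1-(τx)²) dx`, `τ = j/50`, `j = 0,…,50`
(so `R = 1/τ`).
-/

namespace Crest.Agent.R214.TT

open Real MeasureTheory intervalIntegral Set

/-- `I(τ) = ∫₀¹ √(1-(τx)²) dx`. -/
noncomputable def Iq (τ : ℝ) : ℝ := ∫ x in (0:ℝ)..1, √(1 - (τ * x) ^ 2)

/-! ### Taylor bounds for sine -/

/-- sine Taylor polynomial with `n` terms. -/
noncomputable def Sp (n : ℕ) (x : ℝ) : ℝ :=
  ∑ k ∈ Finset.range n, (-1) ^ k * x ^ (2 * k + 1) / (2 * k + 1).factorial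

/-- cosine Taylor polynomial with `n` terms. -/
noncomputable def Cp (n : ℕ) (x : ℝ) : ℝ :=
  ∑ k ∈ Finset.range n, (-1) ^ k * x ^ (2 * k) / (2 * k).factorial

theorem hasDerivAt_Sp (n : ℕ) (x : ℝ) : HasDerivAt (Sp n) (Cp n x) x := by
  unfold Sp Cp
  apply HasDerivAt.fun_sum
  intro k _
  have h1 : HasDerivAt (fun x : ℝ => x ^ (2 * k + 1)) ((2 * k + 1 : ℕ) * x ^ (2 * k)) x := by
    simpa using hasDerivAt_pow (2 * k + 1) x
  have h2 := (h1.const_mul ((-1 : ℝ) ^ k)).div_const ((2 * k + 1).factorial : ℝ)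
  refine h2.congr_deriv ?_
  rw [Nat.factorial_succ]
  have : ((2 * k).factorial : ℝ) ≠ 0 := by positivity
  have h3 : ((2 * k + 1 : ℕ) : ℝ) ≠ 0 := by positivity
  push_cast at h3 ⊢
  field_simp

theorem hasDerivAt_Cp (n : ℕ) (x : ℝ) : HasDerivAt (Cp (n + 1)) (-Sp n x) x := by
  unfold Sp Cp
  have h0 : (fun x : ℝ => ∑ k ∈ Finset.range (n + 1), (-1 : ℝ) ^ k * x ^ (2 * k) / (2 * k).factorial)
      = fun x : ℝ => (∑ k ∈ Finset.range n, (-1 : ℝ) ^ (k + 1) * x ^ (2 * (k + 1)) /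
          (2 * (k + 1)).factorial) + 1 := by
    funext y
    rw [Finset.sum_range_succ']
    simp
  rw [h0]
  refine HasDerivAt.add_const (c := (1:ℝ)) ?_
  rw [← Finset.sum_neg_distrib]
  apply HasDerivAt.fun_sum
  intro k _
  have h1 : HasDerivAt (fun x : ℝ => x ^ (2 * (k + 1))) ((2 * (k + 1) : ℕ) * x ^ (2 * k + 1)) x := by
    have := hasDerivAt_pow (2 * (k + 1)) x
    have e : 2 * (k + 1) - 1 = 2 * k + 1 := by omega
    simpa [e] using this
  have h2 := (h1.const_mul ((-1 : ℝ) ^ (k + 1))).div_const ((2 * (k + 1)).factorial : ℝ)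
  refine h2.congr_deriv ?_
  have e : 2 * (k + 1) = (2 * k + 1) + 1 := by ring
  have e2 : ((2 * (k + 1)).factorial : ℝ) = (2 * k + 2 : ℝ) * ((2 * k + 1).factorial : ℝ) := by
    rw [e, Nat.factorial_succ]; push_cast; ring
  rw [e2]
  have : ((2 * k + 1).factorial : ℝ) ≠ 0 := by positivity
  push_cast
  field_simp
  ring

theorem nonneg_of_deriv {f f' : ℝ → ℝ} (h0 : 0 ≤ f 0) (hd : ∀ x, HasDerivAt f (f' x) x)
    (hf : ∀ x, 0 ≤ x → 0 ≤ f' x) : ∀ x, 0 ≤ x → 0 ≤ f x := by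
  intro x hx
  have hm : MonotoneOn f (Ici 0) := by
    apply monotoneOn_of_deriv_nonneg (convex_Ici 0)
    · exact fun y _ => (hd y).continuousAt.continuousWithinAt
    · exact fun y _ => (hd y).differentiableAt.differentiableWithinAt
    · intro y hy
      rw [interior_Ici] at hy
      rw [(hd y).deriv]
      exact hf y (le_of_lt hy)
  exact h0.trans (hm (by simp) hx hx)

theorem taylor_sign (n : ℕ) : (∀ x : ℝ, 0 ≤ x → 0 ≤ (-1) ^ (n + 1) * (cos x - Cp (n + 1) x)) ∧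
    (∀ x : ℝ, 0 ≤ x → 0 ≤ (-1) ^ (n + 1) * (sin x - Sp (n + 1) x)) := by
  have step : ∀ n : ℕ, (∀ x : ℝ, 0 ≤ x → 0 ≤ (-1 : ℝ) ^ (n + 1) * (cos x - Cp (n + 1) x)) →
      (∀ x : ℝ, 0 ≤ x → 0 ≤ (-1 : ℝ) ^ (n + 1) * (sin x - Sp (n + 1) x)) := by
    intro n h
    refine nonneg_of_deriv (by simp [Sp]) (fun x => ?_) h
    exact ((hasDerivAt_sin x).sub (hasDerivAt_Sp (n + 1) x)).const_mul _
  induction n with
  | zero =>
    have h1 : ∀ x : ℝ, 0 ≤ x → 0 ≤ (-1 : ℝ) ^ (0 + 1) * (cos x - Cp (0 + 1) x) := by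
      intro x _
      have := cos_le_one x
      simp [Cp]
      linarith
    exact ⟨h1, step 0 h1⟩
  | succ n ih =>
    have h1 : ∀ x : ℝ, 0 ≤ x → 0 ≤ (-1 : ℝ) ^ (n + 1 + 1) * (cos x - Cp (n + 1 + 1) x) := by
      refine nonneg_of_deriv (f' := fun x => (-1 : ℝ) ^ (n + 1) * (sin x - Sp (n + 1) x)) ?_
        (fun x => ?_) ih.2
      · have : Cp (n + 1 + 1) 0 = 1 := by
          unfold Cp
          rw [Finset.sum_range_succ']
          simp
        simp [this]
      · have := ((hasDerivAt_cos x).sub (hasDerivAt_Cp (n + 1) x)).const_mul ((-1 : ℝ) ^ (n + 1 + 1))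
        refine this.congr_deriv ?_
        rw [pow_succ ((-1 : ℝ)) (n + 1)]
        ring
    exact ⟨h1, step (n + 1) h1⟩

theorem sin_le_Sp (x : ℝ) (hx : 0 ≤ x) : sin x ≤ Sp 7 x := by
  have := (taylor_sign 6).2 x hx
  norm_num at this
  exact this

/-! ### Closed form -/

theorem hasDerivAt_prim {y : ℝ} (h1 : -1 < y) (h2 : y < 1) :
    HasDerivAt (fun y => (y * √(1 - y ^ 2) + arcsin y) / 2) (√(1 - y ^ 2)) y := by
  have hy : 0 < 1 - y ^ 2 := by nlinarith
  have hs : 0 < √(1 - y ^ 2) := Real.sqrt_pos.mpr hy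
  have h3 : HasDerivAt (fun y : ℝ => 1 - y ^ 2) (-(2 * y)) y := by
    simpa using ((hasDerivAt_pow 2 y).const_sub 1)
  have h4 := h3.sqrt hy.ne'
  have h5 := (hasDerivAt_id y).mul h4
  have h6 := hasDerivAt_arcsin h1.ne' h2.ne
  have h7 := (h5.add h6).div_const 2
  refine (h7.congr_deriv ?_)
  simp only [id]
  have hsq : √(1 - y ^ 2) ^ 2 = 1 - y ^ 2 := Real.sq_sqrt hy.le
  field_simp
  nlinarith [hsq]

theorem integral_sqrt (t : ℝ) (h0 : 0 ≤ t) (h1 : t ≤ 1) :
    ∫ y in (0:ℝ)..t, √(1 - y ^ 2) = (t * √(1 - t ^ 2) + arcsin t) / 2 := by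
  have := intervalIntegral.integral_eq_sub_of_hasDerivAt_of_le h0
    (f := fun y => (y * √(1 - y ^ 2) + arcsin y) / 2) (f' := fun y => √(1 - y ^ 2))
    (by
      apply Continuous.continuousOn
      exact ((continuous_id.mul (by fun_prop)).add continuous_arcsin).div_const 2)
    (fun y hy => hasDerivAt_prim (by linarith [hy.1]) (by linarith [hy.2]))
    ((by fun_prop : Continuous fun y : ℝ => √(1 - y ^ 2)).intervalIntegrable _ _)
  rw [this]
  simp

theorem Iq_eq {τ : ℝ} (h0 : 0 < τ) (h1 : τ ≤ 1) :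
    Iq τ = (√(1 - τ ^ 2) + arcsin τ / τ) / 2 := by
  unfold Iq
  have h := intervalIntegral.integral_comp_mul_left (a := 0) (b := 1)
    (fun y : ℝ => √(1 - y ^ 2)) h0.ne'
  rw [h, mul_zero, mul_one, integral_sqrt τ h0.le h1]
  simp only [smul_eq_mul]
  field_simp

theorem Iq_zero : Iq 0 = 1 := by
  unfold Iq
  simp

theorem Iq_one : Iq 1 = π / 4 := by
  rw [Iq_eq one_pos le_rfl]
  simp
  ring

theorem Iq_nonneg (τ : ℝ) : 0 ≤ Iq τ := by
  unfold Iq
  exact intervalIntegral.integral_nonneg (by norm_num) fun _ _ => Real.sqrt_nonneg _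

/-- Criterion: `θ` with `sin θ ≤ τ`, `r² ≤ 1-τ²` gives a lower bound. -/
theorem Iq_lower_of {τ θ r : ℝ} (h0 : 0 < τ) (h1 : τ ≤ 1) (hθ0 : 0 ≤ θ) (hθ1 : θ ≤ 1.57)
    (hS : Sp 7 θ ≤ τ) (hr : r ^ 2 ≤ 1 - τ ^ 2) : (r + θ / τ) / 2 ≤ Iq τ := by
  rw [Iq_eq h0 h1]
  have hpi : (1.57 : ℝ) < π / 2 := by linarith [pi_gt_d2]
  have hs : sin θ ≤ τ := (sin_le_Sp θ hθ0).trans hS
  have h3 : θ ≤ arcsin τ := by
    rw [le_arcsin_iff_sin_le ⟨by linarith, by linarith⟩ ⟨by linarith, h1⟩]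
    exact hs
  have h4 : r ≤ √(1 - τ ^ 2) := Real.le_sqrt_of_sq_le hr
  have h5 : θ / τ ≤ arcsin τ / τ := div_le_div_of_nonneg_right h3 h0.le
  linarith

/-! ### The table -/

/-- the integer check -/
def chk (j th r out : ℕ) : Bool :=
  let D := 100000000
  (0 < j) && (j ≤ 50) && (th ≤ 157000000) &&
  (2500 * r ^ 2 + j ^ 2 * D ^ 2 ≤ 2500 * D ^ 2) &&
  (50 * (6227020800 * D ^ 12 * th + 51891840 * D ^ 8 * th ^ 5 + 17160 * D ^ 4 * th ^ 9 + th ^ 13)
    ≤ j * 6227020800 * D ^ 13 + 50 * (1037836800 * D ^ 10 * th ^ 3 + 1235520 * D ^ 6 * th ^ 7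
      + 156 * D ^ 2 * th ^ 11)) &&
  (2 * out * D * j ≤ 1000000 * (j * r + 50 * th))

theorem chk_sound {j th r out : ℕ} (h : chk j th r out = true) :
    (out : ℝ) / 1000000 ≤ Iq ((j : ℝ) / 50) := by
  simp only [chk, Bool.and_eq_true, decide_eq_true_eq] at h
  obtain ⟨⟨⟨⟨⟨h1, h2⟩, h3⟩, h4⟩, h5⟩, h6⟩ := h
  have j0 : (0 : ℝ) < j := by exact_mod_cast h1
  have j1 : (j : ℝ) ≤ 50 := by exact_mod_cast h2
  have t1 : (th : ℝ) ≤ 157000000 := by exact_mod_cast h3
  have t0 : (0 : ℝ) ≤ th := Nat.cast_nonneg _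
  have e4 : (2500 * (r : ℝ) ^ 2 + j ^ 2 * 100000000 ^ 2 : ℝ) ≤ 2500 * 100000000 ^ 2 := by
    exact_mod_cast h4
  have e5 : (50 * (6227020800 * 100000000 ^ 12 * th + 51891840 * 100000000 ^ 8 * th ^ 5
      + 17160 * 100000000 ^ 4 * th ^ 9 + th ^ 13) : ℝ)
    ≤ j * 6227020800 * 100000000 ^ 13 + 50 * (1037836800 * 100000000 ^ 10 * th ^ 3
      + 1235520 * 100000000 ^ 6 * th ^ 7 + 156 * 100000000 ^ 2 * th ^ 11) := by
    exact_mod_cast h5
  have e6 : (2 * (out : ℝ) * 100000000 * j : ℝ) ≤ 1000000 * (j * r + 50 * th) := by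
    exact_mod_cast h6
  have key := Iq_lower_of (τ := (j : ℝ) / 50) (θ := (th : ℝ) / 100000000)
    (r := (r : ℝ) / 100000000) (by positivity) (by linarith) (by positivity)
    (by rw [div_le_iff₀ (by norm_num)]; linarith) ?_ ?_
  · refine le_trans ?_ key
    rw [div_le_div_iff₀ (by norm_num) (by norm_num)]
    have : (r : ℝ) / 100000000 + (th : ℝ) / 100000000 / ((j : ℝ) / 50)
        = (j * r + 50 * th) / (100000000 * j) := by
      field_simp
    rw [this, div_mul_eq_mul_div, le_div_iff₀ (by positivity)]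
    nlinarith [e6]
  · unfold Sp
    simp only [Finset.sum_range_succ, Finset.sum_range_zero, Nat.factorial]
    push_cast
    rw [← sub_nonneg]
    have hh := sub_nonneg.mpr e5
    have : ∀ A : ℝ, A = ((j * 6227020800 * 100000000 ^ 13 + 50 * (1037836800 * 100000000 ^ 10 * th ^ 3
      + 1235520 * 100000000 ^ 6 * th ^ 7 + 156 * 100000000 ^ 2 * th ^ 11))
      - (50 * (6227020800 * 100000000 ^ 12 * th + 51891840 * 100000000 ^ 8 * th ^ 5
      + 17160 * 100000000 ^ 4 * th ^ 9 + th ^ 13)) : ℝ) / (50 * 6227020800 * 100000000 ^ 13) →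
      0 ≤ A := by
      rintro A rfl
      exact div_nonneg hh (by positivity)
    apply this
    ring
  · rw [div_pow, div_pow]
    rw [le_sub_iff_add_le, div_add_div _ _ (by norm_num) (by norm_num), div_le_one (by norm_num)]
    nlinarith [e4]

/-- data: `θ_j` in units `1e-8`, `j = 1,…,49`. -/
def thTab : List ℕ :=
  [2000133, 4001067, 6003605, 8008558, 10016742, 12028988, 14046141, 16069065, 18098645, 20135792,
   22181447, 24236585, 26302220, 28379410, 30469265, 32572948, 34691689, 36826789, 38979629, 41151684,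
   43344532, 45559867, 47799519, 50065471, 52359877, 54685095, 57043710, 59438580, 61872869, 64350110,
   66874270, 69449826, 72081876, 74776263, 77539749, 80380231, 83307035, 86331311, 89466581, 92729521,
   96141101, 99728322, 103526967, 107586220, 111976951, 116808048, 122263030, 128700221, 137046148]

/-- data: `r_j` in units `1e-8`, `j = 1,…,49`. -/
def rTab : List ℕ :=
  [99979997, 99919967, 99819837, 99679486, 99498743, 99277389, 99015150, 98711701, 98366661, 97979589,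
   97549987, 97077288, 96560861, 96000000, 95393920, 94741754, 94042543, 93295230, 92498648, 91651513,
   90752410, 89799777, 88791891, 87726848, 86602540, 85416626, 84166501, 82849260, 81461647, 80000000,
   78460180, 76837490, 75126559, 73321211, 71414284, 69397406, 67260686, 64992307, 62577951, 60000000,
   57236352, 54258639, 51029403, 47497368, 43588989, 39191835, 34117444, 28000000, 19899748]

/-- THE TABLE: `tTab[j] / 10⁶ ≤ Iq (j/50)`, `j = 0,…,50`, accurate to `1e-6`. -/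
def tTab : List ℕ :=
 [1000000, 999933, 999733, 999399, 998932, 998330, 997594, 996723, 995716, 994573, 993292, 991873,
 990315, 988616, 986775, 984790, 982661, 980384, 977959, 975383, 972653, 969768, 966724, 963519,
 960149, 956611, 952901, 949015, 944947, 940695, 936250, 931609, 926764, 921707, 916431, 910926,
 905183, 899188, 892930, 886393, 879559, 872407, 864914, 857047, 848772, 840039, 830785, 820922,
 810313, 798713, 785398]

theorem all_chk : ∀ j < 49, chk (j + 1) (thTab.getD j 0) (rTab.getD j 0)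
    (tTab.getD (j + 1) 0) = true := by
  decide +kernel

theorem Iq_lower : ∀ j ≤ 50, ((tTab.getD j 0 : ℕ) : ℝ) / 1000000 ≤ Iq ((j : ℝ) / 50) := by
  intro j hj
  rcases Nat.eq_zero_or_pos j with h0 | h0
  · subst h0
    simp [tTab, Iq_zero]
  rcases Nat.lt_or_ge j 50 with h1 | h1
  · obtain ⟨i, rfl⟩ : ∃ i, j = i + 1 := ⟨j - 1, by omega⟩
    exact chk_sound (all_chk i (by omega))
  · have : j = 50 := by omega
    subst this
    have h2 : ((50 : ℕ) : ℝ) / 50 = 1 := by norm_num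
    rw [h2, Iq_one]
    have := pi_gt_d6
    simp only [tTab, List.getD_cons_succ, List.getD_cons_zero]
    norm_num
    linarith

/-- The same in the `R`-form (`R = 50/j ≥ 1`). -/
theorem IR_lower : ∀ j ≤ 50, 0 < j → ((tTab.getD j 0 : ℕ) : ℝ) / 1000000 ≤
    ∫ x in (0:ℝ)..1, √(1 - x ^ 2 / (50 / (j : ℝ)) ^ 2) := by
  intro j hj hj0
  refine (Iq_lower j hj).trans (le_of_eq ?_)
  unfold Iq
  congr 1
  funext x
  congr 2
  have : (0 : ℝ) < j := by exact_mod_cast hj0
  field_simp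

end Crest.Agent.R214.TT
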