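import Crest.Agent.R214.CertFin2
import Crest.Agent.R214.TTable
import Crest.Agent.R214.Scalar

/-!
# Row 214: soundness of the certificate checker, IV: node lists
-/

set_option autoImplicit false

open Real Set MeasureTheory

namespace Crest.Agent.R214.Cert

theorem Iq_eq_Ifun {j : ℕ} (hj : 0 < j) : TT.Iq ((j : ℝ) / 50) = Ifun (50 / j) := by
  have : (j : ℝ) ≠ 0 := by positivity
  unfold TT.Iq Ifun
  congr 1
  funext x
  congr 2
  congr 1
  field_simp

theorem f1_le_T {j q x0 : ℕ} (hj : j ≤ 50) (y : ℝ) (_h : x0 = 0) :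
    ((TT.tTab.getD j 0 : ℕ) : ℝ) / 1000000 + (y - (q : ℝ) / 1000) * ((j : ℝ) / 50) ≤
      max 1 (Tfun (y - (q : ℝ) / 1000)) := by
  have h1 := TT.Iq_lower j hj
  rcases Nat.eq_zero_or_pos j with h0 | h0
  · subst h0
    simp only [Nat.cast_zero, zero_div, mul_zero, add_zero] at h1 ⊢
    rw [TT.Iq_zero] at h1
    exact h1.trans (le_max_left _ _)
  · rw [Iq_eq_Ifun h0] at h1
    have hj' : (0 : ℝ) < j := by exact_mod_cast h0
    have hj50 : (j : ℝ) ≤ 50 := by exact_mod_cast hj
    have h2 := le_Tfun (R := 50 / (j : ℝ)) (by rw [le_div_iff₀ hj']; linarith)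
      (y - (q : ℝ) / 1000)
    have e : (y - (q : ℝ) / 1000) / (50 / (j : ℝ)) = (y - (q : ℝ) / 1000) * ((j : ℝ) / 50) := by
      field_simp
    rw [e] at h2
    exact le_trans (by linarith) (le_max_right _ _)

/-- an affine interpolation below a square -/
theorem itp_le_sq {x x' : ℕ} (hx : x < x') {u u' a b : ℝ}
    (ha : u ≤ (a + b) * (4 * a - (a + b)) / 4) (hb : u' ≤ (a + b) * (4 * b - (a + b)) / 4)
    {y : ℝ} (hy : y ∈ Icc ((x : ℝ) / 4000) ((x' : ℝ) / 4000)) :
    itp x x' u u' y ≤ (itp x x' a b y) ^ 2 := by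
  have h : (0 : ℝ) < (x' : ℝ) - x := by
    have : (x : ℝ) < x' := by exact_mod_cast hx
    linarith
  have h1 : 0 ≤ th x x' y := div_nonneg (by linarith [hy.1]) h.le
  have h2 : th x x' y ≤ 1 := by
    unfold th
    rw [div_le_one h]
    linarith [hy.2]
  unfold itp
  generalize th x x' y = θ at h1 h2
  have q1 := mul_le_mul_of_nonneg_left ha (sub_nonneg.2 h2)
  have q2 := mul_le_mul_of_nonneg_left hb h1
  nlinarith [sq_nonneg ((1 - θ) * a + θ * b - (a + b) / 2)]

theorem itp_mono {x x' : ℕ} (hx : x < x') {u u' a b : ℝ} (ha : u ≤ a) (hb : u' ≤ b)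
    {y : ℝ} (hy : y ∈ Icc ((x : ℝ) / 4000) ((x' : ℝ) / 4000)) :
    itp x x' u u' y ≤ itp x x' a b y := by
  have h : (0 : ℝ) < (x' : ℝ) - x := by
    have : (x : ℝ) < x' := by exact_mod_cast hx
    linarith
  have h1 : 0 ≤ th x x' y := div_nonneg (by linarith [hy.1]) h.le
  have h2 : th x x' y ≤ 1 := by
    unfold th
    rw [div_le_one h]
    linarith [hy.2]
  unfold itp
  have q1 := mul_le_mul_of_nonneg_left ha (sub_nonneg.2 h2)
  have q2 := mul_le_mul_of_nonneg_left hb h1
  linarith

/-- the interpolation of an affine function -/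
theorem itp_affine {x x' : ℕ} (hx : x < x') (α β : ℝ) (y : ℝ) :
    itp x x' (α + β * ((x : ℝ) / 4000)) (α + β * ((x' : ℝ) / 4000)) y = α + β * y := by
  have h : ((x' : ℝ) - x) ≠ 0 := by
    have : (x : ℝ) < x' := by exact_mod_cast hx
    linarith [sub_pos.2 this]
  unfold itp th
  field_simp
  ring

set_option maxHeartbeats 2000000 in
/-- what a cell check gives -/
theorem cell_bounds {two : Bool} {e q j x x' d d' : ℕ} (he : 0 < e)
    (h : cellOK TT.tTab two e q j x x' d d' = true) :
    x < x' ∧ ∀ y ∈ Icc ((x : ℝ) / 4000) ((x' : ℝ) / 4000),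
      itp x x' (gd d) (gd d') y ≤ π * y ∧
      itp x x' (gd d) (gd d') y ≤ (max 1 (Tfun (y - (q : ℝ) / 1000))) ^ 2 ∧
      (two = false → itp x x' (gd d) (gd d') y ≤ π * (1 - y)) ∧
      (two = true → itp x x' (gd d) (gd d') y ≤ (Ufun (1 - y) ((e : ℝ) / 1000)) ^ 2) := by
  unfold cellOK at h
  simp only [Bool.and_eq_true, Nat.ble_eq] at h
  obtain ⟨⟨⟨⟨⟨⟨h1, h2⟩, h3⟩, h4⟩, h5⟩, h6⟩, h7⟩ := h
  have hx : x < x' := h1
  have hxR : (x : ℝ) < x' := by exact_mod_cast hx
  have hx4 : (x' : ℝ) ≤ 4000 := by exact_mod_cast h2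
  have hpi := pi_lo
  have hpi2 := pi_hi
  have hp0 := Real.pi_pos
  have heR : (0 : ℝ) < e := by exact_mod_cast he
  refine ⟨hx, fun y hy => ?_⟩
  have hy0 : 0 ≤ y := le_trans (by positivity) hy.1
  have hy1 : y ≤ 1 := hy.2.trans (by linarith)
  have hd : (d : ℝ) ≤ 12566000000 * x := by exact_mod_cast h4
  have hd' : (d' : ℝ) ≤ 12566000000 * x' := by exact_mod_cast h5
  refine ⟨?_, ?_, ?_, ?_⟩
  · have q1 : gd d ≤ 0 + 3.1415 * ((x : ℝ) / 4000) := by
      unfold gd; rw [div_le_iff₀ (by norm_num)]; linarith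
    have q2 : gd d' ≤ 0 + 3.1415 * ((x' : ℝ) / 4000) := by
      unfold gd; rw [div_le_iff₀ (by norm_num)]; linarith
    refine (itp_mono hx q1 q2 hy).trans ?_
    rw [itp_affine hx]
    nlinarith
  · unfold cell1 at h6
    simp only [Bool.and_eq_true, decide_eq_true_eq] at h6
    obtain ⟨⟨⟨g1, g2⟩, g3⟩, g4⟩ := h6
    set a := f1 TT.tTab q j x with ha
    set b := f1 TT.tTab q j x' with hb
    have fa : (a : ℝ) / 1000000 = (((TT.tTab.getD j 0 : ℕ) : ℝ) / 1000000 -
        (q : ℝ) / 1000 * ((j : ℝ) / 50)) + ((j : ℝ) / 50) * ((x : ℝ) / 4000) := by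
      rw [ha]; unfold f1; push_cast; ring
    have fb : (b : ℝ) / 1000000 = (((TT.tTab.getD j 0 : ℕ) : ℝ) / 1000000 -
        (q : ℝ) / 1000 * ((j : ℝ) / 50)) + ((j : ℝ) / 50) * ((x' : ℝ) / 4000) := by
      rw [hb]; unfold f1; push_cast; ring
    have g1r : (0 : ℝ) ≤ a := by exact_mod_cast g1
    have g2r : (0 : ℝ) ≤ b := by exact_mod_cast g2
    have g3r : (d : ℝ) ≤ 4 * (((a : ℝ) + b) * (4 * a - (a + b))) := by exact_mod_cast g3
    have g4r : (d' : ℝ) ≤ 4 * (((a : ℝ) + b) * (4 * b - (a + b))) := by exact_mod_cast g4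
    have k1 : gd d ≤ ((a : ℝ) / 1000000 + b / 1000000) *
        (4 * ((a : ℝ) / 1000000) - (a / 1000000 + b / 1000000)) / 4 := by
      unfold gd
      rw [div_le_iff₀ (by norm_num)]
      refine g3r.trans (le_of_eq ?_)
      ring
    have k2 : gd d' ≤ ((a : ℝ) / 1000000 + b / 1000000) *
        (4 * ((b : ℝ) / 1000000) - (a / 1000000 + b / 1000000)) / 4 := by
      unfold gd
      rw [div_le_iff₀ (by norm_num)]
      refine g4r.trans (le_of_eq ?_)
      ring
    have k3 := itp_le_sq hx k1 k2 hy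
    refine k3.trans ?_
    have k4 : itp x x' ((a : ℝ) / 1000000) ((b : ℝ) / 1000000) y ≤
        max 1 (Tfun (y - (q : ℝ) / 1000)) := by
      rw [fa, fb, itp_affine hx]
      refine le_trans (le_of_eq ?_) (f1_le_T (q := q) h3 y rfl)
      ring
    have k5 : 0 ≤ itp x x' ((a : ℝ) / 1000000) ((b : ℝ) / 1000000) y := by
      have := itp_mono hx (u := 0) (u' := 0) (a := (a : ℝ) / 1000000) (b := (b : ℝ) / 1000000)
        (by positivity) (by positivity) hy
      simpa [itp] using this
    exact pow_le_pow_left₀ k5 k4 2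
  · intro ht
    rw [ht] at h7
    simp only [Bool.false_and, cond_false, Bool.and_eq_true, Nat.ble_eq] at h7
    obtain ⟨g1, g2⟩ := h7
    have g1r : (d : ℝ) ≤ 12566000000 * (4000 - x) := by
      have : ((4000 - x : ℕ) : ℝ) = 4000 - (x : ℝ) := by
        rw [Nat.cast_sub (by omega)]; norm_num
      rw [← this]; exact_mod_cast g1
    have g2r : (d' : ℝ) ≤ 12566000000 * (4000 - x') := by
      have : ((4000 - x' : ℕ) : ℝ) = 4000 - (x' : ℝ) := by
        rw [Nat.cast_sub (by omega)]; norm_num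
      rw [← this]; exact_mod_cast g2
    have q1 : gd d ≤ 3.1415 + (-3.1415) * ((x : ℝ) / 4000) := by
      unfold gd; rw [div_le_iff₀ (by norm_num)]; linarith
    have q2 : gd d' ≤ 3.1415 + (-3.1415) * ((x' : ℝ) / 4000) := by
      unfold gd; rw [div_le_iff₀ (by norm_num)]; linarith
    refine (itp_mono hx q1 q2 hy).trans ?_
    rw [itp_affine hx]
    nlinarith
  · intro ht
    rw [ht] at h7
    simp only [Bool.true_and] at h7
    cases hc : Nat.ble (31416 * (e * e)) ((4000 - x') * 10000000) with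
    | true =>
      rw [hc, cond_true] at h7
      have hc' := Nat.le_of_ble_eq_true hc
      unfold cell2 at h7
      simp only [Bool.and_eq_true, Nat.ble_eq] at h7
      obtain ⟨g1, g2⟩ := h7
      have c1 : ((4000 - x : ℕ) : ℝ) = 4000 - (x : ℝ) := by
        rw [Nat.cast_sub (by omega)]; norm_num
      have c2 : ((4000 - x' : ℕ) : ℝ) = 4000 - (x' : ℝ) := by
        rw [Nat.cast_sub (by omega)]; norm_num
      set a := n2 e x with ha
      set b := n2 e x' with hb
      have fa : (a : ℝ) / (40000000 * e) = (1000 / (e : ℝ) + 3.1415 * e / 4000) +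
          (-(1000 / (e : ℝ))) * ((x : ℝ) / 4000) := by
        rw [ha]; unfold n2; push_cast [c1]; field_simp; ring
      have fb : (b : ℝ) / (40000000 * e) = (1000 / (e : ℝ) + 3.1415 * e / 4000) +
          (-(1000 / (e : ℝ))) * ((x' : ℝ) / 4000) := by
        rw [hb]; unfold n2; push_cast [c2]; field_simp; ring
      have g1r : (d : ℝ) * (400 * (e * e)) + ((a : ℝ) + b) * (a + b) ≤ (a + b) * (4 * a) := by
        exact_mod_cast g1
      have g2r : (d' : ℝ) * (400 * (e * e)) + ((a : ℝ) + b) * (a + b) ≤ (a + b) * (4 * b) := by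
        exact_mod_cast g2
      have k1 : gd d ≤ ((a : ℝ) / (40000000 * e) + b / (40000000 * e)) *
          (4 * ((a : ℝ) / (40000000 * e)) - (a / (40000000 * e) + b / (40000000 * e))) / 4 := by
        have : ((a : ℝ) / (40000000 * e) + b / (40000000 * e)) *
          (4 * ((a : ℝ) / (40000000 * e)) - (a / (40000000 * e) + b / (40000000 * e))) / 4 =
          ((a + b) * (4 * a) - ((a : ℝ) + b) * (a + b)) / (16000000000000 * (400 * (e * e))) := by
          field_simp; ring
        rw [this]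
        unfold gd
        rw [div_le_div_iff₀ (by norm_num) (by positivity)]
        have g3 := mul_le_mul_of_nonneg_right (show (d : ℝ) * (400 * (e * e)) ≤
          (a + b) * (4 * a) - ((a : ℝ) + b) * (a + b) by linarith)
          (show (0 : ℝ) ≤ 16000000000000 by norm_num)
        exact (le_of_eq (by ring)).trans g3
      have k2 : gd d' ≤ ((a : ℝ) / (40000000 * e) + b / (40000000 * e)) *
          (4 * ((b : ℝ) / (40000000 * e)) - (a / (40000000 * e) + b / (40000000 * e))) / 4 := by
        have : ((a : ℝ) / (40000000 * e) + b / (40000000 * e)) *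
          (4 * ((b : ℝ) / (40000000 * e)) - (a / (40000000 * e) + b / (40000000 * e))) / 4 =
          ((a + b) * (4 * b) - ((a : ℝ) + b) * (a + b)) / (16000000000000 * (400 * (e * e))) := by
          field_simp; ring
        rw [this]
        unfold gd
        rw [div_le_div_iff₀ (by norm_num) (by positivity)]
        have g3 := mul_le_mul_of_nonneg_right (show (d' : ℝ) * (400 * (e * e)) ≤
          (a + b) * (4 * b) - ((a : ℝ) + b) * (a + b) by linarith)
          (show (0 : ℝ) ≤ 16000000000000 by norm_num)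
        exact (le_of_eq (by ring)).trans g3
      have k3 := itp_le_sq hx k1 k2 hy
      refine k3.trans ?_
      have hcr : 31416 * ((e : ℝ) * e) ≤ (4000 - (x' : ℝ)) * 10000000 := by
        rw [← c2]; exact_mod_cast hc'
      have k4 : itp x x' ((a : ℝ) / (40000000 * e)) ((b : ℝ) / (40000000 * e)) y ≤
          Ufun (1 - y) ((e : ℝ) / 1000) := by
        rw [fa, fb, itp_affine hx]
        unfold Ufun
        have hif : π * ((e : ℝ) / 1000) ^ 2 ≤ 4 * (1 - y) := by
          have : π * ((e : ℝ) / 1000) ^ 2 ≤ 3.1416 * ((e : ℝ) / 1000) ^ 2 := by gcongr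
          have h8 := hy.2
          nlinarith
        rw [if_pos hif]
        have e1 : (1 - y) / ((e : ℝ) / 1000) = 1000 / (e : ℝ) + -(1000 / (e : ℝ)) * y := by
          field_simp; ring
        rw [e1]
        have : 3.1415 * (e : ℝ) / 4000 ≤ π * ((e : ℝ) / 1000) / 4 := by nlinarith
        linarith
      have k5 : 0 ≤ itp x x' ((a : ℝ) / (40000000 * e)) ((b : ℝ) / (40000000 * e)) y := by
        have := itp_mono hx (u := 0) (u' := 0) (a := (a : ℝ) / (40000000 * e))
          (b := (b : ℝ) / (40000000 * e)) (by positivity) (by positivity) hy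
        simpa [itp] using this
      exact pow_le_pow_left₀ k5 k4 2
    | false =>
      rw [hc, cond_false] at h7
      simp only [Bool.and_eq_true, Nat.ble_eq] at h7
      obtain ⟨g1, g2⟩ := h7
      have g1r : (d : ℝ) ≤ 12566000000 * (4000 - x) := by
        have : ((4000 - x : ℕ) : ℝ) = 4000 - (x : ℝ) := by
          rw [Nat.cast_sub (by omega)]; norm_num
        rw [← this]; exact_mod_cast g1
      have g2r : (d' : ℝ) ≤ 12566000000 * (4000 - x') := by
        have : ((4000 - x' : ℕ) : ℝ) = 4000 - (x' : ℝ) := by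
          rw [Nat.cast_sub (by omega)]; norm_num
        rw [← this]; exact_mod_cast g2
      have q1 : gd d ≤ 3.1415 + (-3.1415) * ((x : ℝ) / 4000) := by
        unfold gd; rw [div_le_iff₀ (by norm_num)]; linarith
      have q2 : gd d' ≤ 3.1415 + (-3.1415) * ((x' : ℝ) / 4000) := by
        unfold gd; rw [div_le_iff₀ (by norm_num)]; linarith
      refine (itp_mono hx q1 q2 hy).trans ?_
      rw [itp_affine hx]
      have h8 : √(π * (1 - y)) ≤ Ufun (1 - y) ((e : ℝ) / 1000) :=
        sqrt_le_Ufun (by linarith) (by positivity)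
      have h9 : π * (1 - y) ≤ Ufun (1 - y) ((e : ℝ) / 1000) ^ 2 := by
        have := pow_le_pow_left₀ (Real.sqrt_nonneg _) h8 2
        rwa [Real.sq_sqrt (by nlinarith)] at this
      nlinarith

/-- the property of the polygon in the one-zone case -/
def Q1 (y g : ℝ) : Prop := g ≤ Jgood (1 / 10) y ^ 2

/-- the property of the polygon in the two-zone case -/
def Q2 (e q : ℝ) (y g : ℝ) : Prop := g ≤ ZC.Jmin q e y ^ 2

theorem Q1_of {y g : ℝ} (hy0 : 0 ≤ y) (hy1 : y ≤ 1) (h1 : g ≤ π * y)
    (h2 : g ≤ (max 1 (Tfun (y - 1 / 10))) ^ 2) (h3 : g ≤ π * (1 - y)) : Q1 y g := by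
  have hp := Real.pi_pos
  unfold Q1 Jgood
  rcases min_choice (√(π * y)) (min (max 1 (Tfun (y - 1 / 10))) √(π * (1 - y))) with h | h
  · rw [h, Real.sq_sqrt (by positivity)]; exact h1
  · rw [h]
    rcases min_choice (max 1 (Tfun (y - 1 / 10))) √(π * (1 - y)) with h' | h'
    · rw [h']; exact h2
    · rw [h', Real.sq_sqrt (mul_nonneg hp.le (by linarith))]; exact h3

theorem Q2_of {e q y g : ℝ} (hy0 : 0 ≤ y) (h1 : g ≤ π * y)
    (h2 : g ≤ (max 1 (Tfun (y - q))) ^ 2) (h3 : g ≤ Ufun (1 - y) e ^ 2) : Q2 e q y g := by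
  have hp := Real.pi_pos
  unfold Q2 ZC.Jmin Jtail
  rcases min_choice (min (√(π * y)) (max 1 (Tfun (y - q)))) (Ufun (1 - y) e) with h | h
  · rw [h]
    rcases min_choice (√(π * y)) (max 1 (Tfun (y - q))) with h' | h'
    · rw [h', Real.sq_sqrt (by positivity)]; exact h1
    · rw [h']; exact h2
  · rw [h]; exact h3

theorem chain_one {e : ℕ} (he : 0 < e) : ∀ (t : List (ℕ × ℕ)) (x d : ℕ) (js : List ℕ),
    chainOK TT.tTab false e 100 x d t js = true → ChainQ Q1 x d t := by
  intro t
  induction t with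
  | nil => intro x d js _; trivial
  | cons hd t ih =>
    obtain ⟨x', d'⟩ := hd
    intro x d js h
    cases js with
    | nil => simp [chainOK] at h
    | cons j js =>
      rw [chainOK, Bool.and_eq_true] at h
      obtain ⟨hx, hc⟩ := cell_bounds he h.1
      refine ⟨hx, fun y hy => ?_, ih x' d' js h.2⟩
      have h1 := h.1
      unfold cellOK at h1
      simp only [Bool.and_eq_true, Nat.ble_eq] at h1
      have hx4 : (x' : ℝ) ≤ 4000 := by exact_mod_cast h1.1.1.1.1.1.2
      obtain ⟨g1, g2, g3, -⟩ := hc y hy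
      refine Q1_of (le_trans (by positivity) hy.1) (hy.2.trans (by linarith)) g1 ?_ (g3 rfl)
      have : ((100 : ℕ) : ℝ) / 1000 = 1 / 10 := by norm_num
      rwa [this] at g2

theorem chain_two {e q : ℕ} (he : 0 < e) : ∀ (t : List (ℕ × ℕ)) (x d : ℕ) (js : List ℕ),
    chainOK TT.tTab true e q x d t js = true →
      ChainQ (Q2 ((e : ℝ) / 1000) ((q : ℝ) / 1000)) x d t := by
  intro t
  induction t with
  | nil => intro x d js _; trivial
  | cons hd t ih =>
    obtain ⟨x', d'⟩ := hd
    intro x d js h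
    cases js with
    | nil => simp [chainOK] at h
    | cons j js =>
      rw [chainOK, Bool.and_eq_true] at h
      obtain ⟨hx, hc⟩ := cell_bounds he h.1
      refine ⟨hx, fun y hy => ?_, ih x' d' js h.2⟩
      obtain ⟨g1, g2, -, g3⟩ := hc y hy
      exact Q2_of (le_trans (by positivity) hy.1) g1 g2 (g3 rfl)

theorem nodes_one {e : ℕ} (he : 0 < e) {js : List ℕ} {l : List (ℕ × ℕ)}
    (h : nodesOK TT.tTab false e 100 js l = true) : ChainL Q1 l := by
  cases l with
  | nil => trivial
  | cons hd t =>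
    obtain ⟨x, d⟩ := hd
    unfold nodesOK at h
    simp only [Bool.and_eq_true] at h
    obtain ⟨⟨h1, h2⟩, h3⟩ := h
    have e2 : d = 0 := Nat.eq_of_beq_eq_true h2
    refine ⟨?_, chain_one he t x d js h3⟩
    rw [e2]
    unfold Q1 gd
    rw [Nat.cast_zero, zero_div]
    exact sq_nonneg _

theorem nodes_two {e q : ℕ} (he : 0 < e) {js : List ℕ} {l : List (ℕ × ℕ)}
    (h : nodesOK TT.tTab true e q js l = true) :
    ChainL (Q2 ((e : ℝ) / 1000) ((q : ℝ) / 1000)) l := by
  cases l with
  | nil => trivial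
  | cons hd t =>
    obtain ⟨x, d⟩ := hd
    unfold nodesOK at h
    simp only [Bool.and_eq_true] at h
    obtain ⟨⟨h1, h2⟩, h3⟩ := h
    have e2 : d = 0 := Nat.eq_of_beq_eq_true h2
    refine ⟨?_, chain_two he t x d js h3⟩
    rw [e2]
    unfold Q2 gd
    rw [Nat.cast_zero, zero_div]
    exact sq_nonneg _

theorem ell_sound {e : ℕ} (he : 0 < e) : ∀ (l : List (ℕ × ℕ)), ellOK e l = true →
    ∀ x, x ≤ 4000 → ((lookup x l : ℕ) : ℝ) / 100000 ≤ Ufun (1 - (x : ℝ) / 4000) ((e : ℝ) / 1000) := by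
  have heR : (0 : ℝ) < e := by exact_mod_cast he
  have hpi := pi_lo
  have hpi2 := pi_hi
  intro l
  induction l with
  | nil =>
    intro _ x hx
    have hx' : (x : ℝ) ≤ 4000 := by exact_mod_cast hx
    unfold lookup
    rw [Nat.cast_zero, zero_div]
    exact Ufun_nonneg (by linarith) (by positivity)
  | cons hd t ih =>
    obtain ⟨y, v⟩ := hd
    intro h x hx
    unfold ellOK at h
    simp only [Bool.and_eq_true, Nat.ble_eq] at h
    obtain ⟨⟨h1, h2⟩, h3⟩ := h
    unfold lookup
    cases hc : Nat.beq x y with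
    | false =>
      rw [cond_false]
      exact ih h3 x hx
    | true =>
      rw [cond_true]
      have hxy : x = y := Nat.eq_of_beq_eq_true hc
      subst hxy
      have hx' : (x : ℝ) ≤ 4000 := by exact_mod_cast hx
      have c1 : ((4000 - x : ℕ) : ℝ) = 4000 - (x : ℝ) := by
        rw [Nat.cast_sub (by omega)]; norm_num
      cases hd : Nat.ble (31416 * (e * e)) ((4000 - x) * 10000000) with
      | true =>
        rw [hd, cond_true] at h2
        have h2' := Nat.le_of_ble_eq_true h2
        have hd' := Nat.le_of_ble_eq_true hd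
        have hcr : 31416 * ((e : ℝ) * e) ≤ (4000 - (x : ℝ)) * 10000000 := by
          rw [← c1]; exact_mod_cast hd'
        have h2r : 400 * (v : ℝ) * e ≤ 10000000 * (4000 - (x : ℝ)) + 31415 * (e * e) := by
          unfold n2 at h2'
          rw [← c1]; exact_mod_cast h2'
        unfold Ufun
        have hif : π * ((e : ℝ) / 1000) ^ 2 ≤ 4 * (1 - (x : ℝ) / 4000) := by
          have : π * ((e : ℝ) / 1000) ^ 2 ≤ 3.1416 * ((e : ℝ) / 1000) ^ 2 := by gcongr
          nlinarith
        rw [if_pos hif]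
        have e1 : (1 - (x : ℝ) / 4000) / ((e : ℝ) / 1000) = (4000 - (x : ℝ)) / (4 * e) := by
          field_simp; ring
        rw [e1]
        have e2 : 3.1415 * (e : ℝ) / 4000 ≤ π * ((e : ℝ) / 1000) / 4 := by nlinarith
        have e3 : (v : ℝ) / 100000 ≤ (4000 - (x : ℝ)) / (4 * e) + 3.1415 * (e : ℝ) / 4000 := by
          have : (4000 - (x : ℝ)) / (4 * e) + 3.1415 * (e : ℝ) / 4000 =
            (10000000 * (4000 - (x : ℝ)) + 31415 * (e * e)) / (40000000 * e) := by
            field_simp; ring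
          rw [this, div_le_div_iff₀ (by norm_num) (by positivity)]
          nlinarith
        linarith
      | false =>
        rw [hd, cond_false] at h2
        have h2' := Nat.le_of_ble_eq_true h2
        have h2r : (v : ℝ) * v ≤ 7853750 * (4000 - (x : ℝ)) := by
          rw [← c1]; exact_mod_cast h2'
        refine le_trans ?_ (sqrt_le_Ufun (s := 1 - (x : ℝ) / 4000) (by linarith) (by positivity))
        apply Real.le_sqrt_of_sq_le
        have : ((v : ℝ) / 100000) ^ 2 = (v * v) / 10000000000 := by ring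
        rw [this]
        have h4 : 3.1415 * (1 - (x : ℝ) / 4000) ≤ π * (1 - (x : ℝ) / 4000) :=
          mul_le_mul_of_nonneg_right hpi.le (by linarith)
        linarith

end Crest.Agent.R214.Cert
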