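import Crest.Agent.R214.CertNodes

/-!
# Row 214: soundness of the certificate checker, V: boxes
-/

set_option autoImplicit false

open Real Set MeasureTheory

namespace Crest.Agent.R214.Cert

/-- `C` holds on the box -/
def BoxGood (C : ℝ → ℝ → Prop) (b : ℕ × ℕ × ℕ × ℕ) : Prop :=
  ∀ B G : ℝ, (b.1 : ℝ) / 4000 ≤ B → B ≤ (b.2.1 : ℝ) / 4000 → (b.2.2.1 : ℝ) / 4000 ≤ G →
    G ≤ (b.2.2.2 : ℝ) / 4000 → B ≤ G → G ≤ 1 → C B G

theorem run_sound (par : Par) (C : ℝ → ℝ → Prop)
    (hskip : ∀ B0 B1 G0 G1, skipOK par B0 B1 G0 G1 = true → BoxGood C (B0, B1, G0, G1))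
    (hleaf : ∀ pp pn lp ln a1 sg cs D B0 B1 G0 G1,
      leafOK par pp pn lp ln a1 sg cs D B0 B1 G0 G1 = true → BoxGood C (B0, B1, G0, G1)) :
    ∀ (ts : List Tok) (bs : List (ℕ × ℕ × ℕ × ℕ)), run par ts bs = true →
      ∀ b ∈ bs, BoxGood C b := by
  intro ts
  induction ts with
  | nil =>
    intro bs h
    cases bs with
    | nil => simp
    | cons b bs => simp [run] at h
  | cons tk ts ih =>
    intro bs h
    cases bs with
    | nil => cases tk <;> simp [run] at h
    | cons b bs =>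
      obtain ⟨B0, B1, G0, G1⟩ := b
      cases tk with
      | b m =>
        rw [run] at h
        have h1 := ih _ h
        intro b hb
        rcases List.mem_cons.1 hb with rfl | hb
        · have ha := h1 (B0, m, G0, G1) (by simp)
          have hc := h1 (m, B1, G0, G1) (by simp)
          intro B G h2 h3 h4 h5 h6 h7
          rcases le_total B ((m : ℝ) / 4000) with h8 | h8
          · exact ha B G h2 h8 h4 h5 h6 h7
          · exact hc B G h8 h3 h4 h5 h6 h7
        · exact h1 b (by simp [hb])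
      | g m =>
        rw [run] at h
        have h1 := ih _ h
        intro b hb
        rcases List.mem_cons.1 hb with rfl | hb
        · have ha := h1 (B0, B1, G0, m) (by simp)
          have hc := h1 (B0, B1, m, G1) (by simp)
          intro B G h2 h3 h4 h5 h6 h7
          rcases le_total G ((m : ℝ) / 4000) with h8 | h8
          · exact ha B G h2 h3 h4 h8 h6 h7
          · exact hc B G h2 h3 h8 h5 h6 h7
        · exact h1 b (by simp [hb])
      | s =>
        rw [run, Bool.and_eq_true] at h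
        intro b hb
        rcases List.mem_cons.1 hb with rfl | hb
        · exact hskip _ _ _ _ h.1
        · exact ih _ h.2 b hb
      | l pp pn lp ln a1 sg cs D =>
        rw [run, Bool.and_eq_true] at h
        intro b hb
        rcases List.mem_cons.1 hb with rfl | hb
        · exact hleaf _ _ _ _ _ _ _ _ _ _ _ _ h.1
        · exact ih _ h.2 b hb

theorem skip_sound {par : Par} {B0 B1 G0 G1 : ℕ} (h : skipOK par B0 B1 G0 G1 = true) :
    BoxGood (fun B G => (par.two = false ∧ G ≤ (par.gmin : ℝ) / 4000) ∨ (B ≤ 1 / 50 ∧ 49 / 50 ≤ G))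
      (B0, B1, G0, G1) := by
  unfold skipOK at h
  simp only [Bool.or_eq_true, Bool.and_eq_true, Nat.ble_eq, Bool.not_eq_true'] at h
  intro B G h2 h3 h4 h5 h6 _
  simp only at h2 h3 h4 h5
  rcases h with (h | ⟨ha, hb⟩) | ⟨ha, hb⟩
  · exfalso
    have : (G1 : ℝ) + 1 ≤ B0 := by exact_mod_cast h
    linarith
  · right
    have ha' : (B1 : ℝ) ≤ 80 := by exact_mod_cast ha
    have hb' : (3920 : ℝ) ≤ G0 := by exact_mod_cast hb
    constructor <;> linarith
  · left
    have hb' : (G1 : ℝ) ≤ par.gmin := by exact_mod_cast hb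
    exact ⟨ha, by linarith⟩

theorem wr_eq (pp pn lp ln : ℕ) (y : ℝ) :
    wr pp pn lp ln y = (((pp : ℤ) - pn : ℤ) : ℝ) / 1000 + (((lp : ℤ) - ln : ℤ) : ℝ) / 1000 * y := by
  unfold wr
  push_cast
  ring

theorem leaf_one {par : Par} (ht : par.two = false) (hN : ChainL Q1 par.nodes)
    {pp pn lp ln a1 sg cs D B0 B1 G0 G1 : ℕ}
    (h : leafOK par pp pn lp ln a1 sg cs D B0 B1 G0 G1 = true) :
    BoxGood (fun B G => ZC.CertOne (Jgood (1 / 10)) B G) (B0, B1, G0, G1) := by
  unfold leafOK at h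
  rw [ht, cond_false] at h
  simp only [Bool.and_eq_true, Nat.ble_eq] at h
  obtain ⟨⟨h1, h2⟩, h3⟩ := h
  intro B G h4 h5 h6 h7 h8 _
  simp only at h4 h5 h6 h7
  have hG : G0 ≤ G1 := by
    have : (G0 : ℝ) ≤ G1 := by linarith
    exact_mod_cast this
  obtain ⟨g, s', k', hgc, hall, hf, hint⟩ := leaf_out Q1 _ hG h1 h2 hN h3 h4 h5 h6 h7 h8
  refine ⟨(((lp : ℤ) - ln : ℤ) : ℝ) / 1000, (((pp : ℤ) - pn : ℤ) : ℝ) / 1000, _, g,
    mHi_sound _, hgc.continuousOn, ?_, ?_⟩
  · intro y hy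
    obtain ⟨q1, q2, q3⟩ := hall y hy
    rw [wr_eq] at q2 q3
    exact ⟨q2, q3, q1⟩
  · have hs := fin1_sound hf
    simp_rw [wr_eq] at hint
    have hk : 0 ≤ (if B1 ≤ G0 then (k' : ℝ) else 0) / 8192 * (G - (G0 : ℝ) / 4000) := by
      apply mul_nonneg _ (by linarith)
      split
      · positivity
      · simp
    linarith

theorem leaf_two {par : Par} {e q : ℕ} (he : 0 < e) (ht : par.two = true)
    (hN : ChainL (Q2 ((e : ℝ) / 1000) ((q : ℝ) / 1000)) par.nodes) (hE : ellOK e par.ell = true)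
    {pp pn lp ln a1 sg cs D B0 B1 G0 G1 : ℕ}
    (h : leafOK par pp pn lp ln a1 sg cs D B0 B1 G0 G1 = true) :
    BoxGood (fun B G => ZC.CertTwoT ((e : ℝ) / 1000) ((q : ℝ) / 1000) B G) (B0, B1, G0, G1) := by
  have heR : (0 : ℝ) < (e : ℝ) / 1000 := by positivity
  unfold leafOK at h
  rw [ht, cond_true] at h
  simp only [Bool.and_eq_true, Nat.ble_eq] at h
  obtain ⟨⟨h1, h2⟩, h3⟩ := h
  intro B G h4 h5 h6 h7 h8 _
  simp only at h4 h5 h6 h7
  have hG : G0 ≤ G1 := by
    have : (G0 : ℝ) ≤ G1 := by linarith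
    exact_mod_cast this
  obtain ⟨g, s', k', hgc, hall, hf, hint⟩ := leaf_out _ _ hG h1 h2 hN h3 h4 h5 h6 h7 h8
  refine ⟨(((lp : ℤ) - ln : ℤ) : ℝ) / 1000, (((pp : ℤ) - pn : ℤ) : ℝ) / 1000, _, g,
    mHi_sound _, hgc.continuousOn, ?_, ?_⟩
  · intro y hy
    obtain ⟨q1, q2, q3⟩ := hall y hy
    rw [wr_eq] at q2 q3
    exact ⟨q2, q3, q1⟩
  · intro A hA
    simp_rw [wr_eq] at hint
    rcases fin2_sound hf heR (ell_sound he par.ell hE) h6 h7 hint hA.1 hA.2 with h9 |
      ⟨σ, hs0, hs1, hs⟩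
    · exact Or.inl h9
    · refine Or.inr ⟨σ, hs0, hs1, ?_⟩
      linarith

/-- the table for the one-zone case -/
theorem table_one {par : Par} {ts : List Tok} {js : List ℕ} (ht : par.two = false)
    (hg : par.gmin = 1520) (hN : nodesOK TT.tTab false 1 100 js par.nodes = true)
    (h : run par ts [(0, 2000, 0, 4000)] = true) : ZC.TableOne := by
  intro B A h1 h2 h3 h4
  have := run_sound par (fun B G => G ≤ 38 / 100 ∨ (B ≤ 1 / 50 ∧ 49 / 50 ≤ G) ∨
    ZC.CertOne (Jgood (1 / 10)) B G) ?_ ?_ ts _ h (0, 2000, 0, 4000) (by simp) B A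
    (by simpa using h1) (by norm_num; linarith) (by simp; linarith) (by norm_num; linarith) h3 h4
  · exact this
  · intro B0 B1 G0 G1 hs B G q1 q2 q3 q4 q5 q6
    rcases skip_sound hs B G q1 q2 q3 q4 q5 q6 with ⟨-, hx⟩ | hx
    · left
      rw [hg] at hx
      norm_num at hx ⊢
      linarith
    · exact Or.inr (Or.inl hx)
  · intro pp pn lp ln a1 sg cs D B0 B1 G0 G1 hl B G q1 q2 q3 q4 q5 q6
    exact Or.inr (Or.inr (leaf_one ht (nodes_one one_pos hN) hl B G q1 q2 q3 q4 q5 q6))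

/-- the table for a two-zone case -/
theorem table_two {par : Par} {ts : List Tok} {js : List ℕ} {e q : ℕ} (he : 0 < e)
    (ht : par.two = true) (hN : nodesOK TT.tTab true e q js par.nodes = true)
    (hE : ellOK e par.ell = true) (h : run par ts [(0, 2000, 0, 4000)] = true) {q0 q1 : ℝ}
    (hq0 : 1 - q0 = (e : ℝ) / 1000) (hq1 : q1 = (q : ℝ) / 1000) : ZC.TableTwo q0 q1 := by
  intro B G h1 h2 h3 h4
  have := run_sound par (fun B G => (B ≤ 1 / 50 ∧ 49 / 50 ≤ G) ∨
    ZC.CertTwoT ((e : ℝ) / 1000) ((q : ℝ) / 1000) B G) ?_ ?_ ts _ h (0, 2000, 0, 4000) (by simp) B G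
    (by simpa using h1) (by norm_num; linarith) (by simp; linarith) (by norm_num; linarith) h3 h4
  · rw [hq0, hq1]
    exact this
  · intro B0 B1 G0 G1 hs B G q1 q2 q3 q4 q5 q6
    rcases skip_sound hs B G q1 q2 q3 q4 q5 q6 with ⟨hx, -⟩ | hx
    · rw [ht] at hx
      exact absurd hx (by decide)
    · exact Or.inl hx
  · intro pp pn lp ln a1 sg cs D B0 B1 G0 G1 hl B G q1 q2 q3 q4 q5 q6
    exact Or.inr (leaf_two he ht (nodes_two he hN) hE hl B G q1 q2 q3 q4 q5 q6)

end Crest.Agent.R214.Cert
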