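import Crest.Agent.R214.Main3

/-!
# Class3: classification of all minimizers in dimension 3

`F = Full3 A`, `P(F) ≤ P(A)`. Inequality from `main3`. Equality: `F` is a model.
* ball, `F = StI 0 B₂`, `B₂ = StI 1 B₁`, `B₁ = StI 2 A`; all perimeters equal `4πρ² = 3v/ρ`; three times
  `ball_rigid` (`n = 2`, conjugated by `pm (swap 0 i)`): `B₂`, `B₁`, `A` are balls.
* tube along `j`: slices orthogonal to `j` have constant volume `v`; `const_slices_of_StI` three times: the
  same for `A`; `planar_torus_ge` for the slices and `P(A) = 2√(πv)`: `invariant_of_slices` (for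
  `pm (swap 0 j) A`), then `planar_torus_eq` for the cross-section (disc; or strip if `v = 1/π`, then `A` is a
  slab).
* slab across `i`: slices orthogonal to both `j ≠ i` have constant volume `v`; `P ≥ 2` for the slices;
  `invariant_of_slices` and `planar_torus_eq` in one such direction `j` give: `A` invariant in direction `j`
  with cross-section a strip (or a disc if `v = 1/π`, then `A` is a tube).
-/

set_option autoImplicit false
open MeasureTheory Crest.GeometryTopology.PeriodicPerimeter Filter
open scoped ENNReal NNReal Topology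
noncomputable section
namespace Crest.Agent.R214

theorem torus_ge (A : Set (Eu 3)) (hA : MeasurableSet A) (hp : IsLatticePeriodic A)
    (hv0 : 0 < periodicVolume A) (hv : periodicVolume A ≤ 1 / 2) :
    ENNReal.ofReal (2 * mm (periodicVolume A)) ≤ periodicPerimeter A := by
  sorry

theorem torus_eq (A : Set (Eu 3)) (hA : MeasurableSet A) (hp : IsLatticePeriodic A)
    (hv0 : 0 < periodicVolume A) (hv : periodicVolume A ≤ 1 / 2)
    (hP : periodicPerimeter A ≤ ENNReal.ofReal (2 * mm (periodicVolume A))) :
    (periodicVolume A ≤ 4 * Real.pi / 81 ∧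
        ∃ c : Eu 3, A =ᵐ[volume] PB c ((3 * periodicVolume A / (4 * Real.pi)) ^ ((1 : ℝ) / 3))) ∨
      (4 * Real.pi / 81 ≤ periodicVolume A ∧ periodicVolume A ≤ 1 / Real.pi ∧
        ∃ (j : Fin 3) (c : Eu 3), A =ᵐ[volume] TB j c (Real.sqrt (periodicVolume A / Real.pi))) ∨
      (1 / Real.pi ≤ periodicVolume A ∧
        ∃ (i : Fin 3) (a : ℝ), A =ᵐ[volume] SL i a (periodicVolume A)) := by
  sorry

end Crest.Agent.R214
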