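import Crest.Agent.R214.Defs
import Crest.Agent.R214.InvDiv

/-!
# Core1: integration by parts for periodic `C¹` functions, `TV ≤ VV`

Proof sketch. `integral_div_zero`: each `∂_i φ_i` integrates to `0` over one period in `x_i`
(Fubini on the cell + 1-D fundamental theorem, or `MeasureTheory.integral_divergence...` on the
box `[0,1]^n`; note the cell and the closed box differ by a null set). `ibp`: apply it to the
field `x ↦ f x • φ x` (`divergence (f • φ) = f * divergence φ + fderiv f x (φ x)`).
`TV_le_VV`: `∫ f div φ = -∫ fderiv f (φ) ≤ ∫ ‖fderiv f‖`.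
-/

set_option autoImplicit false
open MeasureTheory Crest.GeometryTopology.PeriodicPerimeter
open scoped ENNReal NNReal Topology
noncomputable section
namespace Crest.Agent.R214

theorem integral_div_zero {n : ℕ} (φ : Eu n → Eu n) (h : ContDiff ℝ 1 φ) (hp : PerFun φ) :
    ∫ x in unitCell n, divergence φ x = 0 :=
  Inv.integral_cell_divergence_eq_zero h hp

theorem ibp {n : ℕ} (f : Eu n → ℝ) (hf : ContDiff ℝ 1 f) (hfp : PerFun f)
    (φ : Eu n → Eu n) (hφ : ContDiff ℝ 1 φ) (hφp : PerFun φ) :
    ∫ x in unitCell n, f x * divergence φ x = - ∫ x in unitCell n, fderiv ℝ f x (φ x) := by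
  obtain ⟨C, hC⟩ := Inv.PeriodicFun.lipschitz (f := f) hfp hf
  exact Inv.integral_cell_mul_divergence hfp hC hφ hφp

theorem volume_cell {n : ℕ} : volume (unitCell n) = 1 := Inv.volume_unitCell n

theorem measurableSet_cell {n : ℕ} : MeasurableSet (unitCell n) := Inv.measurableSet_unitCell n

/-- continuous periodic functions are integrable on the cell -/
theorem integrableOn_cell {n : ℕ} {E : Type*} [NormedAddCommGroup E] (f : Eu n → E)
    (hf : Continuous f) : IntegrableOn f (unitCell n) := by
  have hK : IsCompact {x : Eu n | ∀ i, x i ∈ Set.Icc (0:ℝ) 1} := by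
    have h : {x : Eu n | ∀ i, x i ∈ Set.Icc (0:ℝ) 1} =
        (PiLp.continuousLinearEquiv 2 ℝ (fun _ : Fin n => ℝ)).toHomeomorph ⁻¹'
          (Set.pi Set.univ fun _ => Set.Icc (0:ℝ) 1) := by
      ext x
      simp only [Set.mem_ofPred_eq, Set.mem_preimage, Set.mem_pi, Set.mem_univ, forall_true_left]
      rfl
    rw [h]
    exact (Homeomorph.isCompact_preimage _).2 (isCompact_univ_pi fun _ => isCompact_Icc)
  refine (hf.continuousOn.integrableOn_compact hK).mono_set fun x hx i => ?_
  exact ⟨(hx i).1, (hx i).2.le⟩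

theorem TV_le_VV {n : ℕ} (f : Eu n → ℝ) (hf : ContDiff ℝ 1 f) (hfp : PerFun f) :
    TV f ≤ ENNReal.ofReal (VV f) := by
  unfold TV
  refine iSup_le fun φ => ?_
  obtain ⟨φ, h1, h2, h3⟩ := φ
  apply ENNReal.ofReal_le_ofReal
  show ∫ x in unitCell n, f x * divergence φ x ≤ VV f
  rw [ibp f hf hfp φ h1 h2, ← integral_neg]
  have hc := hf.continuous_fderiv one_ne_zero
  refine integral_mono ?_ ?_ fun x => ?_
  · exact (integrableOn_cell _ (hc.clm_apply h1.continuous)).neg
  · exact integrableOn_cell _ hc.norm
  · have a := (fderiv ℝ f x).le_opNorm (φ x)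
    have b := mul_le_mul_of_nonneg_left (h3 x) (norm_nonneg (fderiv ℝ f x))
    have c := neg_abs_le (fderiv ℝ f x (φ x))
    rw [← Real.norm_eq_abs] at c
    show -(fderiv ℝ f x) (φ x) ≤ ‖fderiv ℝ f x‖
    linarith

theorem periodicPerimeter_eq_TV {n : ℕ} (A : Set (Eu n)) (hA : MeasurableSet A) :
    periodicPerimeter A = TV (ind A) := by
  unfold periodicPerimeter TV
  refine iSup_congr fun φ => ?_
  congr 1
  have e : ∀ x, ind A x * divergence φ.1 x = A.indicator (divergence φ.1) x := by
    intro x
    unfold ind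
    by_cases hx : x ∈ A
    · simp [hx]
    · simp [hx]
  simp only [e]
  rw [setIntegral_indicator hA, Set.inter_comm]

/-- integrals of periodic functions over translated cells agree -/
theorem integral_cell_translate {n : ℕ} {E : Type*} [NormedAddCommGroup E] [NormedSpace ℝ E]
    (f : Eu n → E) (hf : PerFun f) (hfm : AEStronglyMeasurable f volume) (c : Eu n) :
    ∫ x in unitCell n, f (x + c) = ∫ x in unitCell n, f x :=
  Inv.integral_cell_comp_add hf c

end Crest.Agent.R214
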