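import Crest.Agent.R214.Core1

/-!
# Core2: `VV f ≤ TV f` for `C²` periodic `f`

Proof sketch. For `ε > 0` the field `φ_ε = -∇f / √(|∇f|² + ε²)` is `C¹`, periodic, `‖φ_ε‖ ≤ 1`.
By `ibp`, `∫ f div φ_ε = ∫ |∇f|²/√(|∇f|²+ε²) ≥ ∫ (|∇f| - ε)`, let `ε → 0`.
(`∇f` = `gradient`/Riesz representative, `‖fderiv f x‖ = ‖gradient f x‖`.)
-/

set_option autoImplicit false
open MeasureTheory Crest.GeometryTopology.PeriodicPerimeter
open scoped ENNReal NNReal Topology
noncomputable section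
namespace Crest.Agent.R214

namespace C2

variable {n : ℕ}

/-- the gradient -/
def gr (f : Eu n → ℝ) (x : Eu n) : Eu n :=
  (InnerProductSpace.toDual ℝ (Eu n)).symm (fderiv ℝ f x)

theorem norm_gr (f : Eu n → ℝ) (x : Eu n) : ‖gr f x‖ = ‖fderiv ℝ f x‖ := by
  simp [gr]

theorem fderiv_gr (f : Eu n → ℝ) (x : Eu n) : fderiv ℝ f x (gr f x) = ‖fderiv ℝ f x‖ ^ 2 := by
  have h : fderiv ℝ f x (gr f x) = inner ℝ (gr f x) (gr f x) := by
    rw [gr, InnerProductSpace.toDual_symm_apply]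
  rw [h, real_inner_self_eq_norm_sq, norm_gr]

theorem contDiff_gr {f : Eu n → ℝ} (hf : ContDiff ℝ 2 f) : ContDiff ℝ 1 (gr f) := by
  unfold gr
  have h1 : ContDiff ℝ 1 (fun x => fderiv ℝ f x) := hf.fderiv_right (m := 1) (by norm_num)
  exact ((InnerProductSpace.toDual ℝ (Eu n)).symm.toContinuousLinearEquiv.contDiff).comp h1

theorem per_fderiv {f : Eu n → ℝ} (hf : PerFun f) : PerFun (fun x => fderiv ℝ f x) := by
  intro v hv x
  have h : (fun y => f (y + v)) = f := funext (hf v hv)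
  have h2 := fderiv_comp_add_right (𝕜 := ℝ) (f := f) (x := x) v
  rw [h] at h2
  exact h2.symm

theorem per_gr {f : Eu n → ℝ} (hf : PerFun f) : PerFun (gr f) := by
  intro v hv x
  have := per_fderiv hf v hv x
  simp only at this
  simp only [gr, this]

theorem key {f : Eu n → ℝ} (hf : ContDiff ℝ 2 f) (hfp : PerFun f) {δ : ℝ} (hδ : 0 < δ) :
    ∃ φ : Eu n → Eu n, IsAdmissibleField φ ∧
      VV f - δ ≤ ∫ x in unitCell n, f x * divergence φ x := by
  set q : Eu n → ℝ := fun x => Real.sqrt (‖gr f x‖ ^ 2 + δ ^ 2) with hq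
  have hqpos : ∀ x, 0 < q x := fun x => Real.sqrt_pos.2 (by positivity)
  have hg := contDiff_gr hf
  have hqc : ContDiff ℝ 1 q := by
    refine ContDiff.sqrt ?_ (fun x => by positivity)
    exact (hg.norm_sq ℝ).add contDiff_const
  set ψ : Eu n → Eu n := fun x => -((q x)⁻¹ • gr f x) with hψ
  have hadm : IsAdmissibleField ψ := by
    refine ⟨?_, ?_, ?_⟩
    · exact ((hqc.inv fun x => (hqpos x).ne').smul hg).neg
    · intro v hv x
      have := per_gr hfp v hv x
      simp only [hψ, hq, this]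
    · intro x
      rw [hψ]
      simp only [norm_neg, norm_smul, norm_inv, Real.norm_eq_abs, abs_of_pos (hqpos x)]
      rw [inv_mul_le_one₀ (hqpos x)]
      apply Real.le_sqrt_of_sq_le
      nlinarith [sq_nonneg δ]
  refine ⟨ψ, hadm, ?_⟩
  have hf1 : ContDiff ℝ 1 f := hf.of_le (by norm_num)
  rw [ibp f hf1 hfp ψ hadm.1 hadm.2.1, ← integral_neg]
  have h2 : ∀ x, -(fderiv ℝ f x (ψ x)) = ‖fderiv ℝ f x‖ ^ 2 / q x := by
    intro x
    simp only [hψ, map_neg, map_smul, fderiv_gr, smul_eq_mul, neg_neg]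
    field_simp
  have h3 : ∀ x, ‖fderiv ℝ f x‖ - δ ≤ -(fderiv ℝ f x (ψ x)) := by
    intro x
    rw [h2, le_div_iff₀ (hqpos x)]
    have h4 : q x ≤ ‖fderiv ℝ f x‖ + δ := by
      rw [hq]
      simp only [norm_gr]
      apply Real.sqrt_le_iff.2
      constructor
      · positivity
      · nlinarith [norm_nonneg (fderiv ℝ f x)]
    by_cases h5 : ‖fderiv ℝ f x‖ - δ ≤ 0
    · have := hqpos x
      nlinarith [sq_nonneg ‖fderiv ℝ f x‖]
    · push Not at h5
      calc (‖fderiv ℝ f x‖ - δ) * q x ≤ (‖fderiv ℝ f x‖ - δ) * (‖fderiv ℝ f x‖ + δ) :=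
            mul_le_mul_of_nonneg_left h4 h5.le
        _ ≤ ‖fderiv ℝ f x‖ ^ 2 := by nlinarith [sq_nonneg δ]
  have hi : Integrable (fun x => ‖fderiv ℝ f x‖)
      ((volume : Measure (Eu n)).restrict (unitCell n)) :=
    integrableOn_cell _ (hf1.continuous_fderiv one_ne_zero).norm
  have hi2 : Integrable (fun x => -(fderiv ℝ f x (ψ x)))
      ((volume : Measure (Eu n)).restrict (unitCell n)) :=
    integrableOn_cell _ ((hf1.continuous_fderiv one_ne_zero).clm_apply hadm.1.continuous).neg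
  have hi3 : Integrable (fun _ : Eu n => δ)
      ((volume : Measure (Eu n)).restrict (unitCell n)) :=
    integrableOn_cell _ continuous_const
  have h6 : ∫ x in unitCell n, (‖fderiv ℝ f x‖ - δ)
      ≤ ∫ x in unitCell n, -(fderiv ℝ f x (ψ x)) :=
    integral_mono (hi.sub hi3) hi2 h3
  rw [integral_sub hi hi3] at h6
  have h7 : ∫ _x in unitCell n, δ = δ := by
    rw [setIntegral_const, measureReal_def, volume_cell]; simp
  rw [h7] at h6
  exact h6

end C2

theorem VV_le_TV {n : ℕ} (f : Eu n → ℝ) (hf : ContDiff ℝ 2 f) (hfp : PerFun f) :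
    ENNReal.ofReal (VV f) ≤ TV f := by
  refine ENNReal.le_of_forall_pos_le_add fun ε hε _ => ?_
  obtain ⟨φ, hφ, h⟩ := C2.key hf hfp (δ := (ε : ℝ)) (by exact_mod_cast hε)
  have h1 : ENNReal.ofReal (∫ x in unitCell n, f x * divergence φ x) ≤ TV f :=
    le_iSup (fun φ : {φ : Eu n → Eu n // IsAdmissibleField φ} =>
      ENNReal.ofReal (∫ x in unitCell n, f x * divergence φ.1 x)) ⟨φ, hφ⟩
  calc ENNReal.ofReal (VV f) ≤ ENNReal.ofReal ((∫ x in unitCell n, f x * divergence φ x) + ε) :=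
        ENNReal.ofReal_le_ofReal (by linarith)
    _ ≤ ENNReal.ofReal (∫ x in unitCell n, f x * divergence φ x) + ENNReal.ofReal ε :=
        ENNReal.ofReal_add_le
    _ ≤ TV f + ε := by
        rw [ENNReal.ofReal_coe_nnreal]
        exact add_le_add h1 le_rfl

end Crest.Agent.R214
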