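import Crest.Agent.R214.Core2
import Crest.Agent.R214.Mollify

/-!
# Core3: mollification of periodic functions

Proof sketch. `g_k = f ⋆ ρ_k` with `ρ_k` a normed `ContDiffBump` centred at `0` of radius
`r_k → 0` (`0` in the interior, `r_k ≤ 1/(k+1)`), e.g. `MeasureTheory.convolution`.
* smooth, periodic, values in `[0,1]`, Lipschitz constant preserved, `|g_k - f| ≤ K r_k`;
* `TV (g_k) ≤ TV f`: for admissible `φ`, `∫_cell g_k div φ = ∫ ρ_k(h) (∫_cell f(x-h) div φ(x) dx) dh
  = ∫ ρ_k(h) (∫_cell f(x) div (φ(·+h))(x) dx) dh ≤ TV f` (translates of `φ` are admissible; use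
  `integral_cell_translate`); combine with `VV_le_TV` to get `VV (g_k) ≤ TV f`;
* `L¹` convergence on the cell: continuity of translations in `L¹_loc`, or `f` is a bounded
  periodic function, approximate in `L¹(cell)`; Lebesgue differentiation + dominated convergence
  also works (`ContDiffBump.ae_convolution_tendsto_right_of_locallyIntegrable`).
-/

set_option autoImplicit false
open MeasureTheory Crest.GeometryTopology.PeriodicPerimeter Filter
open scoped ENNReal NNReal Topology ContDiff Convolution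
noncomputable section
namespace Crest.Agent.R214

section MollF

variable {n : ℕ}

/-- mollification of a function -/
def mollF (f : Eu n → ℝ) (k : ℕ) : Eu n → ℝ :=
  (ker k) ⋆[ContinuousLinearMap.lsmul ℝ ℝ, volume] f

theorem mollF_apply (f : Eu n → ℝ) (k : ℕ) (x : Eu n) :
    mollF f k x = ∫ t, ker k t * f (x - t) := by
  simp [mollF, convolution_def]

theorem locallyIntegrable_of_bdd {f : Eu n → ℝ} (hf : Measurable f) (h0 : ∀ x, 0 ≤ f x)
    (h1 : ∀ x, f x ≤ 1) : LocallyIntegrable f (volume : Measure (Eu n)) := by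
  refine (locallyIntegrable_const (1 : ℝ)).mono hf.aestronglyMeasurable
    (Eventually.of_forall fun x => ?_)
  rw [Real.norm_eq_abs, abs_of_nonneg (h0 x)]
  simpa using h1 x

theorem contDiff_mollF {f : Eu n → ℝ} (hf : Measurable f) (h0 : ∀ x, 0 ≤ f x)
    (h1 : ∀ x, f x ≤ 1) (k : ℕ) : ContDiff ℝ ∞ (mollF f k) :=
  HasCompactSupport.contDiff_convolution_left _ (bmp n k).hasCompactSupport_normed
    (bmp n k).contDiff_normed (locallyIntegrable_of_bdd hf h0 h1)

theorem mollF_per {f : Eu n → ℝ} (hp : PerFun f) (k : ℕ) : PerFun (mollF f k) := by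
  intro v hv x
  rw [mollF_apply, mollF_apply]
  congr 1
  funext t
  have : x + v - t = (x - t) + v := by abel
  rw [this, hp v hv]

theorem integrable_ker_mul {f : Eu n → ℝ} (hf : Measurable f) (h0 : ∀ x, 0 ≤ f x)
    (h1 : ∀ x, f x ≤ 1) (k : ℕ) (x : Eu n) :
    Integrable (fun t => ker k t * f (x - t)) := by
  refine (integrable_ker (n := n) k).mul_bdd (c := 1) ?_ ?_
  · exact (hf.comp (measurable_const.sub measurable_id)).aestronglyMeasurable
  · refine Eventually.of_forall fun t => ?_
    rw [Real.norm_eq_abs, abs_of_nonneg (h0 _)]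
    exact h1 _

theorem mollF_nonneg {f : Eu n → ℝ} (h0 : ∀ x, 0 ≤ f x) (k : ℕ) (x : Eu n) :
    0 ≤ mollF f k x := by
  rw [mollF_apply]
  exact integral_nonneg fun t => mul_nonneg (ker_nonneg k t) (h0 _)

theorem mollF_le_one {f : Eu n → ℝ} (hf : Measurable f) (h0 : ∀ x, 0 ≤ f x)
    (h1 : ∀ x, f x ≤ 1) (k : ℕ) (x : Eu n) : mollF f k x ≤ 1 := by
  rw [mollF_apply, ← integral_ker (n := n) k]
  refine integral_mono (integrable_ker_mul hf h0 h1 k x) (integrable_ker k) fun t => ?_
  exact mul_le_of_le_one_right (ker_nonneg k t) (h1 _)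

theorem ae_tendsto_mollF {f : Eu n → ℝ} (hf : Measurable f) (h0 : ∀ x, 0 ≤ f x)
    (h1 : ∀ x, f x ≤ 1) : ∀ᵐ x : Eu n, Tendsto (fun k => mollF f k x) atTop (𝓝 (f x)) := by
  have h2 : Tendsto (fun k : ℕ => (bmp n k).rOut) atTop (𝓝 0) :=
    tendsto_one_div_add_atTop_nhds_zero_nat
  refine ContDiffBump.ae_convolution_tendsto_right_of_locallyIntegrable (K := 2) h2 ?_
    (locallyIntegrable_of_bdd hf h0 h1)
  refine Eventually.of_forall fun k => ?_
  change 1 / ((k : ℝ) + 1) ≤ 2 * (1 / (2 * ((k : ℝ) + 1)))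
  have : (0 : ℝ) < (k : ℝ) + 1 := by positivity
  apply le_of_eq
  field_simp

theorem tendsto_integral_mollF {f : Eu n → ℝ} (hf : Measurable f) (h0 : ∀ x, 0 ≤ f x)
    (h1 : ∀ x, f x ≤ 1) :
    Tendsto (fun k => ∫ x in unitCell n, |mollF f k x - f x|) atTop (𝓝 0) := by
  have h : Tendsto (fun k => ∫ x in unitCell n, |mollF f k x - f x|) atTop
      (𝓝 (∫ x in unitCell n, (0 : ℝ))) := by
    refine tendsto_integral_of_dominated_convergence (fun _ => (1 : ℝ)) ?_
      (integrable_const _) ?_ ?_
    · intro k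
      have hc : Continuous (mollF f k) := (contDiff_mollF hf h0 h1 k).continuous
      exact ((hc.measurable.sub hf).norm).aestronglyMeasurable
    · intro k
      refine Eventually.of_forall fun x => ?_
      rw [Real.norm_eq_abs, abs_abs, abs_le]
      have a1 := mollF_nonneg h0 k x
      have a2 := mollF_le_one hf h0 h1 k x
      have a3 := h0 x
      have a4 := h1 x
      constructor <;> linarith
    · refine (ae_restrict_of_ae (ae_tendsto_mollF hf h0 h1)).mono fun x hx => ?_
      have h3 : Tendsto (fun k => |mollF f k x - f x|) atTop (𝓝 |f x - f x|) :=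
        (hx.sub tendsto_const_nhds).abs
      simpa using h3
  simpa using h

/-- every admissible field is bounded by the total variation -/
theorem integral_mul_divergence_le_TV {f : Eu n → ℝ} (hT : TV f ≠ ⊤)
    {ψ : Eu n → Eu n} (h : IsAdmissibleField ψ) :
    ∫ x in unitCell n, f x * divergence ψ x ≤ (TV f).toReal := by
  have h1 : ENNReal.ofReal (∫ x in unitCell n, f x * divergence ψ x) ≤ TV f :=
    le_iSup (fun φ : {φ : Eu n → Eu n // IsAdmissibleField φ} =>
      ENNReal.ofReal (∫ x in unitCell n, f x * divergence φ.1 x)) ⟨ψ, h⟩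
  exact (ENNReal.ofReal_le_iff_le_toReal hT).1 h1

theorem integral_mollF_mul_divergence_le {f : Eu n → ℝ} (hf : Measurable f) (h0 : ∀ x, 0 ≤ f x)
    (h1 : ∀ x, f x ≤ 1) (hp : PerFun f) (hT : TV f ≠ ⊤) (k : ℕ)
    {ψ : Eu n → Eu n} (h : IsAdmissibleField ψ) :
    ∫ x in unitCell n, mollF f k x * divergence ψ x ≤ (TV f).toReal := by
  have hDc : Continuous (divergence ψ) := continuous_divergence h.1
  have hDp : IsPer (divergence ψ) := IsPer.divergence h.2.1
  obtain ⟨C, hC⟩ := hDp.exists_bound hDc
  have hint : Integrable (Function.uncurry fun x t => ker k t * f (x - t) * divergence ψ x)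
      (((volume : Measure (Eu n)).restrict (unitCell n)).prod volume) := by
    have hk : Integrable (fun z : Eu n × Eu n => ker k z.2)
        (((volume : Measure (Eu n)).restrict (unitCell n)).prod volume) :=
      (integrable_ker k).comp_snd _
    have hm1 : Measurable (fun z : Eu n × Eu n => f (z.1 - z.2) * divergence ψ z.1) :=
      (hf.comp (measurable_fst.sub measurable_snd)).mul
        (hDc.measurable.comp measurable_fst)
    have := hk.mul_bdd (c := C) hm1.aestronglyMeasurable
      (Eventually.of_forall fun z => by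
        rw [norm_mul]
        calc ‖f (z.1 - z.2)‖ * ‖divergence ψ z.1‖ ≤ 1 * C := by
              apply mul_le_mul _ (hC _) (norm_nonneg _) zero_le_one
              rw [Real.norm_eq_abs, abs_of_nonneg (h0 _)]
              exact h1 _
          _ = C := one_mul C)
    refine this.congr (Eventually.of_forall fun z => ?_)
    simp only [Function.uncurry]
    ring
  have e1 : ∫ x in unitCell n, mollF f k x * divergence ψ x
      = ∫ t, ∫ x in unitCell n, ker k t * f (x - t) * divergence ψ x := by
    rw [← integral_integral_swap hint]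
    congr 1
    funext x
    rw [mollF_apply, ← integral_mul_const]
  have e2 : ∀ t : Eu n, ∫ x in unitCell n, ker k t * f (x - t) * divergence ψ x
      ≤ ker k t * (TV f).toReal := by
    intro t
    have h3 : ∫ x in unitCell n, f (x - t) * divergence ψ x
        = ∫ x in unitCell n, f x * divergence (fun y => ψ (y + t)) x := by
      have hG : IsPer (fun x => f x * divergence ψ (x + t)) := by
        intro v hv x
        have e : x + v + t = (x + t) + v := by abel
        simp only
        rw [e, hDp v hv, hp v hv]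
      have h4 := integral_cell_add hG (-t)
      simp only [divergence_translate]
      rw [← h4]
      congr 1
      funext x
      simp [sub_eq_add_neg]
    have h5 : ∫ x in unitCell n, ker k t * f (x - t) * divergence ψ x
        = ker k t * ∫ x in unitCell n, f (x - t) * divergence ψ x := by
      rw [← integral_const_mul]
      congr 1
      funext x
      ring
    rw [h5, h3]
    exact mul_le_mul_of_nonneg_left
      (integral_mul_divergence_le_TV hT (IsAdmissibleField.translate h t)) (ker_nonneg k t)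
  rw [e1]
  calc ∫ t, ∫ x in unitCell n, ker k t * f (x - t) * divergence ψ x
      ≤ ∫ t : Eu n, ker k t * (TV f).toReal :=
        integral_mono hint.integral_prod_right ((integrable_ker k).mul_const _) e2
    _ = (TV f).toReal := by
        rw [integral_mul_const, integral_ker, one_mul]

theorem VV_mollF_le {f : Eu n → ℝ} (hf : Measurable f) (h0 : ∀ x, 0 ≤ f x)
    (h1 : ∀ x, f x ≤ 1) (hp : PerFun f) (k : ℕ) :
    ENNReal.ofReal (VV (mollF f k)) ≤ TV f := by
  by_cases hT : TV f = ⊤
  · rw [hT]; exact le_top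
  · rw [ENNReal.ofReal_le_iff_le_toReal hT]
    exact integral_norm_fderiv_le (contDiff_mollF hf h0 h1 k) (mollF_per hp k) fun _ h =>
      integral_mollF_mul_divergence_le hf h0 h1 hp hT k h

/-- also in the `TV` form -/
theorem TV_mollF_le {f : Eu n → ℝ} (hf : Measurable f) (h0 : ∀ x, 0 ≤ f x)
    (h1 : ∀ x, f x ≤ 1) (hp : PerFun f) (k : ℕ) : TV (mollF f k) ≤ TV f := by
  by_cases hT : TV f = ⊤
  · rw [hT]; exact le_top
  · refine iSup_le fun φ => ?_
    rw [ENNReal.ofReal_le_iff_le_toReal hT]
    exact integral_mollF_mul_divergence_le hf h0 h1 hp hT k φ.2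

theorem lipschitz_mollF {f : Eu n → ℝ} (hf : Measurable f) (h0 : ∀ x, 0 ≤ f x)
    (h1 : ∀ x, f x ≤ 1) {K : ℝ≥0} (hK : LipschitzWith K f) (k : ℕ) :
    LipschitzWith K (mollF f k) := by
  refine LipschitzWith.of_dist_le_mul fun x y => ?_
  rw [Real.dist_eq, mollF_apply, mollF_apply,
    ← integral_sub (integrable_ker_mul hf h0 h1 k x) (integrable_ker_mul hf h0 h1 k y)]
  have h2 : ∀ t : Eu n, ‖ker k t * f (x - t) - ker k t * f (y - t)‖ ≤
      ker k t * (K * dist x y) := by
    intro t
    rw [← mul_sub, norm_mul, Real.norm_eq_abs, abs_of_nonneg (ker_nonneg k t)]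
    refine mul_le_mul_of_nonneg_left ?_ (ker_nonneg k t)
    have h3 := hK.dist_le_mul (x - t) (y - t)
    rw [dist_sub_right] at h3
    rwa [Real.dist_eq] at h3
  calc |∫ t, (ker k t * f (x - t) - ker k t * f (y - t))|
      ≤ ∫ t : Eu n, ker k t * (K * dist x y) :=
        norm_integral_le_of_norm_le ((integrable_ker k).mul_const _) (Eventually.of_forall h2)
    _ = K * dist x y := by rw [integral_mul_const, integral_ker, one_mul]

theorem ker_eq_zero {k : ℕ} {t : Eu n} (ht : 1 / ((k : ℝ) + 1) ≤ ‖t‖) : ker k t = 0 := by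
  have h : t ∉ Function.support (ker (n := n) k) := by
    unfold ker
    rw [ContDiffBump.support_normed_eq, Metric.mem_ball, dist_zero_right, not_lt]
    exact ht
  exact Function.notMem_support.1 h

theorem abs_mollF_sub_le {f : Eu n → ℝ} (hf : Measurable f) (h0 : ∀ x, 0 ≤ f x)
    (h1 : ∀ x, f x ≤ 1) {K : ℝ≥0} (hK : LipschitzWith K f) (k : ℕ) (x : Eu n) :
    |mollF f k x - f x| ≤ K / (k + 1) := by
  have e1 : f x = ∫ t : Eu n, ker k t * f x := by
    rw [integral_mul_const, integral_ker, one_mul]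
  rw [mollF_apply]
  conv_lhs => rw [e1]
  rw [← integral_sub (integrable_ker_mul hf h0 h1 k x) ((integrable_ker k).mul_const _)]
  have hk : (0 : ℝ) < (k : ℝ) + 1 := by positivity
  have h2 : ∀ t : Eu n, ‖ker k t * f (x - t) - ker k t * f x‖ ≤
      ker k t * (K / (k + 1)) := by
    intro t
    rw [← mul_sub, norm_mul, Real.norm_eq_abs, abs_of_nonneg (ker_nonneg k t)]
    by_cases ht : 1 / ((k : ℝ) + 1) ≤ ‖t‖
    · rw [ker_eq_zero ht]; simp
    · refine mul_le_mul_of_nonneg_left ?_ (ker_nonneg k t)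
      push Not at ht
      have h3 := hK.dist_le_mul (x - t) x
      rw [Real.dist_eq] at h3
      have h4 : dist (x - t) x = ‖t‖ := by
        rw [dist_eq_norm]; simp
      rw [h4] at h3
      calc ‖f (x - t) - f x‖ ≤ K * ‖t‖ := h3
        _ ≤ K * (1 / ((k : ℝ) + 1)) := by
            exact mul_le_mul_of_nonneg_left ht.le K.coe_nonneg
        _ = K / (k + 1) := by ring
  calc |∫ t, (ker k t * f (x - t) - ker k t * f x)|
      ≤ ∫ t : Eu n, ker k t * (K / (k + 1)) :=
        norm_integral_le_of_norm_le ((integrable_ker k).mul_const _) (Eventually.of_forall h2)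
    _ = K / (k + 1) := by rw [integral_mul_const, integral_ker, one_mul]

end MollF

theorem exists_moll {n : ℕ} (f : Eu n → ℝ) (hf : Measurable f) (h0 : ∀ x, 0 ≤ f x)
    (h1 : ∀ x, f x ≤ 1) (hp : PerFun f) :
    ∃ g : ℕ → Eu n → ℝ,
      (∀ k, ContDiff ℝ 2 (g k)) ∧ (∀ k, PerFun (g k)) ∧ (∀ k x, 0 ≤ g k x) ∧
      (∀ k x, g k x ≤ 1) ∧ (∀ k, ENNReal.ofReal (VV (g k)) ≤ TV f) ∧
      Tendsto (fun k => ∫ x in unitCell n, |g k x - f x|) atTop (𝓝 0) ∧
      (∀ K : ℝ≥0, LipschitzWith K f → ∀ k,
        LipschitzWith K (g k) ∧ ∀ x, |g k x - f x| ≤ K / (k + 1)) :=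
  ⟨mollF f, fun k => (contDiff_mollF hf h0 h1 k).of_le
    (WithTop.coe_le_coe.2 le_top),
    mollF_per hp, mollF_nonneg h0, mollF_le_one hf h0 h1, VV_mollF_le hf h0 h1 hp,
    tendsto_integral_mollF hf h0 h1,
    fun _ hK k => ⟨lipschitz_mollF hf h0 h1 hK k, abs_mollF_sub_le hf h0 h1 hK k⟩⟩

end Crest.Agent.R214
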