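import Crest.Agent.R214.Core1

/-!
# Core4: lower semicontinuity of `TV` under `L¹(cell)` convergence

For fixed admissible `φ`, `div φ` is bounded on the cell (continuous), so
`∫ g_k div φ → ∫ f div φ`, and each `ofReal (∫ g_k div φ) ≤ TV (g_k)`. Take the supremum.
-/

set_option autoImplicit false
open MeasureTheory Crest.GeometryTopology.PeriodicPerimeter Filter
open scoped ENNReal NNReal Topology
noncomputable section
namespace Crest.Agent.R214

theorem c4_continuous_divergence {n : ℕ} {φ : Eu n → Eu n} (hφ : ContDiff ℝ 1 φ) :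
    Continuous (divergence φ) := by
  unfold divergence
  refine continuous_finsetSum _ fun i _ => ?_
  have h1 : Continuous fun x => fderiv ℝ φ x (EuclideanSpace.single i 1) :=
    (hφ.continuous_fderiv one_ne_zero).clm_apply continuous_const
  exact (EuclideanSpace.proj (𝕜 := ℝ) i).continuous.comp h1

theorem c4_cell_subset_closedBall {n : ℕ} : unitCell n ⊆ Metric.closedBall (0 : Eu n) n := by
  intro x hx
  rw [mem_closedBall_zero_iff]
  have h1 : ‖x‖ ^ 2 ≤ (n : ℝ) := by
    rw [EuclideanSpace.norm_sq_eq]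
    calc ∑ i, ‖x i‖ ^ 2 ≤ ∑ _i : Fin n, (1 : ℝ) := by
          refine Finset.sum_le_sum fun i _ => ?_
          have := hx i
          rw [Real.norm_eq_abs, abs_of_nonneg this.1]
          nlinarith [this.1, this.2]
      _ = n := by simp
  rcases Nat.eq_zero_or_pos n with h | h
  · have h2 : ‖x‖ ^ 2 ≤ 0 := by simpa [h] using h1
    have h3 : ‖x‖ = 0 := by nlinarith [norm_nonneg x]
    rw [h3]
    positivity
  · have h2 : (1 : ℝ) ≤ n := by exact_mod_cast h
    nlinarith [norm_nonneg x]

theorem c4_divergence_bounded {n : ℕ} {φ : Eu n → Eu n} (hφ : ContDiff ℝ 1 φ) :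
    ∃ C : ℝ, 0 ≤ C ∧ ∀ x ∈ unitCell n, |divergence φ x| ≤ C := by
  obtain ⟨C, hC⟩ := (isCompact_closedBall (0 : Eu n) n).exists_bound_of_continuousOn
    (c4_continuous_divergence hφ).continuousOn
  refine ⟨max C 0, le_max_right _ _, fun x hx => ?_⟩
  exact (hC x (c4_cell_subset_closedBall hx)).trans (le_max_left _ _)

theorem c4_measurableSet_cell {n : ℕ} : MeasurableSet (unitCell n) := by
  have : unitCell n = ⋂ i : Fin n, {x : Eu n | 0 ≤ x i ∧ x i < 1} := by
    ext x; simp [unitCell]
  rw [this]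
  refine MeasurableSet.iInter fun i => ?_
  have hc : Continuous fun x : Eu n => x i := (EuclideanSpace.proj (𝕜 := ℝ) i).continuous
  exact (measurableSet_le measurable_const hc.measurable).inter
    (measurableSet_lt hc.measurable measurable_const)

theorem c4_integrableOn_mul {n : ℕ} {φ : Eu n → Eu n} (hφ : ContDiff ℝ 1 φ) {f : Eu n → ℝ}
    (hf : IntegrableOn f (unitCell n)) :
    IntegrableOn (fun x => f x * divergence φ x) (unitCell n) := by
  obtain ⟨C, hC0, hC⟩ := c4_divergence_bounded hφ
  refine Integrable.mul_bdd (c := C) hf (c4_continuous_divergence hφ).aestronglyMeasurable ?_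
  rw [ae_restrict_iff' c4_measurableSet_cell]
  exact Eventually.of_forall fun x hx => hC x hx

theorem c4_tendsto {n : ℕ} {φ : Eu n → Eu n} (hφ : ContDiff ℝ 1 φ) (f : Eu n → ℝ)
    (g : ℕ → Eu n → ℝ) (hf : IntegrableOn f (unitCell n))
    (hg : ∀ k, IntegrableOn (g k) (unitCell n))
    (h : Tendsto (fun k => ∫ x in unitCell n, |g k x - f x|) atTop (𝓝 0)) :
    Tendsto (fun k => ∫ x in unitCell n, g k x * divergence φ x) atTop
      (𝓝 (∫ x in unitCell n, f x * divergence φ x)) := by
  obtain ⟨C, hC0, hC⟩ := c4_divergence_bounded hφ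
  rw [tendsto_iff_norm_sub_tendsto_zero]
  refine squeeze_zero (fun k => norm_nonneg _) (fun k => ?_)
    (by simpa using h.const_mul C : Tendsto (fun k => C * ∫ x in unitCell n, |g k x - f x|)
      atTop (𝓝 0))
  rw [← integral_sub (c4_integrableOn_mul hφ (hg k)) (c4_integrableOn_mul hφ hf),
    ← integral_const_mul]
  refine norm_integral_le_of_norm_le (((hg k).sub hf).abs.const_mul C) ?_
  rw [ae_restrict_iff' c4_measurableSet_cell]
  refine Eventually.of_forall fun x hx => ?_
  rw [← sub_mul, norm_mul, Real.norm_eq_abs, Real.norm_eq_abs, mul_comm]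
  exact mul_le_mul_of_nonneg_right (hC x hx) (abs_nonneg _)

theorem TV_lsc {n : ℕ} (f : Eu n → ℝ) (g : ℕ → Eu n → ℝ) (hf : IntegrableOn f (unitCell n))
    (hg : ∀ k, IntegrableOn (g k) (unitCell n))
    (h : Tendsto (fun k => ∫ x in unitCell n, |g k x - f x|) atTop (𝓝 0)) :
    TV f ≤ liminf (fun k => TV (g k)) atTop := by
  unfold TV
  refine iSup_le fun φ => ?_
  have ht := (ENNReal.continuous_ofReal.tendsto _).comp (c4_tendsto φ.2.1 f g hf hg h)
  have h2 := ht.liminf_eq
  simp only [Function.comp_def] at h2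
  rw [← h2]
  refine liminf_le_liminf (Eventually.of_forall fun k => ?_)
  exact le_iSup (fun φ : {φ : Eu n → Eu n // IsAdmissibleField φ} =>
    ENNReal.ofReal (∫ x in unitCell n, g k x * divergence φ.1 x)) φ

theorem TV_le_of_tendsto {n : ℕ} (f : Eu n → ℝ) (g : ℕ → Eu n → ℝ) (C : ℝ≥0∞)
    (hf : IntegrableOn f (unitCell n)) (hg : ∀ k, IntegrableOn (g k) (unitCell n))
    (h : Tendsto (fun k => ∫ x in unitCell n, |g k x - f x|) atTop (𝓝 0))
    (hC : ∀ k, TV (g k) ≤ C) : TV f ≤ C := by
  refine (TV_lsc f g hf hg h).trans ?_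
  calc liminf (fun k => TV (g k)) atTop ≤ liminf (fun _ : ℕ => C) atTop :=
        liminf_le_liminf (Eventually.of_forall hC)
    _ = C := liminf_const C

end Crest.Agent.R214
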