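import Mathlib

/-!
# Row 214: the corner near the slab

For a decreasing area profile with end values `b` close to `0` and `a` close to `1` an explicit
affine function `w` shows that the calibration bound is at least `1`, strictly unless `b = 0` and
`a = 1`.
-/

set_option autoImplicit false

open MeasureTheory Set Real

noncomputable section

namespace Crest.Agent.R214.Corner

/-- `√(1 - X) ≥ 1 - (67/125) X` on `[0, 1/4]`. -/
theorem sqrt_lower {X : ℝ} (h0 : 0 ≤ X) (h1 : X ≤ 1 / 4) : 1 - 67 / 125 * X ≤ √(1 - X) := by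
  apply Real.le_sqrt_of_sq_le
  nlinarith

theorem log_bound {x : ℝ} (hx : 0 < x) (hx1 : x ^ 2 ≤ 1 / 50) :
    x ^ 2 * (Real.log (1 / x ^ 2) - 1) ≤ 448 / 1000 * x := by
  -- log (1/x^2) = 2 log (x0/x) + log 50
  have hx0 : (0:ℝ) < √(1 / 50) := Real.sqrt_pos.2 (by norm_num)
  have hx0sq : √(1 / 50 : ℝ) ^ 2 = 1 / 50 := Real.sq_sqrt (by norm_num)
  have hx0le : √(1 / 50 : ℝ) ≤ 14143 / 100000 := by
    apply Real.sqrt_le_iff.2
    constructor <;> norm_num
  have hxx0 : x ≤ √(1 / 50 : ℝ) := Real.le_sqrt_of_sq_le hx1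
  have h1 : Real.log (1 / x ^ 2) = 2 * Real.log (√(1 / 50) / x) + Real.log 50 := by
    have e : (1 : ℝ) / x ^ 2 = (√(1 / 50) / x) ^ 2 * 50 := by
      rw [div_pow, hx0sq]
      field_simp
    rw [e, Real.log_mul (by positivity) (by norm_num), Real.log_pow]
    norm_num
  have h2 : Real.log (√(1 / 50) / x) ≤ √(1 / 50) / x - 1 :=
    Real.log_le_sub_one_of_pos (by positivity)
  have h3 : Real.log 50 ≤ 416 / 100 := by
    have e1 : Real.log 50 ≤ Real.log 64 := Real.log_le_log (by norm_num) (by norm_num)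
    have e2 : Real.log 64 = 6 * Real.log 2 := by
      rw [show (64 : ℝ) = 2 ^ 6 by norm_num, Real.log_pow]
      norm_num
    have e3 := Real.log_two_lt_d9
    linarith
  rw [h1]
  have h4 : x ^ 2 * (2 * Real.log (√(1 / 50) / x) + Real.log 50 - 1) ≤
      x ^ 2 * (2 * (√(1 / 50) / x - 1) + 416 / 100 - 1) := by
    apply mul_le_mul_of_nonneg_left _ (sq_nonneg x)
    linarith
  have h5 : x ^ 2 * (2 * (√(1 / 50) / x - 1) + 416 / 100 - 1) =
      2 * √(1 / 50) * x + 116 / 100 * x ^ 2 := by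
    field_simp
    ring
  have h6 : 2 * √(1 / 50 : ℝ) * x ≤ 2 * (14143 / 100000) * x := by
    have := mul_le_mul_of_nonneg_right hx0le hx.le
    linarith
  have h7 : x ^ 2 ≤ 14143 / 100000 * x := by
    nlinarith
  linarith

/-- The quadratic bound for the affine function. -/
theorem affine_bound {a b x y : ℝ} (hx : x ^ 2 = b)
    (hy : y ^ 2 = 1 - a) (hb : b ≤ 1 / 50) (ha : 49 / 50 ≤ a) {s : ℝ} (hs0 : b ≤ s)
    (hs1 : s ≤ a) :
    (85 / 100 * (x * (1 - s) + y * s)) ^ 2 ≤ π / 4 * (s * (1 - s)) := by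
  have hb0 : 0 ≤ b := hx ▸ sq_nonneg x
  have ha1 : a ≤ 1 := by nlinarith [sq_nonneg y]
  have hs : 0 ≤ s := hb0.trans hs0
  have hs' : 0 ≤ 1 - s := by linarith
  have hpi : 31415 / 10000 < π := by
    have := Real.pi_gt_d4
    norm_num at this ⊢
    linarith
  have hxy : 2 * (x * y) ≤ 1 / 25 := by
    nlinarith [sq_nonneg (x - y)]
  have hss : 0 ≤ s * (1 - s) := mul_nonneg hs hs'
  have e : (85 / 100 * (x * (1 - s) + y * s)) ^ 2 = 7225 / 10000 *
      (b * (1 - s) ^ 2 + 2 * (x * y) * (s * (1 - s)) + (1 - a) * s ^ 2) := by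
    rw [← hx, ← hy]
    ring
  have hcross : 2 * (x * y) * (s * (1 - s)) ≤ 1 / 25 * (s * (1 - s)) :=
    mul_le_mul_of_nonneg_right hxy hss
  have key : b * (1 - s) ^ 2 + (1 - a) * s ^ 2 ≤ 51 / 50 * (s * (1 - s)) := by
    rcases le_total s (1 / 2) with h | h
    · have h1 : b * (1 - s) ^ 2 ≤ s * (1 - s) := by
        have : b * (1 - s) ≤ s * 1 := mul_le_mul hs0 (by linarith) hs' hs
        nlinarith
      have h2 : (1 - a) * s ^ 2 ≤ 1 / 50 * (s * (1 - s)) := by
        have : (1 - a) * s ≤ 1 / 50 * (1 - s) := by nlinarith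
        nlinarith
      linarith
    · have h1 : (1 - a) * s ^ 2 ≤ s * (1 - s) := by
        have : (1 - a) * s ≤ (1 - s) * 1 := mul_le_mul (by linarith) (by linarith) hs hs'
        nlinarith
      have h2 : b * (1 - s) ^ 2 ≤ 1 / 50 * (s * (1 - s)) := by
        have : b * (1 - s) ≤ 1 / 50 * s := by nlinarith
        nlinarith
      linarith
  rw [e]
  have : 7225 / 10000 * (b * (1 - s) ^ 2 + 2 * (x * y) * (s * (1 - s)) + (1 - a) * s ^ 2) ≤
      7225 / 10000 * (53 / 50 * (s * (1 - s))) := by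
    linarith
  refine this.trans ?_
  nlinarith

/-- One half of the loss. -/
theorem loss_half {b a x : ℝ} (hx0 : 0 ≤ x) (hx : x ^ 2 = b) (hb : b ≤ 1 / 50)
    (ha : 49 / 50 ≤ a) (ha1 : a ≤ 1) :
    IntervalIntegrable (fun s : ℝ => b * (s⁻¹ - 1)) volume b a ∧
      ∫ s in b..a, b * (s⁻¹ - 1) ≤ 4537 / 10000 * x := by
  rcases hx0.eq_or_lt with h | h
  · subst h
    have hb' : b = 0 := by rw [← hx]; norm_num
    subst hb'
    simp
  · have hbpos : 0 < b := by rw [← hx]; positivity
    have hba : b ≤ a := by linarith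
    have hcont : ContinuousOn (fun s : ℝ => s⁻¹) (Icc b a) :=
      continuousOn_inv₀.mono fun s hs => ne_of_gt (hbpos.trans_le hs.1)
    have hint : IntervalIntegrable (fun s : ℝ => s⁻¹) volume b a :=
      hcont.intervalIntegrable_of_Icc hba
    refine ⟨(hint.sub intervalIntegrable_const).const_mul b, ?_⟩
    rw [intervalIntegral.integral_const_mul, intervalIntegral.integral_sub hint
      intervalIntegrable_const, integral_inv_of_pos hbpos (by linarith)]
    simp only [intervalIntegral.integral_const, smul_eq_mul, mul_one]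
    have h1 : Real.log (a / b) ≤ Real.log (1 / x ^ 2) := by
      rw [hx]
      apply Real.log_le_log (by positivity)
      gcongr
    have h2 := log_bound h (by linarith)
    have h3 : b * (Real.log (a / b) - (a - b)) ≤ b * (Real.log (1 / x ^ 2) - 1) + b * (1 / 25) := by
      have : Real.log (a / b) - (a - b) ≤ Real.log (1 / x ^ 2) - 1 + 1 / 25 := by linarith
      have := mul_le_mul_of_nonneg_left this hbpos.le
      linarith
    have h4 : b * (1 / 25) ≤ 57 / 10000 * x := by
      have hx1 : x ≤ 14143 / 100000 := by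
        apply le_of_sq_le_sq _ (by norm_num)
        rw [hx]
        linarith
      rw [← hx]
      nlinarith
    rw [hx] at h2
    rw [hx] at h3
    linarith

set_option maxHeartbeats 1000000 in
/-- **The slab corner.** -/
theorem corner {b a v : ℝ} (hb0 : 0 ≤ b) (hb : b ≤ 1 / 50) (ha : 49 / 50 ≤ a) (ha1 : a ≤ 1)
    (hv0 : 28 / 100 ≤ v) (hv1 : v ≤ 1 / 2) :
    ∃ lam mu : ℝ, (∀ s ∈ Icc b a, 0 ≤ lam * s + mu ∧
        (lam * s + mu) ^ 2 ≤ π / 4 * (s * (1 - s))) ∧
      1 ≤ lam * v + mu + ∫ s in b..a, √(1 - (lam * s + mu) ^ 2 / (π * (s * (1 - s)))) ∧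
      ((b ≠ 0 ∨ a ≠ 1) →
        1 < lam * v + mu + ∫ s in b..a, √(1 - (lam * s + mu) ^ 2 / (π * (s * (1 - s))))) := by
  set x := √b with hxdef
  set y := √(1 - a) with hydef
  have hx0 : 0 ≤ x := Real.sqrt_nonneg _
  have hy0 : 0 ≤ y := Real.sqrt_nonneg _
  have hx : x ^ 2 = b := Real.sq_sqrt hb0
  have hy : y ^ 2 = 1 - a := Real.sq_sqrt (by linarith)
  have hx1 : x ≤ 14143 / 100000 := by
    apply le_of_sq_le_sq _ (by norm_num)
    rw [hx]
    linarith
  have hy1 : y ≤ 14143 / 100000 := by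
    apply le_of_sq_le_sq _ (by norm_num)
    rw [hy]
    linarith
  have hba : b ≤ a := by linarith
  have hpi0 : 0 < π := Real.pi_pos
  have hpi : 31415 / 10000 < π := by
    have := Real.pi_gt_d4
    norm_num at this ⊢
    linarith
  have hwb : ∀ s ∈ Icc b a, 0 ≤ 85 / 100 * (y - x) * s + 85 / 100 * x ∧
      (85 / 100 * (y - x) * s + 85 / 100 * x) ^ 2 ≤ π / 4 * (s * (1 - s)) := by
    intro s hs
    have e : 85 / 100 * (y - x) * s + 85 / 100 * x = 85 / 100 * (x * (1 - s) + y * s) := by ring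
    rw [e]
    have hs0 : 0 ≤ s := hb0.trans hs.1
    have hs1 : 0 ≤ 1 - s := by linarith [hs.2]
    exact ⟨by positivity, affine_bound hx hy hb ha hs.1 hs.2⟩
  -- the lower bound for the integrand
  set c : ℝ := 67 / 125 * (7225 / 10000) / π with hc
  have hc0 : 0 ≤ c := by positivity
  have hc1 : c ≤ 1233 / 10000 := by
    rw [hc, div_le_iff₀ hpi0]
    nlinarith
  set F : ℝ → ℝ := fun s => √(1 - (85 / 100 * (y - x) * s + 85 / 100 * x) ^ 2 /
    (π * (s * (1 - s)))) with hF
  set G : ℝ → ℝ := fun s => 1 - c * (b * (s⁻¹ - 1) + 2 * (x * y) +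
    (1 - a) * ((1 - s)⁻¹ - 1)) with hG
  have hFG : ∀ s ∈ Ioo b a, G s ≤ F s := by
    intro s hs
    have hs0 : 0 < s := hb0.trans_lt hs.1
    have hs1 : 0 < 1 - s := by linarith [hs.2]
    have h1 := (hwb s ⟨hs.1.le, hs.2.le⟩).2
    have hden : 0 < π * (s * (1 - s)) := by positivity
    have hX : (85 / 100 * (y - x) * s + 85 / 100 * x) ^ 2 / (π * (s * (1 - s))) ≤ 1 / 4 := by
      rw [div_le_iff₀ hden]
      linarith
    have hX0 : 0 ≤ (85 / 100 * (y - x) * s + 85 / 100 * x) ^ 2 / (π * (s * (1 - s))) := by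
      positivity
    have h2 := sqrt_lower hX0 hX
    refine le_trans (le_of_eq ?_) h2
    simp only [hG, hc]
    rw [← hx, ← hy]
    field_simp
    ring
  have hA := loss_half hx0 hx hb ha ha1
  have hB0 := loss_half (b := 1 - a) (a := 1 - b) hy0 hy (by linarith) (by linarith) (by linarith)
  have hBint : IntervalIntegrable (fun s : ℝ => (1 - a) * ((1 - s)⁻¹ - 1)) volume b a := by
    have := hB0.1.comp_sub_left 1
    simp only [sub_sub_cancel] at this
    exact this.symm
  have hBle : ∫ s in b..a, (1 - a) * ((1 - s)⁻¹ - 1) ≤ 4537 / 10000 * y := by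
    have e := intervalIntegral.integral_comp_sub_left (a := b) (b := a)
      (fun t : ℝ => (1 - a) * (t⁻¹ - 1)) 1
    rw [e]
    exact hB0.2
  have hGint : IntervalIntegrable G volume b a := by
    refine intervalIntegrable_const.sub (IntervalIntegrable.const_mul ?_ c)
    exact (hA.1.add intervalIntegrable_const).add hBint
  have hGval : ∫ s in b..a, G s = (a - b) - c * ((∫ s in b..a, b * (s⁻¹ - 1)) +
      2 * (x * y) * (a - b) + ∫ s in b..a, (1 - a) * ((1 - s)⁻¹ - 1)) := by
    simp only [hG]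
    rw [intervalIntegral.integral_sub intervalIntegrable_const
      (((hA.1.add intervalIntegrable_const).add hBint).const_mul c),
      intervalIntegral.integral_const_mul,
      intervalIntegral.integral_add (hA.1.add intervalIntegrable_const) hBint,
      intervalIntegral.integral_add hA.1 intervalIntegrable_const]
    simp only [intervalIntegral.integral_const, smul_eq_mul, mul_one]
    ring
  have hFmeas : Measurable F := by
    simp only [hF]
    fun_prop
  have hFint : IntervalIntegrable F volume b a := by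
    refine (intervalIntegrable_const (c := (1 : ℝ))).mono_fun hFmeas.aestronglyMeasurable ?_
    refine (ae_restrict_iff' measurableSet_uIoc).2 (Filter.Eventually.of_forall fun s hs => ?_)
    rw [uIoc_of_le hba] at hs
    have hs0 : 0 ≤ s := hb0.trans hs.1.le
    have hs1 : 0 ≤ 1 - s := by linarith [hs.2]
    simp only [hF, Real.norm_eq_abs, abs_one]
    rw [abs_of_nonneg (Real.sqrt_nonneg _)]
    apply Real.sqrt_le_one.2
    have : 0 ≤ (85 / 100 * (y - x) * s + 85 / 100 * x) ^ 2 / (π * (s * (1 - s))) := by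
      positivity
    linarith
  have hle : ∫ s in b..a, G s ≤ ∫ s in b..a, F s := by
    refine intervalIntegral.integral_mono_on_of_le_Ioo hba hGint hFint hFG
  -- final estimate
  have hxy : 2 * (x * y) ≤ 14143 / 100000 * (x + y) := by nlinarith
  have hxx : x ^ 2 ≤ 14143 / 100000 * x := by nlinarith
  have hyy : y ^ 2 ≤ 14143 / 100000 * y := by nlinarith
  have hloss : (∫ s in b..a, b * (s⁻¹ - 1)) + 2 * (x * y) * (a - b) +
      ∫ s in b..a, (1 - a) * ((1 - s)⁻¹ - 1) ≤ 5952 / 10000 * (x + y) := by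
    have : 2 * (x * y) * (a - b) ≤ 2 * (x * y) * 1 :=
      mul_le_mul_of_nonneg_left (by linarith) (by positivity)
    linarith [hA.2, hBle]
  have hcl : c * ((∫ s in b..a, b * (s⁻¹ - 1)) + 2 * (x * y) * (a - b) +
      ∫ s in b..a, (1 - a) * ((1 - s)⁻¹ - 1)) ≤ 735 / 10000 * (x + y) := by
    calc _ ≤ c * (5952 / 10000 * (x + y)) := mul_le_mul_of_nonneg_left hloss hc0
      _ ≤ 1233 / 10000 * (5952 / 10000 * (x + y)) :=
          mul_le_mul_of_nonneg_right hc1 (by positivity)
      _ ≤ _ := by nlinarith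
  have hv' : 85 / 100 * (y - x) * v + 85 / 100 * x ≥ 425 / 1000 * x + 238 / 1000 * y := by
    have h1 : x * (1 - v) ≥ x * (1 / 2) := mul_le_mul_of_nonneg_left (by linarith) hx0
    have h2 : y * v ≥ y * (28 / 100) := mul_le_mul_of_nonneg_left hv0 hy0
    linarith
  have hmain : 1 + 2 / 100 * (x + y) ≤
      85 / 100 * (y - x) * v + 85 / 100 * x + ∫ s in b..a, F s := by
    have h1 : ∫ s in b..a, G s ≥ 1 - x ^ 2 - y ^ 2 - 735 / 10000 * (x + y) := by
      rw [hGval]
      linarith
    linarith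
  refine ⟨85 / 100 * (y - x), 85 / 100 * x, hwb, ?_, ?_⟩
  · have h3 : (1 : ℝ) ≤ 1 + 2 / 100 * (x + y) := by
      have : 0 ≤ 2 / 100 * (x + y) := by positivity
      linarith
    exact h3.trans hmain
  · intro hne
    have : 0 < x + y := by
      rcases hne with h | h
      · have : 0 < x := Real.sqrt_pos.2 (lt_of_le_of_ne hb0 (Ne.symm h))
        linarith
      · have : 0 < y := Real.sqrt_pos.2 (by
          have := lt_of_le_of_ne ha1 h
          linarith)
        linarith
    have h3 : (1 : ℝ) < 1 + 2 / 100 * (x + y) := by linarith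
    exact h3.trans_le hmain

end Crest.Agent.R214.Corner
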