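import Crest.Prelude.Def_PeriodicPerimeter

/-!
# Row 214 (isoperimetric problem of the cubic flat three-torus): shared definitions

Frozen. Do not change. `Eu n` is Euclidean space; coordinate `0` is the slicing direction.
-/

set_option autoImplicit false

open MeasureTheory Crest.GeometryTopology.PeriodicPerimeter
open scoped ENNReal NNReal Topology

noncomputable section

namespace Crest.Agent.R214

/-- Euclidean space of dimension `n`. -/
abbrev Eu (n : ℕ) := EuclideanSpace ℝ (Fin n)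

/-- Prepend a coordinate. -/
def cons {n : ℕ} (t : ℝ) (y : Eu n) : Eu (n + 1) :=
  WithLp.toLp 2 (Fin.cons t (fun i => y i) : Fin (n + 1) → ℝ)

/-- Forget coordinate `0`. -/
def tl {n : ℕ} (x : Eu (n + 1)) : Eu n := WithLp.toLp 2 (fun i => x i.succ)

/-- Unit vector of coordinate `0`. -/
def e0 {n : ℕ} : Eu (n + 1) := EuclideanSpace.single 0 1

/-- Lattice periodic function. -/
def PerFun {n : ℕ} {α : Type*} (f : Eu n → α) : Prop :=
  ∀ v, HasIntegerCoords v → ∀ x, f (x + v) = f x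

/-- Total variation of a periodic function (dual definition). -/
def TV {n : ℕ} (f : Eu n → ℝ) : ℝ≥0∞ :=
  ⨆ φ : {φ : Eu n → Eu n // IsAdmissibleField φ},
    ENNReal.ofReal (∫ x in unitCell n, f x * divergence φ.1 x)

/-- Total variation of a `C¹` periodic function. -/
def VV {n : ℕ} (f : Eu n → ℝ) : ℝ := ∫ x in unitCell n, ‖fderiv ℝ f x‖

/-- Indicator function with real values. -/
def ind {n : ℕ} (A : Set (Eu n)) : Eu n → ℝ := A.indicator (fun _ => (1 : ℝ))

/-- Slice at height `t` of coordinate `0`. -/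
def sl {n : ℕ} (A : Set (Eu (n + 1))) (t : ℝ) : Set (Eu n) := {y | cons t y ∈ A}

/-- Line of `A` in direction `0` over `y`. -/
def ln {n : ℕ} (A : Set (Eu (n + 1))) (y : Eu n) : Set ℝ := {t | cons t y ∈ A}

/-- Length (per period) of the line of `A` over `y`. -/
def mln {n : ℕ} (A : Set (Eu (n + 1))) (y : Eu n) : ℝ := (volume (ln A y ∩ Set.Ico 0 1)).toReal

/-- Distance to the nearest integer. -/
def dZ (t : ℝ) : ℝ := |t - round t|

/-- Steiner symmetrization in direction `0` (centred at the integers). -/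
def St {n : ℕ} (A : Set (Eu (n + 1))) : Set (Eu (n + 1)) := {x | dZ (x 0) < mln A (tl x) / 2}

/-- Coordinate permutation of a set. -/
def pm {n : ℕ} (σ : Equiv.Perm (Fin n)) (A : Set (Eu n)) : Set (Eu n) :=
  {x | (WithLp.toLp 2 (fun i => x (σ i)) : Eu n) ∈ A}

/-- Translate of a set. -/
def tr {n : ℕ} (c : Eu n) (A : Set (Eu n)) : Set (Eu n) := {x | x - c ∈ A}

/-- Steiner symmetrization in direction `i`. -/
def StI {n : ℕ} (i : Fin (n + 1)) (A : Set (Eu (n + 1))) : Set (Eu (n + 1)) :=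
  pm (Equiv.swap 0 i) (St (pm (Equiv.swap 0 i) A))

/-- Fully symmetric decreasing periodic sets ("down-sets" in `dZ` of the coordinates). -/
def SymDown {n : ℕ} (A : Set (Eu n)) : Prop :=
  ∀ x y : Eu n, (∀ i, dZ (x i) ≤ dZ (y i)) → y ∈ A → x ∈ A

/-- Slice volume profile in the scaled variable `t ∈ [0,1]`, `x₀ = t/2`. -/
def prof {n : ℕ} (A : Set (Eu (n + 1))) (t : ℝ) : ℝ := periodicVolume (sl A (t / 2))

/-- Periodic ball of centre `c` and radius `ρ` (`ρ < 1/2`). -/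
def PB {n : ℕ} (c : Eu n) (ρ : ℝ) : Set (Eu n) := {x | ∑ i, dZ (x i - c i) ^ 2 < ρ ^ 2}

/-- Reflection of coordinate `0` at height `a`. -/
def rf {n : ℕ} (a : ℝ) (x : Eu (n + 1)) : Eu (n + 1) := cons (2 * a - x 0) (tl x)

/-- Polarization of a function at height `a` (towards `0`). -/
def pol {n : ℕ} (a : ℝ) (g : Eu (n + 1) → ℝ) (x : Eu (n + 1)) : ℝ :=
  if dZ (x 0) ≤ dZ (2 * a - x 0) then max (g x) (g (rf a x)) else min (g x) (g (rf a x))

/-- Weighted variation of a subset of the circle `ℝ/ℤ`. -/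
def W1 (θ : ℝ → ℝ) (S : Set ℝ) : ℝ≥0∞ :=
  ⨆ ψ : {ψ : ℝ → ℝ // ContDiff ℝ 1 ψ ∧ (∀ t, ψ (t + 1) = ψ t) ∧ ∀ t, |ψ t| ≤ θ t},
    ENNReal.ofReal (∫ t in S ∩ Set.Ico 0 1, deriv ψ.1 t)

/-- The isoperimetric profile in the normalization `perimeter / 2`. -/
def mm (v : ℝ) : ℝ :=
  min (min ((9 * Real.pi / 2) ^ ((1 : ℝ) / 3) * v ^ ((2 : ℝ) / 3)) (Real.sqrt (Real.pi * v))) 1

/-- Far trace of a planar symmetric down-set on the face `coordinate 0 = 1/2` (length in scaled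
coordinates, in `[0,1]`). -/
def tx (D : Set (Eu 2)) : ℝ := sInf (prof D '' Set.Ioo 0 1)

/-- Far trace on the face `coordinate 1 = 1/2`. -/
def ty (D : Set (Eu 2)) : ℝ := tx (pm (Equiv.swap 0 1) D)

/-- `F_k = ∫₀¹ √(1 - k² x²) dx`. -/
def Fk (k : ℝ) : ℝ := ∫ x in (0 : ℝ)..1, Real.sqrt (1 - k ^ 2 * x ^ 2)

/-- Top value of the profile, `s(0+)`. -/
def sTop (s : ℝ → ℝ) : ℝ := sSup (s '' Set.Ioo 0 1)

/-- Bottom value of the profile, `s(1-)`. -/
def sBot (s : ℝ → ℝ) : ℝ := sInf (s '' Set.Ioo 0 1)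

/-- The one-dimensional data attached to a fully symmetric set: `s` = slice areas, `L` = (a
measurable majorant of) half of the slice perimeters, `P2` = half of the perimeter. The last field
is the slicing (calibration) inequality. -/
structure OD (v P2 : ℝ) (s L : ℝ → ℝ) : Prop where
  anti : AntitoneOn s (Set.Ioo 0 1)
  nonneg : ∀ t ∈ Set.Ioo (0 : ℝ) 1, 0 ≤ s t
  le_one : ∀ t ∈ Set.Ioo (0 : ℝ) 1, s t ≤ 1
  vol : ∫ t in Set.Ioo (0 : ℝ) 1, s t = v
  Lmeas : Measurable L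
  Lnonneg : ∀ t, 0 ≤ L t
  Lint : IntegrableOn L (Set.Ioo 0 1)
  SB : ∀ (β : ℝ → ℝ) (Z : Set ℝ), Z.Finite → ContinuousOn β Zᶜ → Measurable β →
    (∀ σ, 0 ≤ β σ) → (∀ σ, β σ ≤ 1) →
    (∫ t in Set.Ioo (0 : ℝ) 1, Real.sqrt (1 - β (s t) ^ 2) * L t) +
      ∫ σ in (sBot s)..(sTop s), β σ ≤ P2

end Crest.Agent.R214
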