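import Crest.Agent.R214.Defs

/-!
# Row 214: further shared definitions (case distinction, one-dimensional alternatives). Frozen.
-/

set_option autoImplicit false
open MeasureTheory Crest.GeometryTopology.PeriodicPerimeter
open scoped ENNReal NNReal Topology
noncomputable section
namespace Crest.Agent.R214

/-- Case B: in direction `0` all slices touching exactly one far side have far trace `≤ h0`. -/
def CaseB (G : Set (Eu 3)) (h0 : ℝ) : Prop :=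
  ∀ᵐ t ∂(volume.restrict (Set.Ioo (0 : ℝ) 1)),
    (tx (sl G (t / 2)) = 0 ∧ ty (sl G (t / 2)) = 0) ∨
    (0 < tx (sl G (t / 2)) ∧ 0 < ty (sl G (t / 2))) ∨
    (0 < tx (sl G (t / 2)) ∧ ty (sl G (t / 2)) = 0 ∧ tx (sl G (t / 2)) ≤ h0) ∨
    (tx (sl G (t / 2)) = 0 ∧ 0 < ty (sl G (t / 2)) ∧ ty (sl G (t / 2)) ≤ h0)

/-- Case A: the slices below height `h0` touch both far sides. -/
def CaseA (G : Set (Eu 3)) (h0 : ℝ) : Prop :=
  ∃ q : ℝ, 0 ≤ q ∧ q ≤ 1 ∧ ∀ᵐ t ∂(volume.restrict (Set.Ioo (0 : ℝ) 1)),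
    (t < h0 → 0 < tx (sl G (t / 2)) ∧ 0 < ty (sl G (t / 2)) ∧ q ≤ tx (sl G (t / 2))) ∧
    ((tx (sl G (t / 2)) = 0 ∧ ty (sl G (t / 2)) = 0) ∨
      (0 < tx (sl G (t / 2)) ∧ 0 < ty (sl G (t / 2)) ∧ q ≤ tx (sl G (t / 2))) ∨
      (0 < tx (sl G (t / 2)) ∧ ty (sl G (t / 2)) = 0 ∧ tx (sl G (t / 2)) ≤ q))

/-- lower bound valid for slices of type 0 (touching no far side) -/
def Ty0 (s L : ℝ) : Prop := Real.sqrt (Real.pi * s) ≤ L

/-- lower bounds valid for slices of type 1 with far trace `≤ q` -/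
def Ty1 (q s L : ℝ) : Prop :=
  1 ≤ L ∧ ∀ k : ℝ, 0 ≤ k → k ≤ 1 → Fk k + k * (s - q) ≤ L

/-- lower bounds valid for slices of type 2 with far trace `≥ q` on the face `coordinate 1 = 1/2` -/
def Ty2 (q s L : ℝ) : Prop :=
  Real.sqrt (Real.pi * (1 - s)) ≤ L ∧
    ∀ η : ℝ, 0 < η → η ≤ 1 → 1 - q ≤ η → Real.pi * η ^ 2 / 4 ≤ 1 - s →
      (1 - s) / η + Real.pi * η / 4 ≤ L

/-- threshold used in the case distinction -/
def hZ : ℝ := 3 / 25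

/-- alternatives in Case B -/
def AltB (s L : ℝ) : Prop := Ty0 s L ∨ Ty1 hZ s L ∨ Ty2 0 s L

/-- alternatives in Case A at height `t` -/
def AltA (q t s L : ℝ) : Prop :=
  (t < hZ → Ty2 q s L) ∧ (Ty0 s L ∨ Ty1 q s L ∨ Ty2 q s L)

/-- equality cases of the one-dimensional problem -/
def SphereEq (v : ℝ) (s L : ℝ → ℝ) : Prop :=
  ∃ r : ℝ, 0 < r ∧ r ≤ 2 / 3 ∧ v = Real.pi / 6 * r ^ 3 ∧
    (∀ᵐ t ∂(volume.restrict (Set.Ioo (0 : ℝ) 1)), s t = Real.pi / 4 * max 0 (r ^ 2 - t ^ 2)) ∧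
    (∀ᵐ t ∂(volume.restrict (Set.Ioo (0 : ℝ) 1)), 0 < s t → L t = Real.sqrt (Real.pi * s t))

def ConstEq (v : ℝ) (s L : ℝ → ℝ) : Prop :=
  4 * Real.pi / 81 ≤ v ∧ v ≤ 1 / Real.pi ∧
    (∀ᵐ t ∂(volume.restrict (Set.Ioo (0 : ℝ) 1)), s t = v ∧ L t = Real.sqrt (Real.pi * v))

def SlabEq (v : ℝ) (s : ℝ → ℝ) : Prop :=
  1 / Real.pi ≤ v ∧ ∀ᵐ t ∂(volume.restrict (Set.Ioo (0 : ℝ) 1)), s t = 0 ∨ s t = 1

/-- tube in direction `j` with axis through `c` and cross-section radius `r` -/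
def TB (j : Fin 3) (c : Eu 3) (r : ℝ) : Set (Eu 3) :=
  {x | ∑ i ∈ Finset.univ.erase j, dZ (x i - c i) ^ 2 < r ^ 2}

/-- slab across coordinate `i` of width `w` centred at height `a` -/
def SL {n : ℕ} (i : Fin n) (a w : ℝ) : Set (Eu n) := {x | dZ (x i - a) < w / 2}

end Crest.Agent.R214
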