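import Crest.Agent.R214.Model

/-!
R214: profile numerics and the final glue: `MAIN` (inequality for `0 < V ≤ 1/2`) gives S0332,
`RIGID` (rigidity for `0 < V ≤ 1/2`) gives S0333.
-/

set_option autoImplicit false

open MeasureTheory Set Filter Topology Metric
open Crest.GeometryTopology.PeriodicPerimeter

noncomputable section

namespace Crest.Agent.R214.Inv

/-- the profile for `0 < W ≤ 1/2`. -/
def prof (W : ℝ) : ℝ :=
  min (min ((36 * Real.pi) ^ ((1 : ℝ) / 3) * W ^ ((2 : ℝ) / 3)) (2 * Real.sqrt (Real.pi * W))) 2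

/-- the ball radius for volume `W`. -/
def ballRad (W : ℝ) : ℝ := (3 * W / (4 * Real.pi)) ^ ((1 : ℝ) / 3)

theorem ballRad_nonneg {W : ℝ} (hW : 0 ≤ W) : 0 ≤ ballRad W := by
  have := Real.pi_pos
  unfold ballRad; positivity

theorem ballRad_pos {W : ℝ} (hW : 0 < W) : 0 < ballRad W := by
  have := Real.pi_pos
  unfold ballRad; positivity

theorem ballRad_cube {W : ℝ} (hW : 0 ≤ W) : ballRad W ^ 3 = 3 * W / (4 * Real.pi) := by
  have := Real.pi_pos
  unfold ballRad
  rw [← Real.rpow_natCast, ← Real.rpow_mul (by positivity)]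
  norm_num

theorem vol_eq_ballRad {W : ℝ} (hW : 0 ≤ W) : W = 4 / 3 * Real.pi * ballRad W ^ 3 := by
  have := Real.pi_pos
  rw [ballRad_cube hW]; field_simp

theorem sphere_eq {W : ℝ} (hW : 0 ≤ W) :
    (36 * Real.pi) ^ ((1 : ℝ) / 3) * W ^ ((2 : ℝ) / 3) = 4 * Real.pi * ballRad W ^ 2 := by
  have hpi := Real.pi_pos
  have h1 : ((36 * Real.pi) ^ ((1 : ℝ) / 3) * W ^ ((2 : ℝ) / 3)) ^ 3 = (4 * Real.pi * ballRad W ^ 2) ^ 3 := by
    rw [mul_pow, ← Real.rpow_natCast ((36 * Real.pi) ^ ((1 : ℝ) / 3)), ← Real.rpow_mul (by positivity),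
      ← Real.rpow_natCast (W ^ ((2 : ℝ) / 3)), ← Real.rpow_mul hW]
    have e1 : (1 : ℝ) / 3 * ((3 : ℕ) : ℝ) = 1 := by norm_num
    have e2 : (2 : ℝ) / 3 * ((3 : ℕ) : ℝ) = ((2 : ℕ) : ℝ) := by norm_num
    rw [e1, e2, Real.rpow_one, Real.rpow_natCast]
    have h2 := vol_eq_ballRad hW
    have h3 : W ^ 2 = (4 / 3 * Real.pi * ballRad W ^ 3) ^ 2 := by rw [← h2]
    rw [h3]; ring
  have h0 := ballRad_nonneg hW
  exact (pow_left_inj₀ (by positivity) (by positivity) (by norm_num)).1 h1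

theorem ballRad_le {W : ℝ} (hW : 0 ≤ W) : W ≤ 4 * Real.pi / 81 ↔ ballRad W ≤ 1 / 3 := by
  have hpi := Real.pi_pos
  have h0 := ballRad_nonneg hW
  rw [← pow_le_pow_iff_left₀ h0 (by norm_num : (0:ℝ) ≤ 1/3) (n := 3) (by norm_num), ballRad_cube hW,
    div_le_iff₀ (by positivity)]
  constructor <;> intro h <;> nlinarith

/-- cylinder term squared -/
theorem cyl_sq {W : ℝ} (hW : 0 ≤ W) : (2 * Real.sqrt (Real.pi * W)) ^ 2 = 4 * Real.pi * W := by
  have hpi := Real.pi_pos
  rw [mul_pow, Real.sq_sqrt (by positivity)]; ring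

theorem sphere_sq {W : ℝ} (hW : 0 ≤ W) :
    (4 * Real.pi * ballRad W ^ 2) ^ 2 = 4 * Real.pi * W * (3 * ballRad W) := by
  have h2 := vol_eq_ballRad hW
  have h3 : 4 * Real.pi * W * (3 * ballRad W)
      = 4 * Real.pi * (4 / 3 * Real.pi * ballRad W ^ 3) * (3 * ballRad W) := by rw [← h2]
  rw [h3]; ring

theorem sphere_le_cyl {W : ℝ} (hW : 0 ≤ W) (h : W ≤ 4 * Real.pi / 81) :
    (36 * Real.pi) ^ ((1 : ℝ) / 3) * W ^ ((2 : ℝ) / 3) ≤ 2 * Real.sqrt (Real.pi * W) := by
  have hpi := Real.pi_pos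
  have h0 := ballRad_nonneg hW
  rw [sphere_eq hW]
  refine (sq_le_sq₀ (by positivity) (by positivity)).1 ?_
  rw [sphere_sq hW, cyl_sq hW]
  have h1 := (ballRad_le hW).1 h
  have : 4 * Real.pi * W * (3 * ballRad W) ≤ 4 * Real.pi * W * 1 := by
    gcongr; linarith
  linarith

theorem cyl_le_sphere {W : ℝ} (hW : 0 ≤ W) (h : 4 * Real.pi / 81 ≤ W) :
    2 * Real.sqrt (Real.pi * W) ≤ (36 * Real.pi) ^ ((1 : ℝ) / 3) * W ^ ((2 : ℝ) / 3) := by
  have hpi := Real.pi_pos
  have h0 := ballRad_nonneg hW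
  rw [sphere_eq hW]
  refine (sq_le_sq₀ (by positivity) (by positivity)).1 ?_
  rw [sphere_sq hW, cyl_sq hW]
  have h1 : 1 / 3 ≤ ballRad W := by
    have h2 : (1/3 : ℝ) ^ 3 ≤ ballRad W ^ 3 := by
      rw [ballRad_cube hW, le_div_iff₀ (by positivity)]; nlinarith
    exact (pow_le_pow_iff_left₀ (by norm_num) h0 (by norm_num)).1 h2
  have : 4 * Real.pi * W * 1 ≤ 4 * Real.pi * W * (3 * ballRad W) := by
    gcongr; linarith
  linarith

theorem cyl_le_two {W : ℝ} (hW : 0 ≤ W) (h : W ≤ 1 / Real.pi) : 2 * Real.sqrt (Real.pi * W) ≤ 2 := by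
  have hpi := Real.pi_pos
  have h1 : Real.pi * W ≤ 1 := by rwa [le_div_iff₀ hpi, mul_comm] at h
  have : Real.sqrt (Real.pi * W) ≤ 1 := by
    rw [Real.sqrt_le_left zero_le_one]; simpa using h1
  linarith

theorem two_le_cyl {W : ℝ} (h : 1 / Real.pi ≤ W) : 2 ≤ 2 * Real.sqrt (Real.pi * W) := by
  have hpi := Real.pi_pos
  have h1 : 1 ≤ Real.pi * W := by rwa [div_le_iff₀ hpi, mul_comm] at h
  have : 1 ≤ Real.sqrt (Real.pi * W) := by
    rw [Real.one_le_sqrt]; exact h1
  linarith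

theorem thresholds : 4 * Real.pi / 81 ≤ 1 / Real.pi := by
  have hpi := Real.pi_pos
  have h := Real.pi_lt_d2
  rw [div_le_div_iff₀ (by norm_num) hpi]
  nlinarith

theorem inv_pi_lt_half : 1 / Real.pi < 1 / 2 := by
  have h := Real.pi_gt_three
  rw [div_lt_div_iff₀ (by positivity) (by norm_num)]
  linarith

/-- range 1: ball. -/
theorem prof_ball {W : ℝ} (hW : 0 ≤ W) (h : W ≤ 4 * Real.pi / 81) :
    prof W = 4 * Real.pi * ballRad W ^ 2 := by
  unfold prof
  rw [min_eq_left (sphere_le_cyl hW h), min_eq_left, sphere_eq hW]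
  exact (sphere_le_cyl hW h).trans (cyl_le_two hW (h.trans thresholds))

/-- range 2: tube. -/
theorem prof_tube {W : ℝ} (hW : 0 ≤ W) (h : 4 * Real.pi / 81 ≤ W) (h' : W ≤ 1 / Real.pi) :
    prof W = 2 * Real.sqrt (Real.pi * W) := by
  unfold prof
  rw [min_eq_right (cyl_le_sphere hW h), min_eq_left (cyl_le_two hW h')]

/-- range 3: slab. -/
theorem prof_slab {W : ℝ} (h : 1 / Real.pi ≤ W) : prof W = 2 := by
  have hW : 0 ≤ W := le_trans (by have := Real.pi_pos; positivity) h
  unfold prof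
  rw [min_eq_right (cyl_le_sphere hW (thresholds.trans h)), min_eq_right (two_le_cyl h)]

theorem tube_len {W : ℝ} (hW : 0 ≤ W) :
    2 * Real.sqrt (Real.pi * W) = 2 * Real.pi * Real.sqrt (W / Real.pi) := by
  have hpi := Real.pi_pos
  have h1 : Real.pi * W = Real.pi ^ 2 * (W / Real.pi) := by field_simp
  rw [h1, Real.sqrt_mul (by positivity), Real.sqrt_sq hpi.le]; ring

theorem tubeRad_le {W : ℝ} (h : W ≤ 1 / Real.pi) : Real.sqrt (W / Real.pi) ≤ 1 / 2 := by
  have hpi := Real.pi_gt_three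
  rw [Real.sqrt_le_left (by norm_num)]
  have h1 : W * Real.pi ≤ 1 := by rwa [le_div_iff₀ (by positivity)] at h
  rw [div_le_iff₀ (by positivity)]
  nlinarith

/-! ### model regions realise the profile from above -/

/-- the data of a model. -/
theorem model_ball {W : ℝ} (hW : 0 < W) (h : W ≤ 4 * Real.pi / 81) :
    MeasurableSet (periodicBall (ballRad W)) ∧ IsLatticePeriodic (periodicBall (ballRad W)) ∧
      periodicVolume (periodicBall (ballRad W)) = W ∧
      periodicPerimeter (periodicBall (ballRad W)) ≤ ENNReal.ofReal (prof W) := by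
  have h1 : ballRad W ≤ 1 / 2 := ((ballRad_le hW.le).1 h).trans (by norm_num)
  refine ⟨(isOpen_periodicBall _).measurableSet, periodic_periodicBall _, ?_, ?_⟩
  · rw [periodicVolume_periodicBall (ballRad_nonneg hW.le) h1, ← vol_eq_ballRad hW.le]
  · rw [prof_ball hW.le h]
    exact periodicPerimeter_periodicBall_le (ballRad_pos hW) h1

theorem model_tube {W : ℝ} (hW : 0 < W) (h : 4 * Real.pi / 81 ≤ W) (h' : W ≤ 1 / Real.pi) :
    MeasurableSet (periodicTube (Real.sqrt (W / Real.pi))) ∧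
      IsLatticePeriodic (periodicTube (Real.sqrt (W / Real.pi))) ∧
      periodicVolume (periodicTube (Real.sqrt (W / Real.pi))) = W ∧
      periodicPerimeter (periodicTube (Real.sqrt (W / Real.pi))) ≤ ENNReal.ofReal (prof W) := by
  have hpi := Real.pi_pos
  have h1 := tubeRad_le h'
  have h2 : 0 < Real.sqrt (W / Real.pi) := Real.sqrt_pos.2 (by positivity)
  refine ⟨(isOpen_periodicTube _).measurableSet, periodic_periodicTube _, ?_, ?_⟩
  · rw [periodicVolume_periodicTube h2.le h1, Real.sq_sqrt (by positivity)]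
    field_simp
  · rw [prof_tube hW.le h h', tube_len hW.le]
    exact periodicPerimeter_periodicTube_le h2 h1

theorem model_slab {W : ℝ} (h : 1 / Real.pi ≤ W) (h' : W ≤ 1) :
    MeasurableSet (periodicSlab W) ∧ IsLatticePeriodic (periodicSlab W) ∧
      periodicVolume (periodicSlab W) = W ∧
      periodicPerimeter (periodicSlab W) ≤ ENNReal.ofReal (prof W) := by
  have hpi := Real.pi_pos
  have hW : 0 < W := lt_of_lt_of_le (by positivity) h
  refine ⟨measurableSet_periodicSlab W, periodic_periodicSlab W,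
    periodicVolume_periodicSlab hW.le h', ?_⟩
  rw [prof_slab h]
  exact periodicPerimeter_periodicSlab_le hW h'

theorem exists_model {W : ℝ} (hW : 0 < W) (h' : W ≤ 1 / 2) :
    ∃ E : Set (EE 3), MeasurableSet E ∧ IsLatticePeriodic E ∧ periodicVolume E = W ∧
      periodicPerimeter E ≤ ENNReal.ofReal (prof W) := by
  rcases le_total W (4 * Real.pi / 81) with h | h
  · exact ⟨_, model_ball hW h⟩
  · rcases le_total W (1 / Real.pi) with h2 | h2
    · exact ⟨_, model_tube hW h h2⟩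
    · exact ⟨_, model_slab h2 (h'.trans (by norm_num))⟩

theorem standard_perimeter_le {W : ℝ} (hW : 0 < W) (h' : W ≤ 1 / 2) {E : Set (EE 3)}
    (h : IsStandardRegion W E) : periodicPerimeter E ≤ ENNReal.ofReal (prof W) := by
  rcases h with ⟨h, hc⟩ | ⟨h, h2, hc⟩ | ⟨h, hc⟩
  · obtain ⟨m1, m2, m3, m4⟩ := model_ball hW h
    rw [congr_periodicPerimeter_eq hc m1 m2]; exact m4
  · obtain ⟨m1, m2, m3, m4⟩ := model_tube hW h h2
    rw [congr_periodicPerimeter_eq hc m1 m2]; exact m4
  · obtain ⟨m1, m2, m3, m4⟩ := model_slab h (h'.trans (by norm_num))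
    rw [congr_periodicPerimeter_eq hc m1 m2]; exact m4

/-! ### glue -/

/-- The inequality for `0 < V ≤ 1/2`. -/
def MAIN : Prop := ∀ E : Set (EE 3), MeasurableSet E → IsLatticePeriodic E →
  0 < periodicVolume E → periodicVolume E ≤ 1 / 2 →
  ENNReal.ofReal (prof (periodicVolume E)) ≤ periodicPerimeter E

/-- Rigidity for `0 < V ≤ 1/2`. -/
def RIGID : Prop := ∀ E : Set (EE 3), MeasurableSet E → IsLatticePeriodic E →
  0 < periodicVolume E → periodicVolume E ≤ 1 / 2 →
  periodicPerimeter E = ENNReal.ofReal (prof (periodicVolume E)) →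
  IsStandardRegion (periodicVolume E) E

theorem MAIN.lower (hM : MAIN) {V : ℝ} (hV : 0 < V) (hV' : V < 1) {E : Set (EE 3)}
    (hE : MeasurableSet E) (hper : IsLatticePeriodic E) (hvol : periodicVolume E = V) :
    ENNReal.ofReal (prof (min V (1 - V))) ≤ periodicPerimeter E := by
  rcases le_total V (1 / 2) with h | h
  · rw [min_eq_left (by linarith)]
    have := hM E hE hper (by rw [hvol]; exact hV) (by rw [hvol]; exact h)
    rwa [hvol] at this
  · rw [min_eq_right (by linarith)]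
    have hc : periodicVolume Eᶜ = 1 - V := by rw [periodicVolume_compl hE, hvol]
    have := hM Eᶜ hE.compl (periodic_compl hper) (by rw [hc]; linarith) (by rw [hc]; linarith)
    rwa [hc, periodicPerimeter_compl hE] at this

theorem S0332_of_main (hM : MAIN) (V : ℝ) (hV : 0 < V) (hV' : V < 1) :
    (∀ E : Set (EuclideanSpace ℝ (Fin 3)), MeasurableSet E → IsLatticePeriodic E →
        periodicVolume E = V →
        ENNReal.ofReal (min (min ((36 * Real.pi) ^ ((1 : ℝ) / 3) * (min V (1 - V)) ^ ((2 : ℝ) / 3))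
          (2 * Real.sqrt (Real.pi * min V (1 - V)))) 2) ≤ periodicPerimeter E) ∧
      ∃ E : Set (EuclideanSpace ℝ (Fin 3)), MeasurableSet E ∧ IsLatticePeriodic E ∧
        periodicVolume E = V ∧
        periodicPerimeter E = ENNReal.ofReal (min (min ((36 * Real.pi) ^ ((1 : ℝ) / 3) * (min V (1 - V)) ^ ((2 : ℝ) / 3))
          (2 * Real.sqrt (Real.pi * min V (1 - V)))) 2) := by
  refine ⟨fun E hE hper hvol => hM.lower hV hV' hE hper hvol, ?_⟩
  rcases le_total V (1 / 2) with h | h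
  · obtain ⟨E, h1, h2, h3, h4⟩ := exists_model hV h
    refine ⟨E, h1, h2, h3, le_antisymm ?_ (hM.lower hV hV' h1 h2 h3)⟩
    rw [min_eq_left (by linarith : V ≤ 1 - V)]
    exact h4
  · obtain ⟨E, h1, h2, h3, h4⟩ := exists_model (W := 1 - V) (by linarith) (by linarith)
    have h5 : periodicVolume Eᶜ = V := by rw [periodicVolume_compl h1, h3]; ring
    refine ⟨Eᶜ, h1.compl, periodic_compl h2, h5, le_antisymm ?_
      (hM.lower hV hV' h1.compl (periodic_compl h2) h5)⟩
    rw [min_eq_right (by linarith : 1 - V ≤ V), periodicPerimeter_compl h1]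
    exact h4

theorem S0333_of_rigid (hM : MAIN) (hR : RIGID)
    (V : ℝ) (hV : 0 < V) (hV' : V < 1) (E : Set (EuclideanSpace ℝ (Fin 3)))
    (hE : MeasurableSet E) (hper : IsLatticePeriodic E) (hvol : periodicVolume E = V) :
    periodicPerimeter E = ENNReal.ofReal (min (min ((36 * Real.pi) ^ ((1 : ℝ) / 3) * (min V (1 - V)) ^ ((2 : ℝ) / 3))
          (2 * Real.sqrt (Real.pi * min V (1 - V)))) 2) ↔
      ((V ≤ 1 / 2 ∧ IsStandardRegion V E) ∨ (1 / 2 < V ∧ IsStandardRegion (1 - V) Eᶜ)) := by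
  have hlow := hM.lower hV hV' hE hper hvol
  have hc : periodicVolume Eᶜ = 1 - V := by rw [periodicVolume_compl hE, hvol]
  constructor
  · intro h
    rcases le_or_gt V (1 / 2) with h2 | h2
    · left
      refine ⟨h2, ?_⟩
      rw [min_eq_left (by linarith : V ≤ 1 - V)] at h
      have := hR E hE hper (by rw [hvol]; exact hV) (by rw [hvol]; exact h2) (by rw [hvol]; exact h)
      rwa [hvol] at this
    · right
      refine ⟨h2, ?_⟩
      rw [min_eq_right (by linarith : 1 - V ≤ V)] at h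
      have := hR Eᶜ hE.compl (periodic_compl hper) (by rw [hc]; linarith) (by rw [hc]; linarith)
        (by rw [hc, periodicPerimeter_compl hE]; exact h)
      rwa [hc] at this
  · rintro (⟨h2, hs⟩ | ⟨h2, hs⟩)
    · have h3 := standard_perimeter_le hV h2 hs
      refine le_antisymm ?_ hlow
      rw [min_eq_left (by linarith : V ≤ 1 - V)]
      exact h3
    · have h3 := standard_perimeter_le (by linarith : 0 < 1 - V) (by linarith) hs
      rw [periodicPerimeter_compl hE] at h3
      refine le_antisymm ?_ hlow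
      rw [min_eq_right (by linarith : 1 - V ≤ V)]
      exact h3

end Crest.Agent.R214.Inv
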