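import Mathlib
import Crest.Prelude.Def_PeriodicPerimeter
import Crest.Agent.R214.SteinerFib

/-!
# R214: successive Steiner symmetrisations in all coordinates
-/

open MeasureTheory Crest.GeometryTopology.PeriodicPerimeter Filter Topology
open scoped Pointwise ContDiff

namespace Crest.Agent.R214

variable {n : ℕ}

/-- symmetric decreasing in each coordinate implies jointly symmetric decreasing -/
theorem symDecAt_all {S : Set (EuclideanSpace ℝ (Fin n))} (h : ∀ j, SymDecAt j S)
    {x y : EuclideanSpace ℝ (Fin n)}
    (hxy : ∀ j, |y j - ((round (y j) : ℤ) : ℝ)| ≤ |x j - ((round (x j) : ℤ) : ℝ)|)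
    (hx : x ∈ S) : y ∈ S := by
  classical
  have key : ∀ s : Finset (Fin n), (WithLp.toLp 2 (fun j => if j ∈ s then y j else x j) :
      EuclideanSpace ℝ (Fin n)) ∈ S := by
    intro s
    induction s using Finset.induction_on with
    | empty => simpa using hx
    | insert a s ha ih =>
      refine h a _ ih _ ?_ ?_
      · intro k hk
        simp [hk]
      · simpa [ha] using hxy a
  have := key Finset.univ
  simpa using this

theorem symDecAt_iff_all {S : Set (EuclideanSpace ℝ (Fin n))} :
    (∀ j, SymDecAt j S) ↔ ∀ x y : EuclideanSpace ℝ (Fin n),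
      (∀ j, |y j - ((round (y j) : ℤ) : ℝ)| ≤ |x j - ((round (x j) : ℤ) : ℝ)|) →
      x ∈ S → y ∈ S := by
  constructor
  · intro h x y hxy hx
    exact symDecAt_all h hxy hx
  · intro h j x hx y hk hj
    refine h x y (fun k => ?_) hx
    by_cases hkj : k = j
    · subst hkj; exact hj
    · rw [hk k hkj]

/-- the full symmetrisation in `ℝ³` -/
noncomputable def steiner3 (S : Set (EuclideanSpace ℝ (Fin 3))) : Set (EuclideanSpace ℝ (Fin 3)) :=
  steiner 2 (steiner 1 (steiner 0 S))

/-- the full symmetrisation in `ℝ²` -/
noncomputable def steiner2 (S : Set (EuclideanSpace ℝ (Fin 2))) : Set (EuclideanSpace ℝ (Fin 2)) :=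
  steiner 1 (steiner 0 S)

section three

variable {S : Set (EuclideanSpace ℝ (Fin 3))} (hS : MeasurableSet S) (hper : IsLatticePeriodic S)
include hS hper

theorem measurableSet_steiner3 : MeasurableSet (steiner3 S) := by
  have m1 := measurableSet_steiner 0 hS hper
  have p1 := steiner_periodic 0 hS hper
  have m2 := measurableSet_steiner 1 m1 p1
  have p2 := steiner_periodic 1 m1 p1
  exact measurableSet_steiner 2 m2 p2

theorem steiner3_periodic : IsLatticePeriodic (steiner3 S) := by
  have m1 := measurableSet_steiner 0 hS hper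
  have p1 := steiner_periodic 0 hS hper
  have m2 := measurableSet_steiner 1 m1 p1
  have p2 := steiner_periodic 1 m1 p1
  exact steiner_periodic 2 m2 p2

theorem periodicVolume_steiner3 : periodicVolume (steiner3 S) = periodicVolume S := by
  have m1 := measurableSet_steiner 0 hS hper
  have p1 := steiner_periodic 0 hS hper
  have m2 := measurableSet_steiner 1 m1 p1
  have p2 := steiner_periodic 1 m1 p1
  unfold steiner3
  rw [periodicVolume_steiner 2 m2 p2, periodicVolume_steiner 1 m1 p1,
    periodicVolume_steiner 0 hS hper]

theorem periodicPerimeter_steiner3_le :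
    periodicPerimeter (steiner3 S) ≤ periodicPerimeter S := by
  have m1 := measurableSet_steiner 0 hS hper
  have p1 := steiner_periodic 0 hS hper
  have m2 := measurableSet_steiner 1 m1 p1
  have p2 := steiner_periodic 1 m1 p1
  exact (periodicPerimeter_steiner_le 2 m2 p2).trans
    ((periodicPerimeter_steiner_le 1 m1 p1).trans (periodicPerimeter_steiner_le 0 hS hper))

theorem symDecAt_steiner3 (j : Fin 3) : SymDecAt j (steiner3 S) := by
  have m1 := measurableSet_steiner 0 hS hper
  have p1 := steiner_periodic 0 hS hper
  have m2 := measurableSet_steiner 1 m1 p1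
  have p2 := steiner_periodic 1 m1 p1
  have s0 : SymDecAt 0 (steiner 0 S) := symDecAt_steiner_self 0 hS hper
  have s01 : SymDecAt 0 (steiner 1 (steiner 0 S)) := symDecAt_steiner 1 0 (by decide) m1 p1 s0
  have s11 : SymDecAt 1 (steiner 1 (steiner 0 S)) := symDecAt_steiner_self 1 m1 p1
  fin_cases j
  · exact symDecAt_steiner 2 0 (by decide) m2 p2 s01
  · exact symDecAt_steiner 2 1 (by decide) m2 p2 s11
  · exact symDecAt_steiner_self 2 m2 p2

/-- `steiner3 S` is a symmetric down-set, pointwise. -/
theorem steiner3_downset {x y : EuclideanSpace ℝ (Fin 3)}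
    (hxy : ∀ j, |y j - ((round (y j) : ℤ) : ℝ)| ≤ |x j - ((round (x j) : ℤ) : ℝ)|)
    (hx : x ∈ steiner3 S) : y ∈ steiner3 S :=
  symDecAt_all (symDecAt_steiner3 hS hper) hxy hx

end three

section two

variable {S : Set (EuclideanSpace ℝ (Fin 2))} (hS : MeasurableSet S) (hper : IsLatticePeriodic S)
include hS hper

theorem measurableSet_steiner2 : MeasurableSet (steiner2 S) :=
  measurableSet_steiner 1 (measurableSet_steiner 0 hS hper) (steiner_periodic 0 hS hper)

theorem steiner2_periodic : IsLatticePeriodic (steiner2 S) :=
  steiner_periodic 1 (measurableSet_steiner 0 hS hper) (steiner_periodic 0 hS hper)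

theorem periodicVolume_steiner2 : periodicVolume (steiner2 S) = periodicVolume S := by
  unfold steiner2
  rw [periodicVolume_steiner 1 (measurableSet_steiner 0 hS hper) (steiner_periodic 0 hS hper),
    periodicVolume_steiner 0 hS hper]

theorem periodicPerimeter_steiner2_le :
    periodicPerimeter (steiner2 S) ≤ periodicPerimeter S :=
  (periodicPerimeter_steiner_le 1 (measurableSet_steiner 0 hS hper)
    (steiner_periodic 0 hS hper)).trans (periodicPerimeter_steiner_le 0 hS hper)

theorem symDecAt_steiner2 (j : Fin 2) : SymDecAt j (steiner2 S) := by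
  have m1 := measurableSet_steiner 0 hS hper
  have p1 := steiner_periodic 0 hS hper
  fin_cases j
  · exact symDecAt_steiner 1 0 (by decide) m1 p1 (symDecAt_steiner_self 0 hS hper)
  · exact symDecAt_steiner_self 1 m1 p1

end two

end Crest.Agent.R214
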