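import Crest.Agent.R214.RigStd0
import Crest.Agent.R214.SteinerAll
import Crest.Agent.R214.Glue

set_option autoImplicit false

/-! Row 214: the standard regions `stdReg J r a` of `ℝ³` are (up to congruence and null sets) the
model regions of the statement; their volumes, the lower bound `#J * V / r` for their perimeter and
the final assembly of `RIGID`. -/

open MeasureTheory Set Filter Topology Crest.GeometryTopology.PeriodicPerimeter
open Crest.Agent.R214.Inv
open scoped ContDiff

noncomputable section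

namespace Crest.Agent.R214.Rig

theorem dd_sq_le (t : ℝ) (m : ℤ) : dd t ^ 2 ≤ (t - m) ^ 2 := by
  rw [← sq_abs (dd t), ← sq_abs (t - m)]
  exact pow_le_pow_left₀ (abs_nonneg _) (abs_dd_le t m) 2

theorem stdReg_zero_univ {r : ℝ} (hr : 0 < r) :
    stdReg (Finset.univ : Finset (Fin 3)) r 0 = periodicBall r := by
  ext x
  rw [mem_stdReg, sub_zero]
  constructor
  · intro h
    refine ⟨WithLp.toLp 2 fun i => (round (x i) : ℝ), fun i => ⟨round (x i), rfl⟩, ?_⟩
    rw [EuclideanSpace.dist_eq, Real.sqrt_lt' hr]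
    simpa [Real.dist_eq, dd, rho2] using h
  · rintro ⟨v, hv, h⟩
    rw [EuclideanSpace.dist_eq, Real.sqrt_lt' hr] at h
    refine lt_of_le_of_lt (Finset.sum_le_sum fun i _ => ?_) h
    obtain ⟨m, hm⟩ := hv i
    rw [Real.dist_eq, sq_abs, hm]
    exact dd_sq_le _ _

theorem stdReg_zero_tube (r : ℝ) :
    stdReg ({0, 1} : Finset (Fin 3)) r 0 = periodicTube r := by
  ext x
  rw [mem_stdReg, sub_zero]
  unfold rho2
  rw [Finset.sum_pair (by decide)]
  constructor
  · intro h
    exact ⟨round (x 0), round (x 1), h⟩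
  · rintro ⟨a, b, h⟩
    have h1 := dd_sq_le (x 0) a
    have h2 := dd_sq_le (x 1) b
    linarith

theorem stdReg_zero_slab {r : ℝ} (hr : 0 < r) :
    stdReg ({0} : Finset (Fin 3)) r 0 = (fun x : En 3 => x + r • ei 0) ⁻¹' slabPiece 0 (2 * r) := by
  ext x
  rw [mem_stdReg, sub_zero]
  unfold rho2
  rw [Finset.sum_singleton]
  have hx : (x + r • ei 0 : En 3) 0 = x 0 + r := by simp [ei]
  rw [mem_preimage]
  unfold slabPiece
  rw [mem_ofPred_eq, hx]
  constructor
  · intro h
    have h1 : |dd (x 0)| < r := abs_lt_of_sq_lt_sq h hr.le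
    unfold dd at h1
    rw [abs_lt] at h1
    exact ⟨round (x 0), by linarith, by linarith⟩
  · rintro ⟨a, h1, h2⟩
    have h3 : |x 0 - a| < r := by
      rw [abs_lt]
      constructor <;> linarith
    have h4 := abs_dd_le (x 0) a
    rw [← sq_abs]
    exact pow_lt_pow_left₀ (h4.trans_lt h3) (abs_nonneg _) two_ne_zero

/-- the cubic isometry `x ↦ (x (σ i) - a (σ i))_i` -/
def permSub (σ : Equiv.Perm (Fin 3)) (a x : En 3) : En 3 :=
  WithLp.toLp 2 fun i => x (σ i) - a (σ i)

theorem isCubic_permSub (σ : Equiv.Perm (Fin 3)) (a : En 3) : IsCubicIsometry (permSub σ a) :=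
  ⟨σ, fun _ => 1, WithLp.toLp 2 fun i => -a (σ i), fun _ => Or.inl rfl,
    fun x i => by simp only [permSub]; ring⟩

theorem stdReg_eq_preimage (σ : Equiv.Perm (Fin 3)) (J : Finset (Fin 3)) (r : ℝ) (a : En 3) :
    stdReg (J.map σ.toEmbedding) r a = permSub σ a ⁻¹' stdReg J r 0 := by
  ext x
  rw [mem_preimage, mem_stdReg, mem_stdReg, sub_zero]
  unfold rho2
  rw [Finset.sum_map]
  rfl

theorem congr_stdReg_map (σ : Equiv.Perm (Fin 3)) (J : Finset (Fin 3)) (r : ℝ) (a : En 3) :
    CongruentModNull (stdReg (J.map σ.toEmbedding) r a) (stdReg J r 0) := by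
  rw [stdReg_eq_preimage]
  exact congruentModNull_preimage (isCubic_permSub σ a) _

theorem congr_stdReg (J : Finset (Fin 3)) (r : ℝ) (a : En 3) :
    CongruentModNull (stdReg J r a) (stdReg J r 0) := by
  have h := congr_stdReg_map (Equiv.refl _) J r a
  rwa [Equiv.refl_toEmbedding, Finset.map_refl] at h

theorem exists_perm2 : ∀ J : Finset (Fin 3), J.card = 2 →
    ∃ σ : Equiv.Perm (Fin 3), ({0, 1} : Finset (Fin 3)).map σ.toEmbedding = J := by
  decide

theorem exists_perm1 : ∀ J : Finset (Fin 3), J.card = 1 →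
    ∃ σ : Equiv.Perm (Fin 3), ({0} : Finset (Fin 3)).map σ.toEmbedding = J := by
  decide

section congr

variable {E : Set (En 3)} {J : Finset (Fin 3)} {r : ℝ} {a : En 3}

theorem congr_of_ae (h : ∀ᵐ x, x ∈ E ↔ x ∈ stdReg J r a) :
    CongruentModNull E (stdReg J r a) := congruentModNull_of_ae (eventuallyEq_set.2 h)

theorem congr_ball (hJ : J.card = 3) (hr : 0 < r) (h : ∀ᵐ x, x ∈ E ↔ x ∈ stdReg J r a) :
    CongruentModNull E (periodicBall r) := by
  have hJ' : J = Finset.univ := by
    rw [← Finset.card_eq_iff_eq_univ, hJ]; rfl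
  subst hJ'
  rw [← stdReg_zero_univ hr]
  exact congr_trans (congr_of_ae h) (congr_stdReg _ r a)

theorem congr_tube (hJ : J.card = 2) (h : ∀ᵐ x, x ∈ E ↔ x ∈ stdReg J r a) :
    CongruentModNull E (periodicTube r) := by
  obtain ⟨σ, hσ⟩ := exists_perm2 J hJ
  rw [← stdReg_zero_tube]
  refine congr_trans (congr_of_ae h) ?_
  rw [← hσ]
  exact congr_stdReg_map σ _ r a

theorem congr_slab (hJ : J.card = 1) (hr : 0 < r) (h : ∀ᵐ x, x ∈ E ↔ x ∈ stdReg J r a) :
    CongruentModNull E (periodicSlab (2 * r)) := by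
  obtain ⟨σ, hσ⟩ := exists_perm1 J hJ
  refine congr_trans (congr_of_ae h) ?_
  rw [← hσ]
  refine congr_trans (congr_stdReg_map σ _ r a) ?_
  rw [stdReg_zero_slab hr]
  refine congr_trans (congruentModNull_preimage (isCubicIsometry_add _) _) ?_
  exact congruentModNull_of_ae (periodicSlab_ae_eq _).symm

theorem vol_ball (hJ : J.card = 3) (hr : 0 < r) (hr2 : r < 1 / 2)
    (h : ∀ᵐ x, x ∈ E ↔ x ∈ stdReg J r a) : periodicVolume E = 4 / 3 * Real.pi * r ^ 3 := by
  rw [congr_periodicVolume_eq (congr_ball hJ hr h) (isOpen_periodicBall r).measurableSet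
    (periodic_periodicBall r), periodicVolume_periodicBall hr.le hr2.le]

theorem vol_tube (hJ : J.card = 2) (hr : 0 < r) (hr2 : r < 1 / 2)
    (h : ∀ᵐ x, x ∈ E ↔ x ∈ stdReg J r a) : periodicVolume E = Real.pi * r ^ 2 := by
  rw [congr_periodicVolume_eq (congr_tube hJ h) (isOpen_periodicTube r).measurableSet
    (periodic_periodicTube r), periodicVolume_periodicTube hr.le hr2.le]

theorem vol_slab (hJ : J.card = 1) (hr : 0 < r) (hr2 : r < 1 / 2)
    (h : ∀ᵐ x, x ∈ E ↔ x ∈ stdReg J r a) : periodicVolume E = 2 * r := by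
  rw [congr_periodicVolume_eq (congr_slab hJ hr h) (measurableSet_periodicSlab _)
    (periodic_periodicSlab _), periodicVolume_periodicSlab (by linarith) (by linarith)]

theorem card_cases (hJ : J.Nonempty) : J.card = 3 ∨ J.card = 2 ∨ J.card = 1 := by
  have h1 := hJ.card_pos
  have h2 : J.card ≤ 3 := by simpa using Finset.card_le_univ J
  omega

/-- value of the volume ratio -/
theorem ratio_ball (hJ : J.card = 3) (hr : 0 < r) (hr2 : r < 1 / 2)
    (h : ∀ᵐ x, x ∈ E ↔ x ∈ stdReg J r a) :
    (J.card : ℝ) * periodicVolume E / r = 4 * Real.pi * r ^ 2 := by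
  rw [vol_ball hJ hr hr2 h, hJ]
  push_cast
  field_simp

theorem ratio_tube (hJ : J.card = 2) (hr : 0 < r) (hr2 : r < 1 / 2)
    (h : ∀ᵐ x, x ∈ E ↔ x ∈ stdReg J r a) :
    (J.card : ℝ) * periodicVolume E / r = 2 * Real.pi * r := by
  rw [vol_tube hJ hr hr2 h, hJ]
  push_cast
  field_simp

theorem ratio_slab (hJ : J.card = 1) (hr : 0 < r) (hr2 : r < 1 / 2)
    (h : ∀ᵐ x, x ∈ E ↔ x ∈ stdReg J r a) :
    (J.card : ℝ) * periodicVolume E / r = 2 := by
  rw [vol_slab hJ hr hr2 h, hJ]
  push_cast
  field_simp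

theorem ballRad_eq (hr : 0 < r) (hV : periodicVolume E = 4 / 3 * Real.pi * r ^ 3) :
    ballRad (periodicVolume E) = r := by
  have hpi := Real.pi_pos
  have h0 := ballRad_nonneg (periodicVolume_nonneg E)
  have h1 := ballRad_cube (periodicVolume_nonneg E)
  refine (pow_left_inj₀ h0 hr.le (by norm_num : (3 : ℕ) ≠ 0)).1 ?_
  rw [h1, hV]
  field_simp

theorem sqrt_pi_vol (hr : 0 < r) (hV : periodicVolume E = Real.pi * r ^ 2) :
    Real.sqrt (Real.pi * periodicVolume E) = Real.pi * r := by
  have hpi := Real.pi_pos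
  rw [hV, show Real.pi * (Real.pi * r ^ 2) = (Real.pi * r) ^ 2 by ring]
  exact Real.sqrt_sq (by positivity)

theorem sqrt_vol_div (hr : 0 < r) (hV : periodicVolume E = Real.pi * r ^ 2) :
    Real.sqrt (periodicVolume E / Real.pi) = r := by
  have hpi := Real.pi_pos
  rw [hV, show Real.pi * r ^ 2 / Real.pi = r ^ 2 by field_simp]
  exact Real.sqrt_sq hr.le

/-- the profile is at most the perimeter of the standard region -/
theorem prof_le_ratio (hJ : J.Nonempty) (hr : 0 < r) (hr2 : r < 1 / 2)
    (h : ∀ᵐ x, x ∈ E ↔ x ∈ stdReg J r a) :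
    Inv.prof (periodicVolume E) ≤ (J.card : ℝ) * periodicVolume E / r := by
  rcases card_cases hJ with hc | hc | hc
  · rw [ratio_ball hc hr hr2 h]
    refine (min_le_left _ _).trans ((min_le_left _ _).trans ?_)
    rw [sphere_eq (periodicVolume_nonneg E), ballRad_eq hr (vol_ball hc hr hr2 h)]
  · rw [ratio_tube hc hr hr2 h]
    refine (min_le_left _ _).trans ((min_le_right _ _).trans ?_)
    rw [sqrt_pi_vol hr (vol_tube hc hr hr2 h)]
    exact le_of_eq (by ring)
  · rw [ratio_slab hc hr hr2 h]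
    exact min_le_right _ _

/-- (d): a standard region whose ratio equals the profile is a standard region of the statement -/
theorem isStandardRegion_of_stdReg (hJ : J.Nonempty) (hr : 0 < r) (hr2 : r < 1 / 2)
    (h : ∀ᵐ x, x ∈ E ↔ x ∈ stdReg J r a)
    (hP : Inv.prof (periodicVolume E) = (J.card : ℝ) * periodicVolume E / r) :
    IsStandardRegion (periodicVolume E) E := by
  have hpi := Real.pi_pos
  have hV0 := periodicVolume_nonneg E
  rcases card_cases hJ with hc | hc | hc
  · left
    have hV := vol_ball hc hr hr2 h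
    have hb := ballRad_eq hr hV
    rw [ratio_ball hc hr hr2 h] at hP
    refine ⟨?_, ?_⟩
    · rw [ballRad_le hV0, hb]
      have h1 : 4 * Real.pi * r ^ 2 ≤ 2 * Real.sqrt (Real.pi * periodicVolume E) := by
        rw [← hP]
        exact (min_le_left _ _).trans (min_le_right _ _)
      have h2 : (4 * Real.pi * r ^ 2) ^ 2 ≤ (2 * Real.sqrt (Real.pi * periodicVolume E)) ^ 2 :=
        pow_le_pow_left₀ (by positivity) h1 2
      rw [cyl_sq hV0, hV] at h2
      have h3 : (16 / 3 * Real.pi ^ 2 * r ^ 3) * (3 * r) ≤ (16 / 3 * Real.pi ^ 2 * r ^ 3) * 1 := by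
        nlinarith
      have h4 := le_of_mul_le_mul_left h3 (by positivity)
      linarith
    · have h5 := congr_ball hc hr h
      have h6 : (3 * periodicVolume E / (4 * Real.pi)) ^ ((1 : ℝ) / 3) = r := hb
      rw [h6]
      exact h5
  · right; left
    have hV := vol_tube hc hr hr2 h
    rw [ratio_tube hc hr hr2 h] at hP
    refine ⟨?_, ?_, ?_⟩
    · have h1 : 2 * Real.sqrt (Real.pi * periodicVolume E) ≤
          4 * Real.pi * ballRad (periodicVolume E) ^ 2 := by
        rw [sqrt_pi_vol hr hV, ← sphere_eq hV0]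
        calc 2 * (Real.pi * r) = Inv.prof (periodicVolume E) := by rw [hP]; ring
          _ ≤ _ := (min_le_left _ _).trans (min_le_left _ _)
      have h2 : (2 * Real.sqrt (Real.pi * periodicVolume E)) ^ 2 ≤
          (4 * Real.pi * ballRad (periodicVolume E) ^ 2) ^ 2 :=
        pow_le_pow_left₀ (by positivity) h1 2
      rw [cyl_sq hV0, sphere_sq hV0] at h2
      have hVp : 0 < periodicVolume E := by rw [hV]; positivity
      have h3 : (1 : ℝ) ≤ 3 * ballRad (periodicVolume E) := by
        have h4 : (4 * Real.pi * periodicVolume E) * 1 ≤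
            (4 * Real.pi * periodicVolume E) * (3 * ballRad (periodicVolume E)) := by linarith
        exact le_of_mul_le_mul_left h4 (by positivity)
      rw [vol_eq_ballRad hV0]
      have h5 : (1 / 3 : ℝ) ^ 3 ≤ ballRad (periodicVolume E) ^ 3 :=
        pow_le_pow_left₀ (by norm_num) (by linarith) 3
      nlinarith
    · have h1 : 2 * Real.pi * r ≤ 2 := by
        rw [← hP]; exact min_le_right _ _
      rw [le_div_iff₀ hpi, hV]
      have h2 : Real.pi * r ≤ 1 := by linarith
      have h3 : 0 ≤ Real.pi * r := by positivity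
      nlinarith
    · rw [sqrt_vol_div hr hV]
      exact congr_tube hc h
  · right; right
    have hV := vol_slab hc hr hr2 h
    rw [ratio_slab hc hr hr2 h] at hP
    refine ⟨?_, ?_⟩
    · have h1 : 2 ≤ 2 * Real.sqrt (Real.pi * periodicVolume E) := by
        calc (2 : ℝ) = Inv.prof (periodicVolume E) := hP.symm
          _ ≤ _ := (min_le_left _ _).trans (min_le_right _ _)
      have h2 : (1 : ℝ) ≤ Real.sqrt (Real.pi * periodicVolume E) := by linarith
      rw [Real.one_le_sqrt] at h2
      rw [div_le_iff₀ hpi]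
      linarith
    · have h5 := congr_slab hc hr h
      rwa [← hV] at h5

/-- the perimeter of a standard region is at least `#J * V / r` (calibration). -/
theorem ratio_le_perimeter (hr : 0 < r) (hr2 : r < 1 / 2)
    (h : ∀ᵐ x, x ∈ E ↔ x ∈ stdReg J r a) :
    ENNReal.ofReal ((J.card : ℝ) * periodicVolume E / r) ≤ periodicPerimeter E := by
  have hc : CongruentModNull E (stdReg J r 0) := congr_trans (congr_of_ae h) (congr_stdReg J r a)
  rw [congr_periodicPerimeter_eq hc (measurableSet_stdReg J r 0) (stdReg_per J r 0),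
    congr_periodicVolume_eq hc (measurableSet_stdReg J r 0) (stdReg_per J r 0)]
  set c : ℝ := (J.card : ℝ) * periodicVolume (stdReg J r (0 : En 3)) / r with hcdef
  have key : ∀ lam : ℝ, lam ^ 2 < 1 →
      ENNReal.ofReal (lam * c) ≤ periodicPerimeter (stdReg J r (0 : En 3)) := by
    intro lam hlam
    have hadm : IsAdmissibleField (beta (n := 3) J r hr hr2 lam) :=
      ⟨(contDiff_beta J hr hr2).of_le (by norm_cast), fun v hv x => beta_per J hr hr2 v hv x,
        norm_beta_le J hr hr2 hlam⟩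
    refine le_trans (le_of_eq ?_) (le_iSup (fun φ : {φ : EuclideanSpace ℝ (Fin 3) →
      EuclideanSpace ℝ (Fin 3) // IsAdmissibleField φ} =>
      ENNReal.ofReal (∫ x in stdReg J r (0 : En 3) ∩ unitCell 3, divergence φ.1 x))
      ⟨beta (n := 3) J r hr hr2 lam, hadm⟩)
    congr 1
    have h1 : ∫ x in stdReg J r (0 : En 3) ∩ unitCell 3, divergence (beta (n := 3) J r hr hr2 lam) x
        = ∫ x in stdReg J r (0 : En 3) ∩ unitCell 3, lam / r * J.card := by
      refine setIntegral_congr_fun ((measurableSet_stdReg J r 0).inter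
        (Inv.measurableSet_unitCell 3)) fun x hx => ?_
      have hx1 := hx.1
      rw [mem_stdReg, sub_zero] at hx1
      exact divergence_beta J hr hr2 hlam hx1
    rw [h1, setIntegral_const, smul_eq_mul]
    have h2 : volume.real (stdReg J r (0 : En 3) ∩ unitCell 3) = periodicVolume (stdReg J r (0 : En 3)) :=
      rfl
    rw [h2, hcdef]
    ring
  have ht : Tendsto (fun k : ℕ => ENNReal.ofReal ((1 - 1 / ((k : ℝ) + 1)) * c)) atTop
      (𝓝 (ENNReal.ofReal c)) := by
    refine ENNReal.tendsto_ofReal ?_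
    have h1 : Tendsto (fun k : ℕ => (1 - 1 / ((k : ℝ) + 1)) * c) atTop (𝓝 ((1 - 0) * c)) :=
      (tendsto_const_nhds.sub tendsto_one_div_add_atTop_nhds_zero_nat).mul_const c
    simpa using h1
  refine le_of_tendsto' ht fun k => key _ ?_
  have hk : (0 : ℝ) < (k : ℝ) + 1 := by positivity
  have h1 : 0 < 1 / ((k : ℝ) + 1) := by positivity
  have h2 : 1 / ((k : ℝ) + 1) ≤ 1 := by
    rw [div_le_one hk]
    linarith [(Nat.cast_nonneg k : (0 : ℝ) ≤ k)]
  nlinarith

/-- a set of optimal perimeter which is a.e. a standard region is a standard region of the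
statement -/
theorem isStandardRegion_of_perimeter (hJ : J.Nonempty) (hr : 0 < r) (hr2 : r < 1 / 2)
    (h : ∀ᵐ x, x ∈ E ↔ x ∈ stdReg J r a)
    (hP : periodicPerimeter E = ENNReal.ofReal (Inv.prof (periodicVolume E)))
    (hV : 0 < periodicVolume E) :
    IsStandardRegion (periodicVolume E) E := by
  refine isStandardRegion_of_stdReg hJ hr hr2 h (le_antisymm (prof_le_ratio hJ hr hr2 h) ?_)
  have h1 := ratio_le_perimeter (J := J) hr hr2 h
  rw [hP] at h1
  have hc : (0 : ℝ) < J.card := by exact_mod_cast hJ.card_pos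
  have h2 : 0 < (J.card : ℝ) * periodicVolume E / r := by positivity
  by_contra hlt
  rw [not_le] at hlt
  exact absurd h1 (not_le.2 ((ENNReal.ofReal_lt_ofReal_iff h2).2 hlt))

end congr

/-- equality case for the symmetrised set -/
def EqSteiner : Prop := ∀ E : Set (En 3), MeasurableSet E → IsLatticePeriodic E →
  0 < periodicVolume E → periodicVolume E ≤ 1 / 2 →
  periodicPerimeter E = ENNReal.ofReal (Inv.prof (periodicVolume E)) →
  ∃ (J : Finset (Fin 3)) (r : ℝ), J.Nonempty ∧ 0 < r ∧ r < 1 / 2 ∧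
    ∀ᵐ x : En 3, x ∈ steiner3 E ↔ x ∈ stdReg J r 0

/-- rigidity of the chain of three Steiner symmetrisations (statement of `chain3`) -/
def Chain3 : Prop := ∀ E : Set (En 3), MeasurableSet E → IsLatticePeriodic E →
  periodicPerimeter E ≠ ⊤ → ∀ (J : Finset (Fin 3)) (r : ℝ), 0 < r → r < 1 / 2 →
  (∀ᵐ x : En 3, x ∈ steiner3 E ↔ x ∈ stdReg J r 0) →
  (periodicPerimeter E).toReal ≤ (J.card : ℝ) * periodicVolume E / r →
  ∃ a : En 3, ∀ᵐ x : En 3, x ∈ E ↔ x ∈ stdReg J r a

/-- **RIGID** from the equality case for symmetrised sets and the rigidity of symmetrisation. -/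
theorem RIGID_of (hEq : EqSteiner) (hCh : Chain3) : Inv.RIGID := by
  intro E hE hper hV hV' hP
  obtain ⟨J, r, hJ, hr, hr2, h⟩ := hEq E hE hper hV hV' hP
  have hvol : periodicVolume (steiner3 E) = periodicVolume E := periodicVolume_steiner3 hE hper
  have h1 : Inv.prof (periodicVolume E) ≤ (J.card : ℝ) * periodicVolume E / r := by
    have := prof_le_ratio hJ hr hr2 h
    rwa [hvol] at this
  have hnn : 0 ≤ (J.card : ℝ) * periodicVolume E / r := by positivity
  obtain ⟨a, ha⟩ := hCh E hE hper (by rw [hP]; exact ENNReal.ofReal_ne_top) J r hr hr2 h (by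
    rw [hP]
    refine le_trans ?_ h1
    have h0 : 0 ≤ Inv.prof (periodicVolume E) := by
      unfold Inv.prof
      have hpi := Real.pi_pos
      refine le_min (le_min ?_ ?_) (by norm_num)
      · have := periodicVolume_nonneg E
        positivity
      · positivity
    rw [ENNReal.toReal_ofReal h0])
  exact isStandardRegion_of_perimeter hJ hr hr2 ha hP hV

end Crest.Agent.R214.Rig
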