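import Crest.Agent.R214.RigField

set_option autoImplicit false

/-! Row 214, rigidity: first variation. -/

open MeasureTheory Set Filter Topology Crest.GeometryTopology.PeriodicPerimeter
open scoped ContDiff

noncomputable section

namespace Crest.Agent.R214.Rig

variable {n : ℕ}

/-- averaging over a coordinate circle, bounded measurable version -/
theorem integral_cell_line' {G : En n → ℝ} (hG : Measurable G) {C : ℝ} (hC : ∀ x, ‖G x‖ ≤ C)
    (hp : IsPer G) (i : Fin n) :
    ∫ x in unitCell n, ∫ t in (0:ℝ)..1, G (x + t • ei i) = ∫ x in unitCell n, G x := by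
  have hcont : Continuous (fun z : En n × ℝ => z.1 + z.2 • ei i) :=
    continuous_fst.add (continuous_snd.smul continuous_const)
  have hint : Integrable (Function.uncurry fun (x : En n) (t : ℝ) => G (x + t • ei i))
      (((volume : Measure (En n)).restrict (unitCell n)).prod
        ((volume : Measure ℝ).restrict (Ioc 0 1))) := by
    apply Integrable.of_bound (C := C)
    · exact (hG.comp hcont.measurable).aestronglyMeasurable
    · exact Eventually.of_forall fun z => hC _
  simp only [intervalIntegral.integral_of_le (zero_le_one (α := ℝ))]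
  rw [integral_integral_swap hint]
  have : ∀ t : ℝ, ∫ x in unitCell n, G (x + t • ei i) = ∫ x in unitCell n, G x := fun t =>
    integral_cell_add hp _
  simp only [this]
  simp

theorem measurable_line_integral {G : En n → ℝ} (hG : Measurable G) (i : Fin n) :
    Measurable (fun x : En n => ∫ t in (0:ℝ)..1, G (x + t • ei i)) := by
  have hcont : Continuous (fun z : En n × ℝ => z.1 + z.2 • ei i) :=
    continuous_fst.add (continuous_snd.smul continuous_const)
  simp only [intervalIntegral.integral_of_le (zero_le_one (α := ℝ))]
  exact ((hG.comp hcont.measurable).stronglyMeasurable.integral_prod_right').measurable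

theorem flen_eq (E : Set (En n)) (i : Fin n) (x : En n) :
    flen E i x = ∫ t in (0:ℝ)..1, chi E (x + t • ei i) := by
  unfold flen
  simp only [ind_fib]

theorem integral_flen {E : Set (En n)} (hE : MeasurableSet E) (hp : IsLatticePeriodic E)
    (i : Fin n) : ∫ x in unitCell n, flen E i x = periodicVolume E := by
  simp only [flen_eq]
  rw [integral_cell_line' (measurable_chi hE) (C := 1) _ (chi_per hp) i]
  · have := integral_chi_mul hE (fun _ => (1:ℝ))
    simp only [mul_one] at this
    rw [this, periodicVolume]
    simp [Measure.real]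
  · intro x
    rw [Real.norm_eq_abs, abs_of_nonneg (chi_nonneg E x)]
    exact chi_le_one E x

/-- a periodic set with zero volume is null -/
theorem null_of_periodicVolume {E : Set (En n)} (hp : IsLatticePeriodic E)
    (h : (volume : Measure (En n)) (E ∩ unitCell n) = 0) : (volume : Measure (En n)) E = 0 := by
  apply (isAddFundamentalDomain_unitCell n).measure_zero_of_invariant E
  · intro g
    ext x
    constructor
    · rintro ⟨y, hy, rfl⟩
      change (g : En n) + y ∈ E
      rw [add_comm]
      exact (hp _ ((mem_latt _).1 g.2) y).2 hy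
    · intro hx
      refine ⟨-(g : En n) + x, ?_, ?_⟩
      · rw [add_comm]
        have h1 : HasIntegerCoords (-(g : En n)) := (mem_latt _).1 ((latt n).neg_mem g.2)
        exact (hp _ h1 x).2 hx
      · change (g : En n) + (-(g : En n) + x) = x
        simp
  · exact h

/-- the model fibre length -/
def uu (J : Finset (Fin n)) (r : ℝ) (x : En n) : ℝ := 2 * Real.sqrt (r ^ 2 - rho2 J x)

theorem continuous_uu (J : Finset (Fin n)) (r : ℝ) : Continuous (uu (n := n) J r) :=
  continuous_const.mul (Real.continuous_sqrt.comp (continuous_const.sub (continuous_rho2 J)))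

theorem uu_nonneg (J : Finset (Fin n)) (r : ℝ) (x : En n) : 0 ≤ uu J r x := by
  unfold uu; positivity

theorem uu_pos {J : Finset (Fin n)} {r : ℝ} {x : En n} (h : rho2 J x < r ^ 2) : 0 < uu J r x := by
  unfold uu
  have := Real.sqrt_pos.2 (show 0 < r ^ 2 - rho2 J x by linarith)
  linarith

theorem uu_le {J : Finset (Fin n)} {r : ℝ} (hr : 0 < r) (x : En n) : uu J r x ≤ 2 * r := by
  unfold uu
  have : Real.sqrt (r ^ 2 - rho2 J x) ≤ r := by
    apply Real.sqrt_le_iff.2
    exact ⟨hr.le, by have := rho2_nonneg J x; linarith⟩
  linarith

theorem uu_zero {J : Finset (Fin n)} {r : ℝ} {x : En n} (h : r ^ 2 ≤ rho2 J x) : uu J r x = 0 := by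
  unfold uu
  rw [Real.sqrt_eq_zero_of_nonpos (by linarith), mul_zero]

theorem uu_per (J : Finset (Fin n)) (r : ℝ) : IsPer (uu (n := n) J r) := by
  intro v hv x
  unfold uu
  rw [rho2_per J v hv x]

theorem uu_sq {J : Finset (Fin n)} {r : ℝ} {x : En n} (h : rho2 J x ≤ r ^ 2) :
    uu J r x ^ 2 = 4 * (r ^ 2 - rho2 J x) := by
  unfold uu
  rw [mul_pow, Real.sq_sqrt (by linarith)]
  ring

/-- the standing hypotheses -/
structure Model (E : Set (En n)) (i : Fin n) (J : Finset (Fin n)) (r : ℝ) : Prop where
  meas : MeasurableSet E
  per : IsLatticePeriodic E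
  fin : periodicPerimeter E ≠ ⊤
  hi : i ∉ J
  hr : 0 < r
  hr2 : r < 1 / 2
  len : ∀ᵐ x : En n, flen E i x = uu J r x
  le : (periodicPerimeter E).toReal ≤ (1 + (J.card : ℝ)) * (∫ x in unitCell n, uu J r x) / r

section

variable {E : Set (En n)} {i : Fin n} {J : Finset (Fin n)} {r : ℝ}

/-- `E` is contained in the cylinder over the open disc, up to a null set -/
theorem Model.ae_mem (h : Model E i J r) : ∀ᵐ x : En n, x ∈ E → rho2 J x < r ^ 2 := by
  set S : Set (En n) := E ∩ {x | r ^ 2 ≤ rho2 J x} with hS
  have hSm : MeasurableSet S :=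
    h.meas.inter (measurableSet_le measurable_const (continuous_rho2 J).measurable)
  have hSp : IsLatticePeriodic S := by
    intro v hv x
    constructor
    · rintro ⟨h1, h2⟩
      refine ⟨(h.per v hv x).1 h1, ?_⟩
      change r ^ 2 ≤ rho2 J (x + v) at h2
      rwa [rho2_per J v hv x] at h2
    · rintro ⟨h1, h2⟩
      refine ⟨(h.per v hv x).2 h1, ?_⟩
      change r ^ 2 ≤ rho2 J (x + v)
      rwa [rho2_per J v hv x]
  have hlen : ∀ᵐ x : En n, flen S i x = 0 := by
    filter_upwards [h.len] with x hx
    by_cases hD : r ^ 2 ≤ rho2 J x
    · have : fib S i x = fib E i x := by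
        ext t
        constructor
        · rintro ⟨h1, _⟩; exact h1
        · intro h1
          refine ⟨h1, ?_⟩
          change r ^ 2 ≤ rho2 J (x + t • ei i)
          rwa [rho2_add_ei J h.hi]
      unfold flen at hx ⊢
      rw [this, hx, uu_zero hD]
    · have : fib S i x = ∅ := by
        ext t
        constructor
        · rintro ⟨_, h1⟩
          change r ^ 2 ≤ rho2 J (x + t • ei i) at h1
          rw [rho2_add_ei J h.hi] at h1
          exact absurd h1 hD
        · intro h1; exact absurd h1 (Set.notMem_empty _)
      unfold flen
      rw [this]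
      simp [ind]
  have h0 : periodicVolume S = 0 := by
    rw [← integral_flen hSm hSp i]
    have : ∫ x in unitCell n, flen S i x = ∫ x in unitCell n, (0:ℝ) := by
      apply integral_congr_ae
      exact ae_restrict_of_ae hlen
    rw [this]
    simp
  have h1 : (volume : Measure (En n)) (S ∩ unitCell n) = 0 := by
    unfold periodicVolume at h0
    rw [ENNReal.toReal_eq_zero_iff] at h0
    rcases h0 with h0 | h0
    · exact h0
    · exact absurd h0 (ne_top_of_le_ne_top (volume_unitCell_lt_top n).ne
        (measure_mono Set.inter_subset_right))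
  have h2 := null_of_periodicVolume hSp h1
  rw [ae_iff]
  refine measure_mono_null ?_ h2
  intro x hx
  simp only [Classical.not_imp, Set.mem_ofPred_eq] at hx
  exact ⟨hx.1, not_lt.1 hx.2⟩

theorem Model.volume_eq (h : Model E i J r) :
    periodicVolume E = ∫ x in unitCell n, uu J r x := by
  rw [← integral_flen h.meas h.per i]
  exact integral_congr_ae (ae_restrict_of_ae h.len)

theorem Model.integral_div_beta (h : Model E i J r) {lam : ℝ} (hlam : lam ^ 2 < 1) :
    ∫ x in E ∩ unitCell n, divergence (beta J r h.hr h.hr2 lam) x
      = lam * J.card * (∫ x in unitCell n, uu J r x) / r := by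
  have h1 : ∫ x in E ∩ unitCell n, divergence (beta J r h.hr h.hr2 lam) x
      = ∫ x in E ∩ unitCell n, (lam / r * J.card) := by
    apply integral_congr_ae
    have h2 := ae_restrict_mem (μ := (volume : Measure (En n)))
      (h.meas.inter (measurableSet_unitCell n))
    filter_upwards [h2, ae_restrict_of_ae h.ae_mem] with x hx hx2
    exact divergence_beta J h.hr h.hr2 hlam (hx2 hx.1)
  rw [h1, ← h.volume_eq, periodicVolume]
  simp only [integral_const, smul_eq_mul, Measure.real, Measure.restrict_apply_univ]
  ring

/-- vertical component of the model normal: `s0 = u / (2 r)` -/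
theorem s0_sq (hr : 0 < r) {x : En n} (hx : rho2 J x ≤ r ^ 2) :
    (uu J r x / (2 * r)) ^ 2 = 1 - rho2 J x / r ^ 2 := by
  rw [div_pow, uu_sq hx]
  field_simp
  ring

/-- the fibres of `E` are arcs -/
theorem Model.ae_arc (h : Model E i J r) : ∀ᵐ x : En n, rho2 J x < r ^ 2 →
    ∃ c, ∀ᵐ t, t ∈ fib E i x ↔ t ∈ arc c (uu J r x) := by
  -- the liminf of the variation
  set T : En n → ENNReal := fun x => liminf (fun k => ENNReal.ofReal (tau E i (fun _ => 1) k x)) atTop
    with hT
  have hTm : Measurable T := by
    apply Measurable.liminf
    intro k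
    exact (continuous_tau h.meas i continuous_const k).measurable.ennreal_ofReal
  set D : Set (En n) := {x | rho2 J x < r ^ 2} with hD
  have hDm : MeasurableSet D := (isOpen_D J).measurableSet
  have htau1 : ∀ k x, tau E i (fun _ => 1) k x = ∫ t in (0:ℝ)..1, |deriv (lineMoll E i x k) t| := by
    intro k x
    unfold tau
    simp
  -- T ≥ 2 on D
  have hT2 : ∀ᵐ x : En n, x ∈ D → 2 ≤ T x := by
    filter_upwards [ae_line_lim h.meas i, h.len] with x hx hlen hxD
    have hL0 : 0 < ∫ t in (0:ℝ)..1, ind (fib E i x) t := by
      change 0 < flen E i x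
      rw [hlen]; exact uu_pos hxD
    have hL1 : ∫ t in (0:ℝ)..1, ind (fib E i x) t < 1 := by
      change flen E i x < 1
      rw [hlen]; exact lt_of_le_of_lt (uu_le h.hr x) (by linarith [h.hr2])
    obtain ⟨p, q, hpq, hqp, hpA, hpZ, hqA, hqZ⟩ := exists_points
      (Z := {t | Tendsto (fun k => lineMoll E i x k t) atTop (𝓝 (ind (fib E i x) t))})
      (fib_per h.per i x) hx hL0 hL1
    have lp : Tendsto (fun k => lineMoll E i x k p) atTop (𝓝 1) := by
      have : Tendsto (fun k => lineMoll E i x k p) atTop (𝓝 (ind (fib E i x) p)) := hpZ
      rwa [ind_of_mem hpA] at this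
    have lq : Tendsto (fun k => lineMoll E i x k q) atTop (𝓝 0) := by
      have : Tendsto (fun k => lineMoll E i x k q) atTop (𝓝 (ind (fib E i x) q)) := hqZ
      rwa [ind_of_notMem hqA] at this
    apply ENNReal.le_of_forall_pos_le_add
    intro ε hε _
    have hε' : (0:ℝ) < ε := hε
    have h2 := two_sub_le (fun k => contDiff_lineMoll h.meas i x k)
      (fun k => periodic_line (moll_per h.per k) i x) hpq hqp lp lq hε'
    have h3 : ENNReal.ofReal (2 - ε) ≤ T x := by
      apply le_liminf_of_le
      · isBoundedDefault
      · filter_upwards [h2] with k hk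
        rw [htau1]
        exact ENNReal.ofReal_le_ofReal hk
    calc (2 : ENNReal) = ENNReal.ofReal ((2 - ε) + ε) := by
          rw [sub_add_cancel]; simp
      _ ≤ ENNReal.ofReal (2 - ε) + ENNReal.ofReal ε := ENNReal.ofReal_add_le
      _ ≤ T x + ε := by
          gcongr
          simp
  -- the test function m
  set m : En n → ℝ := D.indicator (fun x => uu J r x / (2 * r) * (min (T x) 3).toReal) with hm
  have hTfin : ∀ x, min (T x) 3 ≠ ⊤ := fun x => ne_top_of_le_ne_top (by norm_num) (min_le_right _ _)
  have hT3 : ∀ x, (min (T x) 3).toReal ≤ 3 := by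
    intro x
    have := ENNReal.toReal_mono (by norm_num : (3:ENNReal) ≠ ⊤) (min_le_right (T x) 3)
    simpa using this
  have hmm : Measurable m := by
    apply Measurable.indicator _ hDm
    exact ((continuous_uu J r).measurable.div_const _).mul ((hTm.min measurable_const).ennreal_toReal)
  have hs01 : ∀ x : En n, uu J r x / (2 * r) ≤ 1 := by
    intro x
    rw [div_le_one (by linarith [h.hr])]
    exact uu_le h.hr x
  have hs00 : ∀ x : En n, 0 ≤ uu J r x / (2 * r) := by
    intro x
    have := uu_nonneg J r x
    have := h.hr
    positivity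
  have hmi : IntegrableOn m (unitCell n) := by
    apply Measure.integrableOn_of_bounded (M := 3) (volume_unitCell_lt_top n).ne
      hmm.aestronglyMeasurable
    refine Eventually.of_forall fun x => ?_
    rw [hm]
    by_cases hx : x ∈ D
    · rw [Set.indicator_of_mem hx, Real.norm_eq_abs, abs_of_nonneg (mul_nonneg (hs00 x) ENNReal.toReal_nonneg)]
      calc _ ≤ 1 * 3 := mul_le_mul (hs01 x) (hT3 x) ENNReal.toReal_nonneg zero_le_one
        _ = 3 := by norm_num
    · rw [Set.indicator_of_notMem hx]
      simp
  have hI : ∫ x in unitCell n, m x ≤ (∫ x in unitCell n, uu J r x) / r := by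
    refine le_of_forall_pos_le_add fun δ hδ => ?_
    -- choose lam close to 1
    set V := ∫ x in unitCell n, uu J r x with hV
    have hV0 : 0 ≤ V := integral_nonneg fun x => uu_nonneg J r x
    obtain ⟨lam, hl0, hl1, hl2⟩ : ∃ lam : ℝ, 0 < lam ∧ lam < 1 ∧ (1 - lam) * (J.card * V / r) ≤ δ := by
      set K := J.card * V / r with hK
      have hK0 : 0 ≤ K := by have := h.hr; positivity
      refine ⟨1 - min (1/2) (δ / (K + 1)), ?_, ?_, ?_⟩
      · have := min_le_left (1/2) (δ / (K + 1))
        linarith
      · have : 0 < min (1/2) (δ / (K + 1)) := lt_min (by norm_num) (by positivity)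
        linarith
      · have h1 : min (1/2) (δ / (K + 1)) ≤ δ / (K + 1) := min_le_right _ _
        calc (1 - (1 - min (1/2) (δ / (K + 1)))) * K = min (1/2) (δ / (K + 1)) * K := by ring
          _ ≤ δ / (K + 1) * K := mul_le_mul_of_nonneg_right h1 hK0
          _ ≤ δ := by
            rw [div_mul_eq_mul_div, div_le_iff₀ (by positivity)]
            nlinarith
    have hlam : lam ^ 2 < 1 := by nlinarith
    have key := fatou_test (Ψ := beta J r h.hr h.hr2 lam) h.meas h.per h.fin i
      ((contDiff_beta J h.hr h.hr2).of_le (by norm_cast)) (beta_per J h.hr h.hr2)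
      (norm_beta_le J h.hr h.hr2 hlam) (fun x => beta_apply_i J h.hr h.hr2 x h.hi) (m := m) hmi ?_
    · rw [h.integral_div_beta hlam] at key
      have hle := h.le
      rw [← hV] at hle
      have e1 : (1 + (J.card : ℝ)) * V / r - lam * J.card * V / r
          = V / r + (1 - lam) * (J.card * V / r) := by ring
      rw [← hV] at key
      linarith
    · -- pointwise lower bound
      refine Eventually.of_forall fun x ε hε => ?_
      by_cases hx : x ∈ D
      · have hgl : ∀ t : ℝ, uu J r x / (2 * r)
            ≤ Real.sqrt (1 - ‖beta J r h.hr h.hr2 lam (x + t • ei i)‖ ^ 2) := by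
          intro t
          rw [beta_add_ei J h.hr h.hr2 h.hi, norm_beta_sq J h.hr h.hr2 hlam hx]
          apply Real.le_sqrt_of_sq_le
          rw [s0_sq h.hr (le_of_lt hx), div_pow]
          have h1 := rho2_nonneg J x
          have h2 : lam ^ 2 / r ^ 2 * rho2 J x ≤ rho2 J x / r ^ 2 := by
            rw [div_mul_eq_mul_div]
            apply div_le_div_of_nonneg_right _ (by positivity)
            nlinarith
          linarith
        have htau : ∀ k, uu J r x / (2 * r) * tau E i (fun _ => 1) k x
            ≤ tau E i (fun y => Real.sqrt (1 - ‖beta J r h.hr h.hr2 lam y‖ ^ 2)) k x := by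
          intro k
          have hdc : Continuous (deriv (lineMoll E i x k)) :=
            (contDiff_lineMoll h.meas i x k).continuous_deriv le_rfl
          unfold tau
          rw [← intervalIntegral.integral_const_mul]
          apply intervalIntegral.integral_mono_on zero_le_one
          · exact ((continuous_const.mul (continuous_const.mul hdc.abs))).intervalIntegrable _ _
          · have hb : Continuous (fun y : En n => Real.sqrt (1 - ‖beta J r h.hr h.hr2 lam y‖ ^ 2)) :=
              Real.continuous_sqrt.comp (continuous_const.sub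
                (((contDiff_beta J h.hr h.hr2).continuous).norm.pow 2))
            exact ((hb.comp (continuous_const.add (continuous_id.smul continuous_const))).mul
              hdc.abs).intervalIntegrable _ _
          · intro t _
            rw [one_mul]
            exact mul_le_mul_of_nonneg_right (hgl t) (abs_nonneg _)
        have hmx : m x = uu J r x / (2 * r) * (min (T x) 3).toReal := by
          rw [hm, Set.indicator_of_mem hx]
        have hs0pos : 0 < uu J r x / (2 * r) := by
          have := uu_pos (J := J) hx
          have := h.hr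
          positivity
        have hlt : ENNReal.ofReal ((min (T x) 3).toReal - ε) < T x ∨ T x = 0 := by
          by_cases hT0 : T x = 0
          · exact Or.inr hT0
          · left
            have h1 : 0 < min (T x) 3 := lt_min (pos_iff_ne_zero.2 hT0) (by norm_num)
            have h2 : 0 < (min (T x) 3).toReal := ENNReal.toReal_pos h1.ne' (hTfin x)
            calc ENNReal.ofReal ((min (T x) 3).toReal - ε)
                < ENNReal.ofReal ((min (T x) 3).toReal) := by
                  rw [ENNReal.ofReal_lt_ofReal_iff h2]; linarith
              _ = min (T x) 3 := ENNReal.ofReal_toReal (hTfin x)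
              _ ≤ T x := min_le_left _ _
        rcases hlt with hlt | hlt
        · have hev := eventually_lt_of_lt_liminf hlt
          filter_upwards [hev] with k hk
          have h1 : (min (T x) 3).toReal - ε ≤ tau E i (fun _ => 1) k x := by
            by_contra hcon
            push Not at hcon
            exact absurd (ENNReal.ofReal_le_ofReal hcon.le) (not_le.2 hk)
          rw [hmx]
          have h2 := mul_le_mul_of_nonneg_left h1 hs0pos.le
          have h3 := htau k
          have h4 : uu J r x / (2 * r) * ε ≤ ε := by
            have := hs01 x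
            nlinarith
          nlinarith
        · refine Eventually.of_forall fun k => ?_
          rw [hmx, hlt]
          simp only [zero_le, inf_of_le_left, ENNReal.toReal_zero, mul_zero, zero_sub]
          have := tau_nonneg E i (g := fun y => Real.sqrt (1 - ‖beta J r h.hr h.hr2 lam y‖ ^ 2))
            (fun _ => Real.sqrt_nonneg _) k x
          linarith
      · refine Eventually.of_forall fun k => ?_
        have : m x = 0 := by rw [hm, Set.indicator_of_notMem hx]
        rw [this]
        have := tau_nonneg E i (g := fun y => Real.sqrt (1 - ‖beta J r h.hr h.hr2 lam y‖ ^ 2))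
            (fun _ => Real.sqrt_nonneg _) k x
        linarith
  -- conclude T < 3 a.e. on D
  have hui : IntegrableOn (fun x => uu J r x / r) (unitCell n) :=
    IsPer.integrableOn (F := fun x => uu J r x / r)
      (fun v hv x => by simp only [uu_per J r v hv x]) ((continuous_uu J r).div_const _)
  have hge : ∀ᵐ x ∂((volume : Measure (En n)).restrict (unitCell n)), uu J r x / r ≤ m x := by
    filter_upwards [ae_restrict_of_ae hT2] with x hx
    by_cases hxD : x ∈ D
    · rw [hm, Set.indicator_of_mem hxD]
      have h1 : (2:ℝ) ≤ (min (T x) 3).toReal := by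
        have h2 : (2:ENNReal) ≤ min (T x) 3 := le_min (hx hxD) (by norm_num)
        have := ENNReal.toReal_mono (hTfin x) h2
        simpa using this
      have h3 := hs00 x
      have h4 : uu J r x / r = uu J r x / (2 * r) * 2 := by
        have := h.hr
        field_simp
      rw [h4]
      exact mul_le_mul_of_nonneg_left h1 h3
    · rw [hm, Set.indicator_of_notMem hxD, uu_zero (not_lt.1 hxD)]
      simp
  have heq : (fun x => m x - uu J r x / r) =ᵐ[(volume : Measure (En n)).restrict (unitCell n)] 0 := by
    have h0 : 0 ≤ᵐ[(volume : Measure (En n)).restrict (unitCell n)] fun x => m x - uu J r x / r := by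
      filter_upwards [hge] with x hx
      simp only [Pi.zero_apply]
      linarith
    have hint := hmi.sub hui
    rw [← integral_eq_zero_iff_of_nonneg_ae h0 hint]
    apply le_antisymm
    · rw [integral_sub hmi hui]
      have : ∫ x in unitCell n, uu J r x / r = (∫ x in unitCell n, uu J r x) / r :=
        integral_div _ _
      rw [this]
      linarith
    · exact integral_nonneg_of_ae h0
  have hTlt : ∀ᵐ x ∂((volume : Measure (En n)).restrict (unitCell n)), x ∈ D → T x < 3 := by
    filter_upwards [heq] with x hx hxD
    by_contra hcon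
    push Not at hcon
    have h1 : min (T x) 3 = 3 := min_eq_right hcon
    have h2 : m x = uu J r x / (2 * r) * 3 := by
      rw [hm, Set.indicator_of_mem hxD, h1]
      simp
    have h3 : m x - uu J r x / r = 0 := hx
    have h4 : uu J r x / r = uu J r x / (2 * r) * 2 := by
      have := h.hr
      field_simp
    have h5 : 0 < uu J r x / (2 * r) := by
      have := uu_pos (J := J) hxD
      have := h.hr
      positivity
    rw [h2, h4] at h3
    linarith
  -- from the cell to the whole space
  have hTper : IsPer T := by
    intro v hv x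
    rw [hT]
    simp only
    congr 1
    funext k
    congr 1
    unfold tau
    simp only [deriv_lineMoll h.meas]
    congr 1
    funext t
    have e : x + v + t • ei i = (x + t • ei i) + v := by abel
    have h2 := (moll_per h.per k).fderiv v hv (x + t • ei i)
    simp only at h2
    rw [e, h2]
  have hTlt' : ∀ᵐ x : En n, x ∈ D → T x < 3 := by
    set S : Set (En n) := {x | x ∈ D ∧ 3 ≤ T x} with hS
    have hSp : IsLatticePeriodic S := by
      intro v hv x
      change (rho2 J (x + v) < r ^ 2 ∧ 3 ≤ T (x + v)) ↔ (rho2 J x < r ^ 2 ∧ 3 ≤ T x)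
      rw [rho2_per J v hv x, hTper v hv x]
    have h1 : (volume : Measure (En n)) (S ∩ unitCell n) = 0 := by
      have hSm : MeasurableSet S := hDm.inter (measurableSet_le measurable_const hTm)
      rw [← Measure.restrict_apply hSm]
      rw [ae_iff] at hTlt
      refine measure_mono_null ?_ hTlt
      intro x hx
      simp only [Classical.not_imp, not_lt, Set.mem_ofPred_eq]
      exact hx
    have h2 := null_of_periodicVolume hSp h1
    rw [ae_iff]
    refine measure_mono_null ?_ h2
    intro x hx
    simp only [Classical.not_imp, not_lt, Set.mem_ofPred_eq] at hx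
    exact hx
  filter_upwards [hTlt', ae_line_lim h.meas i, h.len] with x hx hlim hlen hxD
  have hL0 : 0 < ∫ t in (0:ℝ)..1, ind (fib E i x) t := by
    change 0 < flen E i x
    rw [hlen]; exact uu_pos hxD
  have hL1 : ∫ t in (0:ℝ)..1, ind (fib E i x) t < 1 := by
    change flen E i x < 1
    rw [hlen]; exact lt_of_le_of_lt (uu_le h.hr x) (by linarith [h.hr2])
  have hfreq : ∃ᶠ k in atTop, ∫ t in (0:ℝ)..1, |deriv (lineMoll E i x k) t| < 3 := by
    have h1 := frequently_lt_of_liminf_lt (by isBoundedDefault) (hx hxD)
    refine h1.mono fun k hk => ?_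
    rw [htau1] at hk
    by_contra hcon
    push Not at hcon
    have := ENNReal.ofReal_le_ofReal hcon
    rw [ENNReal.ofReal_ofNat] at this
    exact absurd this (not_le.2 hk)
  obtain ⟨c, hc⟩ := exists_arc (measurableSet_fib h.meas i x) (fib_per h.per i x)
    (fun k => contDiff_lineMoll h.meas i x k) (fun k => periodic_line (moll_per h.per k) i x)
    hlim hfreq hL0 hL1
  refine ⟨c, ?_⟩
  have e : ∫ t in (0:ℝ)..1, ind (fib E i x) t = uu J r x := hlen
  rw [e] at hc
  exact hc

end

end Crest.Agent.R214.Rig
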