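import Crest.Agent.R214.SliceVol

/-!
Row 214, module G5 (dual slicing): the perimeter of the slices is a measurable function.
-/

set_option autoImplicit false

open MeasureTheory Set Filter Topology Crest.GeometryTopology.PeriodicPerimeter
open scoped ContDiff ENNReal

namespace Crest.Agent.R214.Slice

variable {m k N n : ℕ}

/-- the perimeter is the limit of the total variations of the mollifications -/
theorem perimeter_eq_liminf {S : Set (En k)} (hS : MeasurableSet S) (hp : IsLatticePeriodic S) :
    periodicPerimeter S =
      liminf (fun n => ENNReal.ofReal (∫ y in unitCell k, ‖fderiv ℝ (moll S n) y‖)) atTop := by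
  apply le_antisymm
  · refine perimeter_le_liminf hS (contDiff_moll hS) (moll_per hp) (fun n y => ?_)
      (ae_restrict_of_ae (ae_tendsto_moll hS))
    rw [abs_of_nonneg (moll_nonneg S n y)]
    exact moll_le_one hS n y
  · by_cases hP : periodicPerimeter S = ⊤
    · rw [hP]; exact le_top
    · have h : ∀ n, ENNReal.ofReal (∫ y in unitCell k, ‖fderiv ℝ (moll S n) y‖) ≤
          periodicPerimeter S := fun n =>
        (ENNReal.ofReal_le_iff_le_toReal hP).2 (integral_norm_fderiv_moll_le hS hp hP n)
      calc liminf (fun n => ENNReal.ofReal (∫ y in unitCell k, ‖fderiv ℝ (moll S n) y‖)) atTop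
          ≤ liminf (fun _ : ℕ => periodicPerimeter S) atTop :=
            liminf_le_liminf (Eventually.of_forall h) (by isBoundedDefault)
        _ = periodicPerimeter S := liminf_const _

theorem norm_functional (L : En k →L[ℝ] ℝ) :
    ‖L‖ = Real.sqrt (∑ i, (L (EuclideanSpace.single i 1)) ^ 2) := by
  set g := (InnerProductSpace.toDual ℝ (En k)).symm L with hg
  have h1 : ‖g‖ = ‖L‖ := by rw [hg, LinearIsometryEquiv.norm_map]
  rw [← h1, EuclideanSpace.norm_eq]
  congr 1
  refine Finset.sum_congr rfl fun i _ => ?_
  have h2 : L (EuclideanSpace.single i 1) = g i := by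
    have : L (EuclideanSpace.single i 1) = inner ℝ g (EuclideanSpace.single i (1:ℝ)) := by
      conv_lhs => rw [show L = InnerProductSpace.toDual ℝ (En k) g by rw [hg]; simp]
      rfl
    rw [this, EuclideanSpace.inner_single_right]
    simp
  rw [h2, Real.norm_eq_abs, sq_abs]

theorem measurable_moll_slice (e : Fin m ⊕ Fin k ≃ Fin N) {E : Set (En N)} (hE : MeasurableSet E)
    (j : ℕ) : StronglyMeasurable (fun p : En m × En k => moll (slice e E p.1) j p.2) := by
  have h1 : StronglyMeasurable (fun q : (En m × En k) × En k =>
      ker j q.2 * chi E (join e q.1.1 (q.1.2 - q.2))) := by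
    refine Measurable.stronglyMeasurable ?_
    refine Measurable.mul ((continuous_ker j).measurable.comp measurable_snd) ?_
    refine (measurable_chi hE).comp ?_
    have : Continuous (fun q : (En m × En k) × En k => join e q.1.1 (q.1.2 - q.2)) :=
      (continuous_join e).comp (by fun_prop : Continuous (fun q : (En m × En k) × En k =>
        (q.1.1, q.1.2 - q.2)))
    exact this.measurable
  have h2 := h1.integral_prod_right' (ν := (volume : Measure (En k)))
  have h3 : (fun p : En m × En k => moll (slice e E p.1) j p.2) =
      fun p : En m × En k => ∫ u, ker j u * chi E (join e p.1 (p.2 - u)) := by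
    ext p
    rw [moll_apply]
    simp only [chi_join]
  rw [h3]
  exact h2

theorem measurable_norm_fderiv_moll_slice (e : Fin m ⊕ Fin k ≃ Fin N) {E : Set (En N)}
    (hE : MeasurableSet E) (j : ℕ) :
    Measurable (fun p : En m × En k => ‖fderiv ℝ (moll (slice e E p.1) j) p.2‖) := by
  simp only [norm_functional]
  refine Measurable.sqrt (Finset.measurable_sum _ fun i _ => Measurable.pow_const ?_ 2)
  have hm := (measurable_moll_slice e hE j).measurable
  refine measurable_of_tendsto_metrizable (f := fun (l : ℕ) (p : En m × En k) =>
    ((l : ℝ) + 1) * (moll (slice e E p.1) j (p.2 + ((l : ℝ) + 1)⁻¹ • EuclideanSpace.single i 1) -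
      moll (slice e E p.1) j p.2)) (fun l => ?_) (tendsto_pi_nhds.2 fun p => ?_)
  · refine measurable_const.mul (Measurable.sub ?_ hm)
    exact hm.comp (measurable_fst.prodMk (measurable_snd.add_const _))
  · exact Inv.tendsto_slope_nat (((contDiff_moll (measurableSet_slice e hE p.1) j).differentiable
      (by simp)) p.2) _

/-- the perimeter of the slices is measurable -/
theorem measurable_perimeter_slice (e : Fin m ⊕ Fin k ≃ Fin N) {E : Set (En N)}
    (hE : MeasurableSet E) (hEp : IsLatticePeriodic E) :
    Measurable (fun x : En m => periodicPerimeter (slice e E x)) := by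
  have h : ∀ x : En m, periodicPerimeter (slice e E x) =
      liminf (fun j => ENNReal.ofReal (∫ y in unitCell k, ‖fderiv ℝ (moll (slice e E x) j) y‖))
        atTop := fun x =>
    perimeter_eq_liminf (measurableSet_slice e hE x) (slice_periodic e hEp x)
  simp only [h]
  refine Measurable.liminf fun j => Measurable.ennreal_ofReal ?_
  have h1 := (measurable_norm_fderiv_moll_slice e hE j).stronglyMeasurable
  exact (h1.integral_prod_right' (ν := (volume : Measure (En k)).restrict (unitCell k))).measurable

theorem measurable_perimeter_sliceAt (i : Fin (n + 1)) {E : Set (En (n + 1))}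
    (hE : MeasurableSet E) (hEp : IsLatticePeriodic E) :
    Measurable (fun t : ℝ => periodicPerimeter (sliceAt i E t)) := by
  simp only [sliceAt_eq]
  exact (measurable_perimeter_slice (spl i) hE hEp).comp oneL.continuous.measurable

theorem measurable_perimeter_fiberAt (i : Fin (n + 1)) {E : Set (En (n + 1))}
    (hE : MeasurableSet E) (hEp : IsLatticePeriodic E) :
    Measurable (fun y : En n => periodicPerimeter (fiberAt i E y)) := by
  simp only [fiberAt_eq]
  exact measurable_perimeter_slice (spr i) hE hEp

/-- `MS.DualIneq` for the slice perimeters truncated at any level -/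
theorem dualIneq_trunc (i : Fin (n + 1)) {E : Set (En (n + 1))} (hE : MeasurableSet E)
    (hEp : IsLatticePeriodic E) (hP : periodicPerimeter E ≠ ⊤) (M : ℝ) (hM : 0 ≤ M) :
    MS.BP (fun t => (min (periodicPerimeter (sliceAt i E t)) (ENNReal.ofReal M)).toReal) ∧
    MS.DualIneq (fun t => periodicVolume (sliceAt i E t))
      (fun t => (min (periodicPerimeter (sliceAt i E t)) (ENNReal.ofReal M)).toReal)
      (periodicPerimeter E).toReal := by
  have hBP : MS.BP (fun t => (min (periodicPerimeter (sliceAt i E t)) (ENNReal.ofReal M)).toReal) := by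
    refine ⟨?_, ⟨M, fun t => ?_⟩, fun t => ?_⟩
    · exact ((measurable_perimeter_sliceAt i hE hEp).min measurable_const).ennreal_toReal
    · rw [abs_of_nonneg ENNReal.toReal_nonneg]
      have := ENNReal.toReal_mono ENNReal.ofReal_ne_top
        (min_le_right (periodicPerimeter (sliceAt i E t)) (ENNReal.ofReal M))
      rwa [ENNReal.toReal_ofReal hM] at this
    · simp only [sliceAt_add_one i hEp]
  refine ⟨hBP, dualIneq i hE hEp hP hBP (ae_of_all _ fun t => ?_)⟩
  rw [ENNReal.ofReal_toReal]
  · exact min_le_left _ _
  · exact ne_top_of_le_ne_top ENNReal.ofReal_ne_top (min_le_right _ _)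

end Crest.Agent.R214.Slice
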