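import Crest.Agent.R214.DownPlane
import Crest.Agent.R214.SliceMeas
import Crest.Agent.R214.Exact
import Crest.Agent.R214.RigStd
import Crest.Agent.R214.RigVar

/-!
# R214: symmetric decreasing sets in space, slice areas, comparison with standard regions
-/

set_option autoImplicit false

open MeasureTheory Crest.GeometryTopology.PeriodicPerimeter Filter Topology Set

namespace Crest.Agent.R214.Down

open Crest.Agent.R214 Slice Rig

theorem pv_mono {n : ℕ} {D D' : Set (En n)} (h : D ⊆ D') : periodicVolume D ≤ periodicVolume D' := by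
  unfold periodicVolume
  refine ENNReal.toReal_mono ?_ (measure_mono (inter_subset_inter_left _ h))
  exact (Inv.volume_inter_unitCell_lt_top D').ne

theorem pv_nonneg {n : ℕ} (D : Set (En n)) : 0 ≤ periodicVolume D := ENNReal.toReal_nonneg

/-- slice areas -/
noncomputable def ar (i : Fin 3) (F : Set (En 3)) (t : ℝ) : ℝ := periodicVolume (sliceAt i F t)

theorem ar_nonneg (i : Fin 3) (F : Set (En 3)) (t : ℝ) : 0 ≤ ar i F t := pv_nonneg _

theorem ar_le_one (i : Fin 3) (F : Set (En 3)) (t : ℝ) : ar i F t ≤ 1 := Slice.periodicVolume_le_one _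

theorem ar_even {i : Fin 3} {F : Set (En 3)} (hd : SymDecAt i F) (t : ℝ) :
    ar i F (-t) = ar i F t := by
  unfold ar
  rw [sliceAt_congr hd (abs_cr_neg t)]

theorem ar_anti {i : Fin 3} {F : Set (En 3)} (hd : SymDecAt i F) :
    AntitoneOn (ar i F) (Ioo 0 (1 / 2)) := by
  intro x hx y hy hxy
  refine pv_mono (sliceAt_subset hd ?_ ?_)
  · rw [abs_of_pos hx.1, abs_of_pos hy.1]; exact hxy
  · rw [abs_of_pos hy.1]; exact hy.2.le

theorem ar_BP (i : Fin 3) {F : Set (En 3)} (hF : MeasurableSet F) (hper : IsLatticePeriodic F) :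
    MS.BP (ar i F) := area_BP i hF hper

theorem ar_int (i : Fin 3) {F : Set (En 3)} (hF : MeasurableSet F) :
    ∫ t in (0:ℝ)..1, ar i F t = periodicVolume F := intervalIntegral_area i hF

/-! ### comparison through slices -/

theorem ae_notMem_of_pv {n : ℕ} {S : Set (En n)} (hp : IsLatticePeriodic S)
    (h0 : periodicVolume S = 0) : ∀ᵐ x : En n, x ∉ S := by
  have h2 : (volume : Measure (En n)) (S ∩ unitCell n) = 0 := by
    unfold periodicVolume at h0
    rw [ENNReal.toReal_eq_zero_iff] at h0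
    rcases h0 with h0 | h0
    · exact h0
    · exact absurd h0 (Inv.volume_inter_unitCell_lt_top S).ne
  exact measure_eq_zero_iff_ae_notMem.1 (null_of_periodicVolume hp h2)

theorem diff_per {n : ℕ} {A B : Set (En n)} (hA : IsLatticePeriodic A) (hB : IsLatticePeriodic B) :
    IsLatticePeriodic (A \ B) := by
  intro v hv x
  simp only [Set.mem_sdiff, hA v hv x, hB v hv x]

theorem pv_diff {n : ℕ} {A B : Set (En n)} (hB : MeasurableSet B) :
    periodicVolume (A \ B) = periodicVolume A - periodicVolume (A ∩ B) := by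
  unfold periodicVolume
  have h1 : volume (A ∩ unitCell n) = volume (A ∩ B ∩ unitCell n) + volume ((A \ B) ∩ unitCell n) := by
    have := measure_inter_add_sdiff (μ := (volume : Measure (En n))) (A ∩ unitCell n) hB
    rw [← this]
    congr 2
    · ext x; simp only [mem_inter_iff]; tauto
    · ext x; simp only [mem_inter_iff, Set.mem_sdiff]; tauto
  rw [h1, ENNReal.toReal_add (Inv.volume_inter_unitCell_lt_top _).ne
    (Inv.volume_inter_unitCell_lt_top _).ne]
  ring

theorem ae_eq_of_slices (i : Fin 3) {F S : Set (En 3)} (hF : MeasurableSet F)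
    (hFp : IsLatticePeriodic F) (hS : MeasurableSet S) (hSp : IsLatticePeriodic S)
    (hvol : periodicVolume S = periodicVolume F)
    (h : ∀ᵐ t : ℝ, t ∈ Ioo (0:ℝ) 1 → periodicVolume (sliceAt i S t \ sliceAt i F t) = 0) :
    ∀ᵐ x : En 3, x ∈ F ↔ x ∈ S := by
  have h1 : periodicVolume (S \ F) = 0 := by
    rw [← intervalIntegral_area i (hS.diff hF)]
    have : ∫ t in (0:ℝ)..1, periodicVolume (sliceAt i (S \ F) t) = ∫ t in (0:ℝ)..1, (0:ℝ) := by
      refine intervalIntegral.integral_congr_ae ?_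
      filter_upwards [h, ZC.ae_ne 1] with t ht h1 htI
      rw [uIoc_of_le zero_le_one] at htI
      exact ht ⟨htI.1, lt_of_le_of_ne htI.2 h1⟩
    rw [this]; simp
  have h2 : periodicVolume (F \ S) = 0 := by
    have e1 := pv_diff (A := F) (B := S) hS
    have e2 := pv_diff (A := S) (B := F) hF
    rw [inter_comm] at e1
    linarith
  filter_upwards [ae_notMem_of_pv (diff_per hSp hFp) h1, ae_notMem_of_pv (diff_per hFp hSp) h2]
    with x hx1 hx2
  constructor
  · intro hx
    by_contra hxS
    exact hx2 ⟨hx, hxS⟩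
  · intro hx
    by_contra hxF
    exact hx1 ⟨hx, hxF⟩

/-! ### slices of standard regions -/

theorem rho2_map (i : Fin 3) (J : Finset (Fin 2)) (t : ℝ) (y : En 2) :
    rho2 (J.map i.succAboveEmb) (ins i t y) = rho2 J y := by
  unfold rho2
  rw [Finset.sum_map]
  refine Finset.sum_congr rfl fun j _ => ?_
  rw [Fin.succAboveEmb_apply, ins_succAbove]

theorem rho2_univ (i : Fin 3) (t : ℝ) (y : En 2) :
    rho2 Finset.univ (ins i t y) = dd t ^ 2 + rho2 Finset.univ y := by
  unfold rho2
  rw [Fin.sum_univ_succAbove _ i, ins_same]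
  congr 1
  refine Finset.sum_congr rfl fun j _ => ?_
  rw [ins_succAbove]

theorem rho2_single (i : Fin 3) (t : ℝ) (y : En 2) :
    rho2 {i} (ins i t y) = dd t ^ 2 := by
  unfold rho2
  rw [Finset.sum_singleton, ins_same]

theorem rho2_two (y : En 2) : rho2 Finset.univ y = cr (y 0) ^ 2 + cr (y 1) ^ 2 := by
  unfold rho2
  rw [Fin.sum_univ_two]
  rfl

theorem mem_slice_std (i : Fin 3) (J : Finset (Fin 3)) (r t : ℝ) (y : En 2) :
    y ∈ sliceAt i (stdReg J r 0) t ↔ rho2 J (ins i t y) < r ^ 2 := by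
  show ins i t y ∈ stdReg J r 0 ↔ _
  rw [mem_stdReg, sub_zero]

theorem pv_std_ball {J : Finset (Fin 3)} (hJ : J.card = 3) {r : ℝ} (hr : 0 < r) (hr2 : r < 1 / 2) :
    periodicVolume (stdReg J r (0 : En 3)) = 4 / 3 * Real.pi * r ^ 3 :=
  vol_ball (a := 0) hJ hr hr2 (Eventually.of_forall fun _ => Iff.rfl)

theorem pv_std_tube {J : Finset (Fin 3)} (hJ : J.card = 2) {r : ℝ} (hr : 0 < r) (hr2 : r < 1 / 2) :
    periodicVolume (stdReg J r (0 : En 3)) = Real.pi * r ^ 2 :=
  vol_tube (a := 0) hJ hr hr2 (Eventually.of_forall fun _ => Iff.rfl)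

theorem pv_std_slab {J : Finset (Fin 3)} (hJ : J.card = 1) {r : ℝ} (hr : 0 < r) (hr2 : r < 1 / 2) :
    periodicVolume (stdReg J r (0 : En 3)) = 2 * r :=
  vol_slab (a := 0) hJ hr hr2 (Eventually.of_forall fun _ => Iff.rfl)

/-! ### bound valid in every direction -/

/-- (half of the) lower bound for all slices -/
noncomputable def Jany (s : ℝ) : ℝ :=
  min (Real.sqrt (Real.pi * s)) (min 1 (Real.sqrt (Real.pi * (1 - s))))

theorem Jany_pos {s : ℝ} (h0 : 0 < s) (h1 : s < 1) : 0 < Jany s := by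
  have hpi := Real.pi_pos
  refine lt_min (Real.sqrt_pos.2 (by positivity)) (lt_min one_pos (Real.sqrt_pos.2 ?_))
  have : 0 < 1 - s := by linarith
  positivity

theorem Jany_nonneg (s : ℝ) : 0 ≤ Jany s :=
  le_min (Real.sqrt_nonneg _) (le_min zero_le_one (Real.sqrt_nonneg _))

theorem Jany_le_one (s : ℝ) : Jany s ≤ 1 := (min_le_right _ _).trans (min_le_left _ _)

theorem any_bound {F : Set (En 3)} (hF : MeasurableSet F) (hper : IsLatticePeriodic F)
    (hd : ∀ j, SymDecAt j F) (i : Fin 3) (t : ℝ) :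
    ENNReal.ofReal (2 * Jany (ar i F t)) ≤ periodicPerimeter (sliceAt i F t) := by
  have hS := Slice.measurableSet_sliceAt i hF t
  have hp := Slice.sliceAt_periodic i hper t
  have hd2 : ∀ j : Fin 2, SymDecAt j (sliceAt i F t) := fun j => symDecAt_sliceAt (hd _) _
  have h01 : (0 : Fin 2) ≠ 1 := by decide
  unfold ar
  set s := periodicVolume (sliceAt i F t) with hs
  have m1 : Jany s ≤ Real.sqrt (Real.pi * s) := min_le_left _ _
  have m2 : Jany s ≤ 1 := (min_le_right _ _).trans (min_le_left _ _)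
  have m3 : Jany s ≤ Real.sqrt (Real.pi * (1 - s)) := (min_le_right _ _).trans (min_le_right _ _)
  have m4 : Jany s ≤ max 1 (Tfun (s - 1)) := m2.trans (le_max_left _ _)
  by_cases c1 : Touch 0 1 (sliceAt i F t)
  · by_cases c2 : Touch 1 0 (sliceAt i F t)
    · exact le_trans (ENNReal.ofReal_le_ofReal (by linarith))
        (planar_type2_sqrt h01 hS hp (hd2 0) (hd2 1) c1 c2)
    · refine le_trans (ENNReal.ofReal_le_ofReal (by linarith))
        (planar_type1 h01 hS hp (hd2 0) (hd2 1) c1 c2 (q := 1) (by norm_num) ?_)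
      intro h' h1' h2' hA
      linarith
  · by_cases c2 : Touch 1 0 (sliceAt i F t)
    · refine le_trans (ENNReal.ofReal_le_ofReal (by linarith))
        (planar_type1 h01.symm hS hp (hd2 1) (hd2 0) c2 c1 (q := 1) (by norm_num) ?_)
      intro h' h1' h2' hA
      linarith
    · exact le_trans (ENNReal.ofReal_le_ofReal (by linarith))
        (planar_type0 h01 hS hp (hd2 0) (hd2 1) c1 c2)

end Crest.Agent.R214.Down
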