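import Crest.Agent.R214.EqProfile

/-!
# R214: equality profiles of ball and disc (helper937)
-/

open MeasureTheory Set Filter Topology

namespace Crest.Agent.R214.MS

/-- change of variables `y = R² - τ²` -/
theorem cov_sq {R : ℝ} (hR : 0 ≤ R) {g : ℝ → ℝ} (hg : Continuous g) :
    ∫ y in (0:ℝ)..(R ^ 2), g (Real.sqrt (R ^ 2 - y)) = ∫ τ in (0:ℝ)..R, 2 * (τ * g τ) := by
  have h1 := intervalIntegral.integral_comp_mul_deriv (a := 0) (b := R)
    (f := fun τ => R ^ 2 - τ ^ 2) (f' := fun τ => -(2 * τ))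
    (g := fun y => g (Real.sqrt (R ^ 2 - y))) (fun x _ => by
      have := (hasDerivAt_pow 2 x).const_sub (R ^ 2)
      simpa using this) (by fun_prop) (by fun_prop)
  simp only [Function.comp_def, sub_self, ne_eq, OfNat.ofNat_ne_zero, not_false_eq_true, zero_pow,
    sub_zero, sub_sub_cancel] at h1
  have h2 : ∫ x in (0:ℝ)..R, g (Real.sqrt (x ^ 2)) * -(2 * x)
      = -∫ τ in (0:ℝ)..R, 2 * (τ * g τ) := by
    rw [← intervalIntegral.integral_neg]
    refine intervalIntegral.integral_congr fun x hx => ?_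
    rw [uIcc_of_le hR] at hx
    rw [Real.sqrt_sq hx.1]; ring
  rw [h2] at h1
  rw [intervalIntegral.integral_symm, ← h1, neg_neg]

theorem mem_Icc_of_even {s : ℝ → ℝ} (hper : Function.Periodic s 1) (hse : ∀ t, s (-t) = s t)
    {S : Set ℝ} (h : ∀ t ∈ Ioo (0:ℝ) (1 / 2), s t ∈ S) :
    ∀ t ∈ Ioo (0:ℝ) 1, t ≠ 1 / 2 → s t ∈ S := by
  intro t ht hne
  rcases lt_or_gt_of_ne hne with h1 | h1
  · exact h t ⟨ht.1, h1⟩
  · have : s t = s (1 - t) := by
      rw [← hse t, ← hper (-t)]; congr 1; ring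
    rw [this]
    exact h _ ⟨by linarith [ht.2], by linarith⟩

theorem ae_Ioo_ne : ∀ᵐ t : ℝ ∂(volume.restrict (Ioo (0:ℝ) 1)), t ∈ Ioo (0:ℝ) 1 ∧ t ≠ 1 / 2 := by
  have h1 : ∀ᵐ t : ℝ, t ≠ 1 / 2 := by
    have : (volume : Measure ℝ) {(1 / 2 : ℝ)} = 0 := by simp
    exact compl_mem_ae_iff.2 this
  filter_upwards [ae_restrict_mem measurableSet_Ioo, ae_restrict_of_ae h1] with t a b using ⟨a, b⟩

/-- integrals over `0..1` as set integrals on `Ioo` -/
theorem int01 (f : ℝ → ℝ) : ∫ t in (0:ℝ)..1, f t = ∫ t in Ioo (0:ℝ) 1, f t := by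
  rw [intervalIntegral.integral_of_le zero_le_one, integral_Ioc_eq_integral_Ioo]

/-- the angle function for the ball -/
noncomputable def Tb (A σ : ℝ) : ℝ := Real.sqrt (max 0 (1 - max 0 σ / A))

theorem Tb_cont (A : ℝ) : Continuous (Tb A) := by
  unfold Tb
  exact (continuous_const.max (continuous_const.sub
    ((continuous_const.max continuous_id).div_const A))).sqrt

theorem Tb_nonneg (A σ : ℝ) : 0 ≤ Tb A σ := Real.sqrt_nonneg _

theorem Tb_abs {A : ℝ} (hA : 0 < A) (σ : ℝ) : |Tb A σ| ≤ 1 := by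
  rw [abs_of_nonneg (Tb_nonneg A σ)]
  unfold Tb
  refine Real.sqrt_le_one.2 (max_le zero_le_one ?_)
  have : 0 ≤ max 0 σ / A := div_nonneg (le_max_left _ _) hA.le
  linarith

theorem Tb_sq {A : ℝ} (hA : 0 < A) {σ : ℝ} (h : σ ∈ Icc 0 A) : Tb A σ ^ 2 = 1 - σ / A := by
  unfold Tb
  rw [max_eq_right h.1, max_eq_right, Real.sq_sqrt]
  · have := (div_le_one hA).2 h.2; linarith
  · have := (div_le_one hA).2 h.2; linarith

theorem Tb_int {A : ℝ} (hA : 0 < A) : ∫ x in (0:ℝ)..A, Tb A x = 2 / 3 * A := by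
  have h1 : ∫ x in (0:ℝ)..A, Tb A x = ∫ x in (0:ℝ)..A, (1 - x / A) ^ ((1:ℝ) / 2) := by
    refine intervalIntegral.integral_congr fun x hx => ?_
    rw [uIcc_of_le hA.le] at hx
    simp only [Tb]
    have h2 : 0 ≤ 1 - x / A := by
      have := (div_le_one hA).2 hx.2; linarith
    rw [max_eq_right hx.1, max_eq_right h2, Real.sqrt_eq_rpow]
  rw [h1]
  have h3 := intervalIntegral.integral_comp_sub_div (a := (0:ℝ)) (b := A)
    (fun y : ℝ => y ^ ((1:ℝ) / 2)) hA.ne' 1
  rw [h3, div_self hA.ne', zero_div, sub_self, sub_zero, integral_rpow (Or.inl (by norm_num))]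
  norm_num
  ring

set_option maxHeartbeats 3200000 in
/-- **ball profile**: at equality the slice areas are those of the ball of radius `r` -/
theorem ball_profile {s l : ℝ → ℝ} (hs : BP s) (hl : BP l) (hl0 : ∀ t, 0 ≤ l t)
    (hse : ∀ t, s (-t) = s t) (hanti : AntitoneOn s (Ioo 0 (1 / 2)))
    (hs0 : ∀ t ∈ Ioo (0:ℝ) (1 / 2), 0 ≤ s t) {P r : ℝ} (hr : 0 < r) (H : DualIneq s l P)
    (hP : P ≤ 4 * Real.pi * r ^ 2) (hV : ∫ t in (0:ℝ)..1, s t = 4 / 3 * Real.pi * r ^ 3)
    (hlow : ∀ᵐ t : ℝ ∂(volume.restrict (Ioo (0:ℝ) 1)), 0 < s t →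
      2 * Real.sqrt (Real.pi * s t) ≤ l t)
    {A : ℝ} (hA : Tendsto s (𝓝[>] 0) (𝓝 A)) (hB : Tendsto s (𝓝[<] (1 / 2)) (𝓝 0)) :
    A = Real.pi * r ^ 2 ∧
      (∀ t ∈ Ioo (0:ℝ) (1 / 2), s t = Real.pi * (r ^ 2 - (min t r) ^ 2)) ∧
      (∀ᵐ t : ℝ ∂(volume.restrict (Ioo (0:ℝ) 1)), 0 < s t →
        l t = 2 * Real.sqrt (Real.pi * s t)) := by
  have hpi := Real.pi_pos
  -- bounds for s
  obtain ⟨A', hA', hle', -⟩ := exists_right_lim hs hanti le_rfl (by norm_num : (0:ℝ) < 1 / 2)
  have hAA : A' = A := tendsto_nhds_unique hA' hA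
  rw [hAA] at hle'
  have hsA : ∀ t ∈ Ioo (0:ℝ) (1 / 2), s t ∈ Icc 0 A := fun t ht => ⟨hs0 t ht, hle' t ht⟩
  have hsA1 := mem_Icc_of_even hs.per hse hsA
  have hA0 : 0 < A := by
    by_contra hcon
    rw [not_lt] at hcon
    have h1 : ∫ t in (0:ℝ)..1, s t ≤ 0 := by
      rw [int01]
      refine integral_nonpos_of_ae ?_
      filter_upwards [ae_Ioo_ne] with t ht
      exact (hsA1 t ht.1 ht.2).2.trans hcon
    rw [hV] at h1
    have : 0 < 4 / 3 * Real.pi * r ^ 3 := by positivity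
    linarith
  have hIs : Integrable s (volume.restrict (Ioo (0:ℝ) 1)) := by
    have := hs.intervalIntegrable 0 1
    rwa [intervalIntegrable_iff_integrableOn_Ioo_of_le zero_le_one] at this
  have hTm : Measurable fun t => Tb A (s t) := (Tb_cont A).measurable.comp hs.meas
  have hIq : Integrable (fun t => Real.sqrt (1 - Tb A (s t) ^ 2) * l t)
      (volume.restrict (Ioo (0:ℝ) 1)) := by
    obtain ⟨C, hC⟩ := hl.bdd
    refine Integrable.of_bound (((measurable_const.sub (hTm.pow_const 2)).sqrt).mul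
      hl.meas).aestronglyMeasurable (1 * C) (Eventually.of_forall fun t => ?_)
    rw [norm_mul, Real.norm_eq_abs, Real.norm_eq_abs, abs_of_nonneg (Real.sqrt_nonneg _)]
    exact mul_le_mul (Real.sqrt_le_one.2 (by nlinarith [sq_nonneg (Tb A (s t))])) (hC t)
      (abs_nonneg _) zero_le_one
  -- pointwise lower bound
  have hpt : ∀ᵐ t : ℝ ∂(volume.restrict (Ioo (0:ℝ) 1)),
      2 * Real.sqrt (Real.pi / A) * s t ≤ Real.sqrt (1 - Tb A (s t) ^ 2) * l t := by
    filter_upwards [ae_Ioo_ne, hlow] with t ht hlt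
    have hst := hsA1 t ht.1 ht.2
    rw [Tb_sq hA0 hst, sub_sub_cancel]
    rcases eq_or_lt_of_le hst.1 with h0 | h0
    · rw [← h0]; simp
    · have e : 2 * Real.sqrt (Real.pi / A) * s t
          = Real.sqrt (s t / A) * (2 * Real.sqrt (Real.pi * s t)) := by
        rw [Real.sqrt_div hpi.le, Real.sqrt_div h0.le, Real.sqrt_mul hpi.le]
        have h2 : Real.sqrt (s t) * Real.sqrt (s t) = s t := Real.mul_self_sqrt h0.le
        have h3 : Real.sqrt A ≠ 0 := (Real.sqrt_pos.2 hA0).ne'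
        field_simp
        nlinarith
      rw [e]
      exact mul_le_mul_of_nonneg_left (hlt h0) (Real.sqrt_nonneg _)
  have hint : 2 * Real.sqrt (Real.pi / A) * (4 / 3 * Real.pi * r ^ 3)
      ≤ ∫ t in (0:ℝ)..1, Real.sqrt (1 - Tb A (s t) ^ 2) * l t := by
    rw [← hV, ← intervalIntegral.integral_const_mul, int01, int01]
    exact integral_mono_ae (hIs.const_mul _) hIq hpt
  have hms := mono_sub_one hs hl hse H (Tb_cont A) (Tb_abs hA0) hA hB hanti
  rw [Tb_int hA0] at hms
  -- determine A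
  have hAr : A = Real.pi * r ^ 2 := by
    set a := Real.sqrt A with ha
    set p := Real.sqrt Real.pi with hp
    have ha0 : 0 < a := Real.sqrt_pos.2 hA0
    have hp0 : 0 < p := Real.sqrt_pos.2 hpi
    have ha2 : a ^ 2 = A := Real.sq_sqrt hA0.le
    have hp2 : p ^ 2 = Real.pi := Real.sq_sqrt hpi.le
    rw [Real.sqrt_div hpi.le, ← ha, ← hp, ← hp2] at hint
    rw [← hp2] at hP
    rw [← ha2] at hms
    have h1 : 2 * (p / a) * (4 / 3 * p ^ 2 * r ^ 3) + 2 * (2 / 3 * a ^ 2) ≤ 4 * p ^ 2 * r ^ 2 := by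
      rw [← ha2] at hint
      linarith
    have h2 : 2 * (p / a) * (4 / 3 * p ^ 2 * r ^ 3) * a = 8 / 3 * p ^ 3 * r ^ 3 := by
      field_simp; ring
    have h3 : 8 / 3 * p ^ 3 * r ^ 3 + 4 / 3 * a ^ 3 ≤ 4 * p ^ 2 * r ^ 2 * a := by
      have := mul_le_mul_of_nonneg_right h1 ha0.le
      nlinarith
    have h4 : (a - p * r) ^ 2 * (a + 2 * (p * r)) ≤ 0 := by nlinarith
    have h5 : 0 < a + 2 * (p * r) := by positivity
    have h6 : (a - p * r) ^ 2 ≤ 0 := by
      by_contra hcon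
      rw [not_le] at hcon
      nlinarith
    have h7 : a = p * r := by
      have := pow_eq_zero_iff (two_ne_zero) |>.1 (le_antisymm h6 (sq_nonneg _))
      linarith
    rw [← ha2, h7, mul_pow, hp2]
  have hsqA : Real.sqrt (Real.pi / A) = 1 / r := by
    rw [hAr, show Real.pi / (Real.pi * r ^ 2) = (1 / r) ^ 2 by field_simp]
    exact Real.sqrt_sq (by positivity)
  have hlo2 : 8 / 3 * Real.pi * r ^ 2 ≤ ∫ t in (0:ℝ)..1, Real.sqrt (1 - Tb A (s t) ^ 2) * l t := by
    have e : 2 * Real.sqrt (Real.pi / A) * (4 / 3 * Real.pi * r ^ 3) = 8 / 3 * Real.pi * r ^ 2 := by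
      rw [hsqA]; field_simp; ring
    rwa [e] at hint
  have heq : P ≤ (∫ t in (0:ℝ)..1, Real.sqrt (1 - Tb A (s t) ^ 2) * l t)
      + 2 * (∫ x in (0:ℝ)..A, Tb A x) := by
    rw [Tb_int hA0]
    have : 2 * (2 / 3 * A) = 4 / 3 * Real.pi * r ^ 2 := by rw [hAr]; ring
    linarith
  -- l is determined
  have hint_eq : ∫ t in Ioo (0:ℝ) 1, (Real.sqrt (1 - Tb A (s t) ^ 2) * l t
      - 2 * Real.sqrt (Real.pi / A) * s t) = 0 := by
    rw [integral_sub hIq (hIs.const_mul _), ← int01, integral_const_mul, ← int01, hV]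
    have e : 2 * Real.sqrt (Real.pi / A) * (4 / 3 * Real.pi * r ^ 3) = 8 / 3 * Real.pi * r ^ 2 := by
      rw [hsqA]; field_simp; ring
    rw [e]
    have e2 : 2 * (2 / 3 * A) = 4 / 3 * Real.pi * r ^ 2 := by rw [hAr]; ring
    rw [e2] at hms
    linarith
  have hae0 : ∀ᵐ t : ℝ ∂(volume.restrict (Ioo (0:ℝ) 1)), Real.sqrt (1 - Tb A (s t) ^ 2) * l t
      = 2 * Real.sqrt (Real.pi / A) * s t := by
    have h1 := (integral_eq_zero_iff_of_nonneg_ae (by
      filter_upwards [hpt] with t ht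
      simpa using ht) (hIq.sub (hIs.const_mul _))).1 hint_eq
    filter_upwards [h1] with t ht
    have : Real.sqrt (1 - Tb A (s t) ^ 2) * l t - 2 * Real.sqrt (Real.pi / A) * s t = 0 := ht
    linarith
  have hlae : ∀ᵐ t : ℝ ∂(volume.restrict (Ioo (0:ℝ) 1)), 0 < s t →
      l t = 2 * Real.sqrt (Real.pi * s t) := by
    filter_upwards [ae_Ioo_ne, hae0] with t ht h1 h0
    have hst := hsA1 t ht.1 ht.2
    rw [Tb_sq hA0 hst, sub_sub_cancel] at h1
    have e : 2 * Real.sqrt (Real.pi / A) * s t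
          = Real.sqrt (s t / A) * (2 * Real.sqrt (Real.pi * s t)) := by
      rw [Real.sqrt_div hpi.le, Real.sqrt_div h0.le, Real.sqrt_mul hpi.le]
      have h2 : Real.sqrt (s t) * Real.sqrt (s t) = s t := Real.mul_self_sqrt h0.le
      have h3 : Real.sqrt A ≠ 0 := (Real.sqrt_pos.2 hA0).ne'
      field_simp
      nlinarith
    rw [e] at h1
    exact mul_left_cancel₀ (Real.sqrt_pos.2 (div_pos h0 hA0)).ne' h1
  refine ⟨hAr, ?_, hlae⟩
  -- the profile
  set u : ℝ → ℝ := fun t => r * Tb A (s t) with hu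
  have hum : Measurable u := hTm.const_mul r
  have hur : ∀ t ∈ Ioo (0:ℝ) (1 / 2), u t ∈ Icc 0 r := fun t _ => by
    refine ⟨mul_nonneg hr.le (Tb_nonneg _ _), ?_⟩
    have := (abs_le.1 (Tb_abs hA0 (s t))).2
    simp only [hu]
    nlinarith
  have hmono : MonotoneOn u (Ioo 0 (1 / 2)) := by
    intro x hx y hy hxy
    simp only [hu]
    refine mul_le_mul_of_nonneg_left ?_ hr.le
    unfold Tb
    refine Real.sqrt_le_sqrt (max_le_max le_rfl ?_)
    have : max 0 (s y) / A ≤ max 0 (s x) / A := by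
      have h1 : max 0 (s y) ≤ max 0 (s x) := max_le_max le_rfl (hanti hx hy hxy)
      gcongr
    linarith
  have hsu : ∀ t, s t ∈ Icc 0 A → Real.pi * (r ^ 2 - u t ^ 2) = s t := by
    intro t ht
    simp only [hu]
    rw [mul_pow, Tb_sq hA0 ht, hAr]
    field_simp; ring
  have hid : ∀ g : ℝ → ℝ, Continuous g → (∃ δ > 0, ∀ x, r - δ ≤ x → g x = 0) →
      ∫ t in (0:ℝ)..(1 / 2), u t * g (u t) = ∫ τ in (0:ℝ)..r, τ * g τ := by
    intro g hg ⟨δ, hδ, hgδ⟩
    -- bounded version of g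
    set g' : ℝ → ℝ := fun x => g (max 0 (min x r)) with hg'
    have hg'c : Continuous g' := hg.comp (continuous_const.max (continuous_id.min continuous_const))
    obtain ⟨M, hM⟩ := (isCompact_Icc (a := (0:ℝ)) (b := r)).exists_bound_of_continuousOn
      hg.continuousOn
    have hg'M : ∀ x, |g' x| ≤ M := fun x => hM _ ⟨le_max_left _ _, max_le hr.le (min_le_right _ _)⟩
    set η : ℝ → ℝ := fun σ => g' (r * Tb A σ) with hη
    have hηc : Continuous η := hg'c.comp (continuous_const.mul (Tb_cont A))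
    -- support condition
    set δ₂ := min 1 (1 - ((r - min δ r) / r) ^ 2) with hδ₂
    have hδ₂0 : 0 < δ₂ := by
      refine lt_min one_pos ?_
      have h1 : 0 < min δ r := lt_min hδ hr
      have h2 : 0 ≤ (r - min δ r) / r := div_nonneg (by linarith [min_le_right δ r]) hr.le
      have h3 : (r - min δ r) / r < 1 := by rw [div_lt_one hr]; linarith
      nlinarith
    have hsupp : ∀ σ, 1 - δ₂ < Tb A σ ^ 2 → η σ = 0 := by
      intro σ hσ
      have h1 : ((r - min δ r) / r) ^ 2 < Tb A σ ^ 2 := by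
        have := min_le_right 1 (1 - ((r - min δ r) / r) ^ 2)
        linarith
      have h2 : (r - min δ r) / r < Tb A σ := lt_of_pow_lt_pow_left₀ 2 (Tb_nonneg _ _) h1
      rw [div_lt_iff₀ hr] at h2
      have h3 : r * Tb A σ ≤ r := by
        have := (abs_le.1 (Tb_abs hA0 σ)).2
        nlinarith
      simp only [hη, hg']
      rw [min_eq_left h3, max_eq_right (mul_nonneg hr.le (Tb_nonneg _ _))]
      refine hgδ _ ?_
      have := min_le_left δ r
      linarith
    have hfv := first_var hs hl hl0 hse H (Tb_cont A) (Tb_abs hA0) hA hB hanti heq hηc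
      (fun σ => hg'M _) hδ₂0 (min_le_left _ _) hsupp
    -- left side
    have hL : ∫ t in (0:ℝ)..1, Tb A (s t) * η (s t) / Real.sqrt (1 - Tb A (s t) ^ 2) * l t
        = ∫ t in (0:ℝ)..1, 2 * Real.pi * (u t * g' (u t)) := by
      rw [int01, int01]
      refine integral_congr_ae ?_
      filter_upwards [ae_Ioo_ne, hlae] with t ht h1
      have hst := hsA1 t ht.1 ht.2
      rcases eq_or_lt_of_le hst.1 with h0 | h0
      · -- s t = 0
        have hT1 : Tb A (s t) ^ 2 = 1 := by rw [Tb_sq hA0 hst, ← h0]; simp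
        have h2 : η (s t) = 0 := hsupp _ (by rw [hT1]; linarith)
        have h3 : g' (u t) = 0 := h2
        rw [h2, h3]; simp
      · rw [h1 h0, Tb_sq hA0 hst, sub_sub_cancel]
        have h2 : Real.sqrt (s t / A) ≠ 0 := (Real.sqrt_pos.2 (div_pos h0 hA0)).ne'
        have e : 2 * Real.sqrt (Real.pi * s t) = 2 * Real.pi * r * Real.sqrt (s t / A) := by
          rw [hAr]
          have e1 : Real.pi * s t = (Real.pi * r) ^ 2 * (s t / (Real.pi * r ^ 2)) := by
            field_simp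
          rw [e1, Real.sqrt_mul (by positivity), Real.sqrt_sq (by positivity)]
          ring
        rw [e]
        simp only [hη, hu]
        field_simp
    have hR : ∫ x in (0:ℝ)..A, η x = 2 * Real.pi * ∫ τ in (0:ℝ)..r, τ * g τ := by
      have h1 : ∫ x in (0:ℝ)..A, η x
          = ∫ x in (0:ℝ)..A, g' (Real.sqrt (r ^ 2 - x / Real.pi)) := by
        refine intervalIntegral.integral_congr fun x hx => ?_
        rw [uIcc_of_le hA0.le] at hx
        simp only [hη]
        congr 1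
        rw [← Real.sqrt_sq (mul_nonneg hr.le (Tb_nonneg A x)), mul_pow, Tb_sq hA0 hx, hAr]
        congr 1
        field_simp
      rw [h1]
      have h2 := intervalIntegral.integral_comp_div (a := (0:ℝ)) (b := A)
        (fun y : ℝ => g' (Real.sqrt (r ^ 2 - y))) hpi.ne'
      rw [h2, zero_div, hAr, mul_div_cancel_left₀ _ hpi.ne', cov_sq hr.le hg'c,
        intervalIntegral.integral_const_mul, smul_eq_mul]
      have h3 : ∫ τ in (0:ℝ)..r, τ * g' τ = ∫ τ in (0:ℝ)..r, τ * g τ := by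
        refine intervalIntegral.integral_congr fun x hx => ?_
        rw [uIcc_of_le hr.le] at hx
        simp only [hg']
        rw [min_eq_left hx.2, max_eq_right hx.1]
      rw [h3]; ring
    rw [hL, hR, intervalIntegral.integral_const_mul] at hfv
    -- halve
    have hhalf : ∫ t in (0:ℝ)..1, u t * g' (u t) = 2 * ∫ t in (0:ℝ)..(1 / 2), u t * g' (u t) := by
      refine half_int ?_ ?_ ?_
      · refine (intervalIntegrable_const (c := r * M)).mono_fun
          ((hum.mul (hg'c.measurable.comp hum)).aestronglyMeasurable)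
          (Eventually.of_forall fun t => ?_)
        have h1 : |u t| ≤ r := by
          simp only [hu]
          rw [abs_mul, abs_of_pos hr]
          have := Tb_abs hA0 (s t)
          nlinarith
        have h2 : |u t * g' (u t)| ≤ r * M := by
          rw [abs_mul]
          exact mul_le_mul h1 (hg'M _) (abs_nonneg _) hr.le
        exact h2.trans (le_abs_self _)
      · intro t
        simp only [hu, hs.per t]
      · intro t
        simp only [hu, hse t]
    rw [hhalf] at hfv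
    have h4 : ∫ t in (0:ℝ)..(1 / 2), u t * g' (u t) = ∫ t in (0:ℝ)..(1 / 2), u t * g (u t) := by
      refine intervalIntegral.integral_congr fun x _ => ?_
      have h1 : 0 ≤ u x := mul_nonneg hr.le (Tb_nonneg _ _)
      have h2 : u x ≤ r := by
        have := (abs_le.1 (Tb_abs hA0 (s x))).2
        simp only [hu]
        nlinarith
      simp only [hg']
      rw [min_eq_left h2, max_eq_right h1]
    rw [← h4]
    have : (0:ℝ) < 4 * Real.pi := by positivity
    nlinarith
  have hvol : ∫ t in (0:ℝ)..(1 / 2), Real.pi * (r ^ 2 - u t ^ 2)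
      = ∫ τ in (0:ℝ)..r, Real.pi * (r ^ 2 - τ ^ 2) := by
    have h1 : ∫ t in (0:ℝ)..(1 / 2), Real.pi * (r ^ 2 - u t ^ 2)
        = ∫ t in (0:ℝ)..(1 / 2), s t := by
      rw [intervalIntegral.integral_of_le (by norm_num), intervalIntegral.integral_of_le
        (by norm_num), integral_Ioc_eq_integral_Ioo, integral_Ioc_eq_integral_Ioo]
      exact setIntegral_congr_fun measurableSet_Ioo fun t ht => hsu t (hsA t ht)
    have h2 := half_int (hs.intervalIntegrable 0 1) hs.per hse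
    rw [h1]
    have h3 : ∫ τ in (0:ℝ)..r, Real.pi * (r ^ 2 - τ ^ 2) = 2 / 3 * Real.pi * r ^ 3 := by
      rw [intervalIntegral.integral_const_mul, intervalIntegral.integral_sub
        intervalIntegrable_const ((continuous_pow 2).intervalIntegrable _ _)]
      simp
      ring
    rw [h3]
    rw [hV] at h2
    linarith
  have hfin := u_eq_min hum hmono hA0 hr hur (s₀ := fun τ => Real.pi * (r ^ 2 - τ ^ 2))
    (by fun_prop) (by rw [hAr]; ring) (by ring) hid hvol
  intro t ht
  rw [← hsu t (hsA t ht), hfin t ht]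

end Crest.Agent.R214.MS
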