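import Crest.Agent.R214.DownBase
import Crest.Agent.R214.EqBall

/-!
# R214: equality cases for symmetric decreasing sets: ball, tube, slab
-/

set_option autoImplicit false

open MeasureTheory Crest.GeometryTopology.PeriodicPerimeter Filter Topology Set

namespace Crest.Agent.R214.Down

open Crest.Agent.R214 Slice Rig

variable {F : Set (En 3)} {i : Fin 3}

/-- a slice of minimal perimeter which does not touch contains the disc -/
theorem disc_slice (hF : MeasurableSet F) (hper : IsLatticePeriodic F)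
    (hd : ∀ j, SymDecAt j F) {t : ℝ} (c1 : ¬ Touch 0 1 (sliceAt i F t))
    (c2 : ¬ Touch 1 0 (sliceAt i F t)) (hs0 : 0 < ar i F t)
    (hP : periodicPerimeter (sliceAt i F t) ≤ ENNReal.ofReal (2 * Real.sqrt (Real.pi * ar i F t)))
    {y : En 2} (hy : cr (y 0) ^ 2 + cr (y 1) ^ 2 < ar i F t / Real.pi) : y ∈ sliceAt i F t := by
  have hpi := Real.pi_pos
  have hS := Slice.measurableSet_sliceAt i hF t
  have hp := Slice.sliceAt_periodic i hper t
  have hd2 : ∀ j : Fin 2, SymDecAt j (sliceAt i F t) := fun j => symDecAt_sliceAt (hd _) _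
  have h01 : (0 : Fin 2) ≠ 1 := by decide
  have hR : 0 < Real.sqrt (ar i F t / Real.pi) := Real.sqrt_pos.2 (by positivity)
  have hRsq : Real.sqrt (ar i F t / Real.pi) ^ 2 = ar i F t / Real.pi :=
    Real.sq_sqrt (by positivity)
  have e1 : 2 * Real.sqrt (Real.pi * ar i F t) = 2 * Real.pi * Real.sqrt (ar i F t / Real.pi) := by
    have : Real.sqrt (Real.pi * ar i F t) = Real.pi * Real.sqrt (ar i F t / Real.pi) := by
      rw [show Real.pi * ar i F t = Real.pi ^ 2 * (ar i F t / Real.pi) by field_simp,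
        Real.sqrt_mul (by positivity), Real.sqrt_sq hpi.le]
    rw [this]; ring
  refine disc_incl h01 hS hp (hd2 0) (hd2 1) c1 c2 (ne_top_of_le_ne_top ENNReal.ofReal_ne_top hP)
    hR ?_ ?_ (x := y) ?_
  · rw [← e1]
    have := ENNReal.toReal_mono ENNReal.ofReal_ne_top hP
    rwa [ENNReal.toReal_ofReal (by positivity)] at this
  · rw [hRsq]
    show ar i F t = _
    field_simp
  · rw [hRsq]; exact hy

/-- reduction of a slice to the half period -/
theorem exists_tau (hd : SymDecAt i F) {t : ℝ} (ht : t ∈ Ioo (0:ℝ) 1) (hne : t ≠ 1 / 2) :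
    ∃ τ ∈ Ioo (0:ℝ) (1 / 2), |cr t| = τ ∧ sliceAt i F t = sliceAt i F τ := by
  refine ⟨|cr t|, ⟨cr_ne_zero ht, ?_⟩, rfl, sliceAt_congr hd ?_⟩
  · refine lt_of_le_of_ne (abs_cr_le t) fun heq => hne ?_
    rcases lt_or_gt_of_ne hne with h3 | h3
    · have : cr t = t := cr_of_mem ⟨by linarith [ht.1], h3⟩
      rw [this, abs_of_pos ht.1] at heq
      exact heq
    · have : cr (t - 1) = t - 1 := cr_of_mem ⟨by linarith, by linarith [ht.2]⟩
      have h4 : cr t = t - 1 := by
        rw [← this, ← cr_add_one (t - 1), sub_add_cancel]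
      rw [h4, abs_of_neg (by linarith [ht.2])] at heq
      linarith
  · have h5 : |(|cr t|)| ≤ 1 / 2 := by rw [abs_abs]; exact abs_cr_le t
    rw [abs_cr_of_le h5, abs_abs]

/-- common part of the ball and tube cases -/
theorem std_of_slices (hF : MeasurableSet F) (hper : IsLatticePeriodic F)
    (hd : ∀ j, SymDecAt j F) {J : Finset (Fin 3)} {r : ℝ}
    (hvol : periodicVolume (stdReg J r (0 : En 3)) = periodicVolume F)
    (hPs : ∀ᵐ t : ℝ, t ∈ Ioo (0:ℝ) 1 → 0 < ar i F t →
      periodicPerimeter (sliceAt i F t) ≤ ENNReal.ofReal (2 * Real.sqrt (Real.pi * ar i F t)))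
    (hnt : ∀ t : ℝ, 0 < |t| → |t| < 1 / 2 → 0 < ar i F t →
      periodicPerimeter (sliceAt i F t) ≤ ENNReal.ofReal (2 * Real.sqrt (Real.pi * ar i F t)) →
      ¬ Touch 0 1 (sliceAt i F t) ∧ ¬ Touch 1 0 (sliceAt i F t))
    (hinc : ∀ t ∈ Ioo (0:ℝ) 1, t ≠ 1 / 2 → ∀ y : En 2, rho2 J (ins i t y) < r ^ 2 →
      0 < ar i F t ∧ cr (y 0) ^ 2 + cr (y 1) ^ 2 < ar i F t / Real.pi) :
    ∀ᵐ x : En 3, x ∈ F ↔ x ∈ stdReg J r 0 := by
  refine ae_eq_of_slices i hF hper (measurableSet_stdReg J r 0) (stdReg_per J r 0) hvol ?_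
  filter_upwards [hPs, ZC.ae_ne (1 / 2)] with t ht hne htI
  have hsub : sliceAt i (stdReg J r 0) t ⊆ sliceAt i F t := by
    intro y hy
    rw [mem_slice_std] at hy
    obtain ⟨h1, h2⟩ := hinc t htI hne y hy
    obtain ⟨τ, hτ, -, he⟩ := exists_tau (hd i) htI hne
    have hP := ht htI h1
    have har : ar i F t = ar i F τ := by unfold ar; rw [he]
    rw [he]
    rw [he, har] at hP
    rw [har] at h1 h2
    have hτa : |τ| = τ := abs_of_pos hτ.1
    obtain ⟨c1, c2⟩ := hnt τ (by rw [hτa]; exact hτ.1) (by rw [hτa]; exact hτ.2) h1 hP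
    exact disc_slice hF hper hd c1 c2 h1 hP h2
  rw [sdiff_eq_empty.2 hsub]
  simp [periodicVolume]

/-- **ball** -/
theorem ball_case (hF : MeasurableSet F) (hper : IsLatticePeriodic F)
    (hd : ∀ j, SymDecAt j F) {r : ℝ} (hr : 0 < r) (hr2 : r < 1 / 2)
    (hV : periodicVolume F = 4 / 3 * Real.pi * r ^ 3)
    (hprof : ∀ t ∈ Ioo (0:ℝ) (1 / 2), ar i F t = Real.pi * (r ^ 2 - (min t r) ^ 2))
    (hPs : ∀ᵐ t : ℝ, t ∈ Ioo (0:ℝ) 1 → 0 < ar i F t →
      periodicPerimeter (sliceAt i F t) ≤ ENNReal.ofReal (2 * Real.sqrt (Real.pi * ar i F t)))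
    (hnt : ∀ t : ℝ, 0 < |t| → |t| < 1 / 2 → 0 < ar i F t →
      periodicPerimeter (sliceAt i F t) ≤ ENNReal.ofReal (2 * Real.sqrt (Real.pi * ar i F t)) →
      ¬ Touch 0 1 (sliceAt i F t) ∧ ¬ Touch 1 0 (sliceAt i F t)) :
    ∀ᵐ x : En 3, x ∈ F ↔ x ∈ stdReg Finset.univ r 0 := by
  have hpi := Real.pi_pos
  refine std_of_slices (i := i) hF hper hd ?_ hPs hnt ?_
  · rw [pv_std_ball (by simp) hr hr2, hV]
  · intro t ht hne y hy
    obtain ⟨τ, hτ, hcr, he⟩ := exists_tau (hd i) ht hne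
    have har : ar i F t = ar i F τ := by unfold ar; rw [he]
    rw [rho2_univ, rho2_two] at hy
    have hdd : dd t ^ 2 = τ ^ 2 := by
      rw [← hcr, sq_abs]; rfl
    rw [hdd] at hy
    have h1 : τ < r := by
      by_contra hcon
      rw [not_lt] at hcon
      nlinarith [sq_nonneg (cr (y 0)), sq_nonneg (cr (y 1))]
    rw [har, hprof τ hτ, min_eq_left h1.le]
    have h2 : 0 < r ^ 2 - τ ^ 2 := by nlinarith [hτ.1]
    refine ⟨by positivity, ?_⟩
    rw [mul_div_cancel_left₀ _ hpi.ne']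
    linarith

/-- **tube** -/
theorem tube_case (hF : MeasurableSet F) (hper : IsLatticePeriodic F)
    (hd : ∀ j, SymDecAt j F) {r : ℝ} (hr : 0 < r) (hr2 : r < 1 / 2)
    (hV : periodicVolume F = Real.pi * r ^ 2)
    (hprof : ∀ t ∈ Ioo (0:ℝ) (1 / 2), ar i F t = Real.pi * r ^ 2)
    (hPs : ∀ᵐ t : ℝ, t ∈ Ioo (0:ℝ) 1 → 0 < ar i F t →
      periodicPerimeter (sliceAt i F t) ≤ ENNReal.ofReal (2 * Real.sqrt (Real.pi * ar i F t)))
    (hnt : ∀ t : ℝ, 0 < |t| → |t| < 1 / 2 → 0 < ar i F t →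
      periodicPerimeter (sliceAt i F t) ≤ ENNReal.ofReal (2 * Real.sqrt (Real.pi * ar i F t)) →
      ¬ Touch 0 1 (sliceAt i F t) ∧ ¬ Touch 1 0 (sliceAt i F t)) :
    ∀ᵐ x : En 3, x ∈ F ↔ x ∈ stdReg ((Finset.univ : Finset (Fin 2)).map i.succAboveEmb) r 0 := by
  have hpi := Real.pi_pos
  refine std_of_slices (i := i) hF hper hd ?_ hPs hnt ?_
  · rw [pv_std_tube (by simp) hr hr2, hV]
  · intro t ht hne y hy
    obtain ⟨τ, hτ, hcr, he⟩ := exists_tau (hd i) ht hne
    have har : ar i F t = ar i F τ := by unfold ar; rw [he]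
    rw [rho2_map, rho2_two] at hy
    rw [har, hprof τ hτ]
    refine ⟨by positivity, ?_⟩
    rw [mul_div_cancel_left₀ _ hpi.ne']
    exact hy

/-- **slab** -/
theorem slab_case (hF : MeasurableSet F) (hper : IsLatticePeriodic F)
    (hd : ∀ j, SymDecAt j F) (hv0 : 0 < periodicVolume F) (hv : periodicVolume F < 1)
    (h01 : ∀ᵐ t : ℝ, t ∈ Ioo (0:ℝ) 1 → ar i F t = 0 ∨ ar i F t = 1) :
    ∀ᵐ x : En 3, x ∈ F ↔ x ∈ stdReg {i} (periodicVolume F / 2) 0 := by
  set v := periodicVolume F with hvdef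
  have hbp := ar_BP i hF hper
  have hanti := ar_anti (hd i)
  have hint : ∫ t in (0:ℝ)..(1 / 2), ar i F t = v / 2 := by
    have h1 := ar_int i hF
    rw [MS.half_int (hbp.intervalIntegrable _ _) hbp.per (ar_even (hd i))] at h1
    linarith
  -- the area is one for `t < v / 2`
  have hone : ∀ t ∈ Ioo (0:ℝ) (1 / 2), t < v / 2 → ar i F t = 1 := by
    intro t ht htv
    by_contra hne
    have hlt : ar i F t < 1 := lt_of_le_of_ne (ar_le_one _ _ _) hne
    have hz : ∫ x in t..(1 / 2), ar i F x = 0 := by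
      have : ∫ x in t..(1 / 2), ar i F x = ∫ x in t..(1 / 2), (0:ℝ) := by
        refine intervalIntegral.integral_congr_ae ?_
        filter_upwards [h01, ZC.ae_ne (1 / 2)] with x hx hxne hxI
        rw [uIoc_of_le ht.2.le] at hxI
        have hx2 : x < 1 / 2 := lt_of_le_of_ne hxI.2 hxne
        rcases hx ⟨ht.1.trans hxI.1, by linarith⟩ with h | h
        · exact h
        · have := hanti ht ⟨ht.1.trans hxI.1, hx2⟩ hxI.1.le
          linarith
      rw [this]; simp
    have hle : ∫ x in (0:ℝ)..t, ar i F x ≤ ∫ x in (0:ℝ)..t, (1:ℝ) :=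
      intervalIntegral.integral_mono_on ht.1.le (hbp.intervalIntegrable _ _)
        intervalIntegrable_const (fun x _ => ar_le_one _ _ _)
    rw [intervalIntegral.integral_const, smul_eq_mul, mul_one, sub_zero] at hle
    rw [← intervalIntegral.integral_add_adjacent_intervals (hbp.intervalIntegrable 0 t)
      (hbp.intervalIntegrable t (1 / 2)), hz] at hint
    linarith
  refine ae_eq_of_slices i hF hper (measurableSet_stdReg _ _ 0) (stdReg_per _ _ 0) ?_ ?_
  · rw [pv_std_slab (by simp) (by linarith) (by linarith)]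
    ring
  · filter_upwards [ZC.ae_ne (1 / 2)] with t hne ht
    obtain ⟨τ, hτ, hcr, he⟩ := exists_tau (hd i) ht hne
    by_cases hτv : τ < v / 2
    · have h1 := hone τ hτ hτv
      unfold ar at h1
      rw [he]
      have h2 := pv_diff (A := (univ : Set (En 2))) (Slice.measurableSet_sliceAt i hF τ)
      rw [univ_inter, h1] at h2
      have h3 : periodicVolume (univ : Set (En 2)) ≤ 1 := Slice.periodicVolume_le_one _
      have h4 : periodicVolume (sliceAt i (stdReg {i} (v / 2) 0) t \ sliceAt i F τ)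
          ≤ periodicVolume (univ \ sliceAt i F τ) := pv_mono (sdiff_subset_sdiff_left (subset_univ _))
      have h5 := pv_nonneg (sliceAt i (stdReg {i} (v / 2) 0) t \ sliceAt i F τ)
      linarith
    · have hem : sliceAt i (stdReg {i} (v / 2) 0) t = ∅ := by
        ext y
        rw [mem_slice_std, rho2_single]
        simp only [mem_empty_iff_false, iff_false, not_lt]
        have hdd : dd t ^ 2 = τ ^ 2 := by
          rw [← hcr, sq_abs]; rfl
        rw [hdd]
        rw [not_lt] at hτv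
        exact pow_le_pow_left₀ (by linarith) hτv 2
      rw [hem, empty_sdiff]
      simp [periodicVolume]

end Crest.Agent.R214.Down
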