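import Crest.Agent.R214.DownEq
import Crest.Agent.R214.Scalar

/-!
# R214: the isoperimetric inequality and its equality case for symmetric decreasing sets
-/

set_option autoImplicit false

open MeasureTheory Crest.GeometryTopology.PeriodicPerimeter Filter Topology Set

namespace Crest.Agent.R214.Down

open Crest.Agent.R214 Slice Rig

/-- slices of disc perimeter do not touch -/
def NoTouch : Prop := ∀ (F : Set (En 3)), MeasurableSet F → IsLatticePeriodic F →
  (∀ j, SymDecAt j F) → ∀ i : Fin 3, GoodDir i F (1 / 20) → ∀ t : ℝ, 0 < |t| → |t| < 1 / 2 →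
  0 < ar i F t → ar i F t ≤ Real.pi / 9 →
  periodicPerimeter (sliceAt i F t) ≤ ENNReal.ofReal (2 * Real.sqrt (Real.pi * ar i F t)) →
  ¬ Touch 0 1 (sliceAt i F t) ∧ ¬ Touch 1 0 (sliceAt i F t)

/-- truncated slice perimeter -/
noncomputable def lt10 (i : Fin 3) (F : Set (En 3)) (t : ℝ) : ℝ :=
  (min (periodicPerimeter (sliceAt i F t)) (ENNReal.ofReal 10)).toReal

variable {F : Set (En 3)} {i : Fin 3}

theorem le_lt10 {t x : ℝ} (h : ENNReal.ofReal x ≤ periodicPerimeter (sliceAt i F t))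
    (hx : x ≤ 10) : x ≤ lt10 i F t := by
  unfold lt10
  rcases le_or_gt 0 x with h0 | h0
  · have h1 : ENNReal.ofReal x ≤ min (periodicPerimeter (sliceAt i F t)) (ENNReal.ofReal 10) :=
      le_min h (ENNReal.ofReal_le_ofReal hx)
    have h2 := ENNReal.toReal_mono (ne_top_of_le_ne_top ENNReal.ofReal_ne_top (min_le_right _ _)) h1
    rwa [ENNReal.toReal_ofReal h0] at h2
  · exact h0.le.trans ENNReal.toReal_nonneg

theorem perimeter_le_of_lt10 {t x : ℝ} (h : lt10 i F t ≤ x) (hx : x < 10) :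
    periodicPerimeter (sliceAt i F t) ≤ ENNReal.ofReal x := by
  unfold lt10 at h
  have hne : min (periodicPerimeter (sliceAt i F t)) (ENNReal.ofReal 10) ≠ ⊤ :=
    ne_top_of_le_ne_top ENNReal.ofReal_ne_top (min_le_right _ _)
  have h1 : min (periodicPerimeter (sliceAt i F t)) (ENNReal.ofReal 10) ≤ ENNReal.ofReal x := by
    rw [← ENNReal.ofReal_toReal hne]
    exact ENNReal.ofReal_le_ofReal h
  rcases min_le_iff.1 h1 with h2 | h2
  · exact h2
  · exfalso
    have h3 : (10:ℝ) ≤ x := by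
      by_contra hcon
      rw [not_le] at hcon
      exact absurd h2 (not_le.2 ((ENNReal.ofReal_lt_ofReal_iff (by norm_num)).2 hcon))
    linarith

theorem sqrt_pi_le {s : ℝ} (hs : s ≤ 1) : Real.sqrt (Real.pi * s) ≤ 2 := by
  apply Real.sqrt_le_iff.2
  refine ⟨by norm_num, ?_⟩
  have := Real.pi_pos
  have := Real.pi_lt_four
  nlinarith

theorem Jgood_le (h : ℝ) {s : ℝ} (hs : s ≤ 1) : Jgood h s ≤ 2 :=
  (min_le_left _ _).trans (sqrt_pi_le hs)

theorem Ufun_le_five {s e : ℝ} (hs : s ≤ 1) (he : 3 / 10 ≤ e) (he1 : e ≤ 1) :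
    Ufun s e ≤ 5 := by
  unfold Ufun
  have hpi := Real.pi_lt_four
  have hpi0 := Real.pi_pos
  split_ifs
  · have h1 : s / e ≤ 10 / 3 := by
      rw [div_le_iff₀ (by linarith)]
      nlinarith
    have h2 : Real.pi * e / 4 ≤ 1 := by
      nlinarith
    linarith
  · linarith [sqrt_pi_le hs]

/-- `prof` in terms of `m0` -/
theorem prof_eq (v : ℝ) : Inv.prof v = 2 * min (m0 v) 1 := by
  have hpi := Real.pi_pos
  unfold Inv.prof m0
  have h1 : (36 * Real.pi) ^ ((1:ℝ) / 3) = 2 * (9 * Real.pi / 2) ^ ((1:ℝ) / 3) := by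
    have : (36 * Real.pi) = 2 ^ (3:ℕ) * (9 * Real.pi / 2) := by ring
    rw [this, Real.mul_rpow (by positivity) (by positivity), ← Real.rpow_natCast,
      ← Real.rpow_mul (by norm_num)]
    norm_num
  rw [h1, mul_min_of_nonneg _ _ (by norm_num : (0:ℝ) ≤ 2),
    mul_min_of_nonneg _ _ (by norm_num : (0:ℝ) ≤ 2), mul_one, mul_assoc]

/-- the data of a symmetric decreasing set -/
theorem data_of (hF : MeasurableSet F) (hper : IsLatticePeriodic F)
    (hd : ∀ j, SymDecAt j F) (hP : periodicPerimeter F ≠ ⊤)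
    (hv1 : periodicVolume F ≤ 1 / 2) (i : Fin 3) :
    ∃ A B : ℝ, ZC.Prof (ar i F) (lt10 i F) (periodicPerimeter F).toReal A B := by
  obtain ⟨hl, H⟩ := dualIneq_trunc i hF hper hP 10 (by norm_num)
  obtain ⟨A, hA, -⟩ := MS.exists_right_lim (ar_BP i hF hper) (ar_anti (hd i)) le_rfl
    (by norm_num : (0:ℝ) < 1 / 2)
  obtain ⟨B, hB, -⟩ := MS.exists_left_lim (ar_BP i hF hper) (ar_anti (hd i))
  refine ⟨A, B, ?_⟩
  exact
    { hs := ar_BP i hF hper
      hl := hl
      even := ar_even (hd i)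
      anti := ar_anti (hd i)
      s01 := fun t => ⟨ar_nonneg _ _ _, ar_le_one _ _ _⟩
      dual := H
      hA := hA
      hB := hB
      hv := by rw [ar_int i hF]; exact hv1 }

/-- the slab from the corner values -/
theorem slab_final (hF : MeasurableSet F) (hper : IsLatticePeriodic F)
    (hd : ∀ j, SymDecAt j F) (hv0 : 0 < periodicVolume F)
    (hv1 : periodicVolume F ≤ 1 / 2) {A B : ℝ}
    (D : ZC.Prof (ar i F) (lt10 i F) (periodicPerimeter F).toReal A B)
    (hA : A = 1) (hB : B = 0) (hP2 : (periodicPerimeter F).toReal ≤ 2) :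
    ∃ (J : Finset (Fin 3)) (r : ℝ), J.Nonempty ∧ 0 < r ∧ r < 1 / 2 ∧
      ∀ᵐ x : En 3, x ∈ F ↔ x ∈ stdReg J r 0 := by
  refine ⟨{i}, periodicVolume F / 2, by simp, by linarith, by linarith, ?_⟩
  refine slab_case hF hper hd hv0 (by linarith) ?_
  have h1 := MS.slab_profile D.hs D.hl (fun _ => ENNReal.toReal_nonneg) D.even D.anti D.dual
    (A := A) (B := B) (by rw [hA, hB]; linarith) D.hA D.hB
  rw [ae_restrict_iff' measurableSet_Ioo] at h1
  filter_upwards [h1] with t ht htI
  have h2 := ht htI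
  have h3 : 2 * Jany (ar i F t) ≤ lt10 i F t := le_lt10 (any_bound hF hper hd i t) (by
        linarith [Jany_le_one (ar i F t)])
  by_contra hcon
  rw [not_or] at hcon
  have h4 := Jany_pos (lt_of_le_of_ne (ar_nonneg i F t) (Ne.symm hcon.1))
    (lt_of_le_of_ne (ar_le_one i F t) hcon.2)
  linarith

/-- a.e. on `(0,1)` from a.e. in `|t| < 1/2` for periodic even data -/
theorem ae_shift {p : ℝ → Prop} (hp : ∀ t, p (t + 1) ↔ p t)
    (h : ∀ᵐ t : ℝ, |t| < 1 / 2 → p t) : ∀ᵐ t : ℝ, t ∈ Ioo (0:ℝ) 1 → p t := by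
  have h2 : ∀ᵐ t : ℝ, |t - 1| < 1 / 2 → p (t - 1) := by
    have := (measurePreserving_sub_right (volume : Measure ℝ) 1).quasiMeasurePreserving.ae h
    exact this
  filter_upwards [h, h2, ZC.ae_ne (1 / 2)] with t h1 h2 hne ht
  rcases lt_or_gt_of_ne hne with h3 | h3
  · exact h1 (by rw [abs_of_pos ht.1]; exact h3)
  · have := h2 (by rw [abs_lt]; constructor <;> linarith [ht.2])
    rw [← hp (t - 1), sub_add_cancel] at this
    exact this

theorem lt10_per (hper : IsLatticePeriodic F) (t : ℝ) : lt10 i F (t + 1) = lt10 i F t := by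
  unfold lt10
  rw [Slice.sliceAt_add_one i hper]

theorem ar_per (hper : IsLatticePeriodic F) (t : ℝ) : ar i F (t + 1) = ar i F t := by
  unfold ar
  rw [Slice.sliceAt_add_one i hper]

/-- the exact region: ball or tube -/
theorem exact_final (hN : NoTouch) (hF : MeasurableSet F) (hper : IsLatticePeriodic F)
    (hd : ∀ j, SymDecAt j F) (hg : GoodDir i F (1 / 20)) (hv0 : 0 < periodicVolume F)
    {A B : ℝ} (D : ZC.Prof (ar i F) (lt10 i F) (periodicPerimeter F).toReal A B)
    (hlow : ∀ᵐ t : ℝ, |t| < 1 / 2 → 2 * Real.sqrt (Real.pi * ar i F t) ≤ lt10 i F t)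
    (hBA : B < A → B = 0 ∧ (∫ t in (0:ℝ)..1, ar i F t) =
        4 * Real.sqrt A ^ 3 / (3 * Real.sqrt Real.pi) ∧
      (∫ t in (0:ℝ)..1, ar i F t) ≤ 4 * Real.pi / 81)
    (hPm : (periodicPerimeter F).toReal ≤ 2 * min (m0 (periodicVolume F)) 1) :
    ∃ (J : Finset (Fin 3)) (r : ℝ), J.Nonempty ∧ 0 < r ∧ r < 1 / 2 ∧
      ∀ᵐ x : En 3, x ∈ F ↔ x ∈ stdReg J r 0 := by
  have hpi := Real.pi_pos
  have hpi3 := Real.pi_gt_three
  set v := periodicVolume F with hvdef
  have hint : ∫ t in (0:ℝ)..1, ar i F t = v := ar_int i hF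
  have hlow' : ∀ᵐ t : ℝ, t ∈ Ioo (0:ℝ) 1 → 2 * Real.sqrt (Real.pi * ar i F t) ≤ lt10 i F t :=
    ae_shift (fun t => by rw [lt10_per hper, ar_per hper]) hlow
  have hAle : ∀ t ∈ Ioo (0:ℝ) (1 / 2), ar i F t ≤ A := fun t ht =>
    (ZC.range_mem D.hs D.anti D.hA D.hB ht).2
  have hBle : ∀ t ∈ Ioo (0:ℝ) (1 / 2), B ≤ ar i F t := fun t ht =>
    (ZC.range_mem D.hs D.anti D.hA D.hB ht).1
  obtain ⟨hBv, hvA⟩ := D.vol_bounds
  rw [hint] at hBv hvA
  have hBA' : B ≤ A := hBv.trans hvA
  have hPs : ∀ {c : ℝ}, c < 10 → ∀ t, lt10 i F t ≤ c → periodicPerimeter (sliceAt i F t)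
      ≤ ENNReal.ofReal c := fun hc t h => perimeter_le_of_lt10 h hc
  rcases hBA'.lt_or_eq with hlt | heq
  · -- ball
    obtain ⟨hB0, hv, hv81⟩ := hBA hlt
    rw [hint] at hv hv81
    have hA0 : 0 < A := by rw [hB0] at hlt; exact hlt
    set r : ℝ := Real.sqrt A / Real.sqrt Real.pi with hr
    have hsA : 0 < Real.sqrt A := Real.sqrt_pos.2 hA0
    have hsp : 0 < Real.sqrt Real.pi := Real.sqrt_pos.2 hpi
    have hspsq : Real.sqrt Real.pi ^ 2 = Real.pi := Real.sq_sqrt hpi.le
    have hr0 : 0 < r := by positivity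
    have hv' : v = 4 / 3 * Real.pi * r ^ 3 := by
      rw [hv, hr, div_pow]
      have e : Real.sqrt Real.pi ^ 3 = Real.pi * Real.sqrt Real.pi := by
        rw [pow_succ, hspsq]
      rw [e]
      field_simp
    have hr3 : r ≤ 1 / 3 := by
      rw [hv'] at hv81
      have h1 : r ^ 3 ≤ (1 / 3) ^ 3 := by
        have : 4 / 3 * Real.pi * r ^ 3 ≤ 4 / 3 * Real.pi * (1 / 3) ^ 3 := by
          refine hv81.trans (le_of_eq ?_)
          ring
        exact le_of_mul_le_mul_left this (by positivity)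
      exact le_of_pow_le_pow_left₀ (by norm_num) (by norm_num) h1
    have hP4 : (periodicPerimeter F).toReal ≤ 4 * Real.pi * r ^ 2 := by
      have h1 : min (m0 v) 1 ≤ (9 * Real.pi / 2) ^ ((1:ℝ) / 3) * v ^ ((2:ℝ) / 3) :=
        (min_le_left _ _).trans (min_le_left _ _)
      have h2 : (9 * Real.pi / 2) ^ ((1:ℝ) / 3) * v ^ ((2:ℝ) / 3) = 2 * Real.pi * r ^ 2 := by
        have h3 : ((9 * Real.pi / 2) ^ ((1:ℝ) / 3) * v ^ ((2:ℝ) / 3)) ^ 3
            = (2 * Real.pi * r ^ 2) ^ 3 := by
          rw [mul_pow, ← Real.rpow_natCast ((9 * Real.pi / 2) ^ ((1:ℝ) / 3)),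
            ← Real.rpow_mul (by positivity), ← Real.rpow_natCast (v ^ ((2:ℝ) / 3)),
            ← Real.rpow_mul hv0.le]
          have e1 : (1:ℝ) / 3 * ((3:ℕ) : ℝ) = 1 := by norm_num
          have e2 : (2:ℝ) / 3 * ((3:ℕ) : ℝ) = ((2:ℕ) : ℝ) := by norm_num
          rw [e1, e2, Real.rpow_one, Real.rpow_natCast, hv']
          ring
        exact (pow_left_inj₀ (by positivity) (by positivity) (by norm_num)).1 h3
      linarith
    have hB' : Tendsto (ar i F) (𝓝[<] (1 / 2)) (𝓝 0) := by
      have := D.hB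
      rwa [hB0] at this
    obtain ⟨-, hprof, hl⟩ := MS.ball_profile D.hs D.hl (fun _ => ENNReal.toReal_nonneg) D.even
      D.anti (fun t _ => ar_nonneg i F t) hr0 D.dual hP4 (by rw [hint, hv'])
      (by
        rw [ae_restrict_iff' measurableSet_Ioo]
        filter_upwards [hlow'] with t ht htI _ using ht htI) D.hA hB'
    rw [ae_restrict_iff' measurableSet_Ioo] at hl
    refine ⟨Finset.univ, r, by simp, hr0, by linarith, ?_⟩
    refine ball_case (i := i) hF hper hd hr0 (by linarith) hv' hprof ?_ ?_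
    · filter_upwards [hl] with t ht htI h0
      refine hPs ?_ t (ht htI h0).le
      linarith [sqrt_pi_le (ar_le_one i F t)]
    · intro t ht0 ht1 h0 hP
      refine hN F hF hper hd i hg t ht0 ht1 h0 ?_ hP
      have h1 : ar i F t = ar i F |t| := by
        rcases le_total 0 t with h | h
        · rw [abs_of_nonneg h]
        · rw [abs_of_nonpos h, ar_even (hd i)]
      rw [h1, hprof |t| ⟨ht0, ht1⟩]
      have h2 : Real.pi * (r ^ 2 - min |t| r ^ 2) ≤ Real.pi * (1 / 9) := by
        refine mul_le_mul_of_nonneg_left ?_ hpi.le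
        nlinarith [sq_nonneg (min |t| r)]
      linarith
  · -- tube
    have hconst : ∀ t ∈ Ioo (0:ℝ) (1 / 2), ar i F t = v := fun t ht =>
      le_antisymm ((hAle t ht).trans (by rw [← heq]; exact hBv))
        (hvA.trans (by rw [← heq]; exact hBle t ht))
    have hconst' : ∀ᵐ t : ℝ, t ∈ Ioo (0:ℝ) 1 → ar i F t = v := by
      refine ae_shift (fun t => by rw [ar_per hper]) ?_
      filter_upwards [ZC.ae_ne 0] with t hne ht
      have h1 : ar i F t = ar i F |t| := by
        rcases le_total 0 t with h | h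
        · rw [abs_of_nonneg h]
        · rw [abs_of_nonpos h, ar_even (hd i)]
      rw [h1]
      exact hconst |t| ⟨abs_pos.2 hne, ht⟩
    have hIl : IntegrableOn (lt10 i F) (Ioo (0:ℝ) 1) := by
      have := D.hl.intervalIntegrable 0 1
      rwa [intervalIntegrable_iff_integrableOn_Ioo_of_le zero_le_one] at this
    have hIle : ∫ t in (0:ℝ)..1, lt10 i F t ≤ (periodicPerimeter F).toReal := by
      have := D.dual (fun _ => 1) (fun _ => 0) contDiff_const contDiff_const (fun _ => rfl)
        (fun _ => rfl) (fun _ => zero_le_one) (fun _ => by norm_num)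
      simpa using this
    set c := 2 * Real.sqrt (Real.pi * v) with hc
    have hlc : ∀ᵐ t ∂(volume.restrict (Ioo (0:ℝ) 1)), c ≤ lt10 i F t := by
      rw [ae_restrict_iff' measurableSet_Ioo]
      filter_upwards [hlow', hconst'] with t h1 h2 htI
      have := h1 htI
      rwa [h2 htI] at this
    have hIl2 : ∫ t in (0:ℝ)..1, lt10 i F t = ∫ t in Ioo (0:ℝ) 1, lt10 i F t := by
      rw [intervalIntegral.integral_of_le zero_le_one, integral_Ioc_eq_integral_Ioo]
    have hcI : ∫ t in Ioo (0:ℝ) 1, c = c := by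
      rw [setIntegral_const]; simp
    have hge : c ≤ ∫ t in Ioo (0:ℝ) 1, lt10 i F t := by
      calc c = ∫ t in Ioo (0:ℝ) 1, c := hcI.symm
        _ ≤ _ := integral_mono_ae (integrable_const c) hIl hlc
    have hcP : (periodicPerimeter F).toReal ≤ c := by
      have h1 : min (m0 v) 1 ≤ Real.sqrt (Real.pi * v) :=
        (min_le_left _ _).trans (min_le_right _ _)
      linarith
    have hc2 : c ≤ 2 := by
      have h1 : min (m0 v) 1 ≤ 1 := min_le_right _ _
      rw [hIl2] at hIle
      linarith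
    have hzero : ∀ᵐ t ∂(volume.restrict (Ioo (0:ℝ) 1)), lt10 i F t = c := by
      have h1 : ∫ t in Ioo (0:ℝ) 1, (lt10 i F t - c) = 0 := by
        rw [integral_sub hIl (integrable_const c), hcI]
        rw [hIl2] at hIle
        linarith
      have h2 := (integral_eq_zero_iff_of_nonneg_ae (f := fun t => lt10 i F t - c) (by
        filter_upwards [hlc] with t ht
        simpa using ht) (hIl.sub (integrable_const c))).1 h1
      filter_upwards [h2] with t ht
      have : lt10 i F t - c = 0 := ht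
      linarith
    rw [ae_restrict_iff' measurableSet_Ioo] at hzero
    have hv1 : Real.pi * v ≤ 1 := by
      have h1 : Real.sqrt (Real.pi * v) ≤ 1 := by linarith
      rwa [Real.sqrt_le_one] at h1
    set r : ℝ := Real.sqrt (v / Real.pi) with hr
    have hr0 : 0 < r := Real.sqrt_pos.2 (by positivity)
    have hrsq : r ^ 2 = v / Real.pi := Real.sq_sqrt (by positivity)
    have hvr : v = Real.pi * r ^ 2 := by rw [hrsq]; field_simp
    have hr1 : r < 1 / 2 := by
      have h1 : r ^ 2 < (1 / 2) ^ 2 := by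
        rw [hrsq, div_lt_iff₀ hpi]
        nlinarith
      exact lt_of_pow_lt_pow_left₀ 2 (by norm_num) h1
    refine ⟨(Finset.univ : Finset (Fin 2)).map i.succAboveEmb, r, ?_, hr0, hr1, ?_⟩
    · simp
    refine tube_case (i := i) hF hper hd hr0 hr1 hvr (fun t ht => by rw [hconst t ht, ← hvr])
      ?_ ?_
    · filter_upwards [hzero, hconst'] with t h1 h2 htI h0
      rw [h2 htI]
      exact hPs (by linarith) t (h1 htI).le
    · intro t ht0 ht1 h0 hP
      refine hN F hF hper hd i hg t ht0 ht1 h0 ?_ hP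
      have h1 : ar i F t = ar i F |t| := by
        rcases le_total 0 t with h | h
        · rw [abs_of_nonneg h]
        · rw [abs_of_nonpos h, ar_even (hd i)]
      rw [h1, hconst |t| ⟨ht0, ht1⟩]
      have h3 : v ≤ 1 / Real.pi := by
        rw [le_div_iff₀ hpi]; linarith
      refine h3.trans ?_
      rw [div_le_div_iff₀ hpi (by norm_num)]
      nlinarith

theorem ae_abs_ne (z : ℝ) : ∀ᵐ t : ℝ, |t| ≠ z := by
  filter_upwards [ZC.ae_ne z, ZC.ae_ne (-z)] with t h1 h2 h3
  rcases abs_choice t with h | h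
  · exact h1 (by rw [← h]; exact h3)
  · exact h2 (by rw [← h3, h]; ring)

/-- **The isoperimetric inequality and its equality case for symmetric decreasing sets.** -/
theorem down_main (T : ZC.Tables) (hN : NoTouch) (hF : MeasurableSet F)
    (hper : IsLatticePeriodic F) (hd : ∀ j, SymDecAt j F) (hP : periodicPerimeter F ≠ ⊤)
    (hv0 : 0 < periodicVolume F) (hv1 : periodicVolume F ≤ 1 / 2) :
    Inv.prof (periodicVolume F) ≤ (periodicPerimeter F).toReal ∧
      ((periodicPerimeter F).toReal ≤ Inv.prof (periodicVolume F) →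
        ∃ (J : Finset (Fin 3)) (r : ℝ), J.Nonempty ∧ 0 < r ∧ r < 1 / 2 ∧
          ∀ᵐ x : En 3, x ∈ F ↔ x ∈ stdReg J r 0) := by
  rw [prof_eq]
  obtain ⟨i, hA | hG⟩ := exists_direction hd (h := 1 / 20) (by norm_num) (by norm_num)
  · obtain ⟨A, B, D⟩ := data_of hF hper hd hP hv1 i
    obtain ⟨z, q, hq0, hq1, h1, h2⟩ := caseA_bound_fixed hF hper hd (h := 1 / 20) (by norm_num)
      (by norm_num) hA
    have hU : ∀ (t q' : ℝ), 0 ≤ q' → q' ≤ 7 / 10 →
        Ufun (1 - ar i F t) (1 - q') ≤ 5 := fun t q' h3 h4 =>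
      Ufun_le_five (by linarith [ar_nonneg i F t]) (by linarith) (by linarith)
    obtain ⟨h3, h4⟩ := ZC.scalar_caseA T D.hs D.hl D.even D.anti D.s01 D.dual D.hA D.hB
      (v := periodicVolume F) (ar_int i hF) hv1 hq0 hq1
      (fun q' a b c => Eventually.of_forall fun t ht => le_lt10 (h1 q' a b t ht) (by
        have := hU t q' a c
        linarith))
      (fun q' a b c => by
        filter_upwards [ae_abs_ne z] with t hz ht
        refine le_lt10 (h2 q' a b t ht hz) ?_
        have := hU t q' a c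
        have := min_le_right (Jtail q (ar i F t)) (Ufun (1 - ar i F t) (1 - q'))
        have h5 : min (Jtail q (periodicVolume (sliceAt i F t)))
          (Ufun (1 - periodicVolume (sliceAt i F t)) (1 - q')) ≤ 5 := by
          change min (Jtail q (ar i F t)) (Ufun (1 - ar i F t) (1 - q')) ≤ 5
          linarith
        linarith)
    refine ⟨by linarith, fun h5 => ?_⟩
    obtain ⟨hA1, hB0⟩ := h4 (by linarith)
    refine slab_final hF hper hd hv0 hv1 D hA1 hB0 ?_
    have : min (m0 (periodicVolume F)) 1 ≤ 1 := min_le_right _ _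
    linarith
  · obtain ⟨A, B, D⟩ := data_of hF hper hd hP hv1 i
    obtain ⟨h3, h4⟩ := ZC.scalar_good T D.hs D.hl D.even D.anti D.s01 D.dual D.hA D.hB
      (v := periodicVolume F) (ar_int i hF) hv0 hv1
      (by
        filter_upwards [ZC.ae_ne 0] with t h0 ht
        have h5 := good_bound hF hper hd (by norm_num) hG (abs_pos.2 h0) ht
        rw [show (2 * (1 / 20) : ℝ) = 1 / 10 by norm_num] at h5
        refine le_lt10 h5 ?_
        have := Jgood_le (1 / 10) (ar_le_one i F t)
        change 2 * Jgood (1 / 10) (ar i F t) ≤ 10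
        linarith)
    refine ⟨by linarith, fun h5 => ?_⟩
    rcases h4 (by linarith) with ⟨hA1, hB0⟩ | ⟨-, hlow, hcase⟩
    · refine slab_final hF hper hd hv0 hv1 D hA1 hB0 ?_
      have : min (m0 (periodicVolume F)) 1 ≤ 1 := min_le_right _ _
      linarith
    · refine exact_final hN hF hper hd hG hv0 D hlow (fun hlt => ?_) h5
      rcases hcase with h6 | ⟨h6, h7, h8⟩
      · exact absurd h6 hlt.ne
      · rw [ar_int i hF]
        exact ⟨h6, h7, h8⟩

/-- **MAIN** -/
theorem MAIN_of (T : ZC.Tables) (hN : NoTouch) : Inv.MAIN := by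
  intro E hE hper hv0 hv1
  by_cases hP : periodicPerimeter E = ⊤
  · rw [hP]; exact le_top
  have hPle := periodicPerimeter_steiner3_le hE hper
  have hvol := periodicVolume_steiner3 hE hper
  have hP3 : periodicPerimeter (steiner3 E) ≠ ⊤ := ne_top_of_le_ne_top hP hPle
  have h := (down_main T hN (measurableSet_steiner3 hE hper) (steiner3_periodic hE hper)
    (symDecAt_steiner3 hE hper) hP3 (by rw [hvol]; exact hv0) (by rw [hvol]; exact hv1)).1
  rw [hvol] at h
  exact (ENNReal.ofReal_le_of_le_toReal h).trans hPle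

/-- **EqSteiner** -/
theorem EqSteiner_of (T : ZC.Tables) (hN : NoTouch) : Rig.EqSteiner := by
  intro E hE hper hv0 hv1 hPE
  have hP : periodicPerimeter E ≠ ⊤ := by rw [hPE]; exact ENNReal.ofReal_ne_top
  have hPle := periodicPerimeter_steiner3_le hE hper
  have hvol := periodicVolume_steiner3 hE hper
  have hP3 : periodicPerimeter (steiner3 E) ≠ ⊤ := ne_top_of_le_ne_top hP hPle
  obtain ⟨h1, h2⟩ := down_main T hN (measurableSet_steiner3 hE hper) (steiner3_periodic hE hper)
    (symDecAt_steiner3 hE hper) hP3 (by rw [hvol]; exact hv0) (by rw [hvol]; exact hv1)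
  refine h2 ?_
  rw [hvol]
  rw [hvol] at h1
  have h3 := ENNReal.toReal_mono hP hPle
  have h4 : (periodicPerimeter E).toReal ≤ max (Inv.prof (periodicVolume E)) 0 := by
    rw [hPE, ENNReal.toReal_ofReal']
  have h5 : 0 ≤ Inv.prof (periodicVolume E) := by
    unfold Inv.prof
    have hpi := Real.pi_pos
    refine le_min (le_min ?_ ?_) (by norm_num)
    · positivity
    · positivity
  rw [max_eq_left h5] at h4
  exact h3.trans h4

end Crest.Agent.R214.Down
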