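import Crest.Agent.R214.DownMain

/-!
# R214: slices of disc perimeter in a good direction do not touch the far sides
-/

set_option autoImplicit false

open MeasureTheory Crest.GeometryTopology.PeriodicPerimeter Filter Topology Set

namespace Crest.Agent.R214.Down

open Crest.Agent.R214 Slice

theorem T_strict {s : ℝ} (h0 : 1 / Real.pi ≤ s) (h1 : s ≤ Real.pi / 9) :
    Real.sqrt (Real.pi * s) < Tfun (s - 1 / 10) := by
  have hpi := Real.pi_gt_d4
  have hpi4 := Real.pi_lt_d4
  have hs0 : 318 / 1000 ≤ s := by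
    refine le_trans ?_ h0
    rw [le_div_iff₀ (by linarith)]
    linarith
  have hs1 : s ≤ 3491 / 10000 := by linarith
  have h2 := ZC.Ifun_lower
  have h3 := le_Tfun (R := 10 / 7) (by norm_num) (s - 1 / 10)
  have h4 : (s - 1 / 10) / (10 / 7) = 7 / 10 * s - 7 / 100 := by ring
  rw [h4] at h3
  have h5 : Real.sqrt (Real.pi * s) < 838 / 1000 + 7 / 10 * s := by
    rw [Real.sqrt_lt' (by linarith)]
    nlinarith
  linarith

theorem max_T_gt {s : ℝ} (h0 : 0 < s) (h1 : s ≤ Real.pi / 9) :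
    Real.sqrt (Real.pi * s) < max 1 (Tfun (s - 1 / 10)) := by
  have hpi := Real.pi_pos
  rcases lt_or_ge s (1 / Real.pi) with h | h
  · refine lt_of_lt_of_le ?_ (le_max_left _ _)
    rw [Real.sqrt_lt' one_pos]
    rw [lt_div_iff₀ hpi] at h
    linarith
  · exact lt_of_lt_of_le (T_strict h h1) (le_max_right _ _)

theorem noTouch : NoTouch := by
  intro F hF hper hd i hg t ht0 ht1 h0 h1 hP
  have hpi := Real.pi_pos
  have hpi4 := Real.pi_lt_d4
  have hsl : sliceAt i F t = sliceAt i F |t| := sliceAt_abs (hd i) ht1.le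
  have har : ar i F t = ar i F |t| := by unfold ar; rw [hsl]
  rw [hsl] at hP ⊢
  rw [har] at h0 h1 hP
  have hS := Slice.measurableSet_sliceAt i hF |t|
  have hp := Slice.sliceAt_periodic i hper |t|
  have hd2 : ∀ j : Fin 2, SymDecAt j (sliceAt i F |t|) := fun j => symDecAt_sliceAt (hd _) _
  have h01 : (0 : Fin 2) ≠ 1 := by decide
  obtain ⟨g1, g2⟩ := hg |t| ht0 ht1
  have hmax := max_T_gt h0 h1
  have hcontr : ∀ x : ℝ, Real.sqrt (Real.pi * ar i F |t|) < x →
      ¬ ENNReal.ofReal (2 * x) ≤ periodicPerimeter (sliceAt i F |t|) := by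
    intro x hx h
    have h3 := h.trans hP
    have hx0 : 0 < x := lt_of_le_of_lt (Real.sqrt_nonneg _) hx
    exact absurd h3 (not_le.2 ((ENNReal.ofReal_lt_ofReal_iff (by linarith)).2 (by linarith)))
  have h12 : ¬ (Touch 0 1 (sliceAt i F |t|) ∧ Touch 1 0 (sliceAt i F |t|)) := by
    rintro ⟨c1, c2⟩
    refine hcontr (Real.sqrt (Real.pi * (1 - ar i F |t|))) ?_
      (planar_type2_sqrt h01 hS hp (hd2 0) (hd2 1) c1 c2)
    refine Real.sqrt_lt_sqrt (by positivity) ?_
    exact mul_lt_mul_of_pos_left (by linarith) hpi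
  constructor
  · intro c1
    have c2 : ¬ Touch 1 0 (sliceAt i F |t|) := fun c2 => h12 ⟨c1, c2⟩
    refine hcontr _ hmax
      (planar_type1 h01 hS hp (hd2 0) (hd2 1) c1 c2 (q := 1 / 10) (by norm_num) ?_)
    intro h' h1' h2' hA
    exact g1 c1 c2 (arm_mono h01 (hd2 1) (by norm_num) (by linarith) h2' hA)
  · intro c2
    have c1 : ¬ Touch 0 1 (sliceAt i F |t|) := fun c1 => h12 ⟨c1, c2⟩
    refine hcontr _ hmax
      (planar_type1 h01.symm hS hp (hd2 1) (hd2 0) c2 c1 (q := 1 / 10) (by norm_num) ?_)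
    intro h' h1' h2' hA
    exact g2 c2 c1 (arm_mono h01.symm (hd2 0) (by norm_num) (by linarith) h2' hA)

end Crest.Agent.R214.Down
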