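import Crest.Agent.R214.Scalar

/-!
# Row 214 (helper369): numerical facts for the equality cases (requested by helper937)
-/

set_option autoImplicit false

open MeasureTheory Set

namespace Crest.Agent.R214.Down

/-- (H1) -/
theorem Jgood_exact {s : ℝ} (_h0 : 0 ≤ s) (h1 : s ≤ 38 / 100) :
    Real.sqrt (Real.pi * s) ≤ Jgood (1 / 10) s := (ZC.Jgood_eq h1).ge

/-- strict version: type 1 slices are strictly worse than discs on `[31/100, 38/100]` -/
theorem T_strict' {s : ℝ} (h0 : 31 / 100 ≤ s) (h1 : s ≤ 38 / 100) :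
    Real.sqrt (Real.pi * s) < Tfun (s - 1 / 10) := by
  have hpi := Real.pi_pos
  have hpi4 := Real.pi_lt_d4
  refine lt_of_lt_of_le ?_ (le_Tfun (R := 10 / 7) (by norm_num) (s - 1 / 10))
  have h1 := ZC.Ifun_lower
  have h2 : 838 / 1000 + 7 / 10 * s ≤ Ifun (10 / 7) + (s - 1 / 10) / (10 / 7) := by
    have : (s - 1 / 10) / (10 / 7) = 7 / 10 * s - 7 / 100 := by ring
    rw [this]; linarith
  refine lt_of_lt_of_le ?_ h2
  rw [Real.sqrt_lt' (by linarith)]
  nlinarith

/-- (H2) -/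
theorem T_strict {s : ℝ} (h0 : 1 / Real.pi ≤ s) (h1 : s ≤ Real.pi / 9) :
    Real.sqrt (Real.pi * s) < Tfun (s - 1 / 10) := by
  have hpi := Real.pi_pos
  have hpi4 := Real.pi_lt_d4
  refine T_strict' (le_trans ?_ h0) (h1.trans ?_)
  · rw [le_div_iff₀ hpi]; linarith
  · linarith

/-- type 0 is strictly better than type 1 below `38/100` -/
theorem sqrt_lt_type1 {s : ℝ} (h1 : s ≤ 38 / 100) :
    Real.sqrt (Real.pi * s) < max 1 (Tfun (s - 1 / 10)) := by
  have hpi := Real.pi_pos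
  have hpi4 := Real.pi_lt_d4
  rcases le_total s (31 / 100) with h | h
  · refine lt_of_lt_of_le ?_ (le_max_left _ _)
    rw [Real.sqrt_lt' (by norm_num)]
    nlinarith
  · exact lt_of_lt_of_le (T_strict' h h1) (le_max_right _ _)

/-- type 0 is strictly better than type 2 below `1/2` -/
theorem sqrt_lt_type2 {s : ℝ} (h1 : s < 1 / 2) :
    Real.sqrt (Real.pi * s) < Real.sqrt (Real.pi * (1 - s)) := by
  have hpi := Real.pi_pos
  have h2 : Real.pi * s < Real.pi * (1 - s) := mul_lt_mul_of_pos_left (by linarith) hpi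
  exact Real.sqrt_lt_sqrt_iff_of_pos (mul_pos hpi (by linarith)) |>.2 h2

/-! (H3): `ZC.Jtail_anti`, `ZC.Jtail_nonneg`, `ZC.Jgood_nonneg`, `ZC.Ufun_nonneg`, `ZC.Ufun_mono` are in
`Scalar.lean`; here the antitone forms in the volume variable. -/

theorem Ufun_anti_vol {x x' e : ℝ} (he : 0 < e) (h : x ≤ x') :
    Ufun (1 - x') e ≤ Ufun (1 - x) e := ZC.Ufun_mono he (by linarith)

theorem Ufun_compl_nonneg {x e : ℝ} (he : 0 < e) (h : x ≤ 1) : 0 ≤ Ufun (1 - x) e :=
  ZC.Ufun_nonneg (by linarith) he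

theorem Ufun_antitoneOn {e : ℝ} (he : 0 < e) : AntitoneOn (fun x => Ufun (1 - x) e) (Icc 0 1) :=
  fun _ _ _ _ h => Ufun_anti_vol he h

end Crest.Agent.R214.Down
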