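import Crest.Agent.R214.EqBall

/-!
# R214: equality profile of the disc (helper937)
-/

open MeasureTheory Set Filter Topology

namespace Crest.Agent.R214.MS

theorem int_sqrt_quarter : ∫ x in (0:ℝ)..1, Real.sqrt (1 - x ^ 2) = Real.pi / 4 := by
  have h := integral_sqrt_one_sub_sq
  have hc : Continuous fun x : ℝ => Real.sqrt (1 - x ^ 2) := by fun_prop
  rw [← intervalIntegral.integral_add_adjacent_intervals (hc.intervalIntegrable (-1) 0)
    (hc.intervalIntegrable 0 1)] at h
  have h2 := intervalIntegral.integral_comp_neg (a := (0:ℝ)) (b := 1)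
    (fun x : ℝ => Real.sqrt (1 - x ^ 2))
  simp only [neg_sq, neg_zero] at h2
  rw [← h2] at h
  linarith

theorem int_sqrt_scaled {R : ℝ} (hR : 0 < R) :
    ∫ τ in (0:ℝ)..R, Real.sqrt (R ^ 2 - τ ^ 2) = Real.pi / 4 * R ^ 2 := by
  have h1 : ∫ τ in (0:ℝ)..R, Real.sqrt (R ^ 2 - τ ^ 2)
      = ∫ τ in (0:ℝ)..R, R * Real.sqrt (1 - (τ / R) ^ 2) := by
    refine intervalIntegral.integral_congr fun x _ => ?_
    rw [show R ^ 2 - x ^ 2 = R ^ 2 * (1 - (x / R) ^ 2) by field_simp,
      Real.sqrt_mul (sq_nonneg R), Real.sqrt_sq hR.le]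
  rw [h1, intervalIntegral.integral_const_mul]
  have h2 := intervalIntegral.integral_comp_div (a := (0:ℝ)) (b := R)
    (fun x : ℝ => Real.sqrt (1 - x ^ 2)) hR.ne'
  rw [h2, zero_div, div_self hR.ne', int_sqrt_quarter, smul_eq_mul]
  ring

/-- the angle function for the disc -/
noncomputable def Td (A σ : ℝ) : ℝ := Real.sqrt (max 0 (1 - (max 0 σ / A) ^ 2))

theorem Td_cont (A : ℝ) : Continuous (Td A) := by
  unfold Td
  exact (continuous_const.max (continuous_const.sub
    (((continuous_const.max continuous_id).div_const A).pow 2))).sqrt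

theorem Td_nonneg (A σ : ℝ) : 0 ≤ Td A σ := Real.sqrt_nonneg _

theorem Td_abs (A : ℝ) (σ : ℝ) : |Td A σ| ≤ 1 := by
  rw [abs_of_nonneg (Td_nonneg A σ)]
  unfold Td
  refine Real.sqrt_le_one.2 (max_le zero_le_one ?_)
  have : 0 ≤ (max 0 σ / A) ^ 2 := sq_nonneg _
  linarith

theorem Td_sq {A : ℝ} (hA : 0 < A) {σ : ℝ} (h : σ ∈ Icc 0 A) : Td A σ ^ 2 = 1 - (σ / A) ^ 2 := by
  unfold Td
  have h1 : σ / A ≤ 1 := (div_le_one hA).2 h.2
  have h2 : 0 ≤ σ / A := div_nonneg h.1 hA.le
  rw [max_eq_right h.1, max_eq_right (by nlinarith), Real.sq_sqrt (by nlinarith)]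

theorem Td_int {A : ℝ} (hA : 0 < A) : ∫ x in (0:ℝ)..A, Td A x = Real.pi / 4 * A := by
  have h1 : ∫ x in (0:ℝ)..A, Td A x = ∫ x in (0:ℝ)..A, Real.sqrt (1 - (x / A) ^ 2) := by
    refine intervalIntegral.integral_congr fun x hx => ?_
    rw [uIcc_of_le hA.le] at hx
    simp only [Td]
    have h1 : x / A ≤ 1 := (div_le_one hA).2 hx.2
    have h2 : 0 ≤ x / A := div_nonneg hx.1 hA.le
    rw [max_eq_right hx.1, max_eq_right (by nlinarith)]
  rw [h1]
  have h3 := intervalIntegral.integral_comp_div (a := (0:ℝ)) (b := A)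
    (fun x : ℝ => Real.sqrt (1 - x ^ 2)) hA.ne'
  rw [h3, zero_div, div_self hA.ne', int_sqrt_quarter, smul_eq_mul]
  ring

set_option maxHeartbeats 3200000 in
/-- **disc profile**: at equality the slice lengths are those of the disc of radius `R` -/
theorem disc_profile {s l : ℝ → ℝ} (hs : BP s) (hl : BP l) (hl0 : ∀ t, 0 ≤ l t)
    (hse : ∀ t, s (-t) = s t) (hanti : AntitoneOn s (Ioo 0 (1 / 2)))
    (hs0 : ∀ t ∈ Ioo (0:ℝ) (1 / 2), 0 ≤ s t) {P R : ℝ} (hR : 0 < R) (H : DualIneq s l P)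
    (hP : P ≤ 2 * Real.pi * R) (hV : ∫ t in (0:ℝ)..1, s t = Real.pi * R ^ 2)
    (hlow : ∀ᵐ t : ℝ ∂(volume.restrict (Ioo (0:ℝ) 1)), 0 < s t → 2 ≤ l t)
    {A : ℝ} (hA : Tendsto s (𝓝[>] 0) (𝓝 A)) (hB : Tendsto s (𝓝[<] (1 / 2)) (𝓝 0)) :
    A = 2 * R ∧
      (∀ t ∈ Ioo (0:ℝ) (1 / 2), s t = 2 * Real.sqrt (R ^ 2 - (min t R) ^ 2)) ∧
      (∀ᵐ t : ℝ ∂(volume.restrict (Ioo (0:ℝ) 1)), 0 < s t → l t = 2) := by
  have hpi := Real.pi_pos
  -- bounds for s
  obtain ⟨A', hA', hle', -⟩ := exists_right_lim hs hanti le_rfl (by norm_num : (0:ℝ) < 1 / 2)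
  have hAA : A' = A := tendsto_nhds_unique hA' hA
  rw [hAA] at hle'
  have hsA : ∀ t ∈ Ioo (0:ℝ) (1 / 2), s t ∈ Icc 0 A := fun t ht => ⟨hs0 t ht, hle' t ht⟩
  have hsA1 := mem_Icc_of_even hs.per hse hsA
  have hA0 : 0 < A := by
    by_contra hcon
    rw [not_lt] at hcon
    have h1 : ∫ t in (0:ℝ)..1, s t ≤ 0 := by
      rw [int01]
      refine integral_nonpos_of_ae ?_
      filter_upwards [ae_Ioo_ne] with t ht
      exact (hsA1 t ht.1 ht.2).2.trans hcon
    rw [hV] at h1
    have : 0 < Real.pi * R ^ 2 := by positivity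
    linarith
  have hIs : Integrable s (volume.restrict (Ioo (0:ℝ) 1)) := by
    have := hs.intervalIntegrable 0 1
    rwa [intervalIntegrable_iff_integrableOn_Ioo_of_le zero_le_one] at this
  have hTm : Measurable fun t => Td A (s t) := (Td_cont A).measurable.comp hs.meas
  have hIq : Integrable (fun t => Real.sqrt (1 - Td A (s t) ^ 2) * l t)
      (volume.restrict (Ioo (0:ℝ) 1)) := by
    obtain ⟨C, hC⟩ := hl.bdd
    refine Integrable.of_bound (((measurable_const.sub (hTm.pow_const 2)).sqrt).mul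
      hl.meas).aestronglyMeasurable (1 * C) (Eventually.of_forall fun t => ?_)
    rw [norm_mul, Real.norm_eq_abs, Real.norm_eq_abs, abs_of_nonneg (Real.sqrt_nonneg _)]
    exact mul_le_mul (Real.sqrt_le_one.2 (by nlinarith [sq_nonneg (Td A (s t))])) (hC t)
      (abs_nonneg _) zero_le_one
  have hsqT : ∀ t, s t ∈ Icc 0 A → Real.sqrt (1 - Td A (s t) ^ 2) = s t / A := by
    intro t hst
    rw [Td_sq hA0 hst, sub_sub_cancel, Real.sqrt_sq (div_nonneg hst.1 hA0.le)]
  -- pointwise lower bound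
  have hpt : ∀ᵐ t : ℝ ∂(volume.restrict (Ioo (0:ℝ) 1)),
      2 / A * s t ≤ Real.sqrt (1 - Td A (s t) ^ 2) * l t := by
    filter_upwards [ae_Ioo_ne, hlow] with t ht hlt
    have hst := hsA1 t ht.1 ht.2
    rw [hsqT t hst]
    rcases eq_or_lt_of_le hst.1 with h0 | h0
    · rw [← h0]; simp
    · have e : 2 / A * s t = s t / A * 2 := by ring
      rw [e]
      exact mul_le_mul_of_nonneg_left (hlt h0) (div_nonneg h0.le hA0.le)
  have hint : 2 / A * (Real.pi * R ^ 2)
      ≤ ∫ t in (0:ℝ)..1, Real.sqrt (1 - Td A (s t) ^ 2) * l t := by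
    rw [← hV, ← intervalIntegral.integral_const_mul, int01, int01]
    exact integral_mono_ae (hIs.const_mul _) hIq hpt
  have hms := mono_sub_one hs hl hse H (Td_cont A) (Td_abs A) hA hB hanti
  rw [Td_int hA0] at hms
  -- determine A
  have hAr : A = 2 * R := by
    have h1 : 2 / A * (Real.pi * R ^ 2) + 2 * (Real.pi / 4 * A) ≤ 2 * Real.pi * R := by linarith
    have h2 : 2 / A * (Real.pi * R ^ 2) * A = 2 * Real.pi * R ^ 2 := by field_simp
    have h3 : 2 * Real.pi * R ^ 2 + Real.pi / 2 * A ^ 2 ≤ 2 * Real.pi * R * A := by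
      have := mul_le_mul_of_nonneg_right h1 hA0.le
      nlinarith
    have h4 : Real.pi * (A - 2 * R) ^ 2 ≤ 0 := by nlinarith
    have h6 : (A - 2 * R) ^ 2 ≤ 0 := by
      by_contra hcon
      rw [not_le] at hcon
      nlinarith
    have := pow_eq_zero_iff (two_ne_zero) |>.1 (le_antisymm h6 (sq_nonneg _))
    linarith
  have hlo2 : Real.pi * R ≤ ∫ t in (0:ℝ)..1, Real.sqrt (1 - Td A (s t) ^ 2) * l t := by
    have e : 2 / A * (Real.pi * R ^ 2) = Real.pi * R := by
      rw [hAr]; field_simp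
    rwa [e] at hint
  have heq : P ≤ (∫ t in (0:ℝ)..1, Real.sqrt (1 - Td A (s t) ^ 2) * l t)
      + 2 * (∫ x in (0:ℝ)..A, Td A x) := by
    rw [Td_int hA0]
    have : 2 * (Real.pi / 4 * A) = Real.pi * R := by rw [hAr]; ring
    linarith
  -- l is determined
  have hint_eq : ∫ t in Ioo (0:ℝ) 1, (Real.sqrt (1 - Td A (s t) ^ 2) * l t
      - 2 / A * s t) = 0 := by
    rw [integral_sub hIq (hIs.const_mul _), ← int01, integral_const_mul, ← int01, hV]
    have e : 2 / A * (Real.pi * R ^ 2) = Real.pi * R := by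
      rw [hAr]; field_simp
    rw [e]
    have e2 : 2 * (Real.pi / 4 * A) = Real.pi * R := by rw [hAr]; ring
    rw [e2] at hms
    linarith
  have hae0 : ∀ᵐ t : ℝ ∂(volume.restrict (Ioo (0:ℝ) 1)), Real.sqrt (1 - Td A (s t) ^ 2) * l t
      = 2 / A * s t := by
    have h1 := (integral_eq_zero_iff_of_nonneg_ae (by
      filter_upwards [hpt] with t ht
      simpa using ht) (hIq.sub (hIs.const_mul _))).1 hint_eq
    filter_upwards [h1] with t ht
    have : Real.sqrt (1 - Td A (s t) ^ 2) * l t - 2 / A * s t = 0 := ht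
    linarith
  have hlae : ∀ᵐ t : ℝ ∂(volume.restrict (Ioo (0:ℝ) 1)), 0 < s t → l t = 2 := by
    filter_upwards [ae_Ioo_ne, hae0] with t ht h1 h0
    have hst := hsA1 t ht.1 ht.2
    rw [hsqT t hst] at h1
    have e : 2 / A * s t = s t / A * 2 := by ring
    rw [e] at h1
    exact mul_left_cancel₀ (div_pos h0 hA0).ne' h1
  refine ⟨hAr, ?_, hlae⟩
  -- the profile
  set u : ℝ → ℝ := fun t => R * Td A (s t) with hu
  have hum : Measurable u := hTm.const_mul R
  have hur : ∀ t ∈ Ioo (0:ℝ) (1 / 2), u t ∈ Icc 0 R := fun t _ => by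
    refine ⟨mul_nonneg hR.le (Td_nonneg _ _), ?_⟩
    have := (abs_le.1 (Td_abs A (s t))).2
    simp only [hu]
    nlinarith
  have hmono : MonotoneOn u (Ioo 0 (1 / 2)) := by
    intro x hx y hy hxy
    simp only [hu]
    refine mul_le_mul_of_nonneg_left ?_ hR.le
    unfold Td
    refine Real.sqrt_le_sqrt (max_le_max le_rfl ?_)
    have h0 : 0 ≤ max 0 (s y) / A := div_nonneg (le_max_left _ _) hA0.le
    have : max 0 (s y) / A ≤ max 0 (s x) / A := by
      have h1 : max 0 (s y) ≤ max 0 (s x) := max_le_max le_rfl (hanti hx hy hxy)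
      gcongr
    nlinarith
  have hsu : ∀ t, s t ∈ Icc 0 A → 2 * Real.sqrt (R ^ 2 - u t ^ 2) = s t := by
    intro t ht
    simp only [hu]
    rw [mul_pow, Td_sq hA0 ht, hAr,
      show R ^ 2 - R ^ 2 * (1 - (s t / (2 * R)) ^ 2) = (s t / 2) ^ 2 by field_simp; ring,
      Real.sqrt_sq (by linarith [ht.1])]
    ring
  have hid : ∀ g : ℝ → ℝ, Continuous g → (∃ δ > 0, ∀ x, R - δ ≤ x → g x = 0) →
      ∫ t in (0:ℝ)..(1 / 2), u t * g (u t) = ∫ τ in (0:ℝ)..R, τ * g τ := by
    intro g hg ⟨δ, hδ, hgδ⟩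
    set g' : ℝ → ℝ := fun x => g (max 0 (min x R)) with hg'
    have hg'c : Continuous g' := hg.comp (continuous_const.max (continuous_id.min continuous_const))
    obtain ⟨M, hM⟩ := (isCompact_Icc (a := (0:ℝ)) (b := R)).exists_bound_of_continuousOn
      hg.continuousOn
    have hg'M : ∀ x, |g' x| ≤ M := fun x => hM _ ⟨le_max_left _ _, max_le hR.le (min_le_right _ _)⟩
    have hM0 : 0 ≤ M := (abs_nonneg _).trans (hg'M 0)
    set η : ℝ → ℝ := fun σ => g' (R * Td A σ) * max 0 (min σ A) with hη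
    have hηc : Continuous η := (hg'c.comp (continuous_const.mul (Td_cont A))).mul
      (continuous_const.max (continuous_id.min continuous_const))
    have hηM : ∀ σ, |η σ| ≤ M * A := fun σ => by
      simp only [hη]
      rw [abs_mul]
      refine mul_le_mul (hg'M _) ?_ (abs_nonneg _) hM0
      rw [abs_of_nonneg (le_max_left _ _)]
      exact max_le hA0.le (min_le_right _ _)
    set δ₂ := min 1 (1 - ((R - min δ R) / R) ^ 2) with hδ₂
    have hδ₂0 : 0 < δ₂ := by
      refine lt_min one_pos ?_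
      have h1 : 0 < min δ R := lt_min hδ hR
      have h2 : 0 ≤ (R - min δ R) / R := div_nonneg (by linarith [min_le_right δ R]) hR.le
      have h3 : (R - min δ R) / R < 1 := by rw [div_lt_one hR]; linarith
      nlinarith
    have hsupp' : ∀ σ, 1 - δ₂ < Td A σ ^ 2 → g' (R * Td A σ) = 0 := by
      intro σ hσ
      have h1 : ((R - min δ R) / R) ^ 2 < Td A σ ^ 2 := by
        have := min_le_right 1 (1 - ((R - min δ R) / R) ^ 2)
        linarith
      have h2 : (R - min δ R) / R < Td A σ := lt_of_pow_lt_pow_left₀ 2 (Td_nonneg _ _) h1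
      rw [div_lt_iff₀ hR] at h2
      have h3 : R * Td A σ ≤ R := by
        have := (abs_le.1 (Td_abs A σ)).2
        nlinarith
      simp only [hg']
      rw [min_eq_left h3, max_eq_right (mul_nonneg hR.le (Td_nonneg _ _))]
      refine hgδ _ ?_
      have := min_le_left δ R
      linarith
    have hsupp : ∀ σ, 1 - δ₂ < Td A σ ^ 2 → η σ = 0 := by
      intro σ hσ
      simp only [hη]
      rw [hsupp' σ hσ, zero_mul]
    have hfv := first_var hs hl hl0 hse H (Td_cont A) (Td_abs A) hA hB hanti heq hηc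
      hηM hδ₂0 (min_le_left _ _) hsupp
    -- left side
    have hL : ∫ t in (0:ℝ)..1, Td A (s t) * η (s t) / Real.sqrt (1 - Td A (s t) ^ 2) * l t
        = ∫ t in (0:ℝ)..1, 4 * (u t * g' (u t)) := by
      rw [int01, int01]
      refine integral_congr_ae ?_
      filter_upwards [ae_Ioo_ne, hlae] with t ht h1
      have hst := hsA1 t ht.1 ht.2
      rcases eq_or_lt_of_le hst.1 with h0 | h0
      · have hT1 : Td A (s t) ^ 2 = 1 := by rw [Td_sq hA0 hst, ← h0]; simp
        have h2 : η (s t) = 0 := hsupp _ (by rw [hT1]; linarith)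
        have h3 : g' (u t) = 0 := hsupp' _ (by rw [hT1]; linarith)
        rw [h2, h3]; simp
      · rw [h1 h0, hsqT t hst]
        simp only [hη, hu]
        rw [min_eq_left hst.2, max_eq_right hst.1, hAr]
        have h0' : s t ≠ 0 := h0.ne'
        have hR' : R ≠ 0 := hR.ne'
        field_simp
        ring
    have hR2 : ∫ x in (0:ℝ)..A, η x = 4 * ∫ τ in (0:ℝ)..R, τ * g τ := by
      have h1 : ∫ x in (0:ℝ)..A, η x
          = ∫ x in (0:ℝ)..A, 2 * (g' (Real.sqrt (R ^ 2 - x ^ 2 / 4)) * (x / 2)) := by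
        refine intervalIntegral.integral_congr fun x hx => ?_
        rw [uIcc_of_le hA0.le] at hx
        simp only [hη]
        have e : R * Td A x = Real.sqrt (R ^ 2 - x ^ 2 / 4) := by
          rw [← Real.sqrt_sq (mul_nonneg hR.le (Td_nonneg A x)), mul_pow, Td_sq hA0 hx, hAr]
          congr 1
          field_simp
          ring
        rw [e, min_eq_left hx.2, max_eq_right hx.1]
        ring
      rw [h1, intervalIntegral.integral_const_mul]
      have h2 := intervalIntegral.integral_comp_mul_deriv (a := 0) (b := A)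
        (f := fun x => x ^ 2 / 4) (f' := fun x => x / 2)
        (g := fun y => g' (Real.sqrt (R ^ 2 - y))) (fun x _ => by
          have := (hasDerivAt_pow 2 x).div_const 4
          refine this.congr_deriv ?_
          simp; ring) (by fun_prop)
          (hg'c.comp (continuous_const.sub continuous_id).sqrt)
      simp only [Function.comp_def] at h2
      rw [h2, hAr]
      have e1 : (0:ℝ) ^ 2 / 4 = 0 := by norm_num
      have e2 : (2 * R) ^ 2 / 4 = R ^ 2 := by ring
      rw [e1, e2, cov_sq hR.le hg'c, intervalIntegral.integral_const_mul]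
      have h3 : ∫ τ in (0:ℝ)..R, τ * g' τ = ∫ τ in (0:ℝ)..R, τ * g τ := by
        refine intervalIntegral.integral_congr fun x hx => ?_
        rw [uIcc_of_le hR.le] at hx
        simp only [hg']
        rw [min_eq_left hx.2, max_eq_right hx.1]
      rw [h3]; ring
    rw [hL, hR2, intervalIntegral.integral_const_mul] at hfv
    -- halve
    have hhalf : ∫ t in (0:ℝ)..1, u t * g' (u t) = 2 * ∫ t in (0:ℝ)..(1 / 2), u t * g' (u t) := by
      refine half_int ?_ ?_ ?_
      · refine (intervalIntegrable_const (c := R * M)).mono_fun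
          ((hum.mul (hg'c.measurable.comp hum)).aestronglyMeasurable)
          (Eventually.of_forall fun t => ?_)
        have h1 : |u t| ≤ R := by
          simp only [hu]
          rw [abs_mul, abs_of_pos hR]
          have := Td_abs A (s t)
          nlinarith
        have h2 : |u t * g' (u t)| ≤ R * M := by
          rw [abs_mul]
          exact mul_le_mul h1 (hg'M _) (abs_nonneg _) hR.le
        exact h2.trans (le_abs_self _)
      · intro t
        simp only [hu, hs.per t]
      · intro t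
        simp only [hu, hse t]
    rw [hhalf] at hfv
    have h4 : ∫ t in (0:ℝ)..(1 / 2), u t * g' (u t) = ∫ t in (0:ℝ)..(1 / 2), u t * g (u t) := by
      refine intervalIntegral.integral_congr fun x _ => ?_
      have h1 : 0 ≤ u x := mul_nonneg hR.le (Td_nonneg _ _)
      have h2 : u x ≤ R := by
        have := (abs_le.1 (Td_abs A (s x))).2
        simp only [hu]
        nlinarith
      simp only [hg']
      rw [min_eq_left h2, max_eq_right h1]
    rw [← h4]
    linarith
  have hvol : ∫ t in (0:ℝ)..(1 / 2), 2 * Real.sqrt (R ^ 2 - u t ^ 2)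
      = ∫ τ in (0:ℝ)..R, 2 * Real.sqrt (R ^ 2 - τ ^ 2) := by
    have h1 : ∫ t in (0:ℝ)..(1 / 2), 2 * Real.sqrt (R ^ 2 - u t ^ 2)
        = ∫ t in (0:ℝ)..(1 / 2), s t := by
      rw [intervalIntegral.integral_of_le (by norm_num), intervalIntegral.integral_of_le
        (by norm_num), integral_Ioc_eq_integral_Ioo, integral_Ioc_eq_integral_Ioo]
      exact setIntegral_congr_fun measurableSet_Ioo fun t ht => hsu t (hsA t ht)
    have h2 := half_int (hs.intervalIntegrable 0 1) hs.per hse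
    rw [h1, intervalIntegral.integral_const_mul, int_sqrt_scaled hR]
    rw [hV] at h2
    linarith
  have hfin := u_eq_min hum hmono hA0 hR hur (s₀ := fun τ => 2 * Real.sqrt (R ^ 2 - τ ^ 2))
    (by fun_prop) (by rw [hAr]; simp [Real.sqrt_sq hR.le]) (by simp) hid hvol
  intro t ht
  rw [← hsu t (hsA t ht), hfin t ht]

/-- **slab**: if `P ≤ 2 (A - B)` then `l = 0` a.e. -/
theorem slab_profile {s l : ℝ → ℝ} (hs : BP s) (hl : BP l) (hl0 : ∀ t, 0 ≤ l t)
    (hse : ∀ t, s (-t) = s t) (hanti : AntitoneOn s (Ioo 0 (1 / 2)))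
    {P : ℝ} (H : DualIneq s l P) {A B : ℝ} (hP : P ≤ 2 * (A - B))
    (hA : Tendsto s (𝓝[>] 0) (𝓝 A)) (hB : Tendsto s (𝓝[<] (1 / 2)) (𝓝 B)) :
    ∀ᵐ t : ℝ ∂(volume.restrict (Ioo (0:ℝ) 1)), l t = 0 := by
  have hIl : Integrable l (volume.restrict (Ioo (0:ℝ) 1)) := by
    have := hl.intervalIntegrable 0 1
    rwa [intervalIntegrable_iff_integrableOn_Ioo_of_le zero_le_one] at this
  have key : ∀ ε : ℝ, 0 < ε → ε ≤ 1 →
      Real.sqrt ε * ∫ t in Ioo (0:ℝ) 1, l t ≤ 2 * (ε * (A - B)) := by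
    intro ε h0 h1
    have h2 := mono_sub_one hs hl hse H (T := fun _ => 1 - ε) continuous_const
      (fun _ => by rw [abs_le]; constructor <;> linarith) hA hB hanti
    simp only [intervalIntegral.integral_const_mul, intervalIntegral.integral_const,
      smul_eq_mul] at h2
    rw [int01] at h2
    have h3 : Real.sqrt ε ≤ Real.sqrt (1 - (1 - ε) ^ 2) := Real.sqrt_le_sqrt (by nlinarith)
    have h4 : 0 ≤ ∫ t in Ioo (0:ℝ) 1, l t := integral_nonneg fun t => hl0 t
    nlinarith [mul_le_mul_of_nonneg_right h3 h4]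
  have hz : ∫ t in Ioo (0:ℝ) 1, l t = 0 := by
    set I := ∫ t in Ioo (0:ℝ) 1, l t with hI
    have h4 : 0 ≤ I := integral_nonneg fun t => hl0 t
    by_contra hne
    have hpos : 0 < I := lt_of_le_of_ne h4 (Ne.symm hne)
    -- choose ε small
    have h5 : ∀ x : ℝ, 0 < x → x ≤ 1 → I ≤ 2 * (x * (A - B)) := by
      intro x hx hx1
      have := key (x ^ 2) (by positivity) (by nlinarith)
      rw [Real.sqrt_sq hx.le] at this
      have h6 : x * I ≤ x * (2 * (x * (A - B))) := by nlinarith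
      exact le_of_mul_le_mul_left h6 hx
    have h7 := h5 1 one_pos le_rfl
    have hAB : 0 < A - B := by linarith
    have h8 := h5 (min 1 (I / (4 * (A - B)))) (lt_min one_pos (by positivity)) (min_le_left _ _)
    have h9 : min 1 (I / (4 * (A - B))) * (A - B) ≤ I / (4 * (A - B)) * (A - B) :=
      mul_le_mul_of_nonneg_right (min_le_right _ _) hAB.le
    have h10 : I / (4 * (A - B)) * (A - B) = I / 4 := by field_simp
    linarith
  have := (integral_eq_zero_iff_of_nonneg_ae (Eventually.of_forall hl0) hIl).1 hz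
  filter_upwards [this] with t ht using ht

end Crest.Agent.R214.MS
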