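import Crest.Agent.R214.RigField

set_option autoImplicit false

/-! Row 214: the standard regions `{rho2 J (x - a) < r²}` (ball, tube, slab according to `#J`). -/

open MeasureTheory Set Filter Topology Crest.GeometryTopology.PeriodicPerimeter

noncomputable section

namespace Crest.Agent.R214.Rig

variable {n : ℕ}

/-- standard region -/
def stdReg (J : Finset (Fin n)) (r : ℝ) (a : En n) : Set (En n) := {x | rho2 J (x - a) < r ^ 2}

theorem mem_stdReg {J : Finset (Fin n)} {r : ℝ} {a x : En n} :
    x ∈ stdReg J r a ↔ rho2 J (x - a) < r ^ 2 := Iff.rfl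

theorem isOpen_stdReg (J : Finset (Fin n)) (r : ℝ) (a : En n) : IsOpen (stdReg J r a) :=
  isOpen_lt ((continuous_rho2 J).comp (continuous_id.sub continuous_const)) continuous_const

theorem measurableSet_stdReg (J : Finset (Fin n)) (r : ℝ) (a : En n) :
    MeasurableSet (stdReg J r a) := (isOpen_stdReg J r a).measurableSet

theorem stdReg_per (J : Finset (Fin n)) (r : ℝ) (a : En n) : IsLatticePeriodic (stdReg J r a) := by
  intro v hv x
  rw [mem_stdReg, mem_stdReg]
  have : x + v - a = (x - a) + v := by abel
  rw [this, rho2_per J v hv]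

end Crest.Agent.R214.Rig
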