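import Crest.Agent.R214.MonoSub2
import Crest.Agent.R214.Legendre

/-!
# Row 214: from the affine certificate to the perimeter bound

`cert_one`: one zone; `cert_two`: two zones, the first zone (near the centre) with the optimal
constant calibration.  The square of the lower bound of the slice perimeter is a continuous function
`g` which may vanish at the end points.
-/

set_option autoImplicit false

open MeasureTheory Set Filter Topology Crest.Agent.R214.MS

namespace Crest.Agent.R214.ZC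

/-- The continuous cut-off of `√(1 - w² / g)`. -/
theorem exists_T {B G p lam : ℝ} (hBG : B ≤ G) {g : ℝ → ℝ} (hg : ContinuousOn g (Icc B G))
    (hw0 : ∀ x ∈ Icc B G, 0 ≤ p + lam * x) (hw : ∀ x ∈ Icc B G, (p + lam * x) ^ 2 ≤ g x)
    {ε : ℝ} (hε : 0 < ε) :
    ∃ T : ℝ → ℝ, Continuous T ∧ (∀ x, |T x| ≤ 1) ∧
      (∀ x ∈ Icc B G, Real.sqrt (1 - (p + lam * x) ^ 2 / g x) ≤ T x) ∧
      (∀ x ∈ Icc B G, ∀ ℓ : ℝ, 2 * Real.sqrt (g x) ≤ ℓ →
        2 * (p + lam * x - ε) ≤ Real.sqrt (1 - T x ^ 2) * ℓ) ∧ (∀ x, 0 ≤ T x) := by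
  set pr : ℝ → ℝ := fun x => (projIcc B G hBG x : ℝ) with hpr
  have hprc : Continuous pr := continuous_subtype_val.comp continuous_projIcc
  have hprm : ∀ x, pr x ∈ Icc B G := fun x => (projIcc B G hBG x).2
  have hpre : ∀ x ∈ Icc B G, pr x = x := fun x hx => by
    simp only [hpr, projIcc_of_mem hBG hx]
  have hgc : Continuous fun x => g (pr x) := by
    rw [← continuousOn_univ]
    exact hg.comp hprc.continuousOn (fun x _ => hprm x)
  have hmaxpos : ∀ x, 0 < max (g (pr x)) (ε ^ 2) := fun x =>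
    lt_of_lt_of_le (by positivity) (le_max_right _ _)
  refine ⟨fun x => Real.sqrt (1 - (p + lam * pr x) ^ 2 / max (g (pr x)) (ε ^ 2)), ?_, ?_, ?_, ?_,
    fun x => Real.sqrt_nonneg _⟩
  · refine Real.continuous_sqrt.comp (continuous_const.sub ?_)
    refine Continuous.div (by fun_prop) (hgc.max continuous_const) ?_
    intro x
    exact (hmaxpos x).ne'
  · intro x
    rw [abs_of_nonneg (Real.sqrt_nonneg _)]
    refine Real.sqrt_le_one.2 ?_
    have : 0 ≤ (p + lam * pr x) ^ 2 / max (g (pr x)) (ε ^ 2) :=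
      div_nonneg (sq_nonneg _) (hmaxpos x).le
    linarith
  · intro x hx
    simp only [hpre x hx]
    refine Real.sqrt_le_sqrt ?_
    have h0 : 0 ≤ g x := (sq_nonneg _).trans (hw x hx)
    rcases h0.eq_or_lt with h1 | h1
    · have h2 : (p + lam * x) ^ 2 = 0 := le_antisymm ((hw x hx).trans h1.symm.le) (sq_nonneg _)
      rw [h2]
      simp
    · have := div_le_div_of_nonneg_left (sq_nonneg (p + lam * x)) h1
        (le_max_left (g x) (ε ^ 2))
      linarith
  · intro x hx ℓ hℓ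
    simp only [hpre x hx]
    have h0 : 0 ≤ g x := (sq_nonneg _).trans (hw x hx)
    have hm : 0 < max (g x) (ε ^ 2) := lt_of_lt_of_le (by positivity) (le_max_right _ _)
    have hwle : (p + lam * x) ^ 2 / max (g x) (ε ^ 2) ≤ 1 := by
      rw [div_le_one hm]
      exact (hw x hx).trans (le_max_left _ _)
    rw [Real.sq_sqrt (by linarith), sub_sub_cancel, Real.sqrt_div' _ hm.le,
      Real.sqrt_sq (hw0 x hx)]
    have hℓ0 : 0 ≤ ℓ := le_trans (by positivity) hℓ
    rcases le_total (ε ^ 2) (g x) with h1 | h1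
    · rw [max_eq_left h1]
      have hg0 : 0 < g x := lt_of_lt_of_le (by positivity) h1
      have hsg : 0 < Real.sqrt (g x) := Real.sqrt_pos.2 hg0
      have h2 : (p + lam * x) / Real.sqrt (g x) * (2 * Real.sqrt (g x)) ≤
          (p + lam * x) / Real.sqrt (g x) * ℓ :=
        mul_le_mul_of_nonneg_left hℓ (div_nonneg (hw0 x hx) hsg.le)
      have h3 : (p + lam * x) / Real.sqrt (g x) * (2 * Real.sqrt (g x)) = 2 * (p + lam * x) := by
        field_simp
      linarith
    · have h2 : (p + lam * x) ^ 2 ≤ ε ^ 2 := (hw x hx).trans h1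
      have h3 : p + lam * x ≤ ε := by
        have := abs_le_of_sq_le_sq h2 hε.le
        exact (le_abs_self _).trans this
      have h4 : 0 ≤ (p + lam * x) / Real.sqrt (max (g x) (ε ^ 2)) * ℓ :=
        mul_nonneg (div_nonneg (hw0 x hx) (Real.sqrt_nonneg _)) hℓ0
      linarith

theorem sqrt_le_one' {X : ℝ} (h : 0 ≤ X) : Real.sqrt (1 - X) ≤ 1 :=
  Real.sqrt_le_one.2 (by linarith)

/-- comparison of the two integrals -/
theorem int_le_int_T {B G p lam : ℝ} (hBG : B ≤ G) {g T : ℝ → ℝ} (hT : Continuous T)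
    (hT0 : ∀ x, 0 ≤ T x)
    (h : ∀ x ∈ Icc B G, Real.sqrt (1 - (p + lam * x) ^ 2 / g x) ≤ T x) :
    ∫ x in B..G, Real.sqrt (1 - (p + lam * x) ^ 2 / g x) ≤ ∫ x in B..G, T x := by
  by_cases hi : IntervalIntegrable (fun x => Real.sqrt (1 - (p + lam * x) ^ 2 / g x)) volume B G
  · exact intervalIntegral.integral_mono_on hBG hi (hT.intervalIntegrable _ _) h
  · rw [intervalIntegral.integral_undef hi]
    exact intervalIntegral.integral_nonneg hBG fun x _ => hT0 x

theorem range_mem {s : ℝ → ℝ} (hs : BP s) (hanti : AntitoneOn s (Ioo 0 (1 / 2))) {A B : ℝ}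
    (hA : Tendsto s (𝓝[>] 0) (𝓝 A)) (hB : Tendsto s (𝓝[<] (1 / 2)) (𝓝 B)) {t : ℝ}
    (ht : t ∈ Ioo (0:ℝ) (1 / 2)) : s t ∈ Icc B A := by
  obtain ⟨σ, hσ, h1, -⟩ := exists_right_lim hs hanti (h := 0) le_rfl (by norm_num)
  obtain ⟨τ, hτ, h2⟩ := exists_left_lim hs hanti
  rw [tendsto_nhds_unique hA hσ, tendsto_nhds_unique hB hτ]
  exact ⟨h2 t ht, h1 t ht⟩

theorem le_of_lims {s : ℝ → ℝ} (hs : BP s) (hanti : AntitoneOn s (Ioo 0 (1 / 2))) {A B : ℝ}
    (hA : Tendsto s (𝓝[>] 0) (𝓝 A)) (hB : Tendsto s (𝓝[<] (1 / 2)) (𝓝 B)) : B ≤ A := by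
  have := range_mem hs hanti hA hB (t := 1 / 4) (by constructor <;> norm_num)
  exact this.1.trans this.2

/-- integral over a period by the centred period -/
theorem int_centred {Φ : ℝ → ℝ} (hper : Function.Periodic Φ 1) :
    ∫ t in (0:ℝ)..1, Φ t = ∫ t in (-(1 / 2 : ℝ))..(1 / 2), Φ t := by
  have := hper.intervalIntegral_add_eq 0 (-(1 / 2 : ℝ))
  rw [zero_add] at this
  rw [this]
  norm_num

theorem even_int {F : ℝ → ℝ} (hF : IntervalIntegrable F volume (-(1 / 2)) (1 / 2))
    (heven : ∀ t, F (-t) = F t) :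
    ∫ t in (-(1 / 2 : ℝ))..(1 / 2), F t = 2 * ∫ t in (0:ℝ)..(1 / 2), F t := by
  have h1 : IntervalIntegrable F volume (-(1 / 2)) 0 := hF.mono_set (by
    rw [uIcc_of_le (by norm_num), uIcc_of_le (by norm_num)]
    exact Icc_subset_Icc le_rfl (by norm_num))
  have h2 : IntervalIntegrable F volume 0 (1 / 2) := hF.mono_set (by
    rw [uIcc_of_le (by norm_num), uIcc_of_le (by norm_num)]
    exact Icc_subset_Icc (by norm_num) le_rfl)
  rw [← intervalIntegral.integral_add_adjacent_intervals h1 h2]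
  have h3 := intervalIntegral.integral_comp_neg (a := (0:ℝ)) (b := 1 / 2) F
  simp_rw [heven] at h3
  rw [neg_zero] at h3
  rw [← h3]
  ring

theorem even_mem {s : ℝ → ℝ} (hse : ∀ t, s (-t) = s t) {a b B A : ℝ}
    (h : ∀ t ∈ Ioo a b, s t ∈ Icc B A) {t : ℝ} (h1 : a < |t|) (h2 : |t| < b) :
    s t ∈ Icc B A := by
  rcases abs_cases t with ⟨h3, -⟩ | ⟨h3, -⟩
  · rw [h3] at h1 h2
    exact h t ⟨h1, h2⟩
  · rw [h3] at h1 h2
    rw [← hse t]
    exact h (-t) ⟨h1, h2⟩

theorem ae_ne (c : ℝ) : ∀ᵐ t : ℝ, t ≠ c := by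
  have : (volume : Measure ℝ) {c} = 0 := by simp
  exact compl_mem_ae_iff.2 this

/-- **One-zone certificate.** -/
theorem cert_one {s l : ℝ → ℝ} (hs : BP s) (hl : BP l) (hse : ∀ t, s (-t) = s t)
    (hanti : AntitoneOn s (Ioo 0 (1 / 2))) {P : ℝ} (H : DualIneq s l P) {A B : ℝ}
    (hA : Tendsto s (𝓝[>] 0) (𝓝 A)) (hB : Tendsto s (𝓝[<] (1 / 2)) (𝓝 B))
    {g : ℝ → ℝ} {p lam : ℝ} (hg : ContinuousOn g (Icc B A))
    (hw0 : ∀ x ∈ Icc B A, 0 ≤ p + lam * x) (hw : ∀ x ∈ Icc B A, (p + lam * x) ^ 2 ≤ g x)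
    (hlg : ∀ᵐ t, |t| < 1 / 2 → 2 * Real.sqrt (g (s t)) ≤ l t) :
    lam * (∫ t in (0:ℝ)..1, s t) + p +
      ∫ x in B..A, Real.sqrt (1 - (p + lam * x) ^ 2 / g x) ≤ P / 2 := by
  have hBA := le_of_lims hs hanti hA hB
  refine le_of_forall_pos_le_add fun ε hε => ?_
  obtain ⟨T, hTc, hT1, hTle, hTl, hT0⟩ := exists_T hBA hg hw0 hw hε
  have h1 := mono_sub_one hs hl hse H hTc hT1 hA hB hanti
  have h2 := int_le_int_T hBA hTc hT0 hTle
  have hΦ : BP fun t => Real.sqrt (1 - T (s t) ^ 2) * l t := by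
    refine BP.mul ⟨?_, ⟨1, fun t => ?_⟩, fun t => ?_⟩ hl
    · exact (Real.continuous_sqrt.measurable.comp
        ((measurable_const.sub ((hTc.measurable.comp hs.meas).pow_const 2))))
    · rw [abs_of_nonneg (Real.sqrt_nonneg _)]
      exact sqrt_le_one' (sq_nonneg _)
    · simp only [hs.per t]
  have hF : BP fun t => 2 * (p + lam * s t - ε) := by
    have := ((hs.const_mul lam).add (BP.of_continuous (f := fun _ => p - ε) continuous_const
      (fun _ => rfl))).const_mul 2
    have e : (fun t => 2 * (p + lam * s t - ε)) = fun t => 2 * (lam * s t + (p - ε)) := by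
      ext t; ring
    rw [e]; exact this
  have h3 : ∫ t in (0:ℝ)..1, 2 * (p + lam * s t - ε) ≤
      ∫ t in (0:ℝ)..1, Real.sqrt (1 - T (s t) ^ 2) * l t := by
    rw [int_centred hΦ.per, int_centred hF.per]
    refine intervalIntegral.integral_mono_ae_restrict (by norm_num) (hF.intervalIntegrable _ _)
      (hΦ.intervalIntegrable _ _) ?_
    refine (ae_restrict_iff' measurableSet_Icc).2 ?_
    filter_upwards [hlg, ae_ne 0, ae_ne (1 / 2), ae_ne (-(1 / 2))] with t ht h0 h5 h6 htI
    have h7 : |t| < 1 / 2 := by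
      rw [abs_lt]
      exact ⟨lt_of_le_of_ne htI.1 (Ne.symm h6), lt_of_le_of_ne htI.2 h5⟩
    refine hTl (s t) ?_ (l t) (ht h7)
    exact even_mem hse (a := 0) (b := 1 / 2) (fun t ht => range_mem hs hanti hA hB ht)
      (abs_pos.2 h0) h7
  have h4 : ∫ t in (0:ℝ)..1, 2 * (p + lam * s t - ε) =
      2 * (p + lam * (∫ t in (0:ℝ)..1, s t) - ε) := by
    rw [intervalIntegral.integral_const_mul, intervalIntegral.integral_sub,
      intervalIntegral.integral_add, intervalIntegral.integral_const_mul]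
    · simp
    · exact intervalIntegrable_const
    · exact (hs.const_mul lam).intervalIntegrable _ _
    · exact intervalIntegrable_const.add ((hs.const_mul lam).intervalIntegrable _ _)
    · exact intervalIntegrable_const
  linarith

/-- the optimal constant calibration in the first zone -/
theorem opt_const {X Y : ℝ} (hX : 0 ≤ X) (hY : 0 ≤ Y) :
    ∃ τ : ℝ, 0 ≤ τ ∧ τ ≤ 1 ∧ Real.sqrt (X ^ 2 + Y ^ 2) ≤ Real.sqrt (1 - τ ^ 2) * X + τ * Y := by
  set R := Real.sqrt (X ^ 2 + Y ^ 2) with hR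
  have hR0 : 0 ≤ R := Real.sqrt_nonneg _
  have hR2 : R ^ 2 = X ^ 2 + Y ^ 2 := Real.sq_sqrt (by positivity)
  rcases hR0.eq_or_lt with h | h
  · refine ⟨0, le_rfl, zero_le_one, ?_⟩
    rw [← h]
    simp [hX]
  · refine ⟨Y / R, by positivity, ?_, ?_⟩
    · rw [div_le_one h]
      exact Real.le_sqrt_of_sq_le (by nlinarith [sq_nonneg X])
    · have h1 : 1 - (Y / R) ^ 2 = (X / R) ^ 2 := by
        rw [div_pow, div_pow, hR2]
        have : X ^ 2 + Y ^ 2 ≠ 0 := by rw [← hR2]; positivity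
        field_simp
        ring
      rw [h1, Real.sqrt_sq (by positivity)]
      have h2 : X / R * X + Y / R * Y = R := by
        have : X / R * X + Y / R * Y = (X ^ 2 + Y ^ 2) / R := by ring
        rw [this, ← hR2]
        field_simp
      linarith

theorem abs_lt_iff_cos {h t : ℝ} (hh0 : 0 < h) (hh1 : h < 1 / 2) (ht : |t| ≤ 1 / 2) :
    Real.cos (2 * Real.pi * h) ≤ Real.cos (2 * Real.pi * t) ↔ |t| ≤ h := by
  have hpi := Real.pi_pos
  have e : Real.cos (2 * Real.pi * t) = Real.cos (2 * Real.pi * |t|) := by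
    rcases abs_cases t with ⟨h3, -⟩ | ⟨h3, -⟩
    · rw [h3]
    · rw [h3, mul_neg, Real.cos_neg]
  rw [e]
  have h1 : 2 * Real.pi * |t| ∈ Icc 0 Real.pi := ⟨by positivity, by nlinarith [abs_nonneg t]⟩
  have h2 : 2 * Real.pi * h ∈ Icc 0 Real.pi := ⟨by positivity, by nlinarith⟩
  rw [Real.strictAntiOn_cos.le_iff_ge h2 h1]
  constructor
  · intro h3
    exact le_of_mul_le_mul_left h3 (by positivity)
  · intro h3
    exact mul_le_mul_of_nonneg_left h3 (by positivity)

/-- **Two-zone certificate.**  `h` is the total width of the first zone. -/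
theorem cert_two {s l : ℝ → ℝ} (hs : BP s) (hl : BP l) (hse : ∀ t, s (-t) = s t)
    (hanti : AntitoneOn s (Ioo 0 (1 / 2))) {P : ℝ} (H : DualIneq s l P) {h A B G : ℝ}
    (hh0 : 0 < h) (hh1 : h < 1)
    (hA : Tendsto s (𝓝[>] 0) (𝓝 A)) (hB : Tendsto s (𝓝[<] (1 / 2)) (𝓝 B))
    (hG : Tendsto s (𝓝[>] (h / 2)) (𝓝 G))
    {g : ℝ → ℝ} {p lam L : ℝ} (hL : 0 ≤ L) (hg : ContinuousOn g (Icc B G))
    (hw0 : ∀ x ∈ Icc B G, 0 ≤ p + lam * x) (hw : ∀ x ∈ Icc B G, (p + lam * x) ^ 2 ≤ g x)
    (hlL : ∀ᵐ t, |t| < h / 2 → 2 * L ≤ l t)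
    (hlg : ∀ᵐ t, h / 2 < |t| → |t| < 1 / 2 → 2 * Real.sqrt (g (s t)) ≤ l t) :
    lam * (∫ t in (0:ℝ)..1, s t) + (1 - h) * p +
      (∫ x in B..G, Real.sqrt (1 - (p + lam * x) ^ 2 / g x)) +
      Real.sqrt ((h * L) ^ 2 + (A - G) ^ 2) - max lam 0 * (h * A) + max (-lam) 0 * (h * G)
      ≤ P / 2 := by
  -- order of the three values
  obtain ⟨G', hG', hGle, hGge⟩ := exists_right_lim hs hanti (h := h / 2) (by linarith)
    (by linarith)
  obtain rfl : G = G' := tendsto_nhds_unique hG hG'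
  have hgt : ∀ t ∈ Ioo (h / 2) (1 / 2), s t ∈ Icc B G := fun t ht =>
    ⟨(range_mem hs hanti hA hB ⟨by linarith [ht.1], ht.2⟩).1, hGle t ht⟩
  have hlt : ∀ t ∈ Ioc 0 (h / 2), s t ∈ Icc G A := fun t ht =>
    ⟨hGge t ht.1 ht.2, (range_mem hs hanti hA hB ⟨ht.1, by linarith [ht.2]⟩).2⟩
  have hBG : B ≤ G := by
    have := hgt (h / 4 + 1 / 4) ⟨by linarith, by linarith⟩
    exact this.1.trans this.2
  have hGA : G ≤ A := by
    have := hlt (h / 2) ⟨by linarith, le_rfl⟩
    exact this.1.trans this.2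
  obtain ⟨τ, hτ0, hτ1, hτ⟩ := opt_const (X := h * L) (Y := A - G) (by positivity) (by linarith)
  refine le_of_forall_pos_le_add fun ε hε => ?_
  obtain ⟨T, hTc, hT1, hTle, hTl, hT0⟩ := exists_T hBG hg hw0 hw hε
  have hcτ : |τ| ≤ 1 := by rw [abs_of_nonneg hτ0]; exact hτ1
  have h1 := mono_sub hs hl hse H (T₁ := T) (T₂ := fun _ => τ) hTc continuous_const hT1
    (fun _ => hcτ) (h := h / 2) (by linarith) (by linarith) hA hB hG
  rw [intervalIntegral.integral_const, smul_eq_mul] at h1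
  have h2 := int_le_int_T hBG hTc hT0 hTle
  set κ := Real.sqrt (1 - τ ^ 2) with hκ
  have hκ0 : 0 ≤ κ := Real.sqrt_nonneg _
  have hΨ : BP fun t => Real.sqrt (1 - (if Real.cos (2 * Real.pi * (h / 2)) ≤
      Real.cos (2 * Real.pi * t) then τ else T (s t)) ^ 2) := by
    refine ⟨?_, ⟨1, fun t => ?_⟩, fun t => ?_⟩
    · refine Real.continuous_sqrt.measurable.comp (measurable_const.sub
        (Measurable.pow_const ?_ 2))
      refine Measurable.ite ?_ measurable_const (hTc.measurable.comp hs.meas)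
      exact measurableSet_le measurable_const
        (Real.continuous_cos.comp (continuous_const.mul continuous_id)).measurable
    · rw [abs_of_nonneg (Real.sqrt_nonneg _)]
      exact sqrt_le_one' (sq_nonneg _)
    · simp only [hs.per t]
      rw [show 2 * Real.pi * (t + 1) = 2 * Real.pi * t + 2 * Real.pi by ring, Real.cos_add_two_pi]
  have hΦ := hΨ.mul hl
  -- lower bound function
  set F : ℝ → ℝ := fun t => if |t| ≤ h / 2 then 2 * (κ * L) else 2 * (p + lam * s t - ε) with hF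
  have hFm : Measurable F := by
    refine Measurable.ite (measurableSet_le continuous_abs.measurable measurable_const)
      measurable_const ?_
    exact measurable_const.mul (((measurable_const.add (measurable_const.mul hs.meas))).sub
      measurable_const)
  obtain ⟨D, hD⟩ := hs.bdd
  have hFb : ∀ t, |F t| ≤ 2 * (κ * L) + 2 * (|p| + |lam| * D + ε) := by
    intro t
    have hD0 : 0 ≤ D := (abs_nonneg _).trans (hD 0)
    have e1 : 0 ≤ 2 * (κ * L) := by positivity
    have e2 : 0 ≤ 2 * (|p| + |lam| * D + ε) := by positivity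
    simp only [hF]
    split_ifs
    · rw [abs_of_nonneg e1]; linarith
    · have h5 : |p + lam * s t - ε| ≤ |p| + |lam| * D + ε := by
        calc |p + lam * s t - ε| ≤ |p + lam * s t| + |ε| := abs_sub _ _
          _ ≤ |p| + |lam * s t| + |ε| := by
            have := abs_add_le p (lam * s t)
            linarith
          _ ≤ |p| + |lam| * D + ε := by
            rw [abs_mul, abs_of_pos hε]
            have := mul_le_mul_of_nonneg_left (hD t) (abs_nonneg lam)
            linarith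
      rw [abs_mul, abs_of_pos (by norm_num : (0:ℝ) < 2)]
      linarith
  have hFi : ∀ a b, IntervalIntegrable F volume a b := by
    intro a b
    refine (intervalIntegrable_const (c := 2 * (κ * L) + 2 * (|p| + |lam| * D + ε))).mono_fun
      hFm.aestronglyMeasurable (Eventually.of_forall fun t => ?_)
    simp only [Real.norm_eq_abs]
    exact (hFb t).trans (le_abs_self _)
  have h3 : ∫ t in (-(1 / 2 : ℝ))..(1 / 2), F t ≤
      ∫ t in (0:ℝ)..1, Real.sqrt (1 - (if Real.cos (2 * Real.pi * (h / 2)) ≤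
      Real.cos (2 * Real.pi * t) then τ else T (s t)) ^ 2) * l t := by
    rw [int_centred hΦ.per]
    refine intervalIntegral.integral_mono_ae_restrict (by norm_num) (hFi _ _)
      (hΦ.intervalIntegrable _ _) ?_
    refine (ae_restrict_iff' measurableSet_Icc).2 ?_
    filter_upwards [hlL, hlg, ae_ne (1 / 2), ae_ne (-(1 / 2)), ae_ne (h / 2), ae_ne (-(h / 2))]
      with t ht1 ht2 h5 h6 h7 h8 htI
    have h9 : |t| < 1 / 2 := by
      rw [abs_lt]
      exact ⟨lt_of_le_of_ne htI.1 (Ne.symm h6), lt_of_le_of_ne htI.2 h5⟩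
    have h10 := abs_lt_iff_cos (h := h / 2) (by linarith) (by linarith) h9.le
    simp only [hF]
    by_cases h11 : |t| ≤ h / 2
    · rw [if_pos h11, if_pos (h10.2 h11)]
      have h12 : |t| < h / 2 := by
        refine lt_of_le_of_ne h11 fun h13 => ?_
        rcases abs_cases t with ⟨h3, -⟩ | ⟨h3, -⟩
        · exact h7 (by linarith)
        · exact h8 (by linarith)
      have := mul_le_mul_of_nonneg_left (ht1 h12) hκ0
      linarith
    · rw [if_neg h11, if_neg (fun h12 => h11 (h10.1 h12))]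
      rw [not_le] at h11
      exact hTl (s t) (even_mem hse hgt h11 h9) (l t) (ht2 h11 h9)
  have h4 : ∫ t in (-(1 / 2 : ℝ))..(1 / 2), F t =
      2 * ∫ t in (0:ℝ)..(1 / 2), F t := by
    refine even_int (hFi _ _) fun t => ?_
    simp only [hF, abs_neg, hse]
  have h5 : ∫ t in (0:ℝ)..(1 / 2), F t = (∫ t in (0:ℝ)..(h / 2), F t) +
      ∫ t in (h / 2)..(1 / 2), F t :=
    (intervalIntegral.integral_add_adjacent_intervals (hFi _ _) (hFi _ _)).symm
  have h6 : ∫ t in (0:ℝ)..(h / 2), F t = h * (κ * L) := by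
    have : ∫ t in (0:ℝ)..(h / 2), F t = ∫ t in (0:ℝ)..(h / 2), 2 * (κ * L) := by
      refine intervalIntegral.integral_congr fun t ht => ?_
      rw [uIcc_of_le (by linarith)] at ht
      simp only [hF]
      rw [if_pos]
      rw [abs_of_nonneg ht.1]
      exact ht.2
    rw [this, intervalIntegral.integral_const, smul_eq_mul]
    ring
  have h7 : ∫ t in (h / 2)..(1 / 2), F t =
      (1 - h) * (p - ε) + 2 * lam * ∫ t in (h / 2)..(1 / 2), s t := by
    have : ∫ t in (h / 2)..(1 / 2), F t = ∫ t in (h / 2)..(1 / 2), (2 * (p - ε) + 2 * lam * s t) := by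
      refine intervalIntegral.integral_congr_ae ?_
      filter_upwards [] with t ht
      rw [uIoc_of_le (by linarith)] at ht
      simp only [hF]
      rw [if_neg]
      · ring
      · rw [not_le, abs_of_nonneg (by linarith [ht.1])]
        exact ht.1
    rw [this, intervalIntegral.integral_add intervalIntegrable_const
      ((hs.intervalIntegrable _ _).const_mul _), intervalIntegral.integral_const,
      intervalIntegral.integral_const_mul, smul_eq_mul]
    ring
  have h8 : ∫ t in (0:ℝ)..1, s t = 2 * ((∫ t in (0:ℝ)..(h / 2), s t) +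
      ∫ t in (h / 2)..(1 / 2), s t) := by
    rw [half_int (hs.intervalIntegrable _ _) hs.per hse,
      intervalIntegral.integral_add_adjacent_intervals (hs.intervalIntegrable _ _)
        (hs.intervalIntegrable _ _)]
  have h9 : ∫ t in (0:ℝ)..(h / 2), s t ≤ h / 2 * A := by
    have : ∫ t in (0:ℝ)..(h / 2), s t ≤ ∫ t in (0:ℝ)..(h / 2), A := by
      refine intervalIntegral.integral_mono_ae_restrict (by linarith) (hs.intervalIntegrable _ _)
        intervalIntegrable_const ?_
      refine (ae_restrict_iff' measurableSet_Icc).2 ?_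
      filter_upwards [ae_ne 0] with t ht0 ht
      exact (hlt t ⟨lt_of_le_of_ne ht.1 (Ne.symm ht0), ht.2⟩).2
    refine this.trans (le_of_eq ?_)
    rw [intervalIntegral.integral_const, smul_eq_mul]
    ring
  have h10 : h / 2 * G ≤ ∫ t in (0:ℝ)..(h / 2), s t := by
    have : ∫ t in (0:ℝ)..(h / 2), G ≤ ∫ t in (0:ℝ)..(h / 2), s t := by
      refine intervalIntegral.integral_mono_ae_restrict (by linarith) intervalIntegrable_const
        (hs.intervalIntegrable _ _) ?_
      refine (ae_restrict_iff' measurableSet_Icc).2 ?_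
      filter_upwards [ae_ne 0] with t ht0 ht
      exact (hlt t ⟨lt_of_le_of_ne ht.1 (Ne.symm ht0), ht.2⟩).1
    refine le_trans (le_of_eq ?_) this
    rw [intervalIntegral.integral_const, smul_eq_mul]
    ring
  set I1 := ∫ t in (0:ℝ)..(h / 2), s t with hI1
  have h11 : 2 * lam * I1 ≤ max lam 0 * (h * A) - max (-lam) 0 * (h * G) := by
    rcases le_total 0 lam with hl0 | hl0
    · rw [max_eq_left hl0, max_eq_right (by linarith : -lam ≤ 0)]
      nlinarith
    · rw [max_eq_right hl0, max_eq_left (by linarith : 0 ≤ -lam)]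
      nlinarith
  have h12 : (1 - h) * ε ≤ ε := by nlinarith
  rw [h8]
  rw [h4, h5, h6, h7] at h3
  set I2 := ∫ t in (h / 2)..(1 / 2), s t with hI2
  set I3 := ∫ x in B..G, Real.sqrt (1 - (p + lam * x) ^ 2 / g x) with hI3
  set I4 := ∫ x in B..G, T x with hI4
  have h13 : κ * (h * L) = h * (κ * L) := by ring
  have h14 : (A - G) * τ = τ * (A - G) := by ring
  rw [h14] at h1
  nlinarith

end Crest.Agent.R214.ZC
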