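import Crest.Agent.R214.SliceBounds
import Crest.Agent.R214.EqDisc
import Crest.Agent.R214.ZoneCert
import Crest.Agent.R214.RigStd0

/-!
# R214: symmetric decreasing plane sets of minimal perimeter are discs or strips
-/

set_option autoImplicit false

open MeasureTheory Crest.GeometryTopology.PeriodicPerimeter Filter Topology Set

namespace Crest.Agent.R214.Down

open Crest.Agent.R214

variable {i j : Fin 2} {S : Set (EuclideanSpace ℝ (Fin 2))}

theorem gf_periodic (hS : MeasurableSet S) (hper : IsLatticePeriodic S) :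
    Function.Periodic (gf i j S) 1 := fun t => by
  rw [← gf_per hS hper (t + 1), ← gf_per hS hper t]
  rw [cr_add_one]

theorem gf_BP (hS : MeasurableSet S) (hper : IsLatticePeriodic S) : MS.BP (gf i j S) where
  meas := measurable_gf hS hper
  bdd := ⟨1, fun t => by rw [abs_of_nonneg (gf_nonneg _)]; exact gf_le_one hS _⟩
  per := gf_periodic hS hper

theorem gf_even (hij : i ≠ j) (hS : MeasurableSet S) (hper : IsLatticePeriodic S)
    (hd : SymDecAt i S) (t : ℝ) : gf i j S (-t) = gf i j S t := by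
  rw [← gf_per hS hper (-t), ← gf_per hS hper t]
  have h1 : |cr (-t)| = |cr t| := abs_cr_neg t
  have h2 := abs_cr_le t
  have h3 := abs_cr_le (-t)
  exact le_antisymm (gf_anti hS hij hd h1.ge h3) (gf_anti hS hij hd h1.le h2)

theorem gf_antitone (hij : i ≠ j) (hS : MeasurableSet S) (hd : SymDecAt i S) :
    AntitoneOn (gf i j S) (Ioo 0 (1 / 2)) := by
  intro x hx y hy hxy
  refine gf_anti hS hij hd ?_ ?_
  · rw [abs_of_pos hx.1, abs_of_pos hy.1]; exact hxy
  · rw [abs_of_pos hy.1]; exact hy.2.le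

theorem integral_gf01 (hij : i ≠ j) (hS : MeasurableSet S) (hper : IsLatticePeriodic S) :
    ∫ t in (0:ℝ)..1, gf i j S t = periodicVolume S := by
  rw [ZC.int_centred (gf_periodic hS hper)]
  have := integral_gf hij hS hper
  norm_num at this ⊢
  exact this

/-- perimeter of the fibres (lower bound) -/
noncomputable def lf (i j : Fin 2) (S : Set (EuclideanSpace ℝ (Fin 2))) (t : ℝ) : ℝ :=
  if gf i j S t ≠ 0 ∧ gf i j S t ≠ 1 then 2 else 0

theorem lf_BP (hS : MeasurableSet S) (hper : IsLatticePeriodic S) : MS.BP (lf i j S) where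
  meas := by
    unfold lf
    refine Measurable.ite ?_ measurable_const measurable_const
    have h := measurable_gf (i := i) (j := j) hS hper
    exact (((measurableSet_singleton (0:ℝ)).preimage h).compl).inter
        (((measurableSet_singleton (1:ℝ)).preimage h).compl)
  bdd := ⟨2, fun t => by unfold lf; split_ifs <;> norm_num⟩
  per := fun t => by unfold lf; rw [gf_periodic hS hper t]

theorem lf_nonneg (t : ℝ) : 0 ≤ lf i j S t := by unfold lf; split_ifs <;> norm_num

/-- the dual inequality for plane sets -/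
theorem dual_plane (hij : i ≠ j) (hS : MeasurableSet S) (hper : IsLatticePeriodic S)
    (hP : periodicPerimeter S ≠ ⊤) :
    MS.DualIneq (gf i j S) (lf i j S) (periodicPerimeter S).toReal := by
  intro a b ha hb hap hbp ha0 hab
  have hdb : Continuous (deriv b) := hb.continuous_deriv le_rfl
  have hdp : Function.Periodic (deriv b) 1 := by
    intro t
    have h := deriv_comp_add_const b 1 t
    rw [← h]; congr 1; ext x; exact hbp x
  obtain ⟨C, hC⟩ := isCompact_Icc.exists_bound_of_continuousOn (s := Icc (0:ℝ) 1) hdb.continuousOn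
  have hC' : ∀ t, |deriv b t| ≤ C := by
    intro t
    obtain ⟨y, hy, hty⟩ := hdp.exists_mem_Ico₀ one_pos t
    rw [hty]
    exact hC y (Ico_subset_Icc_self hy)
  have h1 := field_ineq_plane hij hS hper hP ha.continuous.measurable ha0 hb.continuous
    (by
      have := hbp (-(1 / 2))
      rw [show (-(1 / 2) + 1 : ℝ) = 1 / 2 by norm_num] at this
      exact this.symm) (c := ∅) countable_empty (b' := deriv b)
    (fun t _ => (hb.differentiable one_ne_zero t).hasDerivAt) hdb.measurable hC'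
    (fun t _ => hab t)
  have hgfm := measurable_gf (i := i) (j := j) hS hper
  have i1 : IntervalIntegrable (fun t => a t * lf i j S t) volume 0 1 := by
    obtain ⟨D, hD⟩ := (lf_BP (i := i) (j := j) hS hper).bdd
    have h2 := (ha.continuous.intervalIntegrable (μ := volume) 0 1).norm.mul_const D
    refine h2.mono_fun (ha.continuous.aestronglyMeasurable.mul
      (lf_BP hS hper).meas.aestronglyMeasurable) (Eventually.of_forall fun t => ?_)
    have hD0 : 0 ≤ D := (abs_nonneg _).trans (hD t)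
    dsimp only
    rw [norm_mul, norm_mul, norm_norm, Real.norm_eq_abs D, abs_of_nonneg hD0]
    exact mul_le_mul_of_nonneg_left (hD t) (norm_nonneg _)
  have i2 : IntervalIntegrable (fun t => deriv b t * gf i j S t) volume 0 1 := by
    have h2 := (hdb.intervalIntegrable (μ := volume) 0 1).norm.mul_const 1
    refine h2.mono_fun (hdb.aestronglyMeasurable.mul hgfm.aestronglyMeasurable)
      (Eventually.of_forall fun t => ?_)
    dsimp only
    rw [norm_mul, norm_mul, norm_norm, Real.norm_eq_abs (1:ℝ), abs_one]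
    refine mul_le_mul_of_nonneg_left ?_ (norm_nonneg _)
    rw [Real.norm_eq_abs, abs_of_nonneg (gf_nonneg _)]; exact gf_le_one hS _
  rw [← intervalIntegral.integral_add i1 i2]
  have hper2 : Function.Periodic (fun t => a t * lf i j S t + deriv b t * gf i j S t) 1 := by
    intro t
    simp only [hap t, (lf_BP (i := i) (j := j) hS hper).per t, hdp t, gf_periodic hS hper t]
  rw [ZC.int_centred hper2]
  refine le_trans (le_of_eq ?_) h1
  refine intervalIntegral.integral_congr fun t _ => ?_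
  simp only [lf]
  split_ifs <;> ring

/-- far limit of the fibre lengths -/
theorem gf_far (hij : i ≠ j) (hS : MeasurableSet S) (hper : IsLatticePeriodic S)
    (hdi : SymDecAt i S) (hdj : SymDecAt j S) (h1 : ¬ Touch i j S) :
    Tendsto (gf i j S) (𝓝[<] (1 / 2)) (𝓝 0) := by
  obtain ⟨B, hB, hBle⟩ := MS.exists_left_lim (gf_BP hS hper) (gf_antitone hij hS hdi)
  have hB0 : 0 ≤ B := ge_of_tendsto hB (Eventually.of_forall fun t => gf_nonneg _)
  have hB1 : B ≤ 0 := by
    refine le_of_forall_pos_le_add fun ε hε => ?_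
    have h3 : 0 < min (ε / 2) (1 / 2) := lt_min (half_pos hε) (by norm_num)
    obtain ⟨t, ht0, ht1, ht⟩ := exists_gf_le_of_not_arm hij hS hper hdj h3.le (min_le_right _ _)
      (fun hA => h1 ⟨_, h3, min_le_right _ _, hA⟩)
    have h4 := hBle ((t + 1 / 2) / 2) ⟨by linarith, by linarith⟩
    have h5 : gf i j S ((t + 1 / 2) / 2) ≤ gf i j S t := gf_anti hS hij hdi (by
      rw [abs_of_nonneg ht0, abs_of_nonneg (by linarith)]; linarith) (by
      rw [abs_of_nonneg (by linarith)]; linarith)
    have := min_le_left (ε / 2) (1 / 2)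
    linarith
  rwa [le_antisymm hB1 hB0] at hB

/-- membership from the fibre length -/
theorem mem_of_lt_gf (hij : i ≠ j) (hS : MeasurableSet S) (hper : IsLatticePeriodic S)
    (hdi : SymDecAt i S) (hdj : SymDecAt j S) {x : EuclideanSpace ℝ (Fin 2)} {u : ℝ}
    (hu0 : |cr (x i)| ≤ |u|) (hu : |u| ≤ 1 / 2) (h : 2 * |cr (x j)| < gf i j S u) : x ∈ S := by
  by_contra hx
  have h1 : (u • ev i + |cr (x j)| • ev j : EuclideanSpace ℝ (Fin 2)) ∉ S := by
    intro h2
    have h3 : (x i • ev i + |cr (x j)| • ev j : EuclideanSpace ℝ (Fin 2)) ∈ S := by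
      refine hdi _ h2 _ ?_ ?_
      · intro k hk
        have : k = j := by omega
        subst this
        simp [hij.symm]
      · have e1 : (x i • ev i + |cr (x j)| • ev j : EuclideanSpace ℝ (Fin 2)) i = x i := by
          simp [hij]
        have e2 : (u • ev i + |cr (x j)| • ev j : EuclideanSpace ℝ (Fin 2)) i = u := by
          simp [hij]
        rw [e1, e2]
        change |cr (x i)| ≤ |cr u|
        rw [abs_cr_of_le hu]
        exact hu0
    refine hx (hdj _ h3 _ ?_ ?_)
    · intro k hk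
      have : k = i := by omega
      subst this
      simp [hij]
    · have e1 : (x i • ev i + |cr (x j)| • ev j : EuclideanSpace ℝ (Fin 2)) j = |cr (x j)| := by
        simp [hij.symm]
      rw [e1]
      change |cr (x j)| ≤ |cr (|cr (x j)|)|
      have : |(|cr (x j)|)| ≤ 1 / 2 := by rw [abs_abs]; exact abs_cr_le _
      rw [abs_cr_of_le this, abs_abs]
  have h2 : gf i j S u ≤ 2 * |cr (x j)| := by
    unfold gf
    refine flen_le_of_notMem hS hper hdj (abs_nonneg _) (abs_cr_le _) ?_
    rw [pr_smul_ev hij]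
    exact h1
  linarith

theorem cr_ne_zero {t : ℝ} (ht : t ∈ Ioo (0:ℝ) 1) : 0 < |cr t| := by
  rw [abs_pos]
  intro h
  unfold cr at h
  have h1 : t = ((round t : ℤ) : ℝ) := by linarith
  have h2 : (0:ℝ) < ((round t : ℤ) : ℝ) := by rw [← h1]; exact ht.1
  have h3 : ((round t : ℤ) : ℝ) < 1 := by rw [← h1]; exact ht.2
  have h4 : (0:ℤ) < round t := by exact_mod_cast h2
  have h5 : round t < (1:ℤ) := by exact_mod_cast h3
  omega

/-- no touch, perimeter of the disc: contains the disc -/
theorem disc_incl (hij : i ≠ j) (hS : MeasurableSet S) (hper : IsLatticePeriodic S)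
    (hdi : SymDecAt i S) (hdj : SymDecAt j S) (h1 : ¬ Touch i j S) (h2 : ¬ Touch j i S)
    (hP : periodicPerimeter S ≠ ⊤) {R : ℝ} (hR : 0 < R)
    (hPR : (periodicPerimeter S).toReal ≤ 2 * Real.pi * R)
    (hV : periodicVolume S = Real.pi * R ^ 2) {x : EuclideanSpace ℝ (Fin 2)}
    (hx : cr (x i) ^ 2 + cr (x j) ^ 2 < R ^ 2) : x ∈ S := by
  obtain ⟨A, hA, -⟩ := MS.exists_right_lim (gf_BP (i := i) (j := j) hS hper)
    (gf_antitone hij hS hdi) le_rfl (by norm_num : (0:ℝ) < 1 / 2)
  have hB := gf_far hij hS hper hdi hdj h1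
  obtain ⟨-, hs, -⟩ := MS.disc_profile (gf_BP hS hper) (lf_BP hS hper) lf_nonneg
    (gf_even hij hS hper hdi) (gf_antitone hij hS hdi) (fun t _ => gf_nonneg t) hR
    (dual_plane hij hS hper hP) hPR (by rw [integral_gf01 hij hS hper, hV])
    (by
      filter_upwards [ae_restrict_mem measurableSet_Ioo] with t ht h0
      unfold lf
      have hne : gf i j S t ≠ 1 := by
        rw [← gf_per hS hper t]
        exact (gf_lt_one_of_not_touch hij hS hper hdi hdj h2 (cr_ne_zero ht) (abs_cr_le t)).ne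
      rw [if_pos ⟨h0.ne', hne⟩])
    hA hB
  -- choose `u` slightly larger than `|cr (x i)|`
  have hxi := abs_cr_le (x i)
  have hs' : ∀ u : ℝ, 0 < u → u < 1 / 2 → u ^ 2 + cr (x j) ^ 2 < R ^ 2 →
      2 * |cr (x j)| < gf i j S u := by
    intro u h0 h5 hu
    rw [hs u ⟨h0, h5⟩]
    have huR : u < R := by
      by_contra hcon
      rw [not_lt] at hcon
      nlinarith [sq_nonneg (cr (x j))]
    rw [min_eq_left huR.le]
    have : |cr (x j)| < Real.sqrt (R ^ 2 - u ^ 2) := by
      apply Real.lt_sqrt_of_sq_lt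
      rw [sq_abs]; linarith
    linarith
  rcases lt_or_eq_of_le hxi with h5 | h5
  · -- `|cr (x i)| < 1/2`
    have hc : Continuous fun u : ℝ => u ^ 2 + cr (x j) ^ 2 := by fun_prop
    have h6 : ∀ᶠ u in 𝓝 |cr (x i)|, u ^ 2 + cr (x j) ^ 2 < R ^ 2 ∧ u < 1 / 2 := by
      refine (hc.continuousAt.eventually (gt_mem_nhds ?_)).and (gt_mem_nhds h5)
      show |cr (x i)| ^ 2 + cr (x j) ^ 2 < R ^ 2
      rw [sq_abs]; exact hx
    have h7 : ∀ᶠ u in 𝓝[>] |cr (x i)|, (u ^ 2 + cr (x j) ^ 2 < R ^ 2 ∧ u < 1 / 2) ∧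
        |cr (x i)| < u := (h6.filter_mono nhdsWithin_le_nhds).and self_mem_nhdsWithin
    obtain ⟨u, ⟨hu1, hu2⟩, hu3⟩ := h7.exists
    have hu0 : 0 < u := lt_of_le_of_lt (abs_nonneg _) hu3
    exact mem_of_lt_gf hij hS hper hdi hdj (by rw [abs_of_pos hu0]; exact hu3.le)
      (by rw [abs_of_pos hu0]; exact hu2.le) (hs' u hu0 hu2 hu1)
  · -- impossible: then `R > 1/2` and the area exceeds the area allowed by the far limit
    exfalso
    have hR2 : 1 / 2 < R := by
      have h6 : (1 / 2 : ℝ) ^ 2 < R ^ 2 := by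
        have : cr (x i) ^ 2 = (1 / 2) ^ 2 := by rw [← h5, sq_abs]
        nlinarith [sq_nonneg (cr (x j))]
      exact lt_of_pow_lt_pow_left₀ 2 hR.le h6
    have h7 : ∀ᶠ u in 𝓝[<] (1 / 2 : ℝ), gf i j S u = 2 * Real.sqrt (R ^ 2 - u ^ 2) := by
      filter_upwards [Ioo_mem_nhdsLT (by norm_num : (0:ℝ) < 1 / 2)] with u hu
      rw [hs u hu, min_eq_left (by linarith [hu.2])]
    have hc : Continuous fun u : ℝ => 2 * Real.sqrt (R ^ 2 - u ^ 2) := by fun_prop
    have h8 : Tendsto (fun u : ℝ => 2 * Real.sqrt (R ^ 2 - u ^ 2)) (𝓝[<] (1 / 2))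
        (𝓝 (2 * Real.sqrt (R ^ 2 - (1 / 2) ^ 2))) :=
      (hc.tendsto _).mono_left nhdsWithin_le_nhds
    have h9 := tendsto_nhds_unique (h8.congr' (by
      filter_upwards [h7] with u hu using hu.symm)) hB
    have h10 : 0 < Real.sqrt (R ^ 2 - (1 / 2) ^ 2) := Real.sqrt_pos.2 (by nlinarith)
    linarith

/-- touching sets of perimeter `2`: strips -/
theorem strip_incl (hij : i ≠ j) (hS : MeasurableSet S) (hper : IsLatticePeriodic S)
    (hdi : SymDecAt i S) (hdj : SymDecAt j S) (h1 : Touch i j S) (h2 : ¬ Touch j i S)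
    (hP : periodicPerimeter S ≠ ⊤) (hPR : (periodicPerimeter S).toReal ≤ 2)
    {x : EuclideanSpace ℝ (Fin 2)} (hxi : |cr (x i)| < 1 / 2)
    (hx : 2 * |cr (x j)| < periodicVolume S) : x ∈ S := by
  have hbp := gf_BP (i := i) (j := j) hS hper
  have hanti := gf_antitone hij hS hdi
  have hev := gf_even hij hS hper hdi
  obtain ⟨A, hA, hAle, -⟩ := MS.exists_right_lim hbp hanti le_rfl (by norm_num : (0:ℝ) < 1 / 2)
  obtain ⟨B, hB, hBle⟩ := MS.exists_left_lim hbp hanti
  obtain ⟨h, h0, h12, hArm⟩ := h1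
  have hl2 : ∀ t ∈ Ioo (0:ℝ) 1, t ≠ 1 / 2 → lf i j S t = 2 := by
    intro t ht hne
    unfold lf
    have hlt : |cr t| < 1 / 2 := by
      refine lt_of_le_of_ne (abs_cr_le t) fun heq => hne ?_
      rcases lt_or_gt_of_ne hne with h3 | h3
      · have : cr t = t := cr_of_mem ⟨by linarith [ht.1], h3⟩
        rw [this, abs_of_pos ht.1] at heq
        exact heq
      · have : cr (t - 1) = t - 1 := cr_of_mem ⟨by linarith, by linarith [ht.2]⟩
        have h4 : cr t = t - 1 := by
          rw [← this, ← cr_add_one (t - 1), sub_add_cancel]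
        rw [h4, abs_of_neg (by linarith [ht.2])] at heq
        linarith
    rw [if_pos]
    rw [← gf_per hS hper t]
    refine ⟨?_, (gf_lt_one_of_not_touch hij hS hper hdi hdj h2 (cr_ne_zero ht) (abs_cr_le t)).ne⟩
    have := le_gf_of_arm hij hS hper hdi hdj h0.le h12 hArm hlt
    intro hz
    linarith
  have hI : ∫ t in (0:ℝ)..1, lf i j S t = 2 := by
    have : ∫ t in (0:ℝ)..1, lf i j S t = ∫ t in (0:ℝ)..1, (2:ℝ) := by
      refine intervalIntegral.integral_congr_ae ?_
      filter_upwards [ZC.ae_ne (1 / 2), ZC.ae_ne 1] with t h3 h4 ht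
      rw [uIoc_of_le zero_le_one] at ht
      exact hl2 t ⟨ht.1, lt_of_le_of_ne ht.2 h4⟩ h3
    rw [this]; simp
  have hAB : A ≤ B := by
    refine le_of_forall_pos_le_add fun ε hε => ?_
    set σ := min ε 1 with hσ
    have hσ0 : 0 < σ := lt_min hε one_pos
    have hσ1 : σ ≤ 1 := min_le_right _ _
    have h3 := MS.mono_sub_one hbp (lf_BP hS hper) hev (dual_plane hij hS hper hP)
      (T := fun _ => σ) continuous_const (fun _ => by rw [abs_of_pos hσ0]; exact hσ1) hA hB hanti
    simp only [intervalIntegral.integral_const_mul, intervalIntegral.integral_const,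
      smul_eq_mul] at h3
    rw [hI] at h3
    have h4 : 1 - σ ^ 2 ≤ Real.sqrt (1 - σ ^ 2) := by
      apply Real.le_sqrt_of_sq_le
      nlinarith [sq_nonneg σ, mul_nonneg (sq_nonneg σ) (by nlinarith : (0:ℝ) ≤ 1 - σ ^ 2)]
    have h5 : σ * (A - B) ≤ σ * σ := by nlinarith
    have h6 : A - B ≤ σ := le_of_mul_le_mul_left h5 hσ0
    have := min_le_left ε 1
    linarith
  have hconst : ∀ t ∈ Ioo (0:ℝ) (1 / 2), gf i j S t = A := fun t ht =>
    le_antisymm (hAle t ht) (hAB.trans (hBle t ht))
  have hVA : periodicVolume S = A := by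
    rw [← integral_gf01 hij hS hper, MS.half_int (hbp.intervalIntegrable _ _) hbp.per hev]
    have : ∫ t in (0:ℝ)..(1 / 2), gf i j S t = ∫ t in (0:ℝ)..(1 / 2), A := by
      refine intervalIntegral.integral_congr_ae ?_
      filter_upwards [ZC.ae_ne (1 / 2)] with t h3 ht
      rw [uIoc_of_le (by norm_num)] at ht
      exact hconst t ⟨ht.1, lt_of_le_of_ne ht.2 h3⟩
    rw [this]; simp
  set u : ℝ := (|cr (x i)| + 1 / 2) / 2 with hu
  have hu0 : 0 < u := by positivity
  have hu1 : u < 1 / 2 := by rw [hu]; linarith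
  refine mem_of_lt_gf hij hS hper hdi hdj (u := u) ?_ ?_ ?_
  · rw [abs_of_pos hu0]; rw [hu]; linarith
  · rw [abs_of_pos hu0]; exact hu1.le
  · rw [hconst u ⟨hu0, hu1⟩, ← hVA]; exact hx

end Crest.Agent.R214.Down
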