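import Crest.Agent.R214.MonoSub2

/-!
# R214: first variation at equality in the monotone substitution inequality (helper937)
-/

open MeasureTheory Set Filter Topology

namespace Crest.Agent.R214.MS

theorem sqrt_lower {u v : ℝ} (hu : 0 < u) (hv : |v| ≤ u) :
    Real.sqrt u - v / (2 * Real.sqrt u) - v ^ 2 / (2 * u * Real.sqrt u) ≤ Real.sqrt (u - v) := by
  have hs : 0 < Real.sqrt u := Real.sqrt_pos.2 hu
  have hs2 : Real.sqrt u ^ 2 = u := Real.sq_sqrt hu.le
  obtain ⟨hv1, hv2⟩ := abs_le.1 hv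
  apply Real.le_sqrt_of_sq_le
  set w := v / u with hw
  have hvw : v = w * u := by rw [hw]; field_simp
  have hw1 : -1 ≤ w := by rw [hw, le_div_iff₀ hu]; linarith
  have hw2 : w ≤ 1 := by rw [hw, div_le_one hu]; exact hv2
  have e : Real.sqrt u - v / (2 * Real.sqrt u) - v ^ 2 / (2 * u * Real.sqrt u)
      = Real.sqrt u * (1 - w / 2 - w ^ 2 / 2) := by
    rw [hvw]
    field_simp
    rw [hs2]
    ring
  rw [e, mul_pow, hs2, hvw]
  have h1 : (1 - w / 2 - w ^ 2 / 2) ^ 2 ≤ 1 - w := by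
    have : 1 - w - (1 - w / 2 - w ^ 2 / 2) ^ 2 = (1 - w) * w ^ 2 * (3 + w) / 4 := by ring
    have h2 : 0 ≤ (1 - w) * w ^ 2 * (3 + w) / 4 := by
      have := sq_nonneg w
      have h3 : 0 ≤ 1 - w := by linarith
      have h4 : 0 ≤ 3 + w := by linarith
      positivity
    linarith
  nlinarith

/-- pointwise expansion -/
theorem sqrt_var {x y ε δ M : ℝ} (hδ : 0 < δ) (hx : x ^ 2 ≤ 1 - δ) (hy : |y| ≤ M)
    (hε : |ε| * (2 * M + M ^ 2) ≤ δ) (hε1 : |ε| ≤ 1) :
    Real.sqrt (1 - x ^ 2) - ε * (x * y / Real.sqrt (1 - x ^ 2))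
      - ε ^ 2 * ((M ^ 2 + (2 * M + M ^ 2) ^ 2 / δ) / Real.sqrt δ)
      ≤ Real.sqrt (1 - (x + ε * y) ^ 2) := by
  have hM : 0 ≤ M := (abs_nonneg _).trans hy
  have hu : δ ≤ 1 - x ^ 2 := by linarith
  have hu0 : 0 < 1 - x ^ 2 := by linarith
  set u := 1 - x ^ 2 with hudef
  set v := 2 * ε * x * y + ε ^ 2 * y ^ 2 with hv
  have hx1 : |x| ≤ 1 := by
    rw [← sq_le_one_iff_abs_le_one]; linarith
  have hvb : |v| ≤ |ε| * (2 * M + M ^ 2) := by
    rw [hv]
    refine (abs_add_le _ _).trans ?_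
    rw [abs_mul, abs_mul, abs_mul, abs_mul, abs_pow, abs_pow, abs_two]
    have h1 : 2 * |ε| * |x| * |y| ≤ 2 * |ε| * 1 * M := by gcongr
    have h2 : |ε| ^ 2 * |y| ^ 2 ≤ |ε| * M ^ 2 := by
      have h3 : |ε| ^ 2 ≤ |ε| := by nlinarith [abs_nonneg ε]
      have h4 : |y| ^ 2 ≤ M ^ 2 := by gcongr
      exact mul_le_mul h3 h4 (by positivity) (abs_nonneg _)
    nlinarith
  have hvu : |v| ≤ u := hvb.trans (hε.trans hu)
  have h1 := sqrt_lower hu0 hvu
  have e1 : u - v = 1 - (x + ε * y) ^ 2 := by rw [hudef, hv]; ring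
  rw [e1] at h1
  refine le_trans ?_ h1
  have hs : 0 < Real.sqrt u := Real.sqrt_pos.2 hu0
  have hsδ : 0 < Real.sqrt δ := Real.sqrt_pos.2 hδ
  have hsle : Real.sqrt δ ≤ Real.sqrt u := Real.sqrt_le_sqrt hu
  have e2 : v / (2 * Real.sqrt u) = ε * (x * y / Real.sqrt u) + ε ^ 2 * y ^ 2 / (2 * Real.sqrt u) := by
    rw [hv]; field_simp
  have b1 : ε ^ 2 * y ^ 2 / (2 * Real.sqrt u) ≤ ε ^ 2 * (M ^ 2 / Real.sqrt δ) := by
    rw [mul_div_assoc]
    refine mul_le_mul_of_nonneg_left ?_ (sq_nonneg _)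
    have h3 : y ^ 2 ≤ M ^ 2 := by
      rw [← sq_abs y]; gcongr
    calc y ^ 2 / (2 * Real.sqrt u) ≤ M ^ 2 / (1 * Real.sqrt δ) := by
          apply div_le_div₀ (by positivity) h3 (by positivity)
          apply mul_le_mul (by norm_num) hsle hsδ.le (by norm_num)
      _ = _ := by rw [one_mul]
  have b2 : v ^ 2 / (2 * u * Real.sqrt u) ≤ ε ^ 2 * ((2 * M + M ^ 2) ^ 2 / δ / Real.sqrt δ) := by
    have h3 : v ^ 2 ≤ ε ^ 2 * (2 * M + M ^ 2) ^ 2 := by
      rw [← sq_abs v, ← sq_abs ε, ← mul_pow]; gcongr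
    have h4 : v ^ 2 / (2 * u * Real.sqrt u) ≤ (ε ^ 2 * (2 * M + M ^ 2) ^ 2) / (1 * δ * Real.sqrt δ) := by
      apply div_le_div₀ (by positivity) h3 (by positivity)
      apply mul_le_mul _ hsle hsδ.le (by positivity)
      exact mul_le_mul (by norm_num) hu hδ.le (by norm_num)
    refine h4.trans (le_of_eq ?_)
    rw [one_mul]; field_simp
  have e3 : ε ^ 2 * ((M ^ 2 + (2 * M + M ^ 2) ^ 2 / δ) / Real.sqrt δ)
      = ε ^ 2 * (M ^ 2 / Real.sqrt δ) + ε ^ 2 * ((2 * M + M ^ 2) ^ 2 / δ / Real.sqrt δ) := by ring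
  rw [e2, e3]
  linarith

/-- **first variation**: at equality the distribution identity holds -/
theorem first_var {s l : ℝ → ℝ} (hs : BP s) (hl : BP l) (hl0 : ∀ t, 0 ≤ l t)
    (hse : ∀ t, s (-t) = s t)
    {P : ℝ} (H : DualIneq s l P) {T : ℝ → ℝ} (hT : Continuous T)
    (hTb : ∀ σ, |T σ| ≤ 1) {A B : ℝ} (hA : Tendsto s (𝓝[>] 0) (𝓝 A))
    (hB : Tendsto s (𝓝[<] (1 / 2)) (𝓝 B)) (hanti : AntitoneOn s (Ioo 0 (1 / 2)))
    (heq : P ≤ (∫ t in (0:ℝ)..1, Real.sqrt (1 - T (s t) ^ 2) * l t) + 2 * (∫ x in B..A, T x))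
    {η : ℝ → ℝ} (hη : Continuous η) {M δ : ℝ} (hM : ∀ σ, |η σ| ≤ M) (hδ : 0 < δ)
    (hδ1 : δ ≤ 1) (hsupp : ∀ σ, 1 - δ < T σ ^ 2 → η σ = 0) :
    (∫ t in (0:ℝ)..1, T (s t) * η (s t) / Real.sqrt (1 - T (s t) ^ 2) * l t)
      = 2 * ∫ x in B..A, η x := by
  have hM0 : 0 ≤ M := (abs_nonneg _).trans (hM 0)
  obtain ⟨C, hC⟩ := hl.bdd
  have hC0 : 0 ≤ C := (abs_nonneg _).trans (hC 0)
  set K := (M ^ 2 + (2 * M + M ^ 2) ^ 2 / δ) / Real.sqrt δ with hK
  have hK0 : 0 ≤ K := by positivity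
  set D := (∫ t in (0:ℝ)..1, T (s t) * η (s t) / Real.sqrt (1 - T (s t) ^ 2) * l t) with hD
  -- integrability facts
  have hTm : Measurable fun t => T (s t) := hT.measurable.comp hs.meas
  have hηm : Measurable fun t => η (s t) := hη.measurable.comp hs.meas
  have hqm : Measurable fun t => Real.sqrt (1 - T (s t) ^ 2) :=
    (measurable_const.sub (hTm.pow_const 2)).sqrt
  have hbd : ∀ σ, |T σ * η σ / Real.sqrt (1 - T σ ^ 2)| ≤ M / Real.sqrt δ := by
    intro σ
    by_cases h : 1 - δ < T σ ^ 2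
    · rw [hsupp σ h]; simp; positivity
    · rw [not_lt] at h
      have h1 : Real.sqrt δ ≤ Real.sqrt (1 - T σ ^ 2) := Real.sqrt_le_sqrt (by linarith)
      have h2 : 0 < Real.sqrt δ := Real.sqrt_pos.2 hδ
      rw [abs_div, abs_mul, abs_of_nonneg (Real.sqrt_nonneg _)]
      apply div_le_div₀ hM0 _ h2 h1
      calc |T σ| * |η σ| ≤ 1 * M := mul_le_mul (hTb σ) (hM σ) (abs_nonneg _) zero_le_one
        _ = M := one_mul M
  have hint1 : IntervalIntegrable (fun t => T (s t) * η (s t) / Real.sqrt (1 - T (s t) ^ 2) * l t)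
      volume 0 1 := by
    refine (intervalIntegrable_const (c := M / Real.sqrt δ * C)).mono_fun
      ((((hTm.mul hηm).div hqm).mul hl.meas).aestronglyMeasurable)
      (Eventually.of_forall fun t => ?_)
    dsimp only
    rw [norm_mul, Real.norm_eq_abs, Real.norm_eq_abs]
    exact (mul_le_mul (hbd _) (hC t) (abs_nonneg _) (by positivity)).trans (le_abs_self _)
  have hsq : ∀ x : ℝ, Real.sqrt (1 - x ^ 2) ≤ 1 := fun x =>
    Real.sqrt_le_one.2 (by nlinarith [sq_nonneg x])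
  have hint2 : ∀ f : ℝ → ℝ, Measurable f →
      IntervalIntegrable (fun t => Real.sqrt (1 - f t ^ 2) * l t) volume 0 1 := by
    intro f hf
    refine (intervalIntegrable_const (c := 1 * C)).mono_fun
      (((measurable_const.sub (hf.pow_const 2)).sqrt).mul hl.meas).aestronglyMeasurable
      (Eventually.of_forall fun t => ?_)
    dsimp only
    rw [norm_mul, Real.norm_eq_abs, Real.norm_eq_abs, abs_of_nonneg (Real.sqrt_nonneg _)]
    exact (mul_le_mul (hsq _) (hC t) (abs_nonneg _) zero_le_one).trans (le_abs_self _)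
  have key : ∀ ε : ℝ, |ε| * (2 * M + M ^ 2) ≤ δ → |ε| ≤ 1 → |ε| * (M + 1) ≤ δ / 4 →
      ε * (2 * (∫ x in B..A, η x) - D) ≤ ε ^ 2 * (K * C) := by
    intro ε h1 h2 h3
    have hTε : ∀ σ, |T σ + ε * η σ| ≤ 1 := by
      intro σ
      by_cases h : 1 - δ < T σ ^ 2
      · rw [hsupp σ h, mul_zero, add_zero]; exact hTb σ
      · rw [not_lt] at h
        have hT1 : |T σ| ≤ 1 - δ / 2 := by
          rw [← abs_of_nonneg (by linarith : 0 ≤ 1 - δ / 2), ← sq_le_sq]
          nlinarith [sq_nonneg δ]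
        calc |T σ + ε * η σ| ≤ |T σ| + |ε| * |η σ| := by
              rw [← abs_mul]; exact abs_add_le _ _
          _ ≤ (1 - δ / 2) + |ε| * M := by
              gcongr
              exact hM σ
          _ ≤ 1 := by nlinarith [abs_nonneg ε]
    have h4 := mono_sub_one hs hl hse H (T := fun σ => T σ + ε * η σ)
      (hT.add (continuous_const.mul hη)) hTε hA hB hanti
    have h5 : (∫ x in B..A, (T x + ε * η x)) = (∫ x in B..A, T x) + ε * ∫ x in B..A, η x := by
      have hc : Continuous fun x => ε * η x := continuous_const.mul hη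
      rw [intervalIntegral.integral_add (hT.intervalIntegrable _ _)
        (hc.intervalIntegrable _ _), intervalIntegral.integral_const_mul]
    have h6 : (∫ t in (0:ℝ)..1, Real.sqrt (1 - T (s t) ^ 2) * l t) - ε * D - ε ^ 2 * (K * C)
        ≤ ∫ t in (0:ℝ)..1, Real.sqrt (1 - (T (s t) + ε * η (s t)) ^ 2) * l t := by
      have e : (∫ t in (0:ℝ)..1, Real.sqrt (1 - T (s t) ^ 2) * l t) - ε * D - ε ^ 2 * (K * C)
          = ∫ t in (0:ℝ)..1, (Real.sqrt (1 - T (s t) ^ 2) * l t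
            - ε * (T (s t) * η (s t) / Real.sqrt (1 - T (s t) ^ 2) * l t) - ε ^ 2 * (K * C)) := by
        rw [intervalIntegral.integral_sub ((hint2 _ hTm).sub (hint1.const_mul ε))
          intervalIntegrable_const, intervalIntegral.integral_sub (hint2 _ hTm)
          (hint1.const_mul ε), intervalIntegral.integral_const_mul]
        simp [hD]
      rw [e]
      refine intervalIntegral.integral_mono_on zero_le_one
        (((hint2 _ hTm).sub (hint1.const_mul ε)).sub intervalIntegrable_const)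
        (hint2 (fun t => T (s t) + ε * η (s t)) (hTm.add (hηm.const_mul ε))) fun t _ => ?_
      have hlC : l t ≤ C := (le_abs_self _).trans (hC t)
      by_cases h : 1 - δ < T (s t) ^ 2
      · rw [hsupp _ h]
        have : 0 ≤ ε ^ 2 * (K * C) := by positivity
        simp only [mul_zero, zero_div, zero_mul, add_zero, sub_zero]
        linarith
      · rw [not_lt] at h
        have h7 := sqrt_var hδ h (hM (s t)) h1 h2
        have h8 := mul_le_mul_of_nonneg_right h7 (hl0 t)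
        have h9 : ε ^ 2 * K * l t ≤ ε ^ 2 * (K * C) := by
          rw [mul_assoc]
          exact mul_le_mul_of_nonneg_left (mul_le_mul_of_nonneg_left hlC hK0) (sq_nonneg _)
        rw [← hK] at h8
        nlinarith
    rw [h5] at h4
    nlinarith
  -- conclude
  set X := 2 * (∫ x in B..A, η x) - D with hX
  have hlin : X = 0 := by
    have hε : ∀ ε : ℝ, 0 < ε → ε * (2 * M + M ^ 2) ≤ δ → ε ≤ 1 → ε * (M + 1) ≤ δ / 4 →
        |X| ≤ ε * (K * C) := by
      intro ε h0 h1 h2 h3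
      have a1 := key ε (by rwa [abs_of_pos h0]) (by rwa [abs_of_pos h0]) (by rwa [abs_of_pos h0])
      have a2 := key (-ε) (by rwa [abs_neg, abs_of_pos h0]) (by rwa [abs_neg, abs_of_pos h0])
        (by rwa [abs_neg, abs_of_pos h0])
      rw [abs_le]
      constructor
      · by_contra hcon
        rw [not_le] at hcon
        nlinarith
      · by_contra hcon
        rw [not_le] at hcon
        nlinarith
    have hlim : Tendsto (fun ε : ℝ => ε * (K * C)) (𝓝[>] 0) (𝓝 0) := by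
      have : Tendsto (fun ε : ℝ => ε * (K * C)) (𝓝 0) (𝓝 (0 * (K * C))) :=
        tendsto_id.mul_const _
      rw [zero_mul] at this
      exact this.mono_left nhdsWithin_le_nhds
    have hev : ∀ᶠ ε : ℝ in 𝓝[>] 0, |X| ≤ ε * (K * C) := by
      have hpos : 0 < min (min (δ / (2 * M + M ^ 2 + 1)) 1) (δ / 4 / (M + 1)) := by positivity
      filter_upwards [Ioo_mem_nhdsGT hpos] with ε hε'
      obtain ⟨h0, h1⟩ := hε'
      rw [lt_min_iff, lt_min_iff] at h1
      refine hε ε h0 ?_ h1.1.2.le ?_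
      · have := h1.1.1
        rw [lt_div_iff₀ (by positivity)] at this
        nlinarith
      · have := h1.2
        rw [lt_div_iff₀ (by positivity)] at this
        linarith
    have := ge_of_tendsto hlim hev
    exact abs_nonpos_iff.1 this
  linarith

end Crest.Agent.R214.MS
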