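import Crest.Agent.R214.Class3

/-!
# Final: the two frozen statements in the form of the templates

`final332`, `final333` are word for word the statements S0332, S0333. Use `torus_ge`, `torus_eq`, `per_compl`,
`Models` (attainment: `4πρ² = 2 mm v` etc.), `CongruentModNull` via `IsCubicIsometry` maps.
-/

set_option autoImplicit false
open MeasureTheory Crest.GeometryTopology.PeriodicPerimeter Filter
open scoped ENNReal NNReal Topology
noncomputable section
namespace Crest.Agent.R214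

/-! ### numerical facts about the profile -/

theorem two_mul_mm (v : ℝ) :
    2 * mm v = min (min ((36 * Real.pi) ^ ((1 : ℝ) / 3) * v ^ ((2 : ℝ) / 3))
          (2 * Real.sqrt (Real.pi * v))) 2 := by
  have hpi := Real.pi_pos
  have h : (36 * Real.pi) ^ ((1 : ℝ) / 3) = 2 * (9 * Real.pi / 2) ^ ((1 : ℝ) / 3) := by
    have h8 : (2 : ℝ) = (8 : ℝ) ^ ((1 : ℝ) / 3) := by
      have : (8 : ℝ) = (2 : ℝ) ^ (3 : ℝ) := by norm_num
      rw [this, ← Real.rpow_mul (by norm_num)]
      norm_num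
    conv_rhs => rw [h8]
    rw [← Real.mul_rpow (by norm_num) (by positivity)]
    congr 1
    have : (8 : ℝ) ^ ((1 : ℝ) / 3) = 2 := h8.symm
    rw [this]
    ring
  unfold mm
  rw [mul_min_of_nonneg _ _ (by norm_num : (0 : ℝ) ≤ 2), mul_min_of_nonneg _ _ (by norm_num : (0 : ℝ) ≤ 2), h]
  ring_nf

/-- the radius of the ball of volume `W` -/
theorem ball_radius {W : ℝ} (hW : 0 < W) :
    0 < (3 * W / (4 * Real.pi)) ^ ((1 : ℝ) / 3) ∧
      4 * Real.pi / 3 * ((3 * W / (4 * Real.pi)) ^ ((1 : ℝ) / 3)) ^ 3 = W := by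
  have hpi := Real.pi_pos
  refine ⟨by positivity, ?_⟩
  rw [← Real.rpow_natCast, ← Real.rpow_mul (by positivity)]
  norm_num
  try field_simp

/-- ball value of the profile in terms of the radius -/
theorem ball_value {ρ : ℝ} (hρ : 0 < ρ) :
    (9 * Real.pi / 2) ^ ((1 : ℝ) / 3) * (4 * Real.pi / 3 * ρ ^ 3) ^ ((2 : ℝ) / 3) =
      2 * Real.pi * ρ ^ 2 := by
  have hpi := Real.pi_pos
  have h1 : (4 * Real.pi / 3 * ρ ^ 3) ^ ((2 : ℝ) / 3) =
      ((4 * Real.pi / 3 * ρ ^ 3) ^ 2) ^ ((1 : ℝ) / 3) := by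
    rw [← Real.rpow_natCast (4 * Real.pi / 3 * ρ ^ 3) 2, ← Real.rpow_mul (by positivity)]
    norm_num
  rw [h1, ← Real.mul_rpow (by positivity) (by positivity)]
  have h2 : 9 * Real.pi / 2 * (4 * Real.pi / 3 * ρ ^ 3) ^ 2 = (2 * Real.pi * ρ ^ 2) ^ (3 : ℝ) := by
    rw [show (3 : ℝ) = ((3 : ℕ) : ℝ) by norm_num, Real.rpow_natCast]
    push_cast
    ring
  rw [h2, ← Real.rpow_mul (by positivity)]
  norm_num

theorem mm_ball {ρ : ℝ} (hρ : 0 < ρ) (hρ' : ρ ≤ 1 / 3) :
    mm (4 * Real.pi / 3 * ρ ^ 3) = 2 * Real.pi * ρ ^ 2 := by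
  have hpi := Real.pi_pos
  have hpi4 := Real.pi_lt_d2
  unfold mm
  rw [ball_value hρ]
  have h1 : 2 * Real.pi * ρ ^ 2 ≤ Real.sqrt (Real.pi * (4 * Real.pi / 3 * ρ ^ 3)) := by
    apply Real.le_sqrt_of_sq_le
    have : (2 * Real.pi * ρ ^ 2) ^ 2 = 4 * Real.pi ^ 2 * ρ ^ 3 * ρ := by ring
    rw [this]
    have : Real.pi * (4 * Real.pi / 3 * ρ ^ 3) = 4 * Real.pi ^ 2 * ρ ^ 3 * (1 / 3) := by ring
    rw [this]
    exact mul_le_mul_of_nonneg_left hρ' (by positivity)
  have h2 : 2 * Real.pi * ρ ^ 2 ≤ 1 := by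
    have : ρ ^ 2 ≤ 1 / 9 := by nlinarith
    nlinarith
  rw [min_eq_left h1, min_eq_left h2]

theorem tube_le_ball {W : ℝ} (hW : 4 * Real.pi / 81 ≤ W) :
    Real.sqrt (Real.pi * W) ≤ (9 * Real.pi / 2) ^ ((1 : ℝ) / 3) * W ^ ((2 : ℝ) / 3) := by
  have hpi := Real.pi_pos
  have hW0 : 0 < W := lt_of_lt_of_le (by positivity) hW
  obtain ⟨hρ, hρW⟩ := ball_radius hW0
  set ρ := (3 * W / (4 * Real.pi)) ^ ((1 : ℝ) / 3)
  rw [← hρW, ball_value hρ]
  have hρ3 : 1 / 3 ≤ ρ := by
    by_contra hlt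
    push Not at hlt
    have h3 : ρ ^ 3 < (1 / 3) ^ 3 := by gcongr
    have : 4 * Real.pi / 3 * ρ ^ 3 < 4 * Real.pi / 3 * (1 / 3) ^ 3 := by gcongr
    rw [hρW] at this
    have h4 : 4 * Real.pi / 3 * (1 / 3 : ℝ) ^ 3 = 4 * Real.pi / 81 := by ring
    rw [h4] at this
    linarith
  rw [Real.sqrt_le_left (by positivity)]
  have : (2 * Real.pi * ρ ^ 2) ^ 2 = 4 * Real.pi ^ 2 * ρ ^ 3 * ρ := by ring
  rw [this]
  have : Real.pi * (4 * Real.pi / 3 * ρ ^ 3) = 4 * Real.pi ^ 2 * ρ ^ 3 * (1 / 3) := by ring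
  rw [this]
  exact mul_le_mul_of_nonneg_left hρ3 (by positivity)

theorem mm_tube {W : ℝ} (h1 : 4 * Real.pi / 81 ≤ W) (h2 : W ≤ 1 / Real.pi) :
    mm W = Real.pi * Real.sqrt (W / Real.pi) := by
  have hpi := Real.pi_pos
  have hW0 : 0 < W := lt_of_lt_of_le (by positivity) h1
  unfold mm
  rw [min_eq_right (tube_le_ball h1)]
  have h3 : Real.sqrt (Real.pi * W) ≤ 1 := by
    rw [Real.sqrt_le_one]
    calc Real.pi * W ≤ Real.pi * (1 / Real.pi) := by gcongr
      _ = 1 := by field_simp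
  rw [min_eq_left h3]
  have h4 : Real.pi * W = Real.pi ^ 2 * (W / Real.pi) := by field_simp
  rw [h4, Real.sqrt_mul (by positivity), Real.sqrt_sq hpi.le]

theorem ball_le_tube_range : 4 * Real.pi / 81 ≤ 1 / Real.pi := by
  have hpi := Real.pi_pos
  have hpi4 := Real.pi_lt_d2
  rw [div_le_div_iff₀ (by norm_num) hpi]
  nlinarith

theorem mm_slab {W : ℝ} (h1 : 1 / Real.pi ≤ W) : mm W = 1 := by
  have hpi := Real.pi_pos
  have h0 := ball_le_tube_range.trans h1
  unfold mm
  rw [min_eq_right (tube_le_ball h0)]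
  apply min_eq_right
  rw [Real.one_le_sqrt]
  calc (1 : ℝ) = Real.pi * (1 / Real.pi) := by field_simp
    _ ≤ Real.pi * W := by gcongr

theorem ball_radius_le {W : ℝ} (hW : 0 < W) (h : W ≤ 4 * Real.pi / 81) :
    (3 * W / (4 * Real.pi)) ^ ((1 : ℝ) / 3) ≤ 1 / 3 := by
  have hpi := Real.pi_pos
  obtain ⟨hρ, hρW⟩ := ball_radius hW
  set ρ := (3 * W / (4 * Real.pi)) ^ ((1 : ℝ) / 3)
  by_contra hlt
  push Not at hlt
  have h3 : (1 / 3) ^ 3 < ρ ^ 3 := by gcongr
  have : 4 * Real.pi / 3 * (1 / 3) ^ 3 < 4 * Real.pi / 3 * ρ ^ 3 := by gcongr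
  rw [hρW] at this
  have h4 : 4 * Real.pi / 3 * (1 / 3 : ℝ) ^ 3 = 4 * Real.pi / 81 := by ring
  rw [h4] at this
  linarith

theorem tube_radius {W : ℝ} (hW : 0 < W) (h : W ≤ 1 / Real.pi) :
    0 < Real.sqrt (W / Real.pi) ∧ Real.sqrt (W / Real.pi) < 1 / 2 ∧
      Real.pi * Real.sqrt (W / Real.pi) ^ 2 = W := by
  have hpi := Real.pi_pos
  have hpi3 := Real.pi_gt_three
  refine ⟨by positivity, ?_, ?_⟩
  · rw [Real.sqrt_lt' (by norm_num), div_lt_iff₀ hpi]
    have : 1 / Real.pi < 1 / 3 := by gcongr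
    nlinarith
  · rw [Real.sq_sqrt (by positivity)]
    field_simp

/-! ### the three models -/

/-- the standard region of volume `W` has perimeter at most the profile -/
theorem model_exists {W : ℝ} (h0 : 0 < W) (h1 : W ≤ 1 / 2) :
    ∃ F : Set (Eu 3), MeasurableSet F ∧ IsLatticePeriodic F ∧ periodicVolume F = W ∧
      periodicPerimeter F ≤ ENNReal.ofReal (2 * mm W) := by
  have hpi := Real.pi_pos
  rcases le_total W (4 * Real.pi / 81) with hb | hb
  · obtain ⟨hρ, hρW⟩ := ball_radius h0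
    have hρ' := ball_radius_le h0 hb
    set ρ := (3 * W / (4 * Real.pi)) ^ ((1 : ℝ) / 3)
    refine ⟨PB 0 ρ, measurableSet_PB _ _, periodic_PB _ _, ?_, ?_⟩
    · rw [vol_PB3 0 ρ hρ (by linarith), hρW]
    · refine (per_PB3_le 0 ρ hρ (by linarith)).trans (le_of_eq ?_)
      rw [← hρW, mm_ball hρ hρ']
      congr 1; ring
  · rcases le_total W (1 / Real.pi) with ht | ht
    · obtain ⟨hr0, hr1, hr2⟩ := tube_radius h0 ht
      refine ⟨TB 2 0 (Real.sqrt (W / Real.pi)), measurableSet_TB _ _ _, periodic_TB _ _ _, ?_, ?_⟩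
      · rw [vol_TB 2 0 _ hr0 hr1, hr2]
      · refine (per_TB_le 2 0 _ hr0 hr1).trans (le_of_eq ?_)
        rw [mm_tube hb ht]
        congr 1; ring
    · refine ⟨SL 0 0 W, measurableSet_SL _ _ _, periodic_SL _ _ _,
        vol_SL 0 0 W h0.le (by linarith), ?_⟩
      refine (per_SL_le 0 0 W h0.le (by linarith)).trans (le_of_eq ?_)
      rw [mm_slab ht]
      norm_num

theorem std_le {W : ℝ} (h0 : 0 < W) (h1 : W ≤ 1 / 2) {E : Set (Eu 3)}
    (h : IsStandardRegion W E) : periodicPerimeter E ≤ ENNReal.ofReal (2 * mm W) := by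
  have hpi := Real.pi_pos
  rcases h with ⟨hb, hc⟩ | ⟨hb, ht, hc⟩ | ⟨ht, hc⟩
  · obtain ⟨hρ, hρW⟩ := ball_radius h0
    have hρ' := ball_radius_le h0 hb
    set ρ := (3 * W / (4 * Real.pi)) ^ ((1 : ℝ) / 3)
    rw [periodicBall_eq ρ hρ (by linarith)] at hc
    rw [Inv.congr_periodicPerimeter_eq hc (measurableSet_PB _ _) (periodic_PB _ _)]
    refine (per_PB3_le 0 ρ hρ (by linarith)).trans (le_of_eq ?_)
    rw [← hρW, mm_ball hρ hρ']
    congr 1; ring
  · obtain ⟨hr0, hr1, hr2⟩ := tube_radius h0 ht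
    rw [periodicTube_eq _ hr0 hr1] at hc
    rw [Inv.congr_periodicPerimeter_eq hc (measurableSet_TB _ _ _) (periodic_TB _ _ _)]
    refine (per_TB_le 2 0 _ hr0 hr1).trans (le_of_eq ?_)
    rw [mm_tube hb ht]
    congr 1; ring
  · have hc' : CongruentModNull E (SL (0 : Fin 3) (W / 2) W) :=
      Inv.congr_trans hc (Inv.congruentModNull_of_ae (periodicSlab_eq W h0 (by linarith)))
    rw [Inv.congr_periodicPerimeter_eq hc' (measurableSet_SL _ _ _) (periodic_SL _ _ _)]
    refine (per_SL_le 0 (W / 2) W h0.le (by linarith)).trans (le_of_eq ?_)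
    rw [mm_slab ht]
    norm_num

/-! ### the models of `torus_eq` are congruent to the standard ones -/

theorem congr_PB (c : Eu 3) (ρ : ℝ) : CongruentModNull (PB c ρ) (PB 0 ρ) := by
  have h : PB c ρ = (fun x : Eu 3 => x - c) ⁻¹' (PB 0 ρ) := by
    ext x
    simp [PB]
  rw [h]
  exact Inv.congruentModNull_preimage (isCubicIsometry_tr c) _

theorem congr_TB (j : Fin 3) (c : Eu 3) (r : ℝ) : CongruentModNull (TB j c r) (TB 2 0 r) := by
  have h1 : TB j c r = (fun x : Eu 3 => x - c) ⁻¹' (TB j 0 r) := by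
    ext x
    simp [TB]
  have h2 : TB j 0 r =
      (fun x : Eu 3 => (WithLp.toLp 2 (fun i => x (Equiv.swap j 2 i)) : Eu 3)) ⁻¹' (TB 2 0 r) := by
    ext x
    simp only [TB, Set.mem_preimage, Set.mem_ofPred_eq]
    have : ∑ i ∈ Finset.univ.erase j, dZ (x i - (0 : Eu 3) i) ^ 2 =
        ∑ i ∈ Finset.univ.erase (2 : Fin 3), dZ (x (Equiv.swap j 2 i) - (0 : Eu 3) i) ^ 2 := by
      refine (Finset.sum_bij (fun i _ => Equiv.swap j 2 i) ?_ ?_ ?_ ?_).symm
      · intro i hi
        simp only [Finset.mem_erase, Finset.mem_univ, and_true, ne_eq] at hi ⊢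
        intro hc
        apply hi
        have := congrArg (Equiv.swap j 2) hc
        simpa using this
      · intro a _ b _ hab
        exact (Equiv.swap j 2).injective hab
      · intro b hb
        refine ⟨Equiv.swap j 2 b, ?_, by simp⟩
        simp only [Finset.mem_erase, Finset.mem_univ, and_true, ne_eq] at hb ⊢
        intro hc
        apply hb
        have := congrArg (Equiv.swap j 2) hc
        simpa using this
      · intro i _
        simp
    rw [this]
  rw [h1]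
  refine Inv.congr_trans (Inv.congruentModNull_preimage (isCubicIsometry_tr c) _) ?_
  rw [h2]
  exact Inv.congruentModNull_preimage (isCubicIsometry_pm _) _

theorem congr_SL (i : Fin 3) (a b w : ℝ) :
    CongruentModNull (SL i a w : Set (Eu 3)) (SL (0 : Fin 3) b w) := by
  have h1 : (SL i a w : Set (Eu 3)) =
      (fun x : Eu 3 => x - (WithLp.toLp 2 (fun _ => a - b) : Eu 3)) ⁻¹' (SL i b w) := by
    ext x
    simp only [SL, Set.mem_preimage, Set.mem_ofPred_eq, PiLp.sub_apply]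
    rw [show x i - a = x i - (a - b) - b by ring]
  have h2 : (SL i b w : Set (Eu 3)) =
      (fun x : Eu 3 => (WithLp.toLp 2 (fun k => x (Equiv.swap 0 i k)) : Eu 3)) ⁻¹'
        (SL 0 b w) := by
    ext x
    simp only [SL, Set.mem_preimage, Set.mem_ofPred_eq]
    simp
  rw [h1]
  refine Inv.congr_trans (Inv.congruentModNull_preimage (isCubicIsometry_tr _) _) ?_
  rw [h2]
  exact Inv.congruentModNull_preimage (isCubicIsometry_pm _) _

theorem std_of_eq {E : Set (Eu 3)} (hE : MeasurableSet E) (hper : IsLatticePeriodic E)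
    (h0 : 0 < periodicVolume E) (h1 : periodicVolume E ≤ 1 / 2)
    (h : periodicPerimeter E ≤ ENNReal.ofReal (2 * mm (periodicVolume E))) :
    IsStandardRegion (periodicVolume E) E := by
  rcases torus_eq E hE hper h0 h1 h with ⟨hb, c, hc⟩ | ⟨hb, ht, j, c, hc⟩ | ⟨ht, i, a, hc⟩
  · left
    refine ⟨hb, ?_⟩
    have hρ := (ball_radius h0).1
    have hρ' := ball_radius_le h0 hb
    rw [periodicBall_eq _ hρ (by linarith)]
    exact Inv.congr_trans (Inv.congruentModNull_of_ae hc) (congr_PB _ _)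
  · right; left
    refine ⟨hb, ht, ?_⟩
    obtain ⟨hr0, hr1, _⟩ := tube_radius h0 ht
    rw [periodicTube_eq _ hr0 hr1]
    exact Inv.congr_trans (Inv.congruentModNull_of_ae hc) (congr_TB _ _ _)
  · right; right
    refine ⟨ht, ?_⟩
    refine Inv.congr_trans (Inv.congruentModNull_of_ae hc) ?_
    refine Inv.congr_trans (congr_SL i a (periodicVolume E / 2) _) ?_
    exact Inv.congruentModNull_of_ae (periodicSlab_eq _ h0 (by linarith)).symm

theorem std_iff {E : Set (Eu 3)} (hE : MeasurableSet E) (hper : IsLatticePeriodic E)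
    (h0 : 0 < periodicVolume E) (h1 : periodicVolume E ≤ 1 / 2) :
    periodicPerimeter E = ENNReal.ofReal (2 * mm (periodicVolume E)) ↔
      IsStandardRegion (periodicVolume E) E :=
  ⟨fun h => std_of_eq hE hper h0 h1 h.le,
    fun h => le_antisymm (std_le h0 h1 h) (torus_ge E hE hper h0 h1)⟩

theorem final332 (V : ℝ) (hV : 0 < V) (hV' : V < 1) :
    (∀ E : Set (EuclideanSpace ℝ (Fin 3)), MeasurableSet E → IsLatticePeriodic E →
        periodicVolume E = V →
        ENNReal.ofReal (min (min ((36 * Real.pi) ^ ((1 : ℝ) / 3) * (min V (1 - V)) ^ ((2 : ℝ) / 3))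
          (2 * Real.sqrt (Real.pi * min V (1 - V)))) 2) ≤ periodicPerimeter E) ∧
      ∃ E : Set (EuclideanSpace ℝ (Fin 3)), MeasurableSet E ∧ IsLatticePeriodic E ∧
        periodicVolume E = V ∧
        periodicPerimeter E = ENNReal.ofReal (min (min ((36 * Real.pi) ^ ((1 : ℝ) / 3) * (min V (1 - V)) ^ ((2 : ℝ) / 3))
          (2 * Real.sqrt (Real.pi * min V (1 - V)))) 2) := by
  rw [← two_mul_mm]
  rcases le_or_gt V (1 / 2) with h | h
  · rw [min_eq_left (by linarith : V ≤ 1 - V)]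
    refine ⟨?_, ?_⟩
    · intro E hE hp hv
      have := torus_ge E hE hp (by rw [hv]; exact hV) (by rw [hv]; exact h)
      rwa [hv] at this
    · obtain ⟨F, hF, hFp, hFv, hFP⟩ := model_exists hV h
      refine ⟨F, hF, hFp, hFv, le_antisymm hFP ?_⟩
      have := torus_ge F hF hFp (by rw [hFv]; exact hV) (by rw [hFv]; exact h)
      rwa [hFv] at this
  · rw [min_eq_right (by linarith : 1 - V ≤ V)]
    refine ⟨?_, ?_⟩
    · intro E hE hp hv
      have hc : periodicVolume Eᶜ = 1 - V := by rw [vol_compl E hE, hv]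
      have := torus_ge Eᶜ hE.compl (Inv.periodic_compl hp) (by rw [hc]; linarith)
        (by rw [hc]; linarith)
      rwa [hc, per_compl E hE] at this
    · obtain ⟨F, hF, hFp, hFv, hFP⟩ := model_exists (W := 1 - V) (by linarith) (by linarith)
      refine ⟨Fᶜ, hF.compl, Inv.periodic_compl hFp, ?_, ?_⟩
      · rw [vol_compl F hF, hFv]; ring
      · rw [per_compl F hF]
        refine le_antisymm hFP ?_
        have := torus_ge F hF hFp (by rw [hFv]; linarith) (by rw [hFv]; linarith)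
        rwa [hFv] at this

theorem final333
    (V : ℝ) (hV : 0 < V) (hV' : V < 1) (E : Set (EuclideanSpace ℝ (Fin 3)))
    (hE : MeasurableSet E) (hper : IsLatticePeriodic E) (hvol : periodicVolume E = V) :
    periodicPerimeter E = ENNReal.ofReal (min (min ((36 * Real.pi) ^ ((1 : ℝ) / 3) * (min V (1 - V)) ^ ((2 : ℝ) / 3))
          (2 * Real.sqrt (Real.pi * min V (1 - V)))) 2) ↔
      ((V ≤ 1 / 2 ∧ IsStandardRegion V E) ∨ (1 / 2 < V ∧ IsStandardRegion (1 - V) Eᶜ)) := by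
  rw [← two_mul_mm]
  rcases le_or_gt V (1 / 2) with h | h
  · rw [min_eq_left (by linarith : V ≤ 1 - V)]
    have key := std_iff hE hper (by rw [hvol]; exact hV) (by rw [hvol]; exact h)
    rw [hvol] at key
    rw [key]
    constructor
    · exact fun hs => Or.inl ⟨h, hs⟩
    · rintro (⟨_, hs⟩ | ⟨hlt, _⟩)
      · exact hs
      · exact absurd hlt (not_lt.2 h)
  · rw [min_eq_right (by linarith : 1 - V ≤ V)]
    have hc : periodicVolume Eᶜ = 1 - V := by rw [vol_compl E hE, hvol]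
    have key := std_iff hE.compl (Inv.periodic_compl hper) (by rw [hc]; linarith)
      (by rw [hc]; linarith)
    rw [hc, per_compl E hE] at key
    rw [key]
    constructor
    · exact fun hs => Or.inr ⟨h, hs⟩
    · rintro (⟨hle, _⟩ | ⟨_, hs⟩)
      · exact absurd h (not_lt.2 hle)
      · exact hs

end Crest.Agent.R214
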