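import Crest.Agent.R214.RigMain
import Crest.Agent.R214.RigStd0
import Crest.Agent.R214.RigConst
import Crest.Agent.R214.SteinerAll

set_option autoImplicit false

/-! Row 214, rigidity: undoing the three Steiner symmetrisations. -/

open MeasureTheory Set Filter Topology Crest.GeometryTopology.PeriodicPerimeter
open scoped ContDiff

noncomputable section

namespace Crest.Agent.R214.Rig

variable {n : ℕ}

theorem constOfWeak (n : ℕ) : ConstOfWeak n := by
  intro w hm C hb hper i hinv J hi r hr hr2 hw
  exact const_of_weak hm hb hper hinv hi hr hw hr2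

/-! ### translations -/

/-- translated set -/
def shiftSet (A : Set (En n)) (a : En n) : Set (En n) := {x | x + a ∈ A}

theorem measurableSet_shiftSet {A : Set (En n)} (hA : MeasurableSet A) (a : En n) :
    MeasurableSet (shiftSet A a) := (measurable_add_const a) hA

theorem shiftSet_per {A : Set (En n)} (hp : IsLatticePeriodic A) (a : En n) :
    IsLatticePeriodic (shiftSet A a) := by
  intro v hv x
  change x + v + a ∈ A ↔ x + a ∈ A
  have : x + v + a = (x + a) + v := by abel
  rw [this]
  exact hp v hv _

theorem chi_shiftSet (A : Set (En n)) (a x : En n) : chi (shiftSet A a) x = chi A (x + a) := by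
  unfold chi shiftSet
  by_cases h : x + a ∈ A
  · rw [Set.indicator_of_mem h, Set.indicator_of_mem]
    exact h
  · rw [Set.indicator_of_notMem h, Set.indicator_of_notMem]
    exact h

theorem perimeter_shiftSet_le {A : Set (En n)} (hA : MeasurableSet A) (hp : IsLatticePeriodic A)
    (a : En n) : periodicPerimeter (shiftSet A a) ≤ periodicPerimeter A := by
  refine iSup_le fun φ => ?_
  have hadm := IsAdmissibleField.translate φ.2 (-a)
  have h1 : ∫ x in shiftSet A a ∩ unitCell n, divergence φ.1 x
      = ∫ x in A ∩ unitCell n, divergence (fun y => φ.1 (y + -a)) x := by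
    rw [← integral_chi_mul (measurableSet_shiftSet hA a), ← integral_chi_mul hA]
    have hG : IsPer (fun x => chi A x * divergence (fun y => φ.1 (y + -a)) x) := by
      intro v hv x
      have h2 : IsPer (divergence (fun y => φ.1 (y + -a))) := IsPer.divergence hadm.2.1
      simp only [chi_per hp v hv x, h2 v hv x]
    rw [← integral_cell_add hG a]
    congr 1
    funext x
    rw [chi_shiftSet, divergence_translate]
    simp
  rw [h1]
  exact le_iSup (fun φ : {φ : En n → En n // IsAdmissibleField φ} =>
      ENNReal.ofReal (∫ x in A ∩ unitCell n, divergence φ.1 x)) ⟨_, hadm⟩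

theorem periodicVolume_shiftSet {A : Set (En n)} (hA : MeasurableSet A)
    (hp : IsLatticePeriodic A) (a : En n) : periodicVolume (shiftSet A a) = periodicVolume A := by
  have key : ∀ {B : Set (En n)}, MeasurableSet B → periodicVolume B = ∫ x in unitCell n, chi B x := by
    intro B hB
    have := integral_chi_mul hB (fun _ => (1:ℝ))
    simp only [mul_one] at this
    rw [this, periodicVolume]
    simp [Measure.real]
  rw [key (measurableSet_shiftSet hA a), key hA, ← integral_cell_add (chi_per hp) a]
  exact integral_congr_ae (Eventually.of_forall fun x => chi_shiftSet A a x)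

theorem flen_shiftSet (A : Set (En n)) (i : Fin n) (a x : En n) :
    flen (shiftSet A a) i x = flen A i (x + a) := by
  rw [flen_eq, flen_eq]
  congr 1
  funext t
  rw [chi_shiftSet]
  congr 1
  abel

/-! ### fibre lengths of the model -/

theorem rho2_erase {J : Finset (Fin n)} {i : Fin n} (hi : i ∈ J) (y : En n) :
    rho2 J y = dd (y i) ^ 2 + rho2 (J.erase i) y := by
  unfold rho2
  rw [Finset.add_sum_erase J (fun j => dd (y j) ^ 2) hi]

theorem rho2_erase_sub_smul {J : Finset (Fin n)} {i : Fin n} (y : En n) (c : ℝ) :
    rho2 (J.erase i) (y - c • ei i) = rho2 (J.erase i) y := by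
  have := rho2_add_ei (J.erase i) (Finset.notMem_erase i J) y (-c)
  rw [neg_smul, ← sub_eq_add_neg] at this
  exact this

theorem flen_stdReg {J : Finset (Fin n)} {i : Fin n} (hi : i ∈ J) {r : ℝ} (hr : 0 < r)
    (hr2 : r < 1 / 2) (x : En n) : flen (stdReg J r 0) i x = uu (J.erase i) r x := by
  have hfib : fib (stdReg J r 0) i x = arc (-(x i)) (uu (J.erase i) r x) := by
    ext t
    change rho2 J (x + t • ei i - 0) < r ^ 2 ↔ _
    rw [sub_zero, rho2_erase hi, rho2_add_ei (J.erase i) (Finset.notMem_erase i J)]
    have h6 : (x + t • ei i) i = x i + t := by simp [ei]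
    rw [h6]
    unfold arc
    simp only [Set.mem_ofPred_eq]
    have h7 : |t - -(x i) - round (t - -(x i))| = |dd (x i + t)| := by
      have : t - -(x i) = x i + t := by ring
      rw [this]
      rfl
    have h8 : uu (J.erase i) r x / 2 = Real.sqrt (r ^ 2 - rho2 (J.erase i) x) := by unfold uu; ring
    rw [h7, h8, Real.lt_sqrt (abs_nonneg _), sq_abs]
    constructor <;> intro h9 <;> linarith
  unfold flen
  rw [hfib]
  have h := arc_integral (φ := fun _ => (1:ℝ)) continuous_const (fun _ => rfl) (-(x i))
    (uu_nonneg (J.erase i) r x) (lt_of_le_of_lt (uu_le hr x) (by linarith))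
  simp only [mul_one] at h
  rw [h]
  simp

/-! ### the step -/

theorem ae_notMem_of_flen {S : Set (En n)} (hS : MeasurableSet S) (hp : IsLatticePeriodic S)
    (i : Fin n) (h1 : ∀ᵐ x : En n, flen S i x = 0) : ∀ᵐ x : En n, x ∉ S := by
  have h0 : periodicVolume S = 0 := by
    rw [← integral_flen hS hp i]
    have : ∫ x in unitCell n, flen S i x = ∫ x in unitCell n, (0:ℝ) :=
      integral_congr_ae (ae_restrict_of_ae h1)
    rw [this]
    simp
  have h2 : (volume : Measure (En n)) (S ∩ unitCell n) = 0 := by
    unfold periodicVolume at h0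
    rw [ENNReal.toReal_eq_zero_iff] at h0
    rcases h0 with h0 | h0
    · exact h0
    · exact absurd h0 (ne_top_of_le_ne_top (volume_unitCell_lt_top n).ne
        (measure_mono Set.inter_subset_right))
  exact measure_eq_zero_iff_ae_notMem.1 (null_of_periodicVolume hp h2)

/-- undo one symmetrisation -/
theorem step {A : Set (En n)} (hA : MeasurableSet A) (hp : IsLatticePeriodic A)
    (hP : periodicPerimeter A ≠ ⊤) {J : Finset (Fin n)} {r : ℝ} (hr : 0 < r) (hr2 : r < 1 / 2)
    (a : En n) (i : Fin n)
    (hlen : ∀ᵐ x : En n, flen A i x = flen (stdReg J r a) i x)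
    (hle : (periodicPerimeter A).toReal ≤ J.card * periodicVolume A / r) :
    ∃ c : ℝ, ∀ᵐ x : En n, x ∈ A ↔ x ∈ stdReg J r (a + c • ei i) := by
  by_cases hi : i ∈ J
  · -- translate to the origin
    have hmodel : Model (shiftSet A a) i (J.erase i) r := by
      have hstd : ∀ x : En n, flen (stdReg J r a) i (x + a) = uu (J.erase i) r x := by
        intro x
        have : shiftSet (stdReg J r a) a = stdReg J r 0 := by
          ext y
          change rho2 J (y + a - a) < r ^ 2 ↔ rho2 J (y - 0) < r ^ 2
          simp
        rw [← flen_shiftSet, this, flen_stdReg hi hr hr2]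
      have hlen' : ∀ᵐ x : En n, flen (shiftSet A a) i x = uu (J.erase i) r x := by
        have h1 := (measurePreserving_add_right (volume : Measure (En n)) a).quasiMeasurePreserving.ae hlen
        filter_upwards [h1] with x hx
        rw [flen_shiftSet, hx, hstd]
      have hvol : periodicVolume A = ∫ x in unitCell n, uu (J.erase i) r x := by
        rw [← periodicVolume_shiftSet hA hp a,
          ← integral_flen (measurableSet_shiftSet hA a) (shiftSet_per hp a) i]
        exact integral_congr_ae (ae_restrict_of_ae hlen')
      have hPle := perimeter_shiftSet_le hA hp a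
      refine ⟨measurableSet_shiftSet hA a, shiftSet_per hp a, ne_top_of_le_ne_top hP hPle,
        Finset.notMem_erase i J, hr, hr2, hlen', ?_⟩
      have h2 := ENNReal.toReal_mono hP hPle
      refine h2.trans (hle.trans (le_of_eq ?_))
      rw [hvol]
      have hcard : (J.card : ℝ) = 1 + ((J.erase i).card : ℝ) := by
        have := Finset.card_erase_add_one hi
        rw [← this]
        push_cast
        ring
      rw [hcard]
    obtain ⟨c, hc⟩ := hmodel.rigid (constOfWeak n)
    refine ⟨c, ?_⟩
    have h1 := (measurePreserving_add_right (volume : Measure (En n)) (-a)).quasiMeasurePreserving.ae hc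
    filter_upwards [h1] with x hx
    have e1 : x + -a ∈ shiftSet A a ↔ x ∈ A := by
      change x + -a + a ∈ A ↔ x ∈ A
      simp
    rw [e1] at hx
    rw [hx]
    unfold region
    simp only [Set.mem_ofPred_eq, mem_stdReg]
    rw [rho2_erase hi (x - (a + c • ei i))]
    have e2 : x - (a + c • ei i) = (x + -a) - c • ei i := by abel
    rw [e2, rho2_erase_sub_smul]
    have e3 : (x + -a - c • ei i) i = (x + -a) i - c := by simp [ei]
    rw [e3]
  · refine ⟨0, ?_⟩
    rw [zero_smul, add_zero]
    have hR := measurableSet_stdReg J r a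
    have hRp := stdReg_per J r a
    have hmem : ∀ (x : En n) (t : ℝ), x + t • ei i ∈ stdReg J r a ↔ x ∈ stdReg J r a := by
      intro x t
      rw [mem_stdReg, mem_stdReg]
      have : x + t • ei i - a = (x - a) + t • ei i := by abel
      rw [this, rho2_add_ei J hi]
    have hf1 : ∀ x ∈ stdReg J r a, flen (stdReg J r a) i x = 1 := by
      intro x hx
      unfold flen
      have : ∀ t : ℝ, ind (fib (stdReg J r a) i x) t = 1 := fun t => ind_of_mem ((hmem x t).2 hx)
      simp [this]
    have hf0 : ∀ x ∉ stdReg J r a, flen (stdReg J r a) i x = 0 := by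
      intro x hx
      unfold flen
      have : ∀ t : ℝ, ind (fib (stdReg J r a) i x) t = 0 :=
        fun t => ind_of_notMem fun h => hx ((hmem x t).1 h)
      simp [this]
    have k1 : ∀ᵐ x : En n, x ∉ A \ stdReg J r a := by
      apply ae_notMem_of_flen (hA.diff hR) _ i
      · filter_upwards [hlen] with x hx
        by_cases hxR : x ∈ stdReg J r a
        · unfold flen
          have : ∀ t : ℝ, ind (fib (A \ stdReg J r a) i x) t = 0 :=
            fun t => ind_of_notMem fun h => h.2 ((hmem x t).2 hxR)
          simp [this]
        · rw [hf0 x hxR] at hx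
          have : fib (A \ stdReg J r a) i x = fib A i x := by
            ext t
            exact ⟨fun h => h.1, fun h => ⟨h, fun h' => hxR ((hmem x t).1 h')⟩⟩
          unfold flen at hx ⊢
          rw [this, hx]
      · intro v hv x
        simp only [Set.mem_sdiff, hp v hv x, hRp v hv x]
    have k2 : ∀ᵐ x : En n, x ∉ stdReg J r a \ A := by
      apply ae_notMem_of_flen (hR.diff hA) _ i
      · filter_upwards [hlen] with x hx
        by_cases hxR : x ∈ stdReg J r a
        · rw [hf1 x hxR] at hx
          have h1 : ∀ t : ℝ, ind (fib (stdReg J r a \ A) i x) t = 1 - ind (fib A i x) t := by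
            intro t
            by_cases ht : t ∈ fib A i x
            · rw [ind_of_mem ht, ind_of_notMem (fun h => h.2 ht)]; ring
            · have h2 : t ∈ fib (stdReg J r a \ A) i x := ⟨(hmem x t).2 hxR, ht⟩
              rw [ind_of_notMem ht, ind_of_mem h2]; ring
          unfold flen at hx ⊢
          simp only [h1]
          have hint : IntervalIntegrable (ind (fib A i x)) volume 0 1 := by
            rw [intervalIntegrable_iff]
            apply Measure.integrableOn_of_bounded (M := 1)
            · rw [uIoc_of_le zero_le_one]; exact measure_Ioc_lt_top.ne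
            · exact (measurable_const.indicator (measurableSet_fib hA i x)).aestronglyMeasurable
            · refine Eventually.of_forall fun t => ?_
              unfold ind
              by_cases ht : t ∈ fib A i x <;> simp [ht]
          rw [intervalIntegral.integral_sub (intervalIntegrable_const) hint, hx]
          simp
        · unfold flen
          have : ∀ t : ℝ, ind (fib (stdReg J r a \ A) i x) t = 0 :=
            fun t => ind_of_notMem fun h => hxR ((hmem x t).1 h.1)
          simp [this]
      · intro v hv x
        simp only [Set.mem_sdiff, hp v hv x, hRp v hv x]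
    filter_upwards [k1, k2] with x h1 h2
    constructor
    · intro h3
      by_contra h4
      exact h1 ⟨h3, h4⟩
    · intro h3
      by_contra h4
      exact h2 ⟨h3, h4⟩

/-- the two fibre length functions agree -/
theorem flen_eq_flen (S : Set (En n)) (i : Fin n) (x : En n) : flen S i x = R214.flen i S x := by
  rw [flen_eq]
  rfl

theorem flen_congr_ae {A B : Set (En n)} (h : ∀ᵐ x : En n, x ∈ A ↔ x ∈ B) (i : Fin n) :
    ∀ᵐ x : En n, flen A i x = flen B i x := by
  filter_upwards [ae_line h i] with x hx
  unfold flen
  apply intervalIntegral.integral_congr_ae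
  filter_upwards [hx] with t ht _
  by_cases h1 : t ∈ fib A i x
  · rw [ind_of_mem h1, ind_of_mem (show t ∈ fib B i x from ht.1 h1)]
  · rw [ind_of_notMem h1, ind_of_notMem (fun h2 => h1 (ht.2 h2))]

theorem step_steiner {A : Set (En n)} (hA : MeasurableSet A) (hp : IsLatticePeriodic A)
    (hP : periodicPerimeter A ≠ ⊤) {J : Finset (Fin n)} {r : ℝ} (hr : 0 < r) (hr2 : r < 1 / 2)
    (a : En n) (i : Fin n) (h : ∀ᵐ x : En n, x ∈ steiner i A ↔ x ∈ stdReg J r a)
    (hle : (periodicPerimeter A).toReal ≤ J.card * periodicVolume A / r) :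
    ∃ a' : En n, ∀ᵐ x : En n, x ∈ A ↔ x ∈ stdReg J r a' := by
  have hlen : ∀ᵐ x : En n, flen A i x = flen (stdReg J r a) i x := by
    filter_upwards [flen_congr_ae h i] with x hx
    rw [← hx, flen_eq_flen, flen_eq_flen, R214.flen_steiner i hA hp]
  obtain ⟨c, hc⟩ := step hA hp hP hr hr2 a i hlen hle
  exact ⟨_, hc⟩

/-- undoing the three symmetrisations -/
theorem chain3 {E : Set (En 3)} (hE : MeasurableSet E) (hp : IsLatticePeriodic E)
    (hP : periodicPerimeter E ≠ ⊤) {J : Finset (Fin 3)} {r : ℝ} (hr : 0 < r) (hr2 : r < 1 / 2)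
    (h : ∀ᵐ x : En 3, x ∈ steiner3 E ↔ x ∈ stdReg J r 0)
    (hle : (periodicPerimeter E).toReal ≤ J.card * periodicVolume E / r) :
    ∃ a : En 3, ∀ᵐ x : En 3, x ∈ E ↔ x ∈ stdReg J r a := by
  have m0 := hE
  have p0 := hp
  have m1 := measurableSet_steiner 0 hE hp
  have p1 := steiner_periodic 0 hE hp
  have m2 := measurableSet_steiner 1 m1 p1
  have p2 := steiner_periodic 1 m1 p1
  have v1 : periodicVolume (steiner 0 E) = periodicVolume E := periodicVolume_steiner 0 hE hp
  have v2 : periodicVolume (steiner 1 (steiner 0 E)) = periodicVolume E := by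
    rw [periodicVolume_steiner 1 m1 p1, v1]
  have P1 : periodicPerimeter (steiner 0 E) ≤ periodicPerimeter E :=
    periodicPerimeter_steiner_le 0 hE hp
  have P2 : periodicPerimeter (steiner 1 (steiner 0 E)) ≤ periodicPerimeter E :=
    (periodicPerimeter_steiner_le 1 m1 p1).trans P1
  obtain ⟨a2, h2⟩ := step_steiner m2 p2 (ne_top_of_le_ne_top hP P2) hr hr2 0 2 h (by
    rw [v2]
    exact (ENNReal.toReal_mono hP P2).trans hle)
  obtain ⟨a1, h1⟩ := step_steiner m1 p1 (ne_top_of_le_ne_top hP P1) hr hr2 a2 1 h2 (by
    rw [v1]
    exact (ENNReal.toReal_mono hP P1).trans hle)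
  exact step_steiner m0 p0 hP hr hr2 a1 0 h1 hle

end Crest.Agent.R214.Rig
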