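import Crest.Agent.R214.RigStd
import Crest.Agent.R214.RigChain

set_option autoImplicit false

/-! Row 214: `RIGID` from the equality case for the symmetrised sets. -/

open MeasureTheory Set Filter Topology Crest.GeometryTopology.PeriodicPerimeter

noncomputable section

namespace Crest.Agent.R214.Rig

theorem chain3_holds : Chain3 :=
  fun _ hE hp hP _ _ hr hr2 h hle => chain3 hE hp hP hr hr2 h hle

/-- **RIGID** from the equality case for symmetrised sets. -/
theorem RIGID_of_EqSteiner (hEq : EqSteiner) : Inv.RIGID := RIGID_of hEq chain3_holds

end Crest.Agent.R214.Rig
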