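import Crest.Agent.R214.DownNT
import Crest.Agent.R214.RigEnd
import Crest.Agent.R214.Glue

/-!
# Row 214: composition of the two statements from the scalar tables
-/

set_option autoImplicit false

namespace Crest.Agent.R214.Fin214

theorem main_of_tables (T : ZC.Tables) : Inv.MAIN := Down.MAIN_of T Down.noTouch

theorem rigid_of_tables (T : ZC.Tables) : Inv.RIGID :=
  Rig.RIGID_of_EqSteiner (Down.EqSteiner_of T Down.noTouch)

end Crest.Agent.R214.Fin214
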