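import Crest.Agent.R214.Core1

/-!
# Geo: splitting off coordinate `0` (API for `cons`, `tl`, slices, lines; Fubini; derivatives)

All statements elementary. Measure-preserving splitting: `volume_preserving_piFinSuccAbove` and
`PiLp.volume_preserving_toLp/ofLp`.
-/

set_option autoImplicit false
open MeasureTheory Crest.GeometryTopology.PeriodicPerimeter Filter
open scoped ENNReal NNReal Topology
noncomputable section
namespace Crest.Agent.R214

@[simp] theorem cons_zero {n : ℕ} (t : ℝ) (y : Eu n) : (cons t y) 0 = t := by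
  simp [cons]

@[simp] theorem cons_succ {n : ℕ} (t : ℝ) (y : Eu n) (i : Fin n) : (cons t y) i.succ = y i := by
  simp [cons]

@[simp] theorem tl_cons {n : ℕ} (t : ℝ) (y : Eu n) : tl (cons t y) = y := by
  ext i
  simp [tl]

@[simp] theorem cons_tl {n : ℕ} (x : Eu (n + 1)) : cons (x 0) (tl x) = x := by
  ext i
  refine Fin.cases ?_ (fun i => ?_) i
  · simp
  · simp [tl]

theorem cons_add {n : ℕ} (s t : ℝ) (y z : Eu n) : cons (s + t) (y + z) = cons s y + cons t z := by
  ext i
  refine Fin.cases ?_ (fun i => ?_) i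
  · simp
  · simp

theorem cons_smul {n : ℕ} (c t : ℝ) (y : Eu n) : cons (c * t) (c • y) = c • cons t y := by
  ext i
  refine Fin.cases ?_ (fun i => ?_) i
  · simp
  · simp

theorem norm_cons_sq {n : ℕ} (t : ℝ) (y : Eu n) : ‖cons t y‖ ^ 2 = t ^ 2 + ‖y‖ ^ 2 := by
  rw [EuclideanSpace.norm_sq_eq, EuclideanSpace.norm_sq_eq, Fin.sum_univ_succ]
  simp

/-- `cons` as a linear equivalence -/
def consL (n : ℕ) : (ℝ × Eu n) ≃L[ℝ] Eu (n + 1) :=
  LinearEquiv.toContinuousLinearEquiv
    { toFun := fun p => cons p.1 p.2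
      map_add' := fun p q => cons_add p.1 q.1 p.2 q.2
      map_smul' := fun c p => by
        simp only [Prod.smul_fst, Prod.smul_snd, smul_eq_mul, RingHom.id_apply]
        exact cons_smul c p.1 p.2
      invFun := fun z => (z 0, tl z)
      left_inv := fun p => by simp
      right_inv := fun z => by simp }

@[simp] theorem consL_apply {n : ℕ} (p : ℝ × Eu n) : consL n p = cons p.1 p.2 := rfl

theorem continuous_cons {n : ℕ} : Continuous (fun p : ℝ × Eu n => cons p.1 p.2) :=
  (consL n).continuous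

theorem contDiff_cons {n : ℕ} {m : WithTop ℕ∞} :
    ContDiff ℝ m (fun p : ℝ × Eu n => cons p.1 p.2) :=
  (consL n).contDiff

theorem contDiff_tl {n : ℕ} {m : WithTop ℕ∞} : ContDiff ℝ m (tl : Eu (n + 1) → Eu n) := by
  have h : ContDiff ℝ m (fun z : Eu (n + 1) => ((consL n).symm z).2) :=
    contDiff_snd.comp (consL n).symm.contDiff
  exact h

theorem hasIntegerCoords_cons {n : ℕ} (k : ℤ) (v : Eu n) (hv : HasIntegerCoords v) :
    HasIntegerCoords (cons (k : ℝ) v) := by
  intro i
  refine Fin.cases ?_ (fun i => ?_) i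
  · exact ⟨k, by simp⟩
  · simpa using hv i

theorem mem_cell_cons {n : ℕ} (t : ℝ) (y : Eu n) :
    cons t y ∈ unitCell (n + 1) ↔ t ∈ Set.Ico (0 : ℝ) 1 ∧ y ∈ unitCell n := by
  simp only [unitCell, Set.mem_ofPred_eq, Set.mem_Ico]
  rw [Fin.forall_fin_succ]
  simp

/-- `(t, y) ↦ cons t y` is measure preserving. -/
theorem measurePreserving_cons {n : ℕ} :
    MeasurePreserving (fun p : ℝ × Eu n => cons p.1 p.2) volume volume := by
  have h1 : MeasurePreserving (Prod.map (id : ℝ → ℝ) (@WithLp.ofLp 2 (Fin n → ℝ)))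
      (volume.prod volume) (volume.prod volume) :=
    (MeasurePreserving.id volume).prod (PiLp.volume_preserving_ofLp (Fin n))
  have h2 := (volume_preserving_piFinSuccAbove (fun _ : Fin (n + 1) => ℝ) 0).symm
  have h3 := PiLp.volume_preserving_toLp (Fin (n + 1))
  have := h3.comp (h2.comp h1)
  convert! this using 1
  funext p
  ext i
  refine Fin.cases ?_ (fun i => ?_) i
  · simp [MeasurableEquiv.piFinSuccAbove, Fin.insertNthEquiv]
  · simp [MeasurableEquiv.piFinSuccAbove, Fin.insertNthEquiv]

theorem measurableEmbedding_cons {n : ℕ} :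
    MeasurableEmbedding (fun p : ℝ × Eu n => cons p.1 p.2) :=
  (consL n).toHomeomorph.measurableEmbedding

theorem preimage_cell {n : ℕ} : (fun p : ℝ × Eu n => cons p.1 p.2) ⁻¹' unitCell (n + 1) =
    Set.Ico (0 : ℝ) 1 ×ˢ unitCell n := by
  ext p
  simp only [Set.mem_preimage, mem_cell_cons, Set.mem_prod]

theorem integral_cell_fubini {n : ℕ} {E : Type*} [NormedAddCommGroup E] [NormedSpace ℝ E]
    (f : Eu (n + 1) → E) (hf : IntegrableOn f (unitCell (n + 1))) :
    ∫ x in unitCell (n + 1), f x =
      ∫ t in Set.Ico (0 : ℝ) 1, ∫ y in unitCell n, f (cons t y) := by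
  rw [← measurePreserving_cons.setIntegral_preimage_emb measurableEmbedding_cons, preimage_cell]
  have hI : IntegrableOn (fun p : ℝ × Eu n => f (cons p.1 p.2))
      ((fun p : ℝ × Eu n => cons p.1 p.2) ⁻¹' (unitCell (n + 1))) :=
    (measurePreserving_cons.integrableOn_comp_preimage measurableEmbedding_cons).2 hf
  rw [preimage_cell] at hI
  exact setIntegral_prod _ hI

theorem integral_cell_fubini' {n : ℕ} {E : Type*} [NormedAddCommGroup E] [NormedSpace ℝ E]
    (f : Eu (n + 1) → E) (hf : IntegrableOn f (unitCell (n + 1))) :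
    ∫ x in unitCell (n + 1), f x =
      ∫ y in unitCell n, ∫ t in Set.Ico (0 : ℝ) 1, f (cons t y) := by
  rw [integral_cell_fubini f hf]
  have hI : IntegrableOn (fun p : ℝ × Eu n => f (cons p.1 p.2))
      ((fun p : ℝ × Eu n => cons p.1 p.2) ⁻¹' (unitCell (n + 1))) :=
    (measurePreserving_cons.integrableOn_comp_preimage measurableEmbedding_cons).2 hf
  rw [preimage_cell] at hI
  apply integral_integral_swap
  rw [Measure.prod_restrict]
  exact hI

theorem lintegral_cell_fubini {n : ℕ} (f : Eu (n + 1) → ℝ≥0∞) (hf : Measurable f) :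
    ∫⁻ x in unitCell (n + 1), f x =
      ∫⁻ t in Set.Ico (0 : ℝ) 1, ∫⁻ y in unitCell n, f (cons t y) := by
  rw [← measurePreserving_cons.setLIntegral_comp_preimage measurableSet_cell hf, preimage_cell]
  have hv : (volume : Measure (ℝ × Eu n)) = volume.prod volume := rfl
  rw [hv, ← Measure.prod_restrict, lintegral_prod]
  exact (hf.comp measurableEmbedding_cons.measurable).aemeasurable

theorem lintegral_cell_fubini' {n : ℕ} (f : Eu (n + 1) → ℝ≥0∞) (hf : Measurable f) :
    ∫⁻ x in unitCell (n + 1), f x =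
      ∫⁻ y in unitCell n, ∫⁻ t in Set.Ico (0 : ℝ) 1, f (cons t y) := by
  rw [← measurePreserving_cons.setLIntegral_comp_preimage measurableSet_cell hf, preimage_cell]
  have hv : (volume : Measure (ℝ × Eu n)) = volume.prod volume := rfl
  rw [hv, ← Measure.prod_restrict, lintegral_prod_symm]
  exact (hf.comp measurableEmbedding_cons.measurable).aemeasurable

theorem measurableSet_sl {n : ℕ} {A : Set (Eu (n + 1))} (hA : MeasurableSet A) (t : ℝ) :
    MeasurableSet (sl A t) :=
  (continuous_cons.comp (Continuous.prodMk_right t)).measurable hA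

theorem measurableSet_ln {n : ℕ} {A : Set (Eu (n + 1))} (hA : MeasurableSet A) (y : Eu n) :
    MeasurableSet (ln A y) :=
  (continuous_cons.comp (Continuous.prodMk_left y)).measurable hA

theorem hasIntegerCoords_zero' {n : ℕ} : HasIntegerCoords (0 : Eu n) := fun _ => ⟨0, by simp⟩

theorem periodic_sl {n : ℕ} {A : Set (Eu (n + 1))} (hp : IsLatticePeriodic A) (t : ℝ) :
    IsLatticePeriodic (sl A t) := by
  intro v hv y
  have h := hp (cons ((0 : ℤ) : ℝ) v) (hasIntegerCoords_cons 0 v hv) (cons t y)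
  rw [← cons_add] at h
  simpa [sl] using h

theorem sl_add_one {n : ℕ} {A : Set (Eu (n + 1))} (hp : IsLatticePeriodic A) (t : ℝ) :
    sl A (t + 1) = sl A t := by
  ext y
  have h := hp (cons ((1 : ℤ) : ℝ) 0) (hasIntegerCoords_cons 1 0 hasIntegerCoords_zero') (cons t y)
  rw [← cons_add] at h
  simpa [sl] using h

theorem ln_add_one {n : ℕ} {A : Set (Eu (n + 1))} (hp : IsLatticePeriodic A) (y : Eu n) (t : ℝ) :
    t + 1 ∈ ln A y ↔ t ∈ ln A y := by
  have h := hp (cons ((1 : ℤ) : ℝ) 0) (hasIntegerCoords_cons 1 0 hasIntegerCoords_zero') (cons t y)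
  rw [← cons_add] at h
  simpa [ln] using h

theorem ln_add {n : ℕ} {A : Set (Eu (n + 1))} (hp : IsLatticePeriodic A) (y v : Eu n)
    (hv : HasIntegerCoords v) : ln A (y + v) = ln A y := by
  ext t
  have h := hp (cons ((0 : ℤ) : ℝ) v) (hasIntegerCoords_cons 0 v hv) (cons t y)
  rw [← cons_add] at h
  simpa [ln] using h

theorem perFun_mln {n : ℕ} {A : Set (Eu (n + 1))} (hp : IsLatticePeriodic A) :
    PerFun (mln A) := by
  intro v hv y
  unfold mln
  rw [ln_add hp y v hv]

theorem measurable_mln {n : ℕ} {A : Set (Eu (n + 1))} (hA : MeasurableSet A) :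
    Measurable (mln A) := by
  have hm : Measurable (fun p : Eu n × ℝ => cons p.2 p.1) :=
    measurableEmbedding_cons.measurable.comp measurable_swap
  have hs : MeasurableSet {p : Eu n × ℝ | cons p.2 p.1 ∈ A ∧ p.2 ∈ Set.Ico (0 : ℝ) 1} :=
    (hm hA).inter (measurable_snd measurableSet_Ico)
  exact (measurable_measure_prodMk_left hs).ennreal_toReal

theorem mln_nonneg {n : ℕ} (A : Set (Eu (n + 1))) (y : Eu n) : 0 ≤ mln A y :=
  ENNReal.toReal_nonneg

theorem mln_le_one {n : ℕ} (A : Set (Eu (n + 1))) (y : Eu n) : mln A y ≤ 1 := by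
  unfold mln
  have h : volume (ln A y ∩ Set.Ico (0 : ℝ) 1) ≤ 1 := by
    calc volume (ln A y ∩ Set.Ico (0 : ℝ) 1) ≤ volume (Set.Ico (0 : ℝ) 1) :=
          measure_mono Set.inter_subset_right
      _ = 1 := by simp
  exact ENNReal.toReal_le_of_le_ofReal (by norm_num) (by simpa using h)

theorem vol_nonneg {n : ℕ} (A : Set (Eu n)) : 0 ≤ periodicVolume A :=
  ENNReal.toReal_nonneg

theorem vol_le_one {n : ℕ} (A : Set (Eu n)) : periodicVolume A ≤ 1 := by
  unfold periodicVolume
  have h : volume (A ∩ unitCell n) ≤ 1 := by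
    calc volume (A ∩ unitCell n) ≤ volume (unitCell n) := measure_mono Set.inter_subset_right
      _ = 1 := volume_cell
  exact ENNReal.toReal_le_of_le_ofReal (by norm_num) (by simpa using h)

theorem measurable_vol_sl {n : ℕ} {A : Set (Eu (n + 1))} (hA : MeasurableSet A) :
    Measurable (fun t => periodicVolume (sl A t)) := by
  have hs : MeasurableSet {p : ℝ × Eu n | cons p.1 p.2 ∈ A ∧ p.2 ∈ unitCell n} :=
    (measurableEmbedding_cons.measurable hA).inter (measurable_snd measurableSet_cell)
  exact (measurable_measure_prodMk_left hs).ennreal_toReal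

theorem setIntegral_ind {n : ℕ} (A : Set (Eu n)) (hA : MeasurableSet A) :
    ∫ x in unitCell n, ind A x = periodicVolume A := by
  unfold ind periodicVolume
  rw [integral_indicator hA, setIntegral_const, smul_eq_mul, mul_one, Measure.real,
    Measure.restrict_apply hA]

theorem integrableOn_ind {n : ℕ} (A : Set (Eu n)) (hA : MeasurableSet A) :
    IntegrableOn (ind A) (unitCell n) := by
  unfold ind
  have h : IntegrableOn (fun _ : Eu n => (1 : ℝ)) (unitCell n) := by
    apply integrableOn_const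
    · rw [volume_cell]; exact ENNReal.one_ne_top
    · simp
  exact h.indicator hA

theorem vol_eq_integral_sl {n : ℕ} {A : Set (Eu (n + 1))} (hA : MeasurableSet A) :
    periodicVolume A = ∫ t in Set.Ico (0 : ℝ) 1, periodicVolume (sl A t) := by
  rw [← setIntegral_ind A hA, integral_cell_fubini _ (integrableOn_ind A hA)]
  refine integral_congr_ae (Filter.Eventually.of_forall fun t => ?_)
  simp only
  rw [← setIntegral_ind _ (measurableSet_sl hA t)]
  rfl

theorem vol_eq_integral_mln {n : ℕ} {A : Set (Eu (n + 1))} (hA : MeasurableSet A) :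
    periodicVolume A = ∫ y in unitCell n, mln A y := by
  rw [← setIntegral_ind A hA, integral_cell_fubini' _ (integrableOn_ind A hA)]
  refine integral_congr_ae (Filter.Eventually.of_forall fun y => ?_)
  simp only
  have h : ∀ t, ind A (cons t y) = (ln A y).indicator (fun _ => (1 : ℝ)) t := fun t => rfl
  simp_rw [h]
  rw [integral_indicator (measurableSet_ln hA y), setIntegral_const, smul_eq_mul, mul_one,
    Measure.real, Measure.restrict_apply (measurableSet_ln hA y)]
  rfl

/-- derivative in direction `0` -/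
theorem hasDerivAt_cons {n : ℕ} (f : Eu (n + 1) → ℝ) (hf : ContDiff ℝ 1 f) (y : Eu n) (t : ℝ) :
    HasDerivAt (fun s => f (cons s y)) (fderiv ℝ f (cons t y) e0) t := by
  have h1 : HasFDerivAt f (fderiv ℝ f (cons t y)) (cons t y) :=
    (hf.differentiable (by norm_num)).differentiableAt.hasFDerivAt
  have h2 : HasDerivAt (fun s : ℝ => (cons s y : Eu (n + 1))) (e0 : Eu (n + 1)) t := by
    have h3 : (fun s : ℝ => (cons s y : Eu (n + 1))) = fun s => s • (e0 : Eu (n + 1)) + cons 0 y := by
      funext s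
      ext i
      refine Fin.cases ?_ (fun i => ?_) i
      · simp [e0]
      · simp [e0]
    rw [h3]
    have h4 : HasDerivAt (fun s : ℝ => s • (e0 : Eu (n + 1))) ((1 : ℝ) • (e0 : Eu (n + 1))) t :=
      (hasDerivAt_id t).smul_const _
    rw [one_smul] at h4
    exact h4.add_const _
  exact h1.comp_hasDerivAt t h2

/-- norm of a functional on Euclidean space in coordinates -/
theorem norm_sq_dual {n : ℕ} (L : Eu n →L[ℝ] ℝ) :
    ‖L‖ ^ 2 = ∑ i, (L (EuclideanSpace.single i 1)) ^ 2 := by
  set g := (InnerProductSpace.toDual ℝ (Eu n)).symm L with hg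
  have h1 : ‖g‖ = ‖L‖ := LinearIsometryEquiv.norm_map _ _
  have h2 : ∀ x, inner ℝ g x = L x := fun x => InnerProductSpace.toDual_symm_apply
  rw [← h1, EuclideanSpace.norm_sq_eq]
  refine Finset.sum_congr rfl fun i _ => ?_
  rw [← h2, EuclideanSpace.inner_single_right]
  simp

/-- the inclusion of the last coordinates -/
def injL (n : ℕ) : Eu n →L[ℝ] Eu (n + 1) :=
  ((consL n : (ℝ × Eu n) →L[ℝ] Eu (n + 1))).comp (ContinuousLinearMap.inr ℝ ℝ (Eu n))

@[simp] theorem injL_apply {n : ℕ} (y : Eu n) : injL n y = cons 0 y := rfl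

/-- the derivative of the slice function -/
theorem fderiv_slice {n : ℕ} (f : Eu (n + 1) → ℝ) (hf : ContDiff ℝ 1 f) (t : ℝ) (y : Eu n) :
    fderiv ℝ (fun z => f (cons t z)) y = (fderiv ℝ f (cons t y)).comp (injL n) := by
  have h1 : HasFDerivAt f (fderiv ℝ f (cons t y)) (cons t y) :=
    (hf.differentiable (by norm_num)).differentiableAt.hasFDerivAt
  have h2 : HasFDerivAt (fun z : Eu n => (cons t z : Eu (n + 1))) (injL n) y := by
    have h3 : (fun z : Eu n => (cons t z : Eu (n + 1))) = fun z => injL n z + cons t 0 := by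
      funext z
      rw [injL_apply, ← cons_add]
      simp
    rw [h3]
    exact (injL n).hasFDerivAt.add_const _
  exact (h1.comp y h2).fderiv

/-- the slice function has derivative the restriction of the derivative -/
theorem norm_fderiv_cons_sq {n : ℕ} (f : Eu (n + 1) → ℝ) (hf : ContDiff ℝ 1 f) (t : ℝ) (y : Eu n) :
    ‖fderiv ℝ f (cons t y)‖ ^ 2 =
      (fderiv ℝ f (cons t y) e0) ^ 2 + ‖fderiv ℝ (fun z => f (cons t z)) y‖ ^ 2 := by
  rw [fderiv_slice f hf, norm_sq_dual, norm_sq_dual, Fin.sum_univ_succ]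
  congr 1
  refine Finset.sum_congr rfl fun i _ => ?_
  rw [ContinuousLinearMap.comp_apply, injL_apply]
  congr 2
  ext j
  refine Fin.cases ?_ (fun j => ?_) j
  · simp
  · simp [Fin.succ_inj]

end Crest.Agent.R214
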