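import Crest.Agent.R214.Core3
import Crest.Agent.R214.Core4
import Crest.Agent.R214.Geo

/-!
# LineSlice: the (weighted) slicing inequality by lines in direction `0`

Proof sketch. `f_k = exists_moll (ind A)`, subsequence with `∫_{[0,1)} |f_k(cons t y) - 1_{ln A y}(t)| dt → 0`
for a.e. `y ∈ cell n`. Pointwise `‖∇f‖ ≥ √(1-|U|²) |∂₀ f| - U · ∇' f`. Integrate:
`-∫ U·∇'f_k = ∫ f_k div_y U → ∫_A div_y U` (`ibp` with the field `cons 0 (U x)`), and for a.e. `y`
`liminf ∫ √(1-|U(t,y)|²) |∂₀ f_k| dt ≥ W1 (…) (ln A y)`: for `|ψ| ≤ θ`, `∫ θ|f_k'| ≥ -∫ ψ f_k' = ∫ ψ' f_k →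
∫_{ln A y} ψ'`. Fatou.
-/

set_option autoImplicit false
open MeasureTheory Crest.GeometryTopology.PeriodicPerimeter Filter
open scoped ENNReal NNReal Topology
noncomputable section
namespace Crest.Agent.R214

section Aux

variable {n : ℕ}

theorem ls_measurable_ind {A : Set (Eu n)} (hA : MeasurableSet A) : Measurable (ind A) :=
  measurable_const.indicator hA

theorem ls_ind_nonneg (A : Set (Eu n)) (x : Eu n) : 0 ≤ ind A x :=
  Set.indicator_nonneg (fun _ _ => zero_le_one) x

theorem ls_ind_le_one (A : Set (Eu n)) (x : Eu n) : ind A x ≤ 1 := by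
  unfold ind
  by_cases h : x ∈ A <;> simp [h]

theorem ls_perFun_ind {A : Set (Eu n)} (hp : IsLatticePeriodic A) : PerFun (ind A) := by
  intro v hv x
  unfold ind
  by_cases h : x ∈ A
  · have h' : x + v ∈ A := (hp v hv x).2 h
    simp [h, h']
  · have h' : x + v ∉ A := fun h'' => h ((hp v hv x).1 h'')
    simp [h, h']

/-- the vector field `(0, U)` -/
def consU (U : Eu (n + 1) → Eu n) (x : Eu (n + 1)) : Eu (n + 1) := cons 0 (U x)

theorem contDiff_consU {U : Eu (n + 1) → Eu n} (hU : ContDiff ℝ 1 U) :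
    ContDiff ℝ 1 (consU U) := (injL n).contDiff.comp hU

theorem perFun_consU {U : Eu (n + 1) → Eu n} (hU : PerFun U) : PerFun (consU U) := by
  intro v hv x
  unfold consU
  rw [hU v hv]

theorem divergence_consU {U : Eu (n + 1) → Eu n} (hU : ContDiff ℝ 1 U) (x : Eu (n + 1)) :
    divergence (consU U) x = ∑ i : Fin n, (fderiv ℝ U x (EuclideanSpace.single i.succ 1)) i := by
  have h1 : fderiv ℝ (consU U) x = (injL n).comp (fderiv ℝ U x) := by
    have h2 : HasFDerivAt U (fderiv ℝ U x) x :=
      (hU.differentiable one_ne_zero x).hasFDerivAt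
    exact ((injL n).hasFDerivAt.comp x h2).fderiv
  unfold divergence
  rw [h1, Fin.sum_univ_succ]
  simp

/-- pointwise lower bound for the norm of a functional -/
theorem clm_lower (L : Eu (n + 1) →L[ℝ] ℝ) (w : Eu n) (hw : ‖w‖ ≤ 1) :
    Real.sqrt (1 - ‖w‖ ^ 2) * |L e0| - L (cons 0 w) ≤ ‖L‖ := by
  set a := Real.sqrt (1 - ‖w‖ ^ 2) with ha
  have ha2 : a ^ 2 = 1 - ‖w‖ ^ 2 := by
    rw [ha, Real.sq_sqrt]
    nlinarith [norm_nonneg w]
  have key : ∀ s : ℝ, s ^ 2 = 1 → a * s * L e0 - L (cons 0 w) ≤ ‖L‖ := by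
    intro s hs
    have h1 : (cons (a * s) (-w) : Eu (n + 1)) = (a * s) • (e0 : Eu (n + 1)) - cons 0 w := by
      ext i
      refine Fin.cases ?_ (fun i => ?_) i
      · simp [e0]
      · simp [e0]
    have h2 : L (cons (a * s) (-w)) = a * s * L e0 - L (cons 0 w) := by
      rw [h1, map_sub, map_smul, smul_eq_mul]
    have h3 : ‖(cons (a * s) (-w) : Eu (n + 1))‖ ^ 2 = 1 := by
      rw [norm_cons_sq, norm_neg, mul_pow, hs, ha2]; ring
    have h4 : ‖(cons (a * s) (-w) : Eu (n + 1))‖ = 1 := by
      have h5 := norm_nonneg (cons (a * s) (-w) : Eu (n + 1))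
      nlinarith
    rw [← h2]
    calc L (cons (a * s) (-w)) ≤ ‖L (cons (a * s) (-w))‖ := Real.le_norm_self _
      _ ≤ ‖L‖ * ‖(cons (a * s) (-w) : Eu (n + 1))‖ := L.le_opNorm _
      _ = ‖L‖ := by rw [h4, mul_one]
  rcases le_total 0 (L e0) with h | h
  · rw [abs_of_nonneg h]
    simpa using key 1 (by norm_num)
  · rw [abs_of_nonpos h]
    have := key (-1) (by norm_num)
    linarith

theorem cons_one_eq (y : Eu n) : (cons 1 y : Eu (n + 1)) = cons 0 y + cons ((1 : ℤ) : ℝ) 0 := by
  rw [← cons_add]; simp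

/-- integration by parts along a line -/
theorem line_ibp {f : Eu (n + 1) → ℝ} (hf : ContDiff ℝ 1 f) (hfp : PerFun f) {ψ : ℝ → ℝ}
    (hψ : ContDiff ℝ 1 ψ) (hψp : ∀ t, ψ (t + 1) = ψ t) (y : Eu n) :
    ∫ t in Set.Ico (0 : ℝ) 1, deriv ψ t * f (cons t y) =
      - ∫ t in Set.Ico (0 : ℝ) 1, ψ t * fderiv ℝ f (cons t y) e0 := by
  have hcy : Continuous (fun t : ℝ => (cons t y : Eu (n + 1))) :=
    continuous_cons.comp (Continuous.prodMk_left y)
  have hc1 : Continuous (fun t => deriv ψ t * f (cons t y)) :=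
    (hψ.continuous_deriv le_rfl).mul (hf.continuous.comp hcy)
  have hc2 : Continuous (fun t => ψ t * fderiv ℝ f (cons t y) e0) :=
    hψ.continuous.mul (((hf.continuous_fderiv one_ne_zero).comp hcy).clm_apply continuous_const)
  have h1 : ∀ t ∈ Set.uIcc (0 : ℝ) 1, HasDerivAt (fun t => ψ t * f (cons t y))
      (deriv ψ t * f (cons t y) + ψ t * fderiv ℝ f (cons t y) e0) t := by
    intro t _
    exact ((hψ.differentiable one_ne_zero t).hasDerivAt).mul (hasDerivAt_cons f hf y t)
  have h2 := intervalIntegral.integral_eq_sub_of_hasDerivAt h1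
    ((hc1.add hc2).intervalIntegrable 0 1)
  have h3 : f (cons 1 y) = f (cons 0 y) := by
    rw [cons_one_eq]
    exact hfp _ (hasIntegerCoords_cons 1 0 hasIntegerCoords_zero') _
  have h4 : ψ 1 = ψ 0 := by simpa using hψp 0
  rw [h3, h4, sub_self, intervalIntegral.integral_add (hc1.intervalIntegrable 0 1)
    (hc2.intervalIntegrable 0 1)] at h2
  rw [intervalIntegral.integral_of_le zero_le_one, intervalIntegral.integral_of_le zero_le_one,
    ← integral_Ico_eq_integral_Ioc, ← integral_Ico_eq_integral_Ioc] at h2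
  linarith

theorem integrableOn_Ico {g : ℝ → ℝ} (hg : Continuous g) : IntegrableOn g (Set.Ico (0 : ℝ) 1) :=
  (hg.integrableOn_Icc).mono_set Set.Ico_subset_Icc_self

/-- `W1` is bounded by the liminf of the weighted variations of the approximations. -/
theorem W1_le_liminf {A : Set (Eu (n + 1))} (hA : MeasurableSet A) (y : Eu n)
    (f : ℕ → Eu (n + 1) → ℝ) (hf : ∀ k, ContDiff ℝ 1 (f k)) (hfp : ∀ k, PerFun (f k))
    {θ : ℝ → ℝ} (hθ : Continuous θ) (hθ0 : ∀ t, 0 ≤ θ t)
    (hD : Tendsto (fun k => ∫ t in Set.Ico (0 : ℝ) 1, |f k (cons t y) - ind A (cons t y)|)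
      atTop (𝓝 0)) :
    W1 θ (ln A y) ≤ liminf (fun k => ∫⁻ t in Set.Ico (0 : ℝ) 1,
      ENNReal.ofReal (θ t * |fderiv ℝ (f k) (cons t y) e0|)) atTop := by
  unfold W1
  refine iSup_le fun ψ => ?_
  obtain ⟨ψ, hψ, hψp, hψθ⟩ := ψ
  simp only
  have hcy : Continuous (fun t : ℝ => (cons t y : Eu (n + 1))) :=
    continuous_cons.comp (Continuous.prodMk_left y)
  have hdc : Continuous (deriv ψ) := hψ.continuous_deriv le_rfl
  have hmi : Measurable (fun t : ℝ => ind A (cons t y)) :=
    (ls_measurable_ind hA).comp hcy.measurable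
  have hii : IntegrableOn (fun t : ℝ => ind A (cons t y)) (Set.Ico (0 : ℝ) 1) := by
    refine Measure.integrableOn_of_bounded (M := 1) (by simp) hmi.aestronglyMeasurable
      (Eventually.of_forall fun t => ?_)
    rw [Real.norm_eq_abs, abs_of_nonneg (ls_ind_nonneg A _)]
    exact ls_ind_le_one A _
  have hfi : ∀ k, IntegrableOn (fun t : ℝ => f k (cons t y)) (Set.Ico (0 : ℝ) 1) := fun k =>
    integrableOn_Ico ((hf k).continuous.comp hcy)
  obtain ⟨C, hC⟩ := (isCompact_Icc (a := (0 : ℝ)) (b := 1)).exists_bound_of_continuousOn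
    hdc.continuousOn
  have hC0 : 0 ≤ C := (norm_nonneg _).trans (hC 0 (by simp))
  have hbd : ∀ g : ℝ → ℝ, IntegrableOn g (Set.Ico (0 : ℝ) 1) →
      IntegrableOn (fun t => deriv ψ t * g t) (Set.Ico (0 : ℝ) 1) := by
    intro g hg
    have : IntegrableOn (fun t => g t * deriv ψ t) (Set.Ico (0 : ℝ) 1) := by
      refine Integrable.mul_bdd (c := C) hg hdc.aestronglyMeasurable ?_
      rw [ae_restrict_iff' measurableSet_Ico]
      exact Eventually.of_forall fun x hx => hC x ⟨hx.1, hx.2.le⟩
    exact this.congr_fun (fun t _ => mul_comm _ _) measurableSet_Ico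
  have e1 : ∫ t in ln A y ∩ Set.Ico (0 : ℝ) 1, deriv ψ t =
      ∫ t in Set.Ico (0 : ℝ) 1, deriv ψ t * ind A (cons t y) := by
    rw [Set.inter_comm, ← setIntegral_indicator (measurableSet_ln hA y)]
    refine integral_congr_ae (Eventually.of_forall fun t => ?_)
    simp only
    by_cases h : t ∈ ln A y
    · rw [Set.indicator_of_mem h]
      have h' : cons t y ∈ A := h
      simp [ind, h']
    · rw [Set.indicator_of_notMem h]
      have h' : cons t y ∉ A := h
      simp [ind, h']
  have ht : Tendsto (fun k => ∫ t in Set.Ico (0 : ℝ) 1, deriv ψ t * f k (cons t y)) atTop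
      (𝓝 (∫ t in ln A y ∩ Set.Ico (0 : ℝ) 1, deriv ψ t)) := by
    rw [e1, tendsto_iff_norm_sub_tendsto_zero]
    refine squeeze_zero (fun k => norm_nonneg _) (fun k => ?_)
      (by simpa using hD.const_mul C : Tendsto (fun k => C * ∫ t in Set.Ico (0 : ℝ) 1,
        |f k (cons t y) - ind A (cons t y)|) atTop (𝓝 0))
    rw [← integral_sub (hbd _ (hfi k)) (hbd _ hii), ← integral_const_mul]
    refine norm_integral_le_of_norm_le (((hfi k).sub hii).abs.const_mul C) ?_
    rw [ae_restrict_iff' measurableSet_Ico]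
    refine Eventually.of_forall fun t ht => ?_
    rw [← mul_sub, norm_mul]
    exact mul_le_mul_of_nonneg_right (hC t ⟨ht.1, ht.2.le⟩) (norm_nonneg _)
  have ht2 := ((ENNReal.continuous_ofReal.tendsto _).comp ht).liminf_eq
  rw [← ht2]
  refine liminf_le_liminf (Eventually.of_forall fun k => ?_)
  simp only [Function.comp_def]
  have hcd : Continuous (fun t : ℝ => fderiv ℝ (f k) (cons t y) e0) :=
    (((hf k).continuous_fderiv one_ne_zero).comp hcy).clm_apply continuous_const
  have hc3 : Continuous (fun t => θ t * |fderiv ℝ (f k) (cons t y) e0|) := hθ.mul hcd.abs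
  rw [← ofReal_integral_eq_lintegral_ofReal (integrableOn_Ico hc3)
    (Eventually.of_forall fun t => mul_nonneg (hθ0 t) (abs_nonneg _))]
  refine ENNReal.ofReal_le_ofReal ?_
  rw [line_ibp (hf k) (hfp k) hψ hψp y, ← integral_neg]
  refine setIntegral_mono (integrableOn_Ico (hψ.continuous.mul hcd).neg)
    (integrableOn_Ico hc3) fun t => ?_
  calc -(ψ t * fderiv ℝ (f k) (cons t y) e0) ≤ |ψ t * fderiv ℝ (f k) (cons t y) e0| :=
        neg_le_abs _
    _ = |ψ t| * |fderiv ℝ (f k) (cons t y) e0| := abs_mul _ _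
    _ ≤ θ t * |fderiv ℝ (f k) (cons t y) e0| :=
        mul_le_mul_of_nonneg_right (hψθ t) (abs_nonneg _)

/-- a.e. convergence along lines, for a subsequence -/
theorem exists_subseq_line {A : Set (Eu (n + 1))} (hA : MeasurableSet A)
    (f : ℕ → Eu (n + 1) → ℝ) (hf : ∀ k, Continuous (f k))
    (h : Tendsto (fun k => ∫ x in unitCell (n + 1), |f k x - ind A x|) atTop (𝓝 0)) :
    ∃ φ : ℕ → ℕ, StrictMono φ ∧ ∀ᵐ y ∂((volume : Measure (Eu n)).restrict (unitCell n)),
      Tendsto (fun k => ∫ t in Set.Ico (0 : ℝ) 1,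
        |f (φ k) (cons t y) - ind A (cons t y)|) atTop (𝓝 0) := by
  set D : ℕ → Eu n → ℝ := fun k y => ∫ t in Set.Ico (0 : ℝ) 1,
    |f k (cons t y) - ind A (cons t y)| with hD
  have hint : ∀ k, IntegrableOn (fun x => |f k x - ind A x|) (unitCell (n + 1)) := fun k =>
    ((integrableOn_cell (f k) (hf k)).sub (integrableOn_ind A hA)).abs
  have e1 : ∀ k, ∫ y in unitCell n, D k y = ∫ x in unitCell (n + 1), |f k x - ind A x| :=
    fun k => (integral_cell_fubini' _ (hint k)).symm
  have hDm : ∀ k, Measurable (D k) := by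
    intro k
    have hm : Measurable (fun p : Eu n × ℝ => |f k (cons p.2 p.1) - ind A (cons p.2 p.1)|) := by
      have hm0 : Measurable (fun p : Eu n × ℝ => (cons p.2 p.1 : Eu (n + 1))) :=
        measurableEmbedding_cons.measurable.comp measurable_swap
      exact (((hf k).measurable.comp hm0).sub ((ls_measurable_ind hA).comp hm0)).norm
    exact (hm.stronglyMeasurable.integral_prod_right').measurable
  have hD0 : ∀ k y, 0 ≤ D k y := fun k y => integral_nonneg fun t => abs_nonneg _
  have hDi : ∀ k, IntegrableOn (D k) (unitCell n) := by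
    intro k
    obtain ⟨C, hC⟩ := (isCompact_closedBall (0 : Eu (n + 1))
      ((n + 1 : ℕ) : ℝ)).exists_bound_of_continuousOn (hf k).continuousOn
    refine Measure.integrableOn_of_bounded (M := C + 1) (by rw [volume_cell]; simp)
      (hDm k).aestronglyMeasurable ?_
    rw [ae_restrict_iff' measurableSet_cell]
    refine Eventually.of_forall fun y hy => ?_
    rw [Real.norm_eq_abs, abs_of_nonneg (hD0 k y)]
    calc D k y ≤ ∫ t in Set.Ico (0 : ℝ) 1, (C + 1) := by
          refine setIntegral_mono_on ?_ (integrableOn_Ico continuous_const) measurableSet_Ico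
            fun t ht => ?_
          · have hcy : Continuous (fun t : ℝ => (cons t y : Eu (n + 1))) :=
              continuous_cons.comp (Continuous.prodMk_left y)
            refine ((integrableOn_Ico ((hf k).comp hcy)).sub ?_).abs
            refine Measure.integrableOn_of_bounded (M := 1) (by simp)
              ((ls_measurable_ind hA).comp hcy.measurable).aestronglyMeasurable
              (Eventually.of_forall fun t => ?_)
            rw [Real.norm_eq_abs, abs_of_nonneg (ls_ind_nonneg A _)]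
            exact ls_ind_le_one A _
          · have h1 : (cons t y : Eu (n + 1)) ∈ unitCell (n + 1) := (mem_cell_cons t y).2 ⟨ht, hy⟩
            have h2 := hC _ (c4_cell_subset_closedBall h1)
            have h3 := ls_ind_nonneg A (cons t y)
            have h4 := ls_ind_le_one A (cons t y)
            rw [Real.norm_eq_abs, abs_le] at h2
            rw [abs_le]
            constructor <;> linarith [h2.1, h2.2]
      _ = C + 1 := by simp
  have hlim : Tendsto (fun k => eLpNorm (D k - fun _ => (0 : ℝ)) 1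
      ((volume : Measure (Eu n)).restrict (unitCell n))) atTop (𝓝 0) := by
    have e2 : ∀ k, eLpNorm (D k - fun _ => (0 : ℝ)) 1
        ((volume : Measure (Eu n)).restrict (unitCell n)) =
        ENNReal.ofReal (∫ x in unitCell (n + 1), |f k x - ind A x|) := by
      intro k
      rw [← e1 k, ofReal_integral_eq_lintegral_ofReal (hDi k) (Eventually.of_forall (hD0 k)),
        eLpNorm_one_eq_lintegral_enorm]
      refine lintegral_congr fun y => ?_
      simp only [Pi.sub_apply, sub_zero]
      rw [Real.enorm_eq_ofReal (hD0 k y)]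
    simp_rw [e2]
    have := (ENNReal.continuous_ofReal.tendsto _).comp h
    simpa [Function.comp_def] using this
  have hmeas := tendstoInMeasure_of_tendsto_eLpNorm one_ne_zero
    (fun k => (hDm k).aestronglyMeasurable) aestronglyMeasurable_const hlim
  obtain ⟨φ, hφ, hφ2⟩ := hmeas.exists_seq_tendsto_ae
  exact ⟨φ, hφ, hφ2⟩

end Aux

theorem line_slice {n : ℕ} (A : Set (Eu (n + 1))) (hA : MeasurableSet A)
    (hp : IsLatticePeriodic A) (hfin : periodicPerimeter A ≠ ⊤)
    (U : Eu (n + 1) → Eu n) (hU : ContDiff ℝ 1 U) (hUp : PerFun U) (hU1 : ∀ x, ‖U x‖ ≤ 1)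
    (N : Eu n → ℝ) (hN : Measurable N) (hN0 : ∀ y, 0 ≤ N y)
    (hNW : ∀ᵐ y ∂(volume.restrict (unitCell n)),
      ENNReal.ofReal (N y) ≤ W1 (fun t => Real.sqrt (1 - ‖U (cons t y)‖ ^ 2)) (ln A y)) :
    (∫ y in unitCell n, N y) +
      ∫ x in A ∩ unitCell (n + 1),
        ∑ i : Fin n, (fderiv ℝ U x (EuclideanSpace.single i.succ 1)) i ≤
      (periodicPerimeter A).toReal := by
  classical
  obtain ⟨g, hg2, hgp, hg0, hg1, hgV, hgL, -⟩ := exists_moll (ind A) (ls_measurable_ind hA)
    (ls_ind_nonneg A) (ls_ind_le_one A) (ls_perFun_ind hp)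
  rw [← periodicPerimeter_eq_TV A hA] at hgV
  have hgc : ∀ k, ContDiff ℝ 1 (g k) := fun k => (hg2 k).of_le (by norm_num)
  have hgC : ∀ k, Continuous (g k) := fun k => (hgc k).continuous
  obtain ⟨φ, hφ, hae⟩ := exists_subseq_line hA g hgC hgL
  set P := (periodicPerimeter A).toReal with hP
  have hVP : ∀ k, VV (g k) ≤ P := fun k => (ENNReal.ofReal_le_iff_le_toReal hfin).1 (hgV k)
  -- the weight
  set θ : Eu (n + 1) → ℝ := fun x => Real.sqrt (1 - ‖U x‖ ^ 2) with hθ
  have hθc : Continuous θ := by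
    have h1 : Continuous U := hU.continuous
    exact (continuous_const.sub (h1.norm.pow 2)).sqrt
  have hθ0 : ∀ x, 0 ≤ θ x := fun x => Real.sqrt_nonneg _
  set H : ℕ → Eu (n + 1) → ℝ := fun k x => θ x * |fderiv ℝ (g k) x e0| with hH
  have hHc : ∀ k, Continuous (H k) := fun k =>
    hθc.mul (((hgc k).continuous_fderiv one_ne_zero).clm_apply continuous_const).abs
  have hH0 : ∀ k x, 0 ≤ H k x := fun k x => mul_nonneg (hθ0 x) (abs_nonneg _)
  have hdc : ∀ k, Continuous (fun x => fderiv ℝ (g k) x (consU U x)) := fun k =>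
    ((hgc k).continuous_fderiv one_ne_zero).clm_apply (contDiff_consU hU).continuous
  set dU : Eu (n + 1) → ℝ := fun x => ∑ i : Fin n,
    (fderiv ℝ U x (EuclideanSpace.single i.succ 1)) i with hdU
  have hdiv : ∀ x, divergence (consU U) x = dU x := fun x => divergence_consU hU x
  -- the basic inequality
  have hmain : ∀ k, (∫ x in unitCell (n + 1), H k x) +
      ∫ x in unitCell (n + 1), g k x * divergence (consU U) x ≤ P := by
    intro k
    rw [ibp (g k) (hgc k) (hgp k) (consU U) (contDiff_consU hU) (perFun_consU hUp),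
      ← sub_eq_add_neg, ← integral_sub (integrableOn_cell _ (hHc k)) (integrableOn_cell _ (hdc k))]
    refine le_trans ?_ (hVP k)
    unfold VV
    refine setIntegral_mono ((integrableOn_cell _ (hHc k)).sub (integrableOn_cell _ (hdc k)))
      (integrableOn_cell _ ((hgc k).continuous_fderiv one_ne_zero).norm) fun x => ?_
    exact clm_lower (fderiv ℝ (g k) x) (U x) (hU1 x)
  -- convergence of the divergence term
  have hlim0 : Tendsto (fun k => ∫ x in unitCell (n + 1), g k x * divergence (consU U) x) atTop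
      (𝓝 (∫ x in unitCell (n + 1), ind A x * divergence (consU U) x)) :=
    c4_tendsto (contDiff_consU hU) (ind A) g (integrableOn_ind A hA)
      (fun k => integrableOn_cell _ (hgC k)) hgL
  have e1 : ∫ x in unitCell (n + 1), ind A x * divergence (consU U) x =
      ∫ x in A ∩ unitCell (n + 1), dU x := by
    rw [Set.inter_comm, ← setIntegral_indicator hA]
    refine integral_congr_ae (Eventually.of_forall fun x => ?_)
    simp only
    by_cases h : x ∈ A
    · rw [Set.indicator_of_mem h, hdiv]; simp [ind, h]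
    · rw [Set.indicator_of_notMem h]; simp [ind, h]
  rw [e1] at hlim0
  set I := ∫ x in A ∩ unitCell (n + 1), dU x with hI
  have hlim : Tendsto (fun k => P - ∫ x in unitCell (n + 1),
      g (φ k) x * divergence (consU U) x) atTop (𝓝 (P - I)) :=
    tendsto_const_nhds.sub (hlim0.comp hφ.tendsto_atTop)
  have hGle : ∀ k, ∫ x in unitCell (n + 1), H (φ k) x ≤
      P - ∫ x in unitCell (n + 1), g (φ k) x * divergence (consU U) x := fun k => by
    linarith [hmain (φ k)]
  have hPI : 0 ≤ P - I :=
    ge_of_tendsto' hlim fun k => le_trans (integral_nonneg fun x => hH0 _ x) (hGle k)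
  -- Fatou
  have hmeasG : ∀ k, Measurable (fun y : Eu n => ∫⁻ t in Set.Ico (0 : ℝ) 1,
      ENNReal.ofReal (H (φ k) (cons t y))) := by
    intro k
    have hm : Measurable (fun p : Eu n × ℝ => ENNReal.ofReal (H (φ k) (cons p.2 p.1))) := by
      have hm0 : Measurable (fun p : Eu n × ℝ => (cons p.2 p.1 : Eu (n + 1))) :=
        measurableEmbedding_cons.measurable.comp measurable_swap
      exact ((hHc (φ k)).measurable.comp hm0).ennreal_ofReal
    exact hm.lintegral_prod_right'
  have hfatou : ∫⁻ y in unitCell n, ENNReal.ofReal (N y) ≤ ENNReal.ofReal (P - I) := by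
    calc ∫⁻ y in unitCell n, ENNReal.ofReal (N y)
        ≤ ∫⁻ y in unitCell n, liminf (fun k => ∫⁻ t in Set.Ico (0 : ℝ) 1,
            ENNReal.ofReal (H (φ k) (cons t y))) atTop := by
          refine lintegral_mono_ae ?_
          filter_upwards [hNW, hae] with y hy1 hy2
          refine hy1.trans ?_
          have hcy : Continuous (fun t : ℝ => (cons t y : Eu (n + 1))) :=
            continuous_cons.comp (Continuous.prodMk_left y)
          exact W1_le_liminf hA y (fun k => g (φ k)) (fun k => hgc _) (fun k => hgp _)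
            (hθc.comp hcy) (fun t => hθ0 _) hy2
      _ ≤ liminf (fun k => ∫⁻ y in unitCell n, ∫⁻ t in Set.Ico (0 : ℝ) 1,
            ENNReal.ofReal (H (φ k) (cons t y))) atTop := lintegral_liminf_le hmeasG
      _ ≤ liminf (fun k => ENNReal.ofReal (P - ∫ x in unitCell (n + 1),
            g (φ k) x * divergence (consU U) x)) atTop := by
          refine liminf_le_liminf (Eventually.of_forall fun k => ?_)
          rw [← lintegral_cell_fubini' (fun x => ENNReal.ofReal (H (φ k) x))
            ((hHc (φ k)).measurable.ennreal_ofReal),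
            ← ofReal_integral_eq_lintegral_ofReal (integrableOn_cell _ (hHc (φ k)))
            (Eventually.of_forall (hH0 _))]
          exact ENNReal.ofReal_le_ofReal (hGle k)
      _ = ENNReal.ofReal (P - I) := ((ENNReal.continuous_ofReal.tendsto _).comp hlim).liminf_eq
  have hfinal : ∫ y in unitCell n, N y ≤ P - I := by
    rw [integral_eq_lintegral_of_nonneg_ae (Eventually.of_forall hN0) hN.aestronglyMeasurable]
    exact ENNReal.toReal_le_of_le_ofReal hPI hfatou
  linarith

end Crest.Agent.R214
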