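import Crest.Agent.R214.Defs2
import Crest.Agent.R214.Inv
import Crest.Agent.R214.Geo
import Crest.Agent.R214.Arc

/-!
# ModelsVol: measurability, periodicity, set identities and volumes of the model regions
-/

set_option autoImplicit false
open MeasureTheory Crest.GeometryTopology.PeriodicPerimeter Filter
open scoped ENNReal NNReal Topology
noncomputable section
namespace Crest.Agent.R214.MV

theorem dZ_le_abs_sub (t : ℝ) (k : ℤ) : dZ t ≤ |t - k| := round_le t k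

theorem dZ_sub_int (t : ℝ) (k : ℤ) : dZ (t - k) = dZ t := by
  have := dZ_add_int t (-k)
  rw [← this]; push_cast; ring_nf

theorem continuous_coord {n : ℕ} (i : Fin n) : Continuous (fun x : Eu n => x i) :=
  (EuclideanSpace.proj (𝕜 := ℝ) i).continuous

/-- the general "sum" model set -/
theorem isOpen_sum {n : ℕ} (S : Finset (Fin n)) (c : Eu n) (ρ : ℝ) :
    IsOpen {x : Eu n | ∑ i ∈ S, dZ (x i - c i) ^ 2 < ρ ^ 2} := by
  refine isOpen_lt ?_ continuous_const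
  refine continuous_finsetSum _ fun i _ => ?_
  exact (continuous_dZ.comp ((continuous_coord i).sub continuous_const)).pow 2

theorem periodic_sum {n : ℕ} (S : Finset (Fin n)) (c : Eu n) (ρ : ℝ) :
    IsLatticePeriodic {x : Eu n | ∑ i ∈ S, dZ (x i - c i) ^ 2 < ρ ^ 2} := by
  intro v hv x
  have e : ∑ i ∈ S, dZ ((x + v) i - c i) ^ 2 = ∑ i ∈ S, dZ (x i - c i) ^ 2 := by
    refine Finset.sum_congr rfl fun i _ => ?_
    obtain ⟨m, hm⟩ := hv i
    have : (x + v) i - c i = (x i - c i) + m := by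
      rw [PiLp.add_apply, hm]; ring
    rw [this, dZ_add_int]
  show (∑ i ∈ S, dZ ((x + v) i - c i) ^ 2 < ρ ^ 2) ↔ (∑ i ∈ S, dZ (x i - c i) ^ 2 < ρ ^ 2)
  rw [e]

theorem measurableSet_PB {n : ℕ} (c : Eu n) (ρ : ℝ) : MeasurableSet (PB c ρ) :=
  (isOpen_sum Finset.univ c ρ).measurableSet

theorem measurableSet_TB (j : Fin 3) (c : Eu 3) (r : ℝ) : MeasurableSet (TB j c r) :=
  (isOpen_sum (Finset.univ.erase j) c r).measurableSet

theorem isOpen_SL {n : ℕ} (i : Fin n) (a w : ℝ) : IsOpen (SL i a w : Set (Eu n)) :=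
  isOpen_lt (continuous_dZ.comp ((continuous_coord i).sub continuous_const)) continuous_const

theorem measurableSet_SL {n : ℕ} (i : Fin n) (a w : ℝ) :
    MeasurableSet (SL i a w : Set (Eu n)) :=
  (isOpen_SL i a w).measurableSet

theorem periodic_PB {n : ℕ} (c : Eu n) (ρ : ℝ) : IsLatticePeriodic (PB c ρ) :=
  periodic_sum Finset.univ c ρ

theorem periodic_TB (j : Fin 3) (c : Eu 3) (r : ℝ) : IsLatticePeriodic (TB j c r) :=
  periodic_sum (Finset.univ.erase j) c r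

theorem periodic_SL {n : ℕ} (i : Fin n) (a w : ℝ) :
    IsLatticePeriodic (SL i a w : Set (Eu n)) := by
  intro v hv x
  obtain ⟨m, hm⟩ := hv i
  have : (x + v) i - a = (x i - a) + m := by
    rw [PiLp.add_apply, hm]; ring
  show dZ ((x + v) i - a) < w / 2 ↔ dZ (x i - a) < w / 2
  rw [this, dZ_add_int]

theorem periodicBall_eq (ρ : ℝ) (h0 : 0 < ρ) : periodicBall ρ = PB 0 ρ := by
  ext x
  constructor
  · rintro ⟨v, hv, hd⟩
    show ∑ i, dZ (x i - (0 : Eu 3) i) ^ 2 < ρ ^ 2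
    have h1 : dist x v ^ 2 < ρ ^ 2 := pow_lt_pow_left₀ hd dist_nonneg two_ne_zero
    refine lt_of_le_of_lt ?_ h1
    rw [dist_eq_norm, EuclideanSpace.norm_sq_eq]
    refine Finset.sum_le_sum fun i _ => ?_
    obtain ⟨m, hm⟩ := hv i
    rw [PiLp.sub_apply, hm, Real.norm_eq_abs, PiLp.zero_apply, sub_zero]
    exact pow_le_pow_left₀ (dZ_nonneg _) (dZ_le_abs_sub _ _) 2
  · intro h
    have h' : ∑ i, dZ (x i - (0 : Eu 3) i) ^ 2 < ρ ^ 2 := h
    refine ⟨Inv.latVec fun i => round (x i), Inv.hasIntegerCoords_latVec _, ?_⟩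
    refine lt_of_pow_lt_pow_left₀ 2 h0.le ?_
    refine lt_of_le_of_lt (le_of_eq ?_) h'
    rw [dist_eq_norm, EuclideanSpace.norm_sq_eq]
    refine Finset.sum_congr rfl fun i _ => ?_
    rw [PiLp.sub_apply, Inv.latVec_apply, Real.norm_eq_abs, PiLp.zero_apply, sub_zero]
    rfl

theorem erase_two_sum (f : Fin 3 → ℝ) : ∑ i ∈ Finset.univ.erase (2 : Fin 3), f i = f 0 + f 1 := by
  have : (Finset.univ.erase (2 : Fin 3)) = {0, 1} := by decide
  rw [this]; simp

theorem periodicTube_eq (r : ℝ) : periodicTube r = TB 2 0 r := by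
  ext x
  have e : (x ∈ TB 2 0 r) ↔ dZ (x 0) ^ 2 + dZ (x 1) ^ 2 < r ^ 2 := by
    show (∑ i ∈ Finset.univ.erase (2 : Fin 3), dZ (x i - (0 : Eu 3) i) ^ 2 < r ^ 2) ↔ _
    rw [erase_two_sum]
    simp
  rw [e]
  constructor
  · rintro ⟨a, b, h⟩
    refine lt_of_le_of_lt (add_le_add ?_ ?_) h
    · rw [← sq_abs (x 0 - a)]
      exact pow_le_pow_left₀ (dZ_nonneg _) (dZ_le_abs_sub _ _) 2
    · rw [← sq_abs (x 1 - b)]
      exact pow_le_pow_left₀ (dZ_nonneg _) (dZ_le_abs_sub _ _) 2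
  · intro h
    refine ⟨round (x 0), round (x 1), ?_⟩
    have h1 : dZ (x 0) ^ 2 = (x 0 - round (x 0)) ^ 2 := by rw [dZ, sq_abs]
    have h2 : dZ (x 1) ^ 2 = (x 1 - round (x 1)) ^ 2 := by rw [dZ, sq_abs]
    rw [← h1, ← h2]; exact h

/-- hyperplanes are null -/
theorem volume_coord_eq {n : ℕ} (i : Fin n) (a : ℝ) : volume {x : Eu n | x i = a} = 0 := by
  have h : {x : Eu n | x i = a} =
      (WithLp.ofLp : Eu n → (Fin n → ℝ)) ⁻¹' {y : Fin n → ℝ | y i = a} := rfl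
  have hm : MeasurableSet {y : Fin n → ℝ | y i = a} :=
    measurableSet_eq_fun (measurable_pi_apply i) measurable_const
  rw [h, (PiLp.volume_preserving_ofLp (Fin n)).measure_preimage hm.nullMeasurableSet]
  rw [volume_pi]
  exact Measure.pi_hyperplane (fun _ : Fin n => (volume : Measure ℝ)) i a

theorem periodicSlab_eq (w : ℝ) :
    periodicSlab w =ᵐ[volume] SL (0 : Fin 3) (w / 2) w := by
  have hnull : volume (⋃ a : ℤ, {x : Eu 3 | x 0 = a}) = 0 := by
    rw [measure_iUnion_null_iff]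
    exact fun a => volume_coord_eq 0 _
  have hae : ∀ᵐ x : Eu 3, ∀ a : ℤ, x 0 ≠ a := by
    rw [ae_iff]
    refine measure_mono_null (fun x hx => ?_) hnull
    simp only [ne_eq, not_forall, not_not, Set.mem_ofPred_eq] at hx
    obtain ⟨a, ha⟩ := hx
    exact Set.mem_iUnion.2 ⟨a, ha⟩
  filter_upwards [hae] with x hx
  apply propext
  show (∃ a : ℤ, (a : ℝ) ≤ x 0 ∧ x 0 < a + w) ↔ dZ (x 0 - w / 2) < w / 2
  constructor
  · rintro ⟨a, ha1, ha2⟩
    have ha3 : (a : ℝ) < x 0 := lt_of_le_of_ne ha1 (fun h => hx a h.symm)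
    refine lt_of_le_of_lt (dZ_le_abs_sub _ a) ?_
    rw [abs_lt]
    constructor <;> linarith
  · intro h
    rw [dZ, abs_lt] at h
    refine ⟨round (x 0 - w / 2), ?_, ?_⟩
    · linarith [h.1]
    · linarith [h.2]

/-! ### volumes -/

theorem mem_ball_cell {n : ℕ} {ρ : ℝ} (h1 : ρ < 1 / 2) {x : Eu n}
    (hx : x ∈ Metric.ball (0 : Eu n) ρ) (i : Fin n) : |x i| < 1 / 2 := by
  rw [mem_ball_zero_iff] at hx
  have h2 : ‖x i‖ ≤ ‖x‖ := PiLp.norm_apply_le x i
  rw [Real.norm_eq_abs] at h2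
  linarith

theorem vol_PB_zero {n : ℕ} (ρ : ℝ) (h0 : 0 < ρ) (h1 : ρ < 1 / 2) :
    periodicVolume (PB (0 : Eu n) ρ) = (volume (Metric.ball (0 : Eu n) ρ)).toReal := by
  have e1 : volume (PB (0 : Eu n) ρ ∩ unitCell n) = volume (PB (0 : Eu n) ρ ∩
      Inv.cellAt (WithLp.toLp 2 (fun _ => -(1 / 2 : ℝ)) : Eu n)) :=
    Inv.IsCell.measure_inter_eq (Inv.isCell_unitCell n) (Inv.isCell_cellAt _)
      (measurableSet_PB _ _) (periodic_PB _ _)
  have e2 : PB (0 : Eu n) ρ ∩ Inv.cellAt (WithLp.toLp 2 (fun _ => -(1 / 2 : ℝ)) : Eu n) =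
      Metric.ball (0 : Eu n) ρ := by
    ext x
    constructor
    · rintro ⟨hx1, hx2⟩
      have hx1' : ∑ i, dZ (x i - (0 : Eu n) i) ^ 2 < ρ ^ 2 := hx1
      rw [mem_ball_zero_iff]
      refine lt_of_pow_lt_pow_left₀ 2 h0.le ?_
      rw [EuclideanSpace.norm_sq_eq]
      refine lt_of_le_of_lt (le_of_eq (Finset.sum_congr rfl fun i _ => ?_)) hx1'
      have h3 : -(1 / 2 : ℝ) ≤ x i ∧ x i < -(1 / 2 : ℝ) + 1 := hx2 i
      have h4 : |x i| ≤ 1 / 2 := by
        rw [abs_le]; constructor <;> linarith [h3.1, h3.2]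
      rw [PiLp.zero_apply, sub_zero, dZ_of_abs_le _ h4, Real.norm_eq_abs]
    · intro hx
      have h3 := mem_ball_cell h1 hx
      refine ⟨?_, fun i => ?_⟩
      · show ∑ i, dZ (x i - (0 : Eu n) i) ^ 2 < ρ ^ 2
        rw [mem_ball_zero_iff] at hx
        have h4 : ‖x‖ ^ 2 < ρ ^ 2 := pow_lt_pow_left₀ hx (norm_nonneg _) two_ne_zero
        rw [EuclideanSpace.norm_sq_eq] at h4
        refine lt_of_le_of_lt (le_of_eq (Finset.sum_congr rfl fun i _ => ?_)) h4
        rw [PiLp.zero_apply, sub_zero, dZ_of_abs_le _ (h3 i).le, Real.norm_eq_abs]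
      · have h4 := abs_lt.1 (h3 i)
        show -(1 / 2 : ℝ) ≤ x i ∧ x i < -(1 / 2 : ℝ) + 1
        constructor <;> linarith [h4.1, h4.2]
  rw [periodicVolume, e1, e2]

theorem PB_eq_tr {n : ℕ} (c : Eu n) (ρ : ℝ) : PB c ρ = tr c (PB 0 ρ) := by
  ext x
  show (∑ i, dZ (x i - c i) ^ 2 < ρ ^ 2) ↔ (∑ i, dZ ((x - c) i - (0 : Eu n) i) ^ 2 < ρ ^ 2)
  simp

theorem vol_PB {n : ℕ} (c : Eu n) (ρ : ℝ) (h0 : 0 < ρ) (h1 : ρ < 1 / 2) :
    periodicVolume (PB c ρ) = (volume (Metric.ball (0 : Eu n) ρ)).toReal := by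
  rw [PB_eq_tr, vol_tr c _ (measurableSet_PB _ _) (periodic_PB _ _), vol_PB_zero ρ h0 h1]

theorem vol_PB3 (c : Eu 3) (ρ : ℝ) (h0 : 0 < ρ) (h1 : ρ < 1 / 2) :
    periodicVolume (PB c ρ) = 4 * Real.pi / 3 * ρ ^ 3 := by
  rw [vol_PB c ρ h0 h1, EuclideanSpace.volume_ball_fin_three, ENNReal.toReal_mul,
    ENNReal.toReal_pow, ENNReal.toReal_ofReal h0.le, ENNReal.toReal_ofReal (by positivity)]
  ring

theorem vol_PB2 (c : Eu 2) (ρ : ℝ) (h0 : 0 < ρ) (h1 : ρ < 1 / 2) :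
    periodicVolume (PB c ρ) = Real.pi * ρ ^ 2 := by
  rw [vol_PB c ρ h0 h1, EuclideanSpace.volume_ball_fin_two, ENNReal.toReal_mul,
    ENNReal.toReal_pow, ENNReal.toReal_ofReal h0.le, ENNReal.toReal_ofReal Real.pi_pos.le]
  ring

theorem sl_TB_zero (c : Eu 3) (r t : ℝ) : sl (TB 0 c r) t = PB (tl c) r := by
  ext y
  show (∑ i ∈ Finset.univ.erase (0 : Fin 3), dZ (cons t y i - c i) ^ 2 < r ^ 2) ↔
    (∑ i, dZ (y i - tl c i) ^ 2 < r ^ 2)
  have : (Finset.univ.erase (0 : Fin 3)) = Finset.univ.map (Fin.succEmb 2) := by decide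
  rw [this, Finset.sum_map]
  rfl

theorem vol_TB_zero (c : Eu 3) (r : ℝ) (h0 : 0 < r) (h1 : r < 1 / 2) :
    periodicVolume (TB 0 c r) = Real.pi * r ^ 2 := by
  rw [vol_eq_integral_sl (measurableSet_TB _ _ _)]
  simp_rw [sl_TB_zero, vol_PB2 _ r h0 h1]
  simp

theorem TB_eq_pm (j : Fin 3) (c : Eu 3) (r : ℝ) :
    TB j c r = pm (Equiv.swap 0 j) (TB 0 (WithLp.toLp 2 fun i => c (Equiv.swap 0 j i)) r) := by
  ext x
  show (∑ i ∈ Finset.univ.erase j, dZ (x i - c i) ^ 2 < r ^ 2) ↔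
    (∑ i ∈ Finset.univ.erase (0 : Fin 3),
      dZ (x (Equiv.swap 0 j i) - c (Equiv.swap 0 j i)) ^ 2 < r ^ 2)
  have e : ∑ i ∈ Finset.univ.erase (0 : Fin 3),
      dZ (x (Equiv.swap 0 j i) - c (Equiv.swap 0 j i)) ^ 2 =
      ∑ i ∈ Finset.univ.erase j, dZ (x i - c i) ^ 2 := by
    refine Finset.sum_equiv (Equiv.swap 0 j) (fun i => ?_) (fun i _ => rfl)
    simp only [Finset.mem_erase, Finset.mem_univ, and_true]
    constructor
    · intro h h'
      apply h
      have := congrArg (Equiv.swap 0 j) h'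
      simpa using this
    · intro h h'
      apply h
      rw [h']; simp
  rw [e]

theorem vol_TB (j : Fin 3) (c : Eu 3) (r : ℝ) (h0 : 0 < r) (h1 : r < 1 / 2) :
    periodicVolume (TB j c r) = Real.pi * r ^ 2 := by
  rw [TB_eq_pm, vol_pm _ _ (measurableSet_TB _ _ _) (periodic_TB _ _ _), vol_TB_zero _ r h0 h1]

theorem vol_univ {n : ℕ} : periodicVolume (Set.univ : Set (Eu n)) = 1 := by
  rw [periodicVolume, Set.univ_inter, volume_cell, ENNReal.toReal_one]

theorem vol_empty {n : ℕ} : periodicVolume (∅ : Set (Eu n)) = 0 := by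
  rw [periodicVolume, Set.empty_inter, measure_empty, ENNReal.toReal_zero]

theorem vol_SL_zero {n : ℕ} (a w : ℝ) (h0 : 0 ≤ w) (h1 : w ≤ 1) :
    periodicVolume (SL 0 a w : Set (Eu (n + 1))) = w := by
  rw [vol_eq_integral_sl (measurableSet_SL _ _ _)]
  have hm : MeasurableSet {t : ℝ | dZ (t - a) < w / 2} :=
    (isOpen_lt (continuous_dZ.comp (continuous_id.sub continuous_const))
      continuous_const).measurableSet
  have e : ∀ t : ℝ, periodicVolume (sl (SL 0 a w : Set (Eu (n + 1))) t) =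
      {t : ℝ | dZ (t - a) < w / 2}.indicator (fun _ => (1 : ℝ)) t := by
    intro t
    by_cases h : dZ (t - a) < w / 2
    · have h2 : sl (SL 0 a w : Set (Eu (n + 1))) t = Set.univ := by
        ext y
        simp only [Set.mem_univ, iff_true]
        exact h
      rw [h2, vol_univ, Set.indicator_of_mem (by exact h)]
    · have h2 : sl (SL 0 a w : Set (Eu (n + 1))) t = ∅ := by
        ext y
        simp only [Set.mem_empty_iff_false, iff_false]
        exact h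
      rw [h2, vol_empty, Set.indicator_of_notMem (by exact h)]
  simp_rw [e]
  rw [integral_indicator hm, setIntegral_const, smul_eq_mul, mul_one, Measure.real,
    Measure.restrict_apply hm, volume_arc w a h0 h1, ENNReal.toReal_ofReal h0]

theorem SL_eq_pm {n : ℕ} (i : Fin (n + 1)) (a w : ℝ) :
    (SL i a w : Set (Eu (n + 1))) = pm (Equiv.swap 0 i) (SL 0 a w) := by
  ext x
  show dZ (x i - a) < w / 2 ↔ dZ (x (Equiv.swap 0 i 0) - a) < w / 2
  rw [Equiv.swap_apply_left]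

theorem vol_SL {n : ℕ} (i : Fin n) (a w : ℝ) (h0 : 0 ≤ w) (h1 : w ≤ 1) :
    periodicVolume (SL i a w : Set (Eu n)) = w := by
  cases n with
  | zero => exact i.elim0
  | succ n =>
    rw [SL_eq_pm, vol_pm _ _ (measurableSet_SL _ _ _) (periodic_SL _ _ _), vol_SL_zero a w h0 h1]

end Crest.Agent.R214.MV
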