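import Crest.Agent.R214.Defs2
import Crest.Agent.R214.Inv
import Crest.Agent.R214.Core4
import Crest.Agent.R214.Geo
import Crest.Agent.R214.ModelsVol

/-!
# Models: volumes of the model regions and upper bounds for their perimeters

Volumes: ball `4πρ³/3`, tube `πr²`, slab `w` (the centred cell `[-1/2,1/2)^3` is also a fundamental domain;
`EuclideanSpace.volume_ball`, Fubini).
Perimeter upper bounds: `f_k = H_k(∑ dZ(x_i)²)`-type `C¹` cut-offs of the region (`H_k` smooth, `1` on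
`[0,(ρ-1/k)²]`, `0` beyond `ρ²`, chosen so that `|∇f_k| ≤ (1+1/k) k`); `TV f_k ≤ VV f_k ≤ (1+1/k) k · vol(shell)
→ 4πρ²` (ball), `2πr` (tube), `2` (slab); then `TV_le_of_tendsto`/`TV_lsc`. `∑ dZ²` is smooth where it is
`< 1/4`, and `f_k` vanishes near the rest because `ρ < 1/2`.
-/

set_option autoImplicit false
open MeasureTheory Crest.GeometryTopology.PeriodicPerimeter Filter
open scoped ENNReal NNReal Topology
noncomputable section
namespace Crest.Agent.R214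

theorem periodicBall_eq (ρ : ℝ) (h0 : 0 < ρ) (h1 : ρ < 1 / 2) : periodicBall ρ = PB 0 ρ := by
  exact MV.periodicBall_eq ρ h0

theorem periodicTube_eq (r : ℝ) (h0 : 0 < r) (h1 : r < 1 / 2) : periodicTube r = TB 2 0 r := by
  exact MV.periodicTube_eq r

/-- the periodic slab `[a, a+w)` is a.e. the centred slab at `w/2` -/
theorem periodicSlab_eq (w : ℝ) (h0 : 0 < w) (h1 : w < 1) :
    periodicSlab w =ᵐ[volume] SL (0 : Fin 3) (w / 2) w := by
  exact MV.periodicSlab_eq w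

theorem vol_PB3 (c : Eu 3) (ρ : ℝ) (h0 : 0 < ρ) (h1 : ρ < 1 / 2) :
    periodicVolume (PB c ρ) = 4 * Real.pi / 3 * ρ ^ 3 := by
  exact MV.vol_PB3 c ρ h0 h1

theorem vol_PB2 (c : Eu 2) (ρ : ℝ) (h0 : 0 < ρ) (h1 : ρ < 1 / 2) :
    periodicVolume (PB c ρ) = Real.pi * ρ ^ 2 := by
  exact MV.vol_PB2 c ρ h0 h1

theorem vol_TB (j : Fin 3) (c : Eu 3) (r : ℝ) (h0 : 0 < r) (h1 : r < 1 / 2) :
    periodicVolume (TB j c r) = Real.pi * r ^ 2 := by
  exact MV.vol_TB j c r h0 h1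

theorem vol_SL {n : ℕ} (i : Fin n) (a w : ℝ) (h0 : 0 ≤ w) (h1 : w ≤ 1) :
    periodicVolume (SL i a w : Set (Eu n)) = w := by
  exact MV.vol_SL i a w h0 h1

theorem measurableSet_PB {n : ℕ} (c : Eu n) (ρ : ℝ) : MeasurableSet (PB c ρ) := by
  exact MV.measurableSet_PB c ρ

theorem measurableSet_TB (j : Fin 3) (c : Eu 3) (r : ℝ) : MeasurableSet (TB j c r) := by
  exact MV.measurableSet_TB j c r

theorem measurableSet_SL {n : ℕ} (i : Fin n) (a w : ℝ) :
    MeasurableSet (SL i a w : Set (Eu n)) := by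
  exact MV.measurableSet_SL i a w

theorem periodic_PB {n : ℕ} (c : Eu n) (ρ : ℝ) : IsLatticePeriodic (PB c ρ) := by
  exact MV.periodic_PB c ρ

theorem periodic_TB (j : Fin 3) (c : Eu 3) (r : ℝ) : IsLatticePeriodic (TB j c r) := by
  exact MV.periodic_TB j c r

theorem periodic_SL {n : ℕ} (i : Fin n) (a w : ℝ) :
    IsLatticePeriodic (SL i a w : Set (Eu n)) := by
  exact MV.periodic_SL i a w

theorem per_PB3_le (c : Eu 3) (ρ : ℝ) (h0 : 0 < ρ) (h1 : ρ < 1 / 2) :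
    periodicPerimeter (PB c ρ) ≤ ENNReal.ofReal (4 * Real.pi * ρ ^ 2) := by
  sorry

theorem per_TB_le (j : Fin 3) (c : Eu 3) (r : ℝ) (h0 : 0 < r) (h1 : r < 1 / 2) :
    periodicPerimeter (TB j c r) ≤ ENNReal.ofReal (2 * Real.pi * r) := by
  sorry

theorem per_SL_le {n : ℕ} (i : Fin n) (a w : ℝ) (h0 : 0 ≤ w) (h1 : w ≤ 1) :
    periodicPerimeter (SL i a w : Set (Eu n)) ≤ 2 := by
  sorry

end Crest.Agent.R214
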