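import Crest.Agent.R214.OneD

/-!
# NumA: Case A when `sTop s > 1/π`, away from the slab corner (numerical certificate)

Here `t < h0 = 3/25` has type 2 slices: `J_A(σ;q) = √(π(1-σ))`, or its tangent extension
`(1-σ)/η + πη/4` for `1-σ ≥ πη²/4`, `η = 1-q`; for `t > h0`
`J_C = min(√(πσ), max(1, sup_k (Fk k + k(σ-q))), J_A)`. Split `q ∈ [0,1]` into ranges `[q₁,q₂]`, e.g.
`0, .3, .4, .45, .5, .55, .6, 1` (use `q₁` in `J_A`, `q₂` in the `Fk` lines). For each range and each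
`(s0,s1)`, `1/π ≤ s0 ≤ 1`, `s1 ≤ min(s0,1/2)`, not in the corner, there are `λ, c_A, c_C` with
`λσ+c_A ≤ J_A`, `λσ+c_C ≤ J_C` on `[s1,s0]` and, with `β = min` of the two `√(1-w₊²/J²)`,
`c_A h0 + c_C (1-h0) + ∫_{s1}^{s0} β > M*(λ)` (then `calib` with `h0' = 3/25`). Float margins: for the
ranges above at least .0073, .0038, .0023, .0015, .0022, .0042, .0079 (attained near s0 ≈ .75, s1 = 0,
`λ ≈ 1.18`, `c_A = c_C = 0`); finer `q` ranges near `.5` give larger margins.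
-/

set_option autoImplicit false
open MeasureTheory Crest.GeometryTopology.PeriodicPerimeter Filter
open scoped ENNReal NNReal Topology
noncomputable section
namespace Crest.Agent.R214

theorem num_A {v P2 : ℝ} {s L : ℝ → ℝ} (h : OD v P2 s L) (hv : 0 < v) (hv2 : v ≤ 1 / 2)
    (q : ℝ) (hq0 : 0 ≤ q) (hq1 : q ≤ 1)
    (hL : ∀ᵐ t ∂(volume.restrict (Set.Ioo (0 : ℝ) 1)), AltA q t (s t) (L t))
    (hT : 1 / Real.pi < sTop s) (hne : ¬ (49 / 50 ≤ sTop s ∧ sBot s ≤ 1 / 20)) :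
    mm v < P2 := by
  sorry

end Crest.Agent.R214
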