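import Crest.Agent.R214.OneD

/-!
# NumB: Case B when `sTop s ≥ 19/50`, away from the slab corner (numerical certificate)

For every pair `(s0,s1) = (sTop s, sBot s)` with `19/50 ≤ s0 ≤ 1`, `s1 ≤ min(s0,1/2)`, not in the corner
`{s0 ≥ 49/50, s1 ≤ 1/20}`, there are `λ, c` with `w = λσ + c ≤ J(σ)` on `[s1,s0]`,
`J = min(√(πσ), max(1, sup_k (Fk k + k(σ - 3/25))), √(π(1-σ)))`, and `c + ∫_{s1}^{s0} √(1-w₊²/J²) > M*(λ)`,
`M*` = the constants in `mm_le_a..e`. Use `calib` (with `h0' = 0`). Margins (float): about 0.0013 at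
s0 = 0.38, 0.003 at 0.40, 0.008 at 0.44, > 0.012 for s0 ≥ 0.46 (minimum 0.0121 near 0.80); worst
`s1` is `0` with `c = 0` (`λ ≈ J(s0)/s0`).
`β = √(1-(w/J)²)` is concave on each piece where `J` is `√(πσ)`, a constant or `√(π(1-σ))`, so the
trapezoidal rule bounds `∫β` from below. Boxes: for `s0 ∈ [x,x']`, `s1 ∈ [y,y']` take a line feasible on
`[y,x']` and integrate over `[y',x]`. A kernel-evaluated checker (`decide +kernel` on integers) is
fine.  (`native` evaluation is forbidden.)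
-/

set_option autoImplicit false
open MeasureTheory Crest.GeometryTopology.PeriodicPerimeter Filter
open scoped ENNReal NNReal Topology
noncomputable section
namespace Crest.Agent.R214

theorem num_B {v P2 : ℝ} {s L : ℝ → ℝ} (h : OD v P2 s L) (hv : 0 < v) (hv2 : v ≤ 1 / 2)
    (hL : ∀ᵐ t ∂(volume.restrict (Set.Ioo (0 : ℝ) 1)), AltB (s t) (L t))
    (hT : 19 / 50 ≤ sTop s) (hne : ¬ (49 / 50 ≤ sTop s ∧ sBot s ≤ 1 / 20)) :
    mm v < P2 := by
  sorry

end Crest.Agent.R214
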