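import Crest.Agent.R214.Slice
import Crest.Agent.R214.Inv

/-!
# Rigid1: equality in `P(A) ≥ ∫ P(sl A t) dt` forces invariance in direction `0`

Proof sketch. `W` from `exists_slice_majorant`. `c ≤ P(sl A t) ≤ W t` a.e. and `P(A) ≤ c`. For `a : ℝ → ℝ`
`C¹` 1-periodic, `h : Eu n → ℝ` `C¹` periodic, `|a h| ≤ 1`, `0 < ε ≤ 1`, take `u x = ε a(x₀) h(tl x)`, `M = ε`:
`√(1-ε²) c + ε ∫ a'(t) (∫_{sl A t} h) dt ≤ c`; divide by `ε`, `ε → 0` (and `±a`): `∫ a' H_h = 0` for all
`a`, so `H_h(t) = ∫_{sl A t ∩ cell} h` is a.e. constant. Use a countable family of `h` which determines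
measurable sets up to null sets (e.g. real and imaginary parts of characters, or dense family) to
get `t₀` with `sl A t =ᵐ sl A t₀` for a.e. `t`; take `D = sl A t₀`.
-/

set_option autoImplicit false
open MeasureTheory Crest.GeometryTopology.PeriodicPerimeter Filter
open scoped ENNReal NNReal Topology
noncomputable section
namespace Crest.Agent.R214

theorem invariant_of_slices {n : ℕ} (A : Set (Eu (n + 1))) (hA : MeasurableSet A)
    (hp : IsLatticePeriodic A) (c : ℝ) (hc : 0 ≤ c)
    (hs : ∀ᵐ t ∂(volume.restrict (Set.Ico (0 : ℝ) 1)),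
      ENNReal.ofReal c ≤ periodicPerimeter (sl A t))
    (hP : periodicPerimeter A ≤ ENNReal.ofReal c) :
    ∃ D : Set (Eu n), MeasurableSet D ∧ IsLatticePeriodic D ∧
      A =ᵐ[volume] {x | tl x ∈ D} ∧ periodicVolume D = periodicVolume A ∧
      periodicPerimeter D = ENNReal.ofReal c := by
  sorry

end Crest.Agent.R214
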