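import Crest.Agent.R214.SteinerBr

/-!
# Steiner: Steiner symmetrization of sets does not increase the perimeter

Everything is deduced from helper915's coordinate-free symmetrization `steiner i A`
(`Crest.Agent.R214.SteinerFib`) through the bridge `St_eq_steiner`, `StI_eq_steiner`.
-/

set_option autoImplicit false
open MeasureTheory Crest.GeometryTopology.PeriodicPerimeter Filter
open scoped ENNReal NNReal Topology
noncomputable section
namespace Crest.Agent.R214

open Stn

theorem Stn.measurable_tl {n : ℕ} : Measurable (tl : Eu (n + 1) → Eu n) :=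
  (contDiff_tl (m := 0)).continuous.measurable

theorem Stn.measurable_dZ : Measurable dZ := by
  unfold dZ
  simp_rw [round_eq]
  fun_prop

theorem measurableSet_St {n : ℕ} {A : Set (Eu (n + 1))} (hA : MeasurableSet A) :
    MeasurableSet (St A) := by
  have h1 : Measurable fun x : Eu (n + 1) => dZ (x 0) := measurable_dZ.comp (by fun_prop)
  have h2 : Measurable fun x : Eu (n + 1) => mln A (tl x) / 2 :=
    ((measurable_mln hA).comp measurable_tl).div_const 2
  exact measurableSet_lt h1 h2

theorem Stn.dZ_add_int (t : ℝ) (m : ℤ) : dZ (t + m) = dZ t := by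
  unfold dZ
  rw [round_add_intCast]
  push_cast
  congr 1
  ring

theorem Stn.tl_add {n : ℕ} (x v : Eu (n + 1)) : tl (x + v) = tl x + tl v := by
  ext i; simp [tl]

theorem Stn.hasIntegerCoords_tl {n : ℕ} {v : Eu (n + 1)} (hv : HasIntegerCoords v) :
    HasIntegerCoords (tl v) := fun i => by simpa [tl] using hv i.succ

theorem periodic_St {n : ℕ} {A : Set (Eu (n + 1))} (hp : IsLatticePeriodic A) :
    IsLatticePeriodic (St A) := by
  intro v hv x
  unfold St
  simp only [Set.mem_ofPred_eq]
  rw [tl_add, perFun_mln hp (tl v) (hasIntegerCoords_tl hv)]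
  obtain ⟨m, hm⟩ := hv 0
  rw [show (x + v) 0 = x 0 + m by rw [PiLp.add_apply, hm], dZ_add_int]

theorem Stn.dZ_le_half (t : ℝ) : dZ t ≤ 1 / 2 := abs_sub_round t

theorem Stn.dZ_nonneg (t : ℝ) : 0 ≤ dZ t := abs_nonneg _

theorem Stn.measurableSet_dZ_lt (c : ℝ) : MeasurableSet {t : ℝ | dZ t < c} :=
  measurableSet_lt measurable_dZ measurable_const

/-- the length of a centred arc -/
theorem Stn.volume_dZ_lt {m : ℝ} (h0 : 0 ≤ m) (h1 : m ≤ 1) :
    (volume ({t : ℝ | dZ t < m / 2} ∩ Set.Ico 0 1)).toReal = m := by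
  rw [volume_fiber_eq (measurableSet_dZ_lt _)]
  set G : ℝ → ℝ := {t : ℝ | dZ t < m / 2}.indicator (fun _ => (1:ℝ)) with hG
  have hGp : Function.Periodic G 1 := by
    intro τ
    have := dZ_add_int τ 1
    simp only [Int.cast_one] at this
    simp only [hG, Set.indicator, Set.mem_ofPred_eq, this]
  have e2 := hGp.intervalIntegral_add_eq 0 (-(1/2))
  rw [zero_add] at e2
  rw [e2, intervalIntegral.integral_of_le (by norm_num)]
  have e3 : ∀ τ ∈ Set.Ioo (-(1/2:ℝ)) (1/2),
      G τ = Set.indicator (Set.Ioo (-m / 2) (m / 2)) (fun τ => 1) τ := by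
    intro τ hτ
    simp only [hG, Set.indicator, Set.mem_ofPred_eq, dZ, round_of_mem ⟨hτ.1.le, hτ.2⟩,
      Int.cast_zero, sub_zero, Set.mem_Ioo, abs_lt]
    rw [show -(m / 2) = -m / 2 by ring]
  rw [show -(1/2 : ℝ) + 1 = 1/2 by norm_num, integral_Ioc_eq_integral_Ioo,
    setIntegral_congr_fun measurableSet_Ioo e3,
    setIntegral_indicator measurableSet_Ioo]
  have e4 : Set.Ioo (-(1 / 2 : ℝ)) (1 / 2) ∩ Set.Ioo (-m / 2) (m / 2)
      = Set.Ioo (-m / 2) (m / 2) := by
    ext τ
    simp only [Set.mem_inter_iff, Set.mem_Ioo]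
    constructor
    · rintro ⟨_, h⟩; exact h
    · rintro ⟨h, h'⟩
      refine ⟨⟨?_, ?_⟩, h, h'⟩ <;> linarith
  rw [e4]
  simp only [integral_const, MeasurableSet.univ, measureReal_restrict_apply, Set.univ_inter,
    Real.volume_real_Ioo, smul_eq_mul, mul_one]
  rw [max_eq_left (by linarith)]
  ring

theorem mln_St {n : ℕ} {A : Set (Eu (n + 1))} (y : Eu n) : mln (St A) y = mln A y := by
  have h : ln (St A) y = {t : ℝ | dZ t < mln A y / 2} := by
    ext t
    unfold ln St
    simp
  unfold mln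
  rw [h, volume_dZ_lt (mln_nonneg A y) (mln_le_one A y)]
  rfl

theorem vol_St {n : ℕ} {A : Set (Eu (n + 1))} (hA : MeasurableSet A) :
    periodicVolume (St A) = periodicVolume A := by
  rw [vol_eq_integral_mln (measurableSet_St hA), vol_eq_integral_mln hA]
  simp_rw [mln_St]

theorem per_St_le {n : ℕ} (A : Set (Eu (n + 1))) (hA : MeasurableSet A)
    (hp : IsLatticePeriodic A) : periodicPerimeter (St A) ≤ periodicPerimeter A := by
  rw [St_eq_steiner hA hp]
  exact periodicPerimeter_steiner_le 0 hA hp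

/-- same facts for the symmetrization in direction `i` -/
theorem measurableSet_StI {n : ℕ} (i : Fin (n + 1)) {A : Set (Eu (n + 1))}
    (hA : MeasurableSet A) : MeasurableSet (StI i A) :=
  measurableSet_pm _ (measurableSet_St (measurableSet_pm _ hA))

theorem periodic_StI {n : ℕ} (i : Fin (n + 1)) {A : Set (Eu (n + 1))}
    (hp : IsLatticePeriodic A) : IsLatticePeriodic (StI i A) :=
  periodic_pm _ (periodic_St (periodic_pm _ hp))

theorem vol_StI {n : ℕ} (i : Fin (n + 1)) {A : Set (Eu (n + 1))} (hA : MeasurableSet A)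
    (hp : IsLatticePeriodic A) : periodicVolume (StI i A) = periodicVolume A := by
  rw [StI_eq_steiner i hA hp, periodicVolume_steiner i hA hp]

theorem per_StI_le {n : ℕ} (i : Fin (n + 1)) (A : Set (Eu (n + 1))) (hA : MeasurableSet A)
    (hp : IsLatticePeriodic A) : periodicPerimeter (StI i A) ≤ periodicPerimeter A := by
  rw [StI_eq_steiner i hA hp]
  exact periodicPerimeter_steiner_le i hA hp

/-- slice volumes in the other directions are preserved -/
theorem vol_sl_StI {n : ℕ} (i j : Fin (n + 1)) (hij : i ≠ j) {A : Set (Eu (n + 1))}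
    (hA : MeasurableSet A) (hp : IsLatticePeriodic A) (t : ℝ) :
    periodicVolume (sl (pm (Equiv.swap 0 j) (StI i A)) t) =
      periodicVolume (sl (pm (Equiv.swap 0 j) A) t) := by
  rw [StI_eq_steiner i hA hp]
  obtain ⟨i', hi'⟩ := sl_pm_steiner i j hij A t
  rw [hi', periodicVolume_steiner i' (measurableSet_sl (measurableSet_pm _ hA) t)
    (periodic_sl (periodic_pm _ hp) t)]

theorem Stn.sl_St {n : ℕ} (A : Set (Eu (n + 1))) (t : ℝ) :
    sl (St A) t = {y | 2 * dZ t < mln A y} := by
  ext y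
  unfold sl St
  simp only [Set.mem_ofPred_eq, cons_zero, tl_cons]
  constructor <;> intro h <;> linarith

theorem Stn.vol_mono {n : ℕ} {A B : Set (Eu n)} (h : A ⊆ B) : periodicVolume A ≤ periodicVolume B := by
  unfold periodicVolume
  refine ENNReal.toReal_mono ?_ (measure_mono (Set.inter_subset_inter_left _ h))
  refine ne_top_of_le_ne_top ?_ (measure_mono Set.inter_subset_right)
  rw [volume_cell]; exact ENNReal.one_ne_top

theorem Stn.dZ_of_mem {t : ℝ} (h0 : 0 ≤ t) (h1 : t < 1 / 2) : dZ t = t := by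
  unfold dZ
  rw [round_of_mem ⟨by linarith, h1⟩]
  simp [abs_of_nonneg h0]

theorem Stn.exists_mem_of_ae {p : ℝ → Prop}
    (h : ∀ᵐ t ∂(volume.restrict (Set.Ico (0 : ℝ) 1)), p t) {a b : ℝ} (ha : 0 ≤ a) (hab : a < b)
    (hb : b ≤ 1) : ∃ t ∈ Set.Ioo a b, p t := by
  by_contra hcon
  push Not at hcon
  rw [ae_restrict_iff' measurableSet_Ico] at h
  have h2 : volume (Set.Ioo a b) = 0 := by
    refine measure_mono_null ?_ (ae_iff.1 h)
    intro t ht
    simp only [Set.mem_ofPred_eq, Classical.not_imp]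
    exact ⟨⟨by linarith [ht.1], by linarith [ht.2]⟩, hcon t ht⟩
  rw [Real.volume_Ioo, ENNReal.ofReal_eq_zero] at h2
  linarith

theorem Stn.const_slices_St {n : ℕ} {A : Set (Eu (n + 1))}
    (hA : MeasurableSet A) (v : ℝ)
    (h : ∀ᵐ t ∂(volume.restrict (Set.Ico (0 : ℝ) 1)), periodicVolume (sl (St A) t) = v) :
    ∀ᵐ t ∂(volume.restrict (Set.Ico (0 : ℝ) 1)), periodicVolume (sl A t) = v := by
  have hmm := measurable_mln hA
  simp_rw [sl_St] at h
  -- the distribution function is constant
  have hN : ∀ s ∈ Set.Ioo (0:ℝ) 1, periodicVolume {y | s < mln A y} = v := by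
    intro s hs
    obtain ⟨t1, ht1, hv1⟩ := exists_mem_of_ae h (a := s / 2) (b := 1 / 2) (by linarith [hs.1])
      (by linarith [hs.2]) (by norm_num)
    obtain ⟨t0, ht0, hv0⟩ := exists_mem_of_ae h (a := 0) (b := s / 2) le_rfl
      (by linarith [hs.1]) (by linarith [hs.2])
    rw [dZ_of_mem (by linarith [ht1.1, hs.1]) ht1.2] at hv1
    rw [dZ_of_mem ht0.1.le (by linarith [ht0.2, hs.2])] at hv0
    apply le_antisymm
    · rw [← hv0]
      apply vol_mono
      intro y hy
      simp only [Set.mem_ofPred_eq] at hy ⊢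
      linarith [ht0.2]
    · rw [← hv1]
      apply vol_mono
      intro y hy
      simp only [Set.mem_ofPred_eq] at hy ⊢
      linarith [ht1.1]
  have hfin : ∀ B : Set (Eu n), volume (B ∩ unitCell n) ≠ ⊤ := fun B => by
    refine ne_top_of_le_ne_top ?_ (measure_mono Set.inter_subset_right)
    rw [volume_cell]; exact ENNReal.one_ne_top
  -- intermediate lengths are negligible
  have hnull : ∀ a b : ℝ, 0 < a → a ≤ b → b < 1 →
      volume ({y | a < mln A y ∧ mln A y ≤ b} ∩ unitCell n) = 0 := by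
    intro a b ha hab hb
    have e1 := hN a ⟨ha, by linarith⟩
    have e2 := hN b ⟨by linarith, hb⟩
    unfold periodicVolume at e1 e2
    have e3 : ({y | a < mln A y ∧ mln A y ≤ b} ∩ unitCell n) =
        ({y | a < mln A y} ∩ unitCell n) \ ({y | b < mln A y} ∩ unitCell n) := by
      ext y
      simp only [Set.mem_inter_iff, Set.mem_ofPred_eq, Set.mem_sdiff, not_and]
      constructor
      · rintro ⟨⟨h1, h2⟩, h3⟩
        exact ⟨⟨h1, h3⟩, fun h4 => absurd h4 (not_lt.2 h2)⟩
      · rintro ⟨⟨h1, h3⟩, h4⟩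
        exact ⟨⟨h1, not_lt.1 fun h5 => h4 h5 h3⟩, h3⟩
    rw [e3, measure_sdiff]
    · have e4 : volume ({y | a < mln A y} ∩ unitCell n) =
          volume ({y | b < mln A y} ∩ unitCell n) := by
        rw [← ENNReal.toReal_eq_toReal_iff' (hfin _) (hfin _), e1, e2]
      rw [e4, tsub_self]
    · intro y hy
      exact ⟨lt_of_le_of_lt hab hy.1, hy.2⟩
    · exact ((measurableSet_lt measurable_const hmm).inter measurableSet_cell).nullMeasurableSet
    · exact hfin _
  have hnull2 : volume ({y | 0 < mln A y ∧ mln A y < 1} ∩ unitCell n) = 0 := by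
    have hsub : ({y | 0 < mln A y ∧ mln A y < 1} ∩ unitCell n) ⊆
        ⋃ k : ℕ, ({y | 1 / ((k:ℝ) + 2) < mln A y ∧ mln A y ≤ 1 - 1 / ((k:ℝ) + 2)} ∩
          unitCell n) := by
      rintro y ⟨⟨h1, h2⟩, h3⟩
      obtain ⟨k, hk⟩ := exists_nat_one_div_lt (lt_min h1 (sub_pos.2 h2))
      refine Set.mem_iUnion.2 ⟨k, ⟨?_, ?_⟩, h3⟩
      · have : 1 / ((k:ℝ) + 2) ≤ 1 / ((k:ℝ) + 1) := by
          apply one_div_le_one_div_of_le <;> [positivity; linarith]
        exact lt_of_le_of_lt this (lt_of_lt_of_le hk (min_le_left _ _))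
      · have : 1 / ((k:ℝ) + 2) ≤ 1 / ((k:ℝ) + 1) := by
          apply one_div_le_one_div_of_le <;> [positivity; linarith]
        have h4 := lt_of_lt_of_le hk (min_le_right _ _)
        linarith
    refine measure_mono_null hsub (measure_iUnion_null fun k => ?_)
    have hk : (0:ℝ) < 1 / ((k:ℝ) + 2) := by positivity
    have hk2 : 1 / ((k:ℝ) + 2) ≤ 1 / 2 := by
      apply one_div_le_one_div_of_le <;> [norm_num; linarith [k.cast_nonneg (α := ℝ)]]
    exact hnull _ _ hk (by linarith) (by linarith)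
  set D : Set (Eu n) := {y | 1 / 2 < mln A y} with hD
  have hDm : MeasurableSet D := measurableSet_lt measurable_const hmm
  have hvD : periodicVolume D = v := hN (1 / 2) ⟨by norm_num, by norm_num⟩
  have hae : ∀ᵐ y ∂(volume.restrict (unitCell n)), mln A y = 0 ∨ mln A y = 1 := by
    rw [ae_restrict_iff' measurableSet_cell, ae_iff]
    refine measure_mono_null ?_ hnull2
    intro y hy
    simp only [Set.mem_ofPred_eq, Classical.not_imp, not_or] at hy
    obtain ⟨h1, h2, h3⟩ := hy
    exact ⟨⟨lt_of_le_of_ne (mln_nonneg A y) (Ne.symm h2), lt_of_le_of_ne (mln_le_one A y) h3⟩, h1⟩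
  have hae2 : ∀ᵐ y ∂(volume.restrict (unitCell n)),
      ∀ᵐ t ∂(volume.restrict (Set.Ico (0:ℝ) 1)), (cons t y ∈ A ↔ y ∈ D) := by
    filter_upwards [hae] with y hy
    have hlm := measurableSet_ln hA y
    have hln : volume (ln A y ∩ Set.Ico (0:ℝ) 1) ≠ ⊤ := by
      refine ne_top_of_le_ne_top ?_ (measure_mono Set.inter_subset_right)
      simp
    rcases hy with hy | hy
    · have h1 : y ∉ D := by
        simp only [hD, Set.mem_ofPred_eq, hy]; norm_num
      have h2 : volume (ln A y ∩ Set.Ico (0:ℝ) 1) = 0 := by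
        have := (ENNReal.toReal_eq_zero_iff _).1 hy
        exact this.resolve_right hln
      rw [ae_restrict_iff' measurableSet_Ico, ae_iff]
      refine measure_mono_null ?_ h2
      intro t ht
      simp only [Set.mem_ofPred_eq, Classical.not_imp, h1, iff_false, not_not] at ht
      exact ⟨ht.2, ht.1⟩
    · have h1 : y ∈ D := by
        simp only [hD, Set.mem_ofPred_eq, hy]; norm_num
      have h2 : volume (ln A y ∩ Set.Ico (0:ℝ) 1) = 1 := by
        have h3 : (volume (ln A y ∩ Set.Ico (0:ℝ) 1)).toReal = 1 := hy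
        rwa [ENNReal.toReal_eq_one_iff] at h3
      have h4 : volume (Set.Ico (0:ℝ) 1 \ (ln A y ∩ Set.Ico (0:ℝ) 1)) = 0 := by
        rw [measure_sdiff Set.inter_subset_right (hlm.inter measurableSet_Ico).nullMeasurableSet
          hln, h2]
        simp
      rw [ae_restrict_iff' measurableSet_Ico, ae_iff]
      refine measure_mono_null ?_ h4
      intro t ht
      simp only [Set.mem_ofPred_eq, Classical.not_imp, h1, iff_true] at ht
      exact ⟨ht.1, fun h5 => ht.2 h5.1⟩
  have hmeas : MeasurableSet {p : Eu n × ℝ | cons p.2 p.1 ∈ A ↔ p.1 ∈ D} := by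
    have m1 : MeasurableSet {p : Eu n × ℝ | cons p.2 p.1 ∈ A} :=
      (measurableEmbedding_cons.measurable.comp measurable_swap) hA
    have m2 : MeasurableSet {p : Eu n × ℝ | p.1 ∈ D} := measurable_fst hDm
    exact m1.iff m2
  have hae3 := (Measure.ae_ae_comm hmeas).1 hae2
  filter_upwards [hae3] with t ht
  rw [← hvD]
  unfold periodicVolume
  congr 1
  have h5 : ∀ᵐ y ∂(volume.restrict (unitCell n)), (y ∈ sl A t ↔ y ∈ D) := ht
  have h6 : sl A t =ᵐ[volume.restrict (unitCell n)] D := by
    filter_upwards [h5] with y hy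
    exact propext hy
  have h7 := measure_congr h6
  rwa [Measure.restrict_apply (measurableSet_sl hA t), Measure.restrict_apply hDm] at h7

/-- Constant slice volumes in direction `j` propagate backwards through Steiner symmetrization:
for `i ≠ j` this is `vol_sl_StI`; for `i = j`, constancy of `t ↦ |{y : dZ t < mln y / 2}|` forces
`mln ∈ {0,1}` a.e., so `A` is a.e. invariant in direction `j`. -/
theorem const_slices_of_StI {n : ℕ} (i j : Fin (n + 1)) {A : Set (Eu (n + 1))}
    (hA : MeasurableSet A) (hp : IsLatticePeriodic A) (v : ℝ)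
    (h : ∀ᵐ t ∂(volume.restrict (Set.Ico (0 : ℝ) 1)),
      periodicVolume (sl (pm (Equiv.swap 0 j) (StI i A)) t) = v) :
    ∀ᵐ t ∂(volume.restrict (Set.Ico (0 : ℝ) 1)),
      periodicVolume (sl (pm (Equiv.swap 0 j) A) t) = v := by
  by_cases hij : i = j
  · subst hij
    have e : pm (Equiv.swap 0 i) (StI i A) = St (pm (Equiv.swap 0 i) A) := by
      unfold StI
      ext x
      rw [mem_pm, mem_pm, pt_swap_pt]
    rw [e] at h
    exact const_slices_St (measurableSet_pm _ hA) v h
  · filter_upwards [h] with t ht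
    rw [← vol_sl_StI i j hij hA hp t, ht]

/-- full symmetrization in dimension three -/
def Full3 (A : Set (Eu 3)) : Set (Eu 3) := StI 0 (StI 1 (StI 2 A))

/-- full symmetrization in dimension two -/
def Full2 (A : Set (Eu 2)) : Set (Eu 2) := StI 0 (StI 1 A)

theorem Stn.symDown_of_symDecAt {n : ℕ} {A : Set (Eu n)} (h : ∀ j, SymDecAt j A) : SymDown A :=
  fun x y hxy hy => symDecAt_all h (x := y) (y := x) hxy hy

theorem symDown_Full3 {A : Set (Eu 3)} (hA : MeasurableSet A) (hp : IsLatticePeriodic A) :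
    SymDown (Full3 A) := by
  unfold Full3
  have m1 := measurableSet_StI 2 hA
  have p1 := periodic_StI 2 hp
  have m2 := measurableSet_StI 1 m1
  have p2 := periodic_StI 1 p1
  rw [StI_eq_steiner 0 m2 p2, StI_eq_steiner 1 m1 p1, StI_eq_steiner 2 hA hp]
  rw [StI_eq_steiner 2 hA hp] at m1 p1
  have m2' := measurableSet_steiner 1 m1 p1
  have p2' := steiner_periodic 1 m1 p1
  have s2 : SymDecAt 2 (steiner 2 A) := symDecAt_steiner_self 2 hA hp
  have s21 : SymDecAt 2 (steiner 1 (steiner 2 A)) := symDecAt_steiner 1 2 (by decide) m1 p1 s2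
  have s11 : SymDecAt 1 (steiner 1 (steiner 2 A)) := symDecAt_steiner_self 1 m1 p1
  apply symDown_of_symDecAt
  intro j
  fin_cases j
  · exact symDecAt_steiner_self 0 m2' p2'
  · exact symDecAt_steiner 0 1 (by decide) m2' p2' s11
  · exact symDecAt_steiner 0 2 (by decide) m2' p2' s21

theorem symDown_Full2 {A : Set (Eu 2)} (hA : MeasurableSet A) (hp : IsLatticePeriodic A) :
    SymDown (Full2 A) := by
  unfold Full2
  have m1 := measurableSet_StI 1 hA
  have p1 := periodic_StI 1 hp
  rw [StI_eq_steiner 0 m1 p1, StI_eq_steiner 1 hA hp]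
  rw [StI_eq_steiner 1 hA hp] at m1 p1
  have s1 : SymDecAt 1 (steiner 1 A) := symDecAt_steiner_self 1 hA hp
  apply symDown_of_symDecAt
  intro j
  fin_cases j
  · exact symDecAt_steiner_self 0 m1 p1
  · exact symDecAt_steiner 0 1 (by decide) m1 p1 s1

end Crest.Agent.R214
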