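import Crest.Agent.R214.Planar
import Crest.Agent.R214.Steiner
import Crest.Agent.R214.BallRigid
import Crest.Agent.R214.Rigid1

/-!
# Planar2: isoperimetric inequality and rigidity in the flat two-torus

`F = Full2 A` is `SymDown`, same volume, `P(F) ≤ P(A)`; `Planar` gives the inequality for `F` by types
(type 2: `√(π(1-v)) ≥ √(π/2) > 1` for `v ≤ 1/2`).
Equality: `P(F) = P(A)` and `F` is a centred disc (type 0, `v ≤ 1/π`), or a strip (type 1).
Disc: `F = StI 0 B`, `B = StI 1 A`; all perimeters coincide (`= 2√(πv) = 2 v/ρ`, `ρ = √(v/π)`); `ball_rigid`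
(`n = 1`, after `pm (swap 0 i)`) gives first `B` = disc, then `A` = disc. [line lengths of `B` in
direction `0` are those of `St B`, `mln_St`.]
Strip across coordinate `i`: the slices in the other direction `j` have constant volume `v`;
`const_slices_of_StI` (twice) gives the same for `A`; slices are 1-D sets with perimeter `≥ 2`
(`per_one_ge_two`), `P(A) = 2`, so `invariant_of_slices` and `per_one_eq_two` finish.
-/

set_option autoImplicit false
open MeasureTheory Crest.GeometryTopology.PeriodicPerimeter Filter
open scoped ENNReal NNReal Topology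
noncomputable section
namespace Crest.Agent.R214

theorem planar_torus_ge (A : Set (Eu 2)) (hA : MeasurableSet A) (hp : IsLatticePeriodic A)
    (hv : periodicVolume A ≤ 1 / 2) :
    ENNReal.ofReal (2 * min (Real.sqrt (Real.pi * periodicVolume A)) 1) ≤
      periodicPerimeter A := by
  sorry

theorem planar_torus_eq (A : Set (Eu 2)) (hA : MeasurableSet A) (hp : IsLatticePeriodic A)
    (hv0 : 0 < periodicVolume A) (hv : periodicVolume A ≤ 1 / 2)
    (hP : periodicPerimeter A ≤
      ENNReal.ofReal (2 * min (Real.sqrt (Real.pi * periodicVolume A)) 1)) :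
    (periodicVolume A ≤ 1 / Real.pi ∧
        ∃ c : Eu 2, A =ᵐ[volume] PB c (Real.sqrt (periodicVolume A / Real.pi))) ∨
      (1 / Real.pi ≤ periodicVolume A ∧
        ∃ (i : Fin 2) (a : ℝ), A =ᵐ[volume] SL i a (periodicVolume A)) := by
  sorry

/-- the same for symmetric decreasing sets (centred models); needed for slices of invariant sets -/
theorem planar_symDown_eq (D : Set (Eu 2)) (hD : MeasurableSet D) (hS : SymDown D)
    (hv0 : 0 < periodicVolume D) (hv : periodicVolume D ≤ 1 / 2)
    (hP : periodicPerimeter D ≤
      ENNReal.ofReal (2 * min (Real.sqrt (Real.pi * periodicVolume D)) 1)) :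
    (periodicVolume D ≤ 1 / Real.pi ∧
        D =ᵐ[volume] PB 0 (Real.sqrt (periodicVolume D / Real.pi))) ∨
      (1 / Real.pi ≤ periodicVolume D ∧
        ∃ (i : Fin 2), D =ᵐ[volume] SL i 0 (periodicVolume D)) := by
  sorry

end Crest.Agent.R214
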