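import Crest.Agent.R214.Types
import Crest.Agent.R214.Corner
import Crest.Agent.R214.NumA
import Crest.Agent.R214.NumB
import Crest.Agent.R214.Planar2
import Crest.Agent.R214.Models

/-!
# Main3: the isoperimetric inequality and its equality cases for symmetric decreasing sets in dimension 3

`types3` with `h0 = hZ = 3/25` gives `σ`; replace `F` by `pm σ F` (volume, perimeter, `SymDown` invariant).
`exists_OD`: `L` with `P(slice) ≤ 2 L`; with `Planar` the alternatives `AltB (s t) (L t)` (Case B), resp.
`AltA q t (s t) (L t)` (Case A) hold a.e.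
Case B: `sTop < 19/50`: `AltB → √(πs) ≤ L` for `s ≤ 19/50` (type 1: `1 ≤ L` for `s ≤ 1/π`; for
`1/π ≤ s ≤ 19/50` use `k = 13/20`: `Fk 0.65 ≥ 0.9242`, `0.9242 + 0.65(s-0.12) > √(πs)`; type 2: `1-s ≥ s`), then
`pure`. `sTop ≥ 19/50`: `corner` (note every alternative gives `L ≥ √(πs(1-s))`) or `num_B`.
Case A: `sTop ≤ 1/π`: `pure`, and equality is impossible because `L ≥ √(π(1-s)) > √(πs)` for `t < hZ`.
Otherwise `corner`/`num_A`.
Equality: `SphereEq`: for a.e. `t` with `s t > 0` the slice has `P ≤ 2√(πs)`, so it is of type 0 (types 1 and 2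
have strictly larger `L`, as `s ≤ π/9 < 19/50`), `planar_disc` gives the disc of radius `√(s/π)`, and
`s/π = (r²-t²)/4`, `x₀ = t/2`: `F` is the ball of radius `r/2`. `ConstEq`: slices are nested with equal
area, hence a.e. equal to one `SymDown` set `D` with `P(D) = 2√(πv)`: `planar_symDown_eq`. `SlabEq`: slices
are full or empty.
-/

set_option autoImplicit false
open MeasureTheory Crest.GeometryTopology.PeriodicPerimeter Filter
open scoped ENNReal NNReal Topology
noncomputable section
namespace Crest.Agent.R214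

theorem main3 (F : Set (Eu 3)) (hF : MeasurableSet F) (hS : SymDown F)
    (hv0 : 0 < periodicVolume F) (hv : periodicVolume F ≤ 1 / 2) :
    ENNReal.ofReal (2 * mm (periodicVolume F)) ≤ periodicPerimeter F ∧
      (periodicPerimeter F ≤ ENNReal.ofReal (2 * mm (periodicVolume F)) →
        (periodicVolume F ≤ 4 * Real.pi / 81 ∧
          F =ᵐ[volume] PB 0 ((3 * periodicVolume F / (4 * Real.pi)) ^ ((1 : ℝ) / 3))) ∨
        (4 * Real.pi / 81 ≤ periodicVolume F ∧ periodicVolume F ≤ 1 / Real.pi ∧
          ∃ j : Fin 3, F =ᵐ[volume] TB j 0 (Real.sqrt (periodicVolume F / Real.pi))) ∨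
        (1 / Real.pi ≤ periodicVolume F ∧
          ∃ i : Fin 3, F =ᵐ[volume] SL i 0 (periodicVolume F))) := by
  sorry

end Crest.Agent.R214
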