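import Crest.Agent.R214.ModelBound

/-!
R214: the model regions (ball, tube, slab): measurability, periodicity, volume, perimeter bounds.
-/

set_option autoImplicit false

open MeasureTheory Set Filter Topology Metric
open Crest.GeometryTopology.PeriodicPerimeter

noncomputable section

namespace Crest.Agent.R214.Inv

/-- the centred cell corner. -/
def ctr : EE 3 := WithLp.toLp 2 fun _ => (-(1/2) : ℝ)

@[simp] theorem ctr_apply (i : Fin 3) : ctr i = -(1/2) := rfl

theorem mem_cellAt_ctr {x : EE 3} : x ∈ cellAt ctr ↔ ∀ i, -(1/2) ≤ x i ∧ x i < 1/2 := by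
  simp only [cellAt, mem_ofPred_eq, ctr_apply]
  refine forall_congr' fun i => ?_
  constructor <;> rintro ⟨h1, h2⟩ <;> constructor <;> linarith

theorem periodicVolume_eq_cell {D : Set (EE 3)} (hD : IsCell D) {E : Set (EE 3)}
    (hE : MeasurableSet E) (hper : IsLatticePeriodic E) :
    periodicVolume E = (volume (E ∩ D)).toReal := by
  unfold periodicVolume
  rw [hD.measure_inter_eq (isCell_unitCell 3) hE hper]

theorem int_eq_zero_of_cell {t r : ℝ} {m : ℤ} (hr : r ≤ 1 / 2) (h1 : -(1/2) ≤ t) (h2 : t < 1/2)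
    (h : |t - m| < r) : m = 0 := by
  rw [abs_lt] at h
  have h3 : (m : ℝ) < 1 := by linarith
  have h4 : (-1 : ℝ) < m := by linarith
  have h5 : m < 1 := by exact_mod_cast h3
  have h6 : -1 < m := by exact_mod_cast h4
  omega

/-! ### ball -/

theorem isOpen_periodicBall (r : ℝ) : IsOpen (periodicBall r) := by
  have : periodicBall r = ⋃ v : {v : EE 3 // HasIntegerCoords v}, ball v.1 r := by
    ext x
    simp [periodicBall]
  rw [this]
  exact isOpen_iUnion fun v => isOpen_ball

theorem periodic_periodicBall (r : ℝ) : IsLatticePeriodic (periodicBall r) := by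
  intro v hv x
  constructor
  · rintro ⟨w, hw, h⟩
    refine ⟨w - v, hic_sub hw hv, ?_⟩
    rw [dist_eq_norm] at *
    convert h using 2
    abel
  · rintro ⟨w, hw, h⟩
    exact ⟨w + v, hic_add hw hv, by rwa [dist_add_right]⟩

theorem periodicBall_inter_cell {r : ℝ} (hr : r ≤ 1 / 2) :
    periodicBall r ∩ cellAt ctr = ball (0 : EE 3) r := by
  have h : periodicBall r ∩ cellAt ctr = ball (0 : EE 3) r := by
    ext x
    rw [mem_inter_iff, mem_cellAt_ctr, mem_ball]
    constructor
    · rintro ⟨⟨v, hv, hx⟩, hc⟩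
      have hv0 : v = 0 := by
        ext i
        obtain ⟨m, hm⟩ := hv i
        have h1 : |x i - m| < r := by
          rw [← hm]
          refine lt_of_le_of_lt ?_ hx
          rw [dist_eq_norm, ← Real.norm_eq_abs]
          exact PiLp.norm_apply_le (x - v) i
        have := int_eq_zero_of_cell hr (hc i).1 (hc i).2 h1
        simp [hm, this]
      rwa [hv0] at hx
    · intro hx
      refine ⟨⟨0, hasIntegerCoords_zero, hx⟩, fun i => ?_⟩
      have h1 : |x i| < r := by
        refine lt_of_le_of_lt ?_ hx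
        rw [dist_zero_right, ← Real.norm_eq_abs]
        exact PiLp.norm_apply_le x i
      rw [abs_lt] at h1
      constructor <;> linarith
  rw [h]

theorem periodicVolume_periodicBall {r : ℝ} (h0 : 0 ≤ r) (hr : r ≤ 1 / 2) :
    periodicVolume (periodicBall r) = 4 / 3 * Real.pi * r ^ 3 := by
  rw [periodicVolume_eq_cell (isCell_cellAt ctr) (isOpen_periodicBall r).measurableSet
    (periodic_periodicBall r), periodicBall_inter_cell hr,
    EuclideanSpace.volume_ball_fin_three, ENNReal.toReal_mul, ENNReal.toReal_pow,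
    ENNReal.toReal_ofReal h0, ENNReal.toReal_ofReal (by positivity)]
  ring

theorem periodicBall_compl_nonempty {r : ℝ} (hr : r ≤ 1 / 2) : ((periodicBall r)ᶜ).Nonempty := by
  refine ⟨ctr, ?_⟩
  rintro ⟨v, hv, hx⟩
  obtain ⟨m, hm⟩ := hv 0
  have h1 : |ctr 0 - m| < r := by
    rw [← hm]
    refine lt_of_le_of_lt ?_ hx
    rw [dist_eq_norm, ← Real.norm_eq_abs]
    exact PiLp.norm_apply_le (ctr - v) 0
  have hm0 := int_eq_zero_of_cell (t := ctr 0) hr (by simp) (by norm_num [ctr_apply]) h1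
  rw [hm0] at h1
  simp only [ctr_apply, Int.cast_zero, sub_zero, abs_neg] at h1
  rw [abs_of_pos (by norm_num)] at h1
  linarith

/-- the sequence of shell widths. -/
def shellEps (r : ℝ) (k : ℕ) : ℝ := r / (k + 2)

theorem shellEps_pos {r : ℝ} (hr : 0 < r) (k : ℕ) : 0 < shellEps r k := by
  unfold shellEps; positivity

theorem shellEps_lt {r : ℝ} (hr : 0 < r) (k : ℕ) : shellEps r k < r := by
  unfold shellEps
  rw [div_lt_iff₀ (by positivity)]
  have : (0:ℝ) ≤ k := Nat.cast_nonneg k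
  nlinarith

theorem tendsto_shellEps (r : ℝ) : Tendsto (shellEps r) atTop (𝓝 0) := by
  unfold shellEps
  refine Tendsto.div_atTop tendsto_const_nhds ?_
  exact tendsto_atTop_add_const_right _ _ tendsto_natCast_atTop_atTop

theorem periodicPerimeter_periodicBall_le {r : ℝ} (h0 : 0 < r) (hr : r ≤ 1 / 2) :
    periodicPerimeter (periodicBall r) ≤ ENNReal.ofReal (4 * Real.pi * r ^ 2) := by
  refine periodicPerimeter_le_of_shell (periodic_periodicBall r) (isOpen_periodicBall r)
    (periodicBall_compl_nonempty hr) (fun k => periodicBall (r - shellEps r k)) (shellEps r)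
    (shellEps_pos h0) (tendsto_shellEps r) ?_ ?_
  · refine Eventually.of_forall fun k => ⟨(isOpen_periodicBall _).measurableSet, ?_, ?_⟩
    · rintro x ⟨v, hv, hx⟩
      exact ⟨v, hv, hx.trans (by have := shellEps_pos h0 k; linarith)⟩
    · rintro x ⟨v, hv, hx⟩ y hy
      refine ⟨v, hv, ?_⟩
      calc dist y v ≤ dist y x + dist x v := dist_triangle _ _ _
        _ < shellEps r k + (r - shellEps r k) := add_lt_add hy hx
        _ = r := by ring
  · have h1 : ∀ k, (periodicVolume (periodicBall r) - periodicVolume (periodicBall (r - shellEps r k)))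
        / shellEps r k = 4 / 3 * Real.pi * (3 * r ^ 2 - 3 * r * shellEps r k + shellEps r k ^ 2) := by
      intro k
      have hp := shellEps_pos h0 k
      have hl := shellEps_lt h0 k
      rw [periodicVolume_periodicBall h0.le hr, periodicVolume_periodicBall (by linarith) (by linarith)]
      field_simp
      ring
    simp_rw [h1]
    have h2 := tendsto_shellEps r
    have h3 : Tendsto (fun k => 4 / 3 * Real.pi * (3 * r ^ 2 - 3 * r * shellEps r k + shellEps r k ^ 2))
        atTop (𝓝 (4 / 3 * Real.pi * (3 * r ^ 2 - 3 * r * 0 + 0 ^ 2))) :=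
      (((tendsto_const_nhds.sub (h2.const_mul _)).add (h2.pow 2)).const_mul _)
    convert h3 using 2
    ring

/-! ### tube -/

theorem isOpen_periodicTube (r : ℝ) : IsOpen (periodicTube r) := by
  have : periodicTube r = ⋃ a : ℤ, ⋃ b : ℤ, {x : EE 3 | (x 0 - a) ^ 2 + (x 1 - b) ^ 2 < r ^ 2} := by
    ext x
    simp [periodicTube]
  rw [this]
  refine isOpen_iUnion fun a => isOpen_iUnion fun b => ?_
  exact isOpen_lt (by fun_prop) continuous_const

theorem periodic_periodicTube (r : ℝ) : IsLatticePeriodic (periodicTube r) := by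
  intro v hv x
  obtain ⟨m, hm⟩ := hv 0
  obtain ⟨k, hk⟩ := hv 1
  constructor
  · rintro ⟨a, b, h⟩
    refine ⟨a - m, b - k, ?_⟩
    simp only [PiLp.add_apply, hm, hk] at h
    push_cast
    convert h using 3 <;> ring
  · rintro ⟨a, b, h⟩
    refine ⟨a + m, b + k, ?_⟩
    simp only [PiLp.add_apply, hm, hk]
    push_cast
    convert h using 3 <;> ring

theorem abs_lt_of_sq_add_sq {s t r : ℝ} (hr : 0 ≤ r) (h : s ^ 2 + t ^ 2 < r ^ 2) : |s| < r ∧ |t| < r := by
  constructor
  · exact abs_lt_of_sq_lt_sq (by nlinarith [sq_nonneg t]) hr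
  · exact abs_lt_of_sq_lt_sq (by nlinarith [sq_nonneg s]) hr

theorem periodicTube_inter_cell {r : ℝ} (h0 : 0 ≤ r) (hr : r ≤ 1 / 2) :
    periodicTube r ∩ cellAt ctr =
      {x : EE 3 | x 0 ^ 2 + x 1 ^ 2 < r ^ 2 ∧ -(1/2) ≤ x 2 ∧ x 2 < 1/2} := by
  ext x
  rw [mem_inter_iff, mem_cellAt_ctr]
  constructor
  · rintro ⟨⟨a, b, h⟩, hc⟩
    obtain ⟨h1, h2⟩ := abs_lt_of_sq_add_sq h0 h
    have ha := int_eq_zero_of_cell hr (hc 0).1 (hc 0).2 h1
    have hb := int_eq_zero_of_cell hr (hc 1).1 (hc 1).2 h2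
    rw [ha, hb] at h
    simp only [Int.cast_zero, sub_zero] at h
    exact ⟨h, hc 2⟩
  · rintro ⟨h, h2⟩
    refine ⟨⟨0, 0, by simpa using h⟩, ?_⟩
    obtain ⟨h3, h4⟩ := abs_lt_of_sq_add_sq h0 h
    rw [abs_lt] at h3 h4
    intro i
    fin_cases i
    · simp only [Fin.zero_eta]; constructor <;> linarith
    · simp only [Fin.mk_one]; constructor <;> linarith
    · exact h2

theorem volume_disc (r : ℝ) (h0 : 0 ≤ r) :
    volume {y : Fin 2 → ℝ | y 0 ^ 2 + y 1 ^ 2 < r ^ 2} = ENNReal.ofReal (Real.pi * r ^ 2) := by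
  have hms : MeasurableSet {y : Fin 2 → ℝ | y 0 ^ 2 + y 1 ^ 2 < r ^ 2} :=
    measurableSet_lt (by fun_prop) measurable_const
  have h1 : (WithLp.ofLp : EE 2 → (Fin 2 → ℝ)) ⁻¹' {y : Fin 2 → ℝ | y 0 ^ 2 + y 1 ^ 2 < r ^ 2}
      = ball (0 : EE 2) r := by
    ext x
    rw [EuclideanSpace.ball_zero_eq _ h0]
    simp
  rw [← (PiLp.volume_preserving_ofLp (Fin 2)).measure_preimage hms.nullMeasurableSet, h1,
    EuclideanSpace.volume_ball_fin_two]
  rw [← ENNReal.ofReal_pow h0]
  rw [mul_comm (Real.pi) (r ^ 2), ENNReal.ofReal_mul (by positivity)]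

theorem volume_solidTube (r : ℝ) (h0 : 0 ≤ r) :
    volume {x : EE 3 | x 0 ^ 2 + x 1 ^ 2 < r ^ 2 ∧ -(1/2) ≤ x 2 ∧ x 2 < 1/2}
      = ENNReal.ofReal (Real.pi * r ^ 2) := by
  have hms : MeasurableSet {y : Fin 2 → ℝ | y 0 ^ 2 + y 1 ^ 2 < r ^ 2} :=
    measurableSet_lt (by fun_prop) measurable_const
  set S : Set (ℝ × (Fin 2 → ℝ)) := Ico (-(1/2)) (1/2) ×ˢ {y : Fin 2 → ℝ | y 0 ^ 2 + y 1 ^ 2 < r ^ 2}
    with hS
  have hSm : MeasurableSet S := measurableSet_Ico.prod hms
  have hmp := (volume_preserving_piFinSuccAbove (fun _ : Fin 3 => ℝ) 2).comp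
    (PiLp.volume_preserving_ofLp (Fin 3))
  have h1 : {x : EE 3 | x 0 ^ 2 + x 1 ^ 2 < r ^ 2 ∧ -(1/2) ≤ x 2 ∧ x 2 < 1/2}
      = (fun x : EE 3 => (MeasurableEquiv.piFinSuccAbove (fun _ : Fin 3 => ℝ) 2) (WithLp.ofLp x)) ⁻¹' S := by
    ext x
    simp only [hS, mem_ofPred_eq, mem_preimage, mem_prod, mem_Ico,
      MeasurableEquiv.piFinSuccAbove_apply, Fin.insertNthEquiv, Equiv.coe_fn_symm_mk, Fin.removeNth]
    have e0 : (Fin.succAbove (2 : Fin 3) 0) = 0 := by decide
    have e1 : (Fin.succAbove (2 : Fin 3) 1) = 1 := by decide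
    rw [e0, e1]
    tauto
  rw [h1]
  have h2 := hmp.measure_preimage hSm.nullMeasurableSet
  rw [show ((fun x : EE 3 => (MeasurableEquiv.piFinSuccAbove (fun _ : Fin 3 => ℝ) 2) (WithLp.ofLp x)) ⁻¹' S)
    = ((⇑(MeasurableEquiv.piFinSuccAbove (fun _ : Fin 3 => ℝ) 2) ∘ (WithLp.ofLp : EE 3 → (Fin 3 → ℝ))) ⁻¹' S) from rfl]
  rw [h2, hS, Measure.volume_eq_prod, Measure.prod_prod, volume_disc r h0, Real.volume_Ico]
  norm_num

theorem periodicVolume_periodicTube {r : ℝ} (h0 : 0 ≤ r) (hr : r ≤ 1 / 2) :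
    periodicVolume (periodicTube r) = Real.pi * r ^ 2 := by
  rw [periodicVolume_eq_cell (isCell_cellAt ctr) (isOpen_periodicTube r).measurableSet
    (periodic_periodicTube r), periodicTube_inter_cell h0 hr, volume_solidTube r h0,
    ENNReal.toReal_ofReal (by positivity)]

theorem periodicTube_compl_nonempty {r : ℝ} (h0 : 0 ≤ r) (hr : r ≤ 1 / 2) :
    ((periodicTube r)ᶜ).Nonempty := by
  refine ⟨ctr, ?_⟩
  rintro ⟨a, b, h⟩
  obtain ⟨h1, h2⟩ := abs_lt_of_sq_add_sq h0 h
  have hm0 := int_eq_zero_of_cell (t := ctr 0) hr (by simp) (by norm_num [ctr_apply]) h1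
  rw [hm0] at h1
  simp only [ctr_apply, Int.cast_zero, sub_zero, abs_neg] at h1
  rw [abs_of_pos (by norm_num)] at h1
  linarith

/-- planar triangle inequality -/
theorem planar_tri {a b c d r ε : ℝ} (hε : 0 ≤ ε) (hr : 0 ≤ r) (h1 : a ^ 2 + b ^ 2 < r ^ 2)
    (h2 : c ^ 2 + d ^ 2 ≤ ε ^ 2) : (a + c) ^ 2 + (b + d) ^ 2 < (r + ε) ^ 2 := by
  have h3 : (a * c + b * d) ^ 2 ≤ (a ^ 2 + b ^ 2) * (c ^ 2 + d ^ 2) := by
    nlinarith [sq_nonneg (a * d - b * c)]
  have h4 : (a ^ 2 + b ^ 2) * (c ^ 2 + d ^ 2) ≤ (r * ε) ^ 2 := by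
    rw [mul_pow]
    exact mul_le_mul h1.le h2 (by positivity) (by positivity)
  have h5 : a * c + b * d ≤ r * ε := by
    refine abs_le_of_sq_le_sq' (h3.trans h4) (by positivity) |>.2
  nlinarith

theorem periodicPerimeter_periodicTube_le {r : ℝ} (h0 : 0 < r) (hr : r ≤ 1 / 2) :
    periodicPerimeter (periodicTube r) ≤ ENNReal.ofReal (2 * Real.pi * r) := by
  refine periodicPerimeter_le_of_shell (periodic_periodicTube r) (isOpen_periodicTube r)
    (periodicTube_compl_nonempty h0.le hr) (fun k => periodicTube (r - shellEps r k)) (shellEps r)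
    (shellEps_pos h0) (tendsto_shellEps r) ?_ ?_
  · refine Eventually.of_forall fun k => ⟨(isOpen_periodicTube _).measurableSet, ?_, ?_⟩
    · rintro x ⟨a, b, hx⟩
      refine ⟨a, b, hx.trans ?_⟩
      have := shellEps_pos h0 k
      have := shellEps_lt h0 k
      nlinarith
    · rintro x ⟨a, b, hx⟩ y hy
      refine ⟨a, b, ?_⟩
      have hl := shellEps_lt h0 k
      have hp := shellEps_pos h0 k
      have h2 : (y 0 - x 0) ^ 2 + (y 1 - x 1) ^ 2 ≤ (shellEps r k) ^ 2 := by
        have h3 : dist y x ^ 2 ≤ (shellEps r k) ^ 2 := by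
          have := (mem_ball.1 hy).le
          have := dist_nonneg (x := y) (y := x)
          gcongr
        rw [EuclideanSpace.dist_eq, Real.sq_sqrt (by positivity), Fin.sum_univ_three] at h3
        simp only [Real.dist_eq, sq_abs] at h3
        nlinarith [sq_nonneg (y 2 - x 2)]
      have h4 := planar_tri hp.le (by linarith : 0 ≤ r - shellEps r k) hx h2
      convert h4 using 1 <;> ring
  · have h1 : ∀ k, (periodicVolume (periodicTube r) - periodicVolume (periodicTube (r - shellEps r k)))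
        / shellEps r k = Real.pi * (2 * r - shellEps r k) := by
      intro k
      have hp := shellEps_pos h0 k
      have hl := shellEps_lt h0 k
      rw [periodicVolume_periodicTube h0.le hr, periodicVolume_periodicTube (by linarith) (by linarith)]
      field_simp
      ring
    simp_rw [h1]
    have h2 := tendsto_shellEps r
    have h3 : Tendsto (fun k => Real.pi * (2 * r - shellEps r k))
        atTop (𝓝 (Real.pi * (2 * r - 0))) :=
      ((tendsto_const_nhds.sub h2).const_mul _)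
    convert h3 using 2
    ring

/-! ### slab -/

/-- open periodic slab pieces. -/
def slabPiece (α β : ℝ) : Set (EE 3) := {x | ∃ a : ℤ, (a : ℝ) + α < x 0 ∧ x 0 < a + β}

theorem isOpen_slabPiece (α β : ℝ) : IsOpen (slabPiece α β) := by
  have : slabPiece α β = ⋃ a : ℤ, {x : EE 3 | (a : ℝ) + α < x 0} ∩ {x : EE 3 | x 0 < a + β} := by
    ext x
    simp [slabPiece]
  rw [this]
  refine isOpen_iUnion fun a => ?_
  exact (isOpen_lt continuous_const (by fun_prop)).inter (isOpen_lt (by fun_prop) continuous_const)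

theorem periodic_slabPiece (α β : ℝ) : IsLatticePeriodic (slabPiece α β) := by
  intro v hv x
  obtain ⟨m, hm⟩ := hv 0
  constructor
  · rintro ⟨a, h1, h2⟩
    refine ⟨a - m, ?_⟩
    simp only [PiLp.add_apply, hm] at h1 h2
    push_cast
    constructor <;> linarith
  · rintro ⟨a, h1, h2⟩
    refine ⟨a + m, ?_⟩
    simp only [PiLp.add_apply, hm]
    push_cast
    constructor <;> linarith

theorem volume_box (I : Fin 3 → Set ℝ) (hI : ∀ i, MeasurableSet (I i)) :
    volume {x : EE 3 | ∀ i, x i ∈ I i} = ∏ i, volume (I i) := by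
  have h : {x : EE 3 | ∀ i, x i ∈ I i} = (WithLp.ofLp : EE 3 → (Fin 3 → ℝ)) ⁻¹' (Set.pi univ I) := by
    ext x; simp
  rw [h, (PiLp.volume_preserving_ofLp (Fin 3)).measure_preimage
    (MeasurableSet.univ_pi hI).nullMeasurableSet, volume_pi, Measure.pi_pi]

theorem periodicVolume_slabPiece {α β : ℝ} (h0 : 0 ≤ α) (h1 : α ≤ β) (h2 : β ≤ 1) :
    periodicVolume (slabPiece α β) = β - α := by
  have h : slabPiece α β ∩ unitCell 3 =
      {x : EE 3 | ∀ i, x i ∈ (![Ioo α β, Ico 0 1, Ico 0 1] : Fin 3 → Set ℝ) i} := by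
    ext x
    simp only [mem_inter_iff, slabPiece, unitCell, mem_ofPred_eq, Fin.forall_fin_succ,
      Fin.succ_zero_eq_one, Fin.succ_one_eq_two, IsEmpty.forall_iff, and_true,
      Matrix.cons_val_zero, Matrix.cons_val_one, Matrix.cons_val, mem_Ioo, mem_Ico]
    constructor
    · rintro ⟨⟨a, ha1, ha2⟩, ⟨hx1, hx2⟩, hx3, hx4⟩
      have h3 : (a : ℝ) < 1 := by linarith
      have h4 : (-1 : ℝ) < a := by linarith
      have h5 : a < 1 := by exact_mod_cast h3
      have h6 : -1 < a := by exact_mod_cast h4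
      have ha : a = 0 := by omega
      rw [ha] at ha1 ha2
      simp only [Int.cast_zero, zero_add] at ha1 ha2
      exact ⟨⟨ha1, ha2⟩, hx3, hx4⟩
    · rintro ⟨⟨ha1, ha2⟩, hx3, hx4⟩
      exact ⟨⟨0, by simpa using ha1, by simpa using ha2⟩, ⟨by linarith, by linarith⟩, hx3, hx4⟩
  unfold periodicVolume
  rw [h, volume_box]
  · simp only [Fin.prod_univ_three, Matrix.cons_val_zero, Matrix.cons_val_one, Matrix.cons_val]
    rw [Real.volume_Ioo, Real.volume_Ico]
    norm_num
    linarith
  · intro i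
    fin_cases i
    · exact measurableSet_Ioo
    · exact measurableSet_Ico
    · exact measurableSet_Ico

theorem volume_coord_int (i : Fin 3) : volume {x : EE 3 | ∃ a : ℤ, x i = a} = 0 := by
  have h : {x : EE 3 | ∃ a : ℤ, x i = a} =
      (WithLp.ofLp : EE 3 → (Fin 3 → ℝ)) ⁻¹' (⋃ a : ℤ, {f : Fin 3 → ℝ | f i = a}) := by
    ext x; simp
  rw [h, (PiLp.volume_preserving_ofLp (Fin 3)).measure_preimage]
  · rw [measure_iUnion_null_iff]
    intro a
    rw [volume_pi]
    exact Measure.pi_hyperplane (fun _ : Fin 3 => (volume : Measure ℝ)) i (a : ℝ)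
  · refine (MeasurableSet.iUnion fun a => ?_).nullMeasurableSet
    exact measurableSet_eq_fun (by fun_prop) measurable_const

theorem measurableSet_periodicSlab (w : ℝ) : MeasurableSet (periodicSlab w) := by
  have : periodicSlab w = ⋃ a : ℤ, {x : EE 3 | (a : ℝ) ≤ x 0} ∩ {x : EE 3 | x 0 < a + w} := by
    ext x
    simp [periodicSlab]
  rw [this]
  refine MeasurableSet.iUnion fun a => ?_
  exact (measurableSet_le measurable_const (measurable_coord 0)).inter
    (measurableSet_lt (measurable_coord 0) measurable_const)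

theorem periodic_periodicSlab (w : ℝ) : IsLatticePeriodic (periodicSlab w) := by
  intro v hv x
  obtain ⟨m, hm⟩ := hv 0
  constructor
  · rintro ⟨a, h1, h2⟩
    refine ⟨a - m, ?_⟩
    simp only [PiLp.add_apply, hm] at h1 h2
    push_cast
    constructor <;> linarith
  · rintro ⟨a, h1, h2⟩
    refine ⟨a + m, ?_⟩
    simp only [PiLp.add_apply, hm]
    push_cast
    constructor <;> linarith

theorem periodicSlab_ae_eq (w : ℝ) :
    periodicSlab w =ᵐ[(volume : Measure (EE 3))] slabPiece 0 w := by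
  rw [← measure_symmDiff_eq_zero_iff]
  refine measure_mono_null ?_ (volume_coord_int 0)
  rintro x (⟨⟨a, h1, h2⟩, hx⟩ | ⟨⟨a, h1, h2⟩, hx⟩)
  · refine ⟨a, ?_⟩
    by_contra hne
    exact hx ⟨a, by rw [add_zero]; exact lt_of_le_of_ne h1 (Ne.symm hne), h2⟩
  · exact absurd ⟨a, by linarith, h2⟩ hx

theorem periodicVolume_periodicSlab {w : ℝ} (h0 : 0 ≤ w) (h1 : w ≤ 1) :
    periodicVolume (periodicSlab w) = w := by
  rw [periodicVolume_congr (periodicSlab_ae_eq w), periodicVolume_slabPiece le_rfl h0 h1, sub_zero]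

theorem slabPiece_compl_nonempty {w : ℝ} (h1 : w ≤ 1) : ((slabPiece 0 w)ᶜ).Nonempty := by
  refine ⟨0, ?_⟩
  rintro ⟨a, ha1, ha2⟩
  simp only [PiLp.zero_apply] at ha1 ha2
  have h3 : (a : ℝ) < 0 := by linarith
  have h4 : (-1 : ℝ) < a := by linarith
  have h5 : a < 0 := by exact_mod_cast h3
  have h6 : -1 < a := by exact_mod_cast h4
  omega

theorem periodicPerimeter_slabPiece_le {w : ℝ} (h0 : 0 < w) (h1 : w ≤ 1) :
    periodicPerimeter (slabPiece 0 w) ≤ ENNReal.ofReal 2 := by
  refine periodicPerimeter_le_of_shell (periodic_slabPiece 0 w) (isOpen_slabPiece 0 w)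
    (slabPiece_compl_nonempty h1) (fun k => slabPiece (shellEps (w/2) k) (w - shellEps (w/2) k))
    (shellEps (w/2)) (shellEps_pos (by linarith)) (tendsto_shellEps _) ?_ ?_
  · refine Eventually.of_forall fun k => ⟨(isOpen_slabPiece _ _).measurableSet, ?_, ?_⟩
    · rintro x ⟨a, h1, h2⟩
      have := shellEps_pos (r := w / 2) (by linarith) k
      exact ⟨a, by linarith, by linarith⟩
    · rintro x ⟨a, h1, h2⟩ y hy
      have h3 : |y 0 - x 0| < shellEps (w/2) k := by
        refine lt_of_le_of_lt ?_ (mem_ball.1 hy)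
        rw [dist_eq_norm, ← Real.norm_eq_abs]
        exact PiLp.norm_apply_le (y - x) 0
      rw [abs_lt] at h3
      exact ⟨a, by linarith, by linarith⟩
  · have h2 : ∀ k, (periodicVolume (slabPiece 0 w) -
        periodicVolume (slabPiece (shellEps (w/2) k) (w - shellEps (w/2) k))) / shellEps (w/2) k = 2 := by
      intro k
      have hp := shellEps_pos (r := w / 2) (by linarith) k
      have hl := shellEps_lt (r := w / 2) (by linarith) k
      rw [periodicVolume_slabPiece le_rfl h0.le h1, periodicVolume_slabPiece hp.le (by linarith) (by linarith)]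
      field_simp
      ring
    simp_rw [h2]
    exact tendsto_const_nhds

theorem periodicPerimeter_periodicSlab_le {w : ℝ} (h0 : 0 < w) (h1 : w ≤ 1) :
    periodicPerimeter (periodicSlab w) ≤ ENNReal.ofReal 2 := by
  rw [periodicPerimeter_congr (periodicSlab_ae_eq w)]
  exact periodicPerimeter_slabPiece_le h0 h1

end Crest.Agent.R214.Inv
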