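import Crest.Agent.R214.InvPer

/-!
R214: upper bound of the perimeter of an open periodic set by the inner Minkowski content.
-/

set_option autoImplicit false

open MeasureTheory Set Filter Topology Metric
open Crest.GeometryTopology.PeriodicPerimeter

noncomputable section

namespace Crest.Agent.R214.Inv

variable {n : ℕ}

/-- cut-off function at inner distance `ε`. -/
def cutoff (E : Set (EE n)) (ε : ℝ) (x : EE n) : ℝ := min 1 (infDist x Eᶜ / ε)

theorem infDist_compl_periodic {E : Set (EE n)} (hper : IsLatticePeriodic E) :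
    PeriodicFun (fun x => infDist x Eᶜ) := by
  have key : ∀ v, HasIntegerCoords v → ∀ x, infDist (x + v) Eᶜ ≤ infDist x Eᶜ := by
    intro v hv x
    by_cases hne : (Eᶜ).Nonempty
    · refine le_of_forall_pos_lt_add fun δ hδ => ?_
      obtain ⟨y, hy, hxy⟩ := (infDist_lt_iff hne).1 (lt_add_of_pos_right (infDist x Eᶜ) hδ)
      have hy' : y + v ∈ Eᶜ := fun h => hy ((hper v hv y).1 h)
      refine lt_of_le_of_lt (infDist_le_dist_of_mem hy') ?_
      rwa [dist_add_right]
    · rw [not_nonempty_iff_eq_empty] at hne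
      simp [hne]
  intro v hv x
  refine le_antisymm (key v hv x) ?_
  have := key (-v) (hic_neg hv) (x + v)
  simpa using this

theorem cutoff_periodic {E : Set (EE n)} (hper : IsLatticePeriodic E) (ε : ℝ) :
    PeriodicFun (cutoff E ε) := by
  intro v hv x
  have := infDist_compl_periodic hper v hv x
  simp only [cutoff, this]

theorem cutoff_lipschitz (E : Set (EE n)) {ε : ℝ} (hε : 0 < ε) :
    LipschitzWith (Real.toNNReal (1 / ε)) (cutoff E ε) := by
  have h1 : LipschitzWith (Real.toNNReal (1 / ε)) (fun x : EE n => infDist x Eᶜ / ε) := by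
    refine LipschitzWith.of_dist_le_mul fun x y => ?_
    have h := (lipschitz_infDist_pt (Eᶜ)).dist_le_mul x y
    rw [Real.dist_eq, Real.coe_toNNReal _ (by positivity), ← sub_div, abs_div, abs_of_pos hε]
    rw [Real.dist_eq] at h
    simp only [NNReal.coe_one, one_mul] at h
    rw [one_div, inv_mul_eq_div]
    gcongr
  exact (h1.const_min 1)

theorem cutoff_nonneg (E : Set (EE n)) {ε : ℝ} (hε : 0 < ε) (x : EE n) : 0 ≤ cutoff E ε x :=
  le_min zero_le_one (div_nonneg infDist_nonneg hε.le)

theorem cutoff_le_one (E : Set (EE n)) (ε : ℝ) (x : EE n) : cutoff E ε x ≤ 1 := min_le_left _ _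

theorem cutoff_eq_zero {E : Set (EE n)} {ε : ℝ} {x : EE n} (hx : x ∉ E) : cutoff E ε x = 0 := by
  have : infDist x Eᶜ = 0 := infDist_zero_of_mem hx
  simp [cutoff, this]

theorem cutoff_eq_one {E : Set (EE n)} {ε : ℝ} (hε : 0 < ε) {x : EE n} (hx : ε ≤ infDist x Eᶜ) :
    cutoff E ε x = 1 := by
  unfold cutoff
  rw [min_eq_left]
  rwa [le_div_iff₀ hε, one_mul]

theorem cutoff_fderiv_of_notMem {E : Set (EE n)} {ε : ℝ} (hε : 0 < ε) {x : EE n} (hx : x ∉ E) :
    fderiv ℝ (cutoff E ε) x = 0 := by
  refine IsLocalMin.fderiv_eq_zero (Eventually.of_forall fun y => ?_)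
  rw [cutoff_eq_zero hx]
  exact cutoff_nonneg E hε y

theorem cutoff_fderiv_of_le {E : Set (EE n)} {ε : ℝ} (hε : 0 < ε) {x : EE n}
    (hx : ε ≤ infDist x Eᶜ) : fderiv ℝ (cutoff E ε) x = 0 := by
  refine IsLocalMax.fderiv_eq_zero (Eventually.of_forall fun y => ?_)
  rw [cutoff_eq_one hε hx]
  exact cutoff_le_one E ε y

theorem cutoff_fderiv_norm_le (E : Set (EE n)) {ε : ℝ} (hε : 0 < ε) (x : EE n) :
    ‖fderiv ℝ (cutoff E ε) x‖ ≤ 1 / ε := by
  have := norm_fderiv_le_of_lipschitz ℝ (cutoff_lipschitz E hε) (x₀ := x)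
  rwa [Real.coe_toNNReal _ (by positivity)] at this

theorem le_infDist_compl_of_ball {E : Set (EE n)} (hne : (Eᶜ).Nonempty) {ε : ℝ} {x : EE n}
    (h : ball x ε ⊆ E) : ε ≤ infDist x Eᶜ := by
  rw [le_infDist hne]
  intro y hy
  by_contra hlt
  push Not at hlt
  exact hy (h (by rwa [mem_ball, dist_comm]))

/-- Shell estimate for one admissible field. -/
theorem integral_cutoff_le {E F : Set (EE n)} (hper : IsLatticePeriodic E)
    (hE : MeasurableSet E) (hF : MeasurableSet F) (hFE : F ⊆ E) {ε : ℝ} (hε : 0 < ε)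
    (hball : ∀ x ∈ F, ε ≤ infDist x Eᶜ)
    {φ : EE n → EE n} (hφ : IsAdmissibleField φ) :
    ∫ x in unitCell n, cutoff E ε x * divergence φ x ≤
      (periodicVolume E - periodicVolume F) / ε := by
  have h1 := integral_cell_mul_divergence (cutoff_periodic hper ε) (cutoff_lipschitz E hε)
    hφ.1 hφ.2.1
  rw [h1, ← integral_neg]
  have hEF : MeasurableSet (E \ F) := hE.diff hF
  have hvol : volume.real (unitCell n ∩ (E \ F)) = periodicVolume E - periodicVolume F := by
    have h2 : unitCell n ∩ (E \ F) = (E ∩ unitCell n) \ (F ∩ unitCell n) := by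
      ext x
      simp only [mem_inter_iff, Set.mem_sdiff]
      tauto
    rw [h2, measureReal_sdiff (inter_subset_inter_left _ hFE) (hF.inter (measurableSet_unitCell n))
      (volume_inter_unitCell_lt_top E).ne]
    rfl
  have hm : Measurable (fun x => -(fderiv ℝ (cutoff E ε) x) (φ x)) := by
    have : Measurable fun x => (fderiv ℝ (cutoff E ε) x) (φ x) := by
      have h1 : Measurable fun x => (fderiv ℝ (cutoff E ε) x, φ x) :=
        (measurable_fderiv ℝ (cutoff E ε)).prodMk hφ.1.continuous.measurable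
      have h2 : Continuous fun p : (EE n →L[ℝ] ℝ) × EE n => p.1 p.2 := by fun_prop
      exact h2.measurable.comp h1
    exact this.neg
  have hpt : ∀ x, ‖-(fderiv ℝ (cutoff E ε) x) (φ x)‖ ≤ (E \ F).indicator (fun _ => 1 / ε) x := by
    intro x
    rw [norm_neg]
    by_cases hx : x ∈ E \ F
    · rw [indicator_of_mem hx]
      calc ‖(fderiv ℝ (cutoff E ε) x) (φ x)‖ ≤ ‖fderiv ℝ (cutoff E ε) x‖ * ‖φ x‖ :=
            ContinuousLinearMap.le_opNorm _ _
        _ ≤ (1 / ε) * 1 := by
            refine mul_le_mul (cutoff_fderiv_norm_le E hε x) (hφ.2.2 x) (norm_nonneg _) (by positivity)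
        _ = 1 / ε := mul_one _
    · rw [indicator_of_notMem hx]
      have : fderiv ℝ (cutoff E ε) x = 0 := by
        by_cases hxE : x ∈ E
        · have hxF : x ∈ F := by
            by_contra h; exact hx ⟨hxE, h⟩
          exact cutoff_fderiv_of_le hε (hball x hxF)
        · exact cutoff_fderiv_of_notMem hε hxE
      rw [this]; simp
  have hI2 : IntegrableOn ((E \ F).indicator (fun _ => 1 / ε)) (unitCell n) :=
    (integrable_const _).indicator hEF
  have hI1 : IntegrableOn (fun x => -(fderiv ℝ (cutoff E ε) x) (φ x)) (unitCell n) :=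
    Integrable.mono' hI2 hm.aestronglyMeasurable (ae_of_all _ hpt)
  calc ∫ x in unitCell n, -(fderiv ℝ (cutoff E ε) x) (φ x)
      ≤ ∫ x in unitCell n, (E \ F).indicator (fun _ => 1 / ε) x := by
        refine integral_mono hI1 hI2 fun x => ?_
        exact (le_abs_self _).trans (hpt x)
    _ = (periodicVolume E - periodicVolume F) / ε := by
        rw [setIntegral_indicator hEF, setIntegral_const, hvol, smul_eq_mul]
        ring

/-- Inner Minkowski content bound. -/
theorem periodicPerimeter_le_of_shell {E : Set (EE n)} (hper : IsLatticePeriodic E)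
    (hE : IsOpen E) (hne : (Eᶜ).Nonempty) (F : ℕ → Set (EE n)) (ε : ℕ → ℝ)
    (hε : ∀ k, 0 < ε k) (hε0 : Tendsto ε atTop (𝓝 0))
    (hF : ∀ᶠ k in atTop, MeasurableSet (F k) ∧ F k ⊆ E ∧ ∀ x ∈ F k, ball x (ε k) ⊆ E)
    {c : ℝ} (hc : Tendsto (fun k => (periodicVolume E - periodicVolume (F k)) / ε k) atTop (𝓝 c)) :
    periodicPerimeter E ≤ ENNReal.ofReal c := by
  unfold periodicPerimeter
  refine iSup_le fun φ => ENNReal.ofReal_le_ofReal ?_
  have hφ := φ.2
  have hlim : Tendsto (fun k => ∫ x in unitCell n, cutoff E (ε k) x * divergence φ.1 x) atTop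
      (𝓝 (∫ x in E ∩ unitCell n, divergence φ.1 x)) := by
    have e1 : ∫ x in E ∩ unitCell n, divergence φ.1 x
        = ∫ x in unitCell n, E.indicator (fun y => divergence φ.1 y) x := by
      rw [setIntegral_indicator hE.measurableSet, inter_comm]
    rw [e1]
    have hp : PeriodicFun (divergence φ.1) := PeriodicFun.divergence hφ.2.1
    obtain ⟨B, hB0, hB⟩ := hp.bounded (continuous_divergence hφ.1)
    refine tendsto_integral_of_dominated_convergence (fun _ => B) ?_ (integrable_const _) ?_ ?_
    · intro k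
      exact ((cutoff_lipschitz E (hε k)).continuous.mul
        (continuous_divergence hφ.1)).aestronglyMeasurable
    · intro k
      refine ae_of_all _ fun x => ?_
      rw [norm_mul]
      calc ‖cutoff E (ε k) x‖ * ‖divergence φ.1 x‖ ≤ 1 * B := by
            refine mul_le_mul ?_ (hB x) (norm_nonneg _) zero_le_one
            rw [Real.norm_of_nonneg (cutoff_nonneg E (hε k) x)]
            exact cutoff_le_one E _ x
        _ = B := one_mul _
    · refine ae_of_all _ fun x => ?_
      by_cases hx : x ∈ E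
      · rw [indicator_of_mem hx]
        have hpos : 0 < infDist x Eᶜ := by
          refine (infDist_pos_iff_notMem_closure hne).1 ?_
          rw [hE.isClosed_compl.closure_eq]
          simpa using hx
        have hev : ∀ᶠ k in atTop, ε k < infDist x Eᶜ := hε0.eventually_lt_const hpos
        refine tendsto_const_nhds.congr' ?_
        filter_upwards [hev] with k hk
        rw [cutoff_eq_one (hε k) hk.le, one_mul]
      · rw [indicator_of_notMem hx]
        refine tendsto_const_nhds.congr fun k => ?_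
        rw [cutoff_eq_zero hx, zero_mul]
  refine le_of_tendsto_of_tendsto hlim hc ?_
  filter_upwards [hF] with k hk
  exact integral_cutoff_le hper hE.measurableSet hk.1 hk.2.1 (hε k)
    (fun x hx => le_infDist_compl_of_ball hne (hk.2.2 x hx)) hφ

end Crest.Agent.R214.Inv
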