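import Crest.Agent.R214.Defs2
import Crest.Agent.R214.Inv
import Crest.Agent.R214.Model
import Crest.Agent.R214.ArcBase

/-!
# ModelsPer: upper bounds for the perimeters of the model regions (task H2)

`PB c ρ`, `TB j c r` are reduced by cubic isometries to `periodicBall`, `periodicTube`, whose bounds are
in `Model.lean`; the slab in dimension `n` uses the shell bound `periodicPerimeter_le_of_shell`.
Also: set identities, measurability, periodicity and the slab volume (all dimensions).
-/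

set_option autoImplicit false
open MeasureTheory Crest.GeometryTopology.PeriodicPerimeter Filter
open scoped ENNReal NNReal Topology
noncomputable section
namespace Crest.Agent.R214

namespace MP



/-- the corner of the centred cell -/
def ctrn (n : ℕ) : Eu n := WithLp.toLp 2 fun _ => (-(1/2) : ℝ)

theorem mem_cell {n : ℕ} {x : Eu n} :
    x ∈ Inv.cellAt (ctrn n) ↔ ∀ i, -(1/2) ≤ x i ∧ x i < 1/2 := by
  simp only [Inv.cellAt, Set.mem_ofPred_eq, ctrn]
  refine forall_congr' fun i => ?_
  constructor <;> rintro ⟨h1, h2⟩ <;> constructor <;> linarith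

theorem vol_eq {n : ℕ} {E : Set (Eu n)} (hE : MeasurableSet E) (hp : IsLatticePeriodic E) :
    periodicVolume E = (volume (E ∩ Inv.cellAt (ctrn n))).toReal := by
  unfold periodicVolume
  rw [(Inv.isCell_cellAt (ctrn n)).measure_inter_eq (Inv.isCell_unitCell n) hE hp]

theorem volume_box {n : ℕ} (I : Fin n → Set ℝ) (hI : ∀ i, MeasurableSet (I i)) :
    volume {x : Eu n | ∀ i, x i ∈ I i} = ∏ i, volume (I i) := by
  have h : {x : Eu n | ∀ i, x i ∈ I i} =
      (WithLp.ofLp : Eu n → (Fin n → ℝ)) ⁻¹' (Set.pi Set.univ I) := by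
    ext x; simp
  rw [h, (PiLp.volume_preserving_ofLp (Fin n)).measure_preimage
    (MeasurableSet.univ_pi hI).nullMeasurableSet, volume_pi, Measure.pi_pi]

/-! ### slabs -/

theorem isOpen_SL {n : ℕ} (i : Fin n) (a w : ℝ) : IsOpen (SL i a w : Set (Eu n)) := by
  unfold SL
  exact isOpen_lt (ArcB.continuous_dZ.comp (by fun_prop)) continuous_const

theorem periodic_SL {n : ℕ} (i : Fin n) (a w : ℝ) :
    IsLatticePeriodic (SL i a w : Set (Eu n)) := by
  intro v hv x
  obtain ⟨m, hm⟩ := hv i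
  simp only [SL, Set.mem_ofPred_eq, PiLp.add_apply, hm]
  rw [show x i + m - a = (x i - a) + m by ring, ArcB.dZ_add_int]

theorem SL_eq_tr {n : ℕ} (i : Fin n) (a w : ℝ) :
    (SL i a w : Set (Eu n)) = tr (EuclideanSpace.single i a) (SL i 0 w) := by
  ext x
  simp [SL, tr]

theorem vol_SL0 {n : ℕ} (i : Fin n) (w : ℝ) (h0 : 0 ≤ w) (h1 : w ≤ 1) :
    periodicVolume (SL i 0 w : Set (Eu n)) = w := by
  rw [vol_eq (isOpen_SL i 0 w).measurableSet (periodic_SL i 0 w)]
  have h : (SL i 0 w : Set (Eu n)) ∩ Inv.cellAt (ctrn n) =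
      {x : Eu n | ∀ j, x j ∈
        (if j = i then Set.Ioo (-(w/2)) (w/2) else Set.Ico (-(1/2)) (1/2) : Set ℝ)} := by
    ext x
    simp only [Set.mem_inter_iff, mem_cell, SL, Set.mem_ofPred_eq, sub_zero]
    constructor
    · rintro ⟨h2, h3⟩ j
      by_cases hj : j = i
      · subst hj
        rw [if_pos rfl]
        have h4 := h3 j
        rw [ArcB.dZ_of_abs_le _ (abs_le.2 ⟨h4.1, h4.2.le⟩), abs_lt] at h2
        exact h2
      · rw [if_neg hj]; exact h3 j
    · intro h2
      have h3 := h2 i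
      rw [if_pos rfl] at h3
      constructor
      · rw [ArcB.dZ_of_abs_le _ (abs_le.2 ⟨by linarith [h3.1], by linarith [h3.2]⟩), abs_lt]
        exact h3
      · intro j
        by_cases hj : j = i
        · subst hj
          exact ⟨by linarith [h3.1], by linarith [h3.2]⟩
        · have := h2 j
          rw [if_neg hj] at this; exact this
  rw [h, volume_box]
  · rw [Finset.prod_eq_single i]
    · rw [if_pos rfl, Real.volume_Ioo, ENNReal.toReal_ofReal (by linarith)]
      ring
    · intro j _ hj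
      rw [if_neg hj, Real.volume_Ico]
      norm_num
    · intro hi; exact absurd (Finset.mem_univ i) hi
  · intro j
    split_ifs
    · exact measurableSet_Ioo
    · exact measurableSet_Ico

theorem vol_SL {n : ℕ} (i : Fin n) (a w : ℝ) (h0 : 0 ≤ w) (h1 : w ≤ 1) :
    periodicVolume (SL i a w : Set (Eu n)) = w := by
  rw [SL_eq_tr, vol_tr _ _ (isOpen_SL i 0 w).measurableSet (periodic_SL i 0 w), vol_SL0 i w h0 h1]

theorem SL_mono {n : ℕ} (i : Fin n) (a : ℝ) {w w' : ℝ} (h : w ≤ w') :
    (SL i a w : Set (Eu n)) ⊆ SL i a w' := by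
  intro x hx
  simp only [SL, Set.mem_ofPred_eq] at hx ⊢
  linarith

/-! ### balls and tubes -/

theorem PB_zero_eq (ρ : ℝ) (h0 : 0 < ρ) : PB (0 : Eu 3) ρ = periodicBall ρ := by
  ext x
  simp only [PB, periodicBall, Set.mem_ofPred_eq, PiLp.zero_apply, sub_zero]
  constructor
  · intro h
    refine ⟨WithLp.toLp 2 fun i => (round (x i) : ℝ), fun i => ⟨round (x i), rfl⟩, ?_⟩
    rw [EuclideanSpace.dist_eq, Real.sqrt_lt' h0]
    exact lt_of_eq_of_lt (Finset.sum_congr rfl fun i _ => by rw [Real.dist_eq]; rfl) h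
  · rintro ⟨v, hv, h⟩
    rw [EuclideanSpace.dist_eq, Real.sqrt_lt' h0] at h
    refine lt_of_le_of_lt (Finset.sum_le_sum fun i _ => ?_) h
    obtain ⟨m, hm⟩ := hv i
    rw [Real.dist_eq, hm]
    exact pow_le_pow_left₀ (ArcB.dZ_nonneg _) (ArcB.dZ_le_abs_sub _ m) 2

theorem PB_eq_tr {n : ℕ} (c : Eu n) (ρ : ℝ) : PB c ρ = tr c (PB 0 ρ) := by
  ext x
  simp [PB, tr]

theorem TB_two_zero_eq (r : ℝ) : TB 2 0 r = periodicTube r := by
  ext x
  have h : ∑ i ∈ Finset.univ.erase (2 : Fin 3), dZ (x i - (0 : Eu 3) i) ^ 2 =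
      dZ (x 0) ^ 2 + dZ (x 1) ^ 2 := by
    have : (Finset.univ.erase (2 : Fin 3)) = {0, 1} := by decide
    rw [this, Finset.sum_pair (by decide)]; simp
  simp only [TB, periodicTube, Set.mem_ofPred_eq, h]
  constructor
  · intro h1
    refine ⟨round (x 0), round (x 1), ?_⟩
    unfold dZ at h1
    rwa [sq_abs, sq_abs] at h1
  · rintro ⟨a, b, h1⟩
    refine lt_of_le_of_lt ?_ h1
    rw [← sq_abs (x 0 - a), ← sq_abs (x 1 - b)]
    exact add_le_add (pow_le_pow_left₀ (ArcB.dZ_nonneg _) (ArcB.dZ_le_abs_sub _ a) 2)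
      (pow_le_pow_left₀ (ArcB.dZ_nonneg _) (ArcB.dZ_le_abs_sub _ b) 2)

/-- the cubic isometry moving `TB j c r` to the standard position -/
def gT (j : Fin 3) (c : Eu 3) (x : Eu 3) : Eu 3 :=
  WithLp.toLp 2 (fun i => x (Equiv.swap 2 j i) - c (Equiv.swap 2 j i))

theorem gT_cubic (j : Fin 3) (c : Eu 3) : IsCubicIsometry (gT j c) :=
  ⟨Equiv.swap 2 j, fun _ => 1, WithLp.toLp 2 (fun i => -c (Equiv.swap 2 j i)),
    fun _ => Or.inl rfl, fun x i => by simp [gT, sub_eq_add_neg]⟩

theorem TB_eq (j : Fin 3) (c : Eu 3) (r : ℝ) : TB j c r = gT j c ⁻¹' TB 2 0 r := by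
  ext x
  simp only [TB, Set.mem_ofPred_eq, Set.mem_preimage]
  have : ∑ i ∈ Finset.univ.erase j, dZ (x i - c i) ^ 2 =
      ∑ i ∈ Finset.univ.erase (2 : Fin 3), dZ (gT j c x i - (0 : Eu 3) i) ^ 2 := by
    refine Finset.sum_equiv (Equiv.swap 2 j) ?_ ?_
    · intro i
      simp only [Finset.mem_erase, Finset.mem_univ, and_true, ne_eq]
      rw [Equiv.swap_apply_eq_iff, Equiv.swap_apply_left]
    · intro i _
      simp [gT]
  rw [this]

end MP

open MP

theorem per_PB3_le' (c : Eu 3) (ρ : ℝ) (h0 : 0 < ρ) (h1 : ρ < 1 / 2) :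
    periodicPerimeter (PB c ρ) ≤ ENNReal.ofReal (4 * Real.pi * ρ ^ 2) := by
  rw [PB_eq_tr, PB_zero_eq ρ h0, per_tr _ _ (Inv.isOpen_periodicBall ρ).measurableSet
    (Inv.periodic_periodicBall ρ)]
  exact Inv.periodicPerimeter_periodicBall_le h0 h1.le

theorem per_TB_le' (j : Fin 3) (c : Eu 3) (r : ℝ) (h0 : 0 < r) (h1 : r < 1 / 2) :
    periodicPerimeter (TB j c r) ≤ ENNReal.ofReal (2 * Real.pi * r) := by
  rw [TB_eq, TB_two_zero_eq, per_preimage _ (gT_cubic j c) _
    (Inv.isOpen_periodicTube r).measurableSet (Inv.periodic_periodicTube r)]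
  exact Inv.periodicPerimeter_periodicTube_le h0 h1.le

theorem per_SL_le' {n : ℕ} (i : Fin n) (a w : ℝ) (h0 : 0 ≤ w) (h1 : w ≤ 1) :
    periodicPerimeter (SL i a w : Set (Eu n)) ≤ 2 := by
  rcases h0.eq_or_lt with rfl | h0
  · have : (SL i a 0 : Set (Eu n)) = ∅ := by
      ext x
      simp only [SL, Set.mem_ofPred_eq, zero_div, Set.mem_empty_iff_false, iff_false, not_lt]
      exact ArcB.dZ_nonneg _
    rw [this]
    unfold periodicPerimeter
    simp
  · have hw : 0 < w / 2 := by linarith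
    have hne : ((SL i a w : Set (Eu n))ᶜ).Nonempty := by
      refine ⟨EuclideanSpace.single i (a + 1/2), ?_⟩
      simp only [SL, Set.mem_compl_iff, Set.mem_ofPred_eq, not_lt]
      have h2 : (EuclideanSpace.single i (a + 1/2) : Eu n) i - a = 1/2 := by
        simp
      rw [h2, ArcB.dZ_of_abs_le _ (by rw [abs_of_pos (by norm_num)])]
      rw [abs_of_pos (by norm_num)]
      linarith
    have h := Inv.periodicPerimeter_le_of_shell (MP.periodic_SL i a w) (MP.isOpen_SL i a w) hne
      (fun k => SL i a (w - 2 * Inv.shellEps (w/2) k)) (Inv.shellEps (w/2))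
      (Inv.shellEps_pos hw) (Inv.tendsto_shellEps _) (c := 2) ?_ ?_
    · simpa using h
    · refine Eventually.of_forall fun k => ⟨(MP.isOpen_SL _ _ _).measurableSet, ?_, ?_⟩
      · apply SL_mono
        have := Inv.shellEps_pos hw k
        linarith
      · intro x hx y hy
        simp only [SL, Set.mem_ofPred_eq] at hx ⊢
        have h3 : |y i - x i| < Inv.shellEps (w/2) k := by
          refine lt_of_le_of_lt ?_ (Metric.mem_ball.1 hy)
          rw [dist_eq_norm, ← Real.norm_eq_abs]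
          exact PiLp.norm_apply_le (y - x) i
        have h4 := ArcB.dZ_sub_le (y i - a) (x i - a)
        have h5 := le_abs_self (dZ (y i - a) - dZ (x i - a))
        rw [show y i - a - (x i - a) = y i - x i by ring] at h4
        linarith
    · have h2 : ∀ k, (periodicVolume (SL i a w : Set (Eu n)) -
          periodicVolume (SL i a (w - 2 * Inv.shellEps (w/2) k) : Set (Eu n))) /
            Inv.shellEps (w/2) k = 2 := by
        intro k
        have hp := Inv.shellEps_pos hw k
        have hl := Inv.shellEps_lt hw k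
        rw [MP.vol_SL i a w h0.le h1, MP.vol_SL i a _ (by linarith) (by linarith)]
        field_simp
        ring
      simp_rw [h2]
      exact tendsto_const_nhds

end Crest.Agent.R214
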