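import Crest.Agent.R214.MonoSub2

/-!
Row 214: monotone substitution with a time-dependent calibration in the first zone.
-/

set_option autoImplicit false

open MeasureTheory Filter Set Topology

namespace Crest.Agent.R214.MS

/-- for large `m`, `theta h m` is supported where `|ψ| ≤ 1` -/
theorem theta_supp {ψ : ℝ → ℝ} (hψ : Continuous ψ) (hψp : Function.Periodic ψ 1) {h : ℝ}
    (hψb : ∀ t, Real.cos (2 * Real.pi * h) ≤ Real.cos (2 * Real.pi * t) → |ψ t| < 1) :
    ∀ᶠ m in atTop, ∀ t, theta h m t = 0 ∨ |ψ t| ≤ 1 := by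
  set K : Set ℝ := Icc (0:ℝ) 1 ∩ {t | 1 ≤ |ψ t|} with hK
  have hKc : IsCompact K :=
    isCompact_Icc.inter_right (isClosed_le continuous_const hψ.abs)
  have hcos : Continuous fun t : ℝ => Real.cos (2 * Real.pi * t) := by fun_prop
  rcases K.eq_empty_or_nonempty with hem | hne
  · refine Eventually.of_forall fun m t => Or.inr ?_
    obtain ⟨y, hy, hty⟩ := hψp.exists_mem_Ico₀ one_pos t
    by_contra hcon
    have : y ∈ K := ⟨Ico_subset_Icc_self hy, by
      rw [mem_ofPred_eq, ← hty]; exact (not_le.1 hcon).le⟩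
    rw [hem] at this
    exact this
  · obtain ⟨t₀, ht₀, hmax⟩ := hKc.exists_isMaxOn hne hcos.continuousOn
    have h1 : Real.cos (2 * Real.pi * t₀) < Real.cos (2 * Real.pi * h) := by
      by_contra hcon
      have := hψb t₀ (not_lt.1 hcon)
      exact absurd ht₀.2 (not_le.2 this)
    have h2 : Tendsto (fun m : ℕ => (m : ℝ) *
        (Real.cos (2 * Real.pi * h) - Real.cos (2 * Real.pi * t₀))) atTop atTop :=
      tendsto_natCast_atTop_atTop.atTop_mul_const (by linarith)
    filter_upwards [h2.eventually_ge_atTop 1] with m hm t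
    by_cases hc : |ψ t| ≤ 1
    · exact Or.inr hc
    · left
      obtain ⟨y, hy, hty⟩ := hψp.exists_mem_Ico₀ one_pos t
      obtain ⟨z, hz, htz⟩ : ∃ z ∈ Ico (0:ℝ) 1, ∃ k : ℤ, t = z + k :=
        ⟨Int.fract t, ⟨Int.fract_nonneg t, Int.fract_lt_one t⟩, ⌊t⌋, by
          rw [Int.fract_add_floor]⟩
      obtain ⟨k, hk⟩ := htz
      have e1 : ψ t = ψ z := by
        rw [hk]
        have := hψp.int_mul k z
        simpa using this
      have e2 : theta h m t = theta h m z := by
        rw [hk]
        have := (theta_per h m).int_mul k z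
        simpa using this
      have hzK : z ∈ K := ⟨Ico_subset_Icc_self hz, by
        rw [mem_ofPred_eq, ← e1]; exact (not_le.1 hc).le⟩
      have h3 : Real.cos (2 * Real.pi * z) ≤ Real.cos (2 * Real.pi * t₀) := hmax hzK
      rw [e2]
      unfold theta
      apply Real.smoothTransition.zero_of_nonpos
      have hm0 : (0:ℝ) ≤ m := Nat.cast_nonneg _
      nlinarith

/-- sign of the second half period -/
noncomputable def sgh (t : ℝ) : ℝ := if t < 1 / 2 then 1 else -1

theorem measurable_sgh : Measurable sgh :=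
  Measurable.ite measurableSet_Iio measurable_const measurable_const

/-- **Monotone substitution**, second zone calibrated by a function of `t`. -/
theorem mono_sub_psi {s l : ℝ → ℝ} (hs : BP s) (hl : BP l) (hse : ∀ t, s (-t) = s t)
    {P : ℝ} (H : DualIneq s l P) {T₁ ψ : ℝ → ℝ} (hT₁ : Continuous T₁)
    (hT₁b : ∀ σ, |T₁ σ| ≤ 1) (hψ : ContDiff ℝ 1 ψ) (hψp : Function.Periodic ψ 1)
    (hψo : ∀ t, ψ (-t) = -ψ t) {h A B σ : ℝ} (hh0 : 0 < h) (hh1 : h < 1 / 2)
    (hψb : ∀ t, Real.cos (2 * Real.pi * h) ≤ Real.cos (2 * Real.pi * t) → |ψ t| < 1)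
    (hA : Tendsto s (𝓝[>] 0) (𝓝 A)) (hB : Tendsto s (𝓝[<] (1 / 2)) (𝓝 B))
    (hσ : Tendsto s (𝓝[>] h) (𝓝 σ)) :
    (∫ t in (0:ℝ)..1, Real.sqrt (1 - (if Real.cos (2 * Real.pi * h) ≤ Real.cos (2 * Real.pi * t)
        then ψ t else T₁ (s t)) ^ 2) * l t)
      + 2 * ((∫ t in (0:ℝ)..h, deriv ψ t * s t) - ψ h * σ + ∫ x in B..σ, T₁ x) ≤ P := by
  obtain ⟨C, hC⟩ := hl.bdd
  obtain ⟨D, hD⟩ := hs.bdd
  have hD0 : 0 ≤ D := (abs_nonneg _).trans (hD 0)
  set G₁ : ℝ → ℝ := fun x => ∫ y in (0:ℝ)..x, T₁ y with hG₁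
  have hG₁c : Continuous G₁ :=
    intervalIntegral.continuous_primitive (fun a b => hT₁.intervalIntegrable a b) 0
  have gb : ∀ (T : ℝ → ℝ), (∀ σ, |T σ| ≤ 1) → ∀ x, |∫ σ in (0:ℝ)..x, T σ| ≤ |x| := by
    intro T hT x
    have := intervalIntegral.norm_integral_le_of_norm_le_const (a := (0:ℝ)) (b := x) (C := 1)
      (f := T) (fun σ _ => by simpa using hT σ)
    simpa using this
  have hg1m : Measurable fun t => G₁ (s t) := hG₁c.measurable.comp hs.meas
  have hg1b : ∀ t, |G₁ (s t)| ≤ D := fun t => (gb T₁ hT₁b _).trans (hD t)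
  have hψ0 : ψ 0 = 0 := by
    have := hψo 0
    rw [neg_zero] at this
    linarith
  -- bound of ψ
  obtain ⟨M, hM⟩ : ∃ M, ∀ t, |ψ t| ≤ M := by
    obtain ⟨M, hM⟩ := isCompact_Icc.exists_bound_of_continuousOn (s := Icc (0:ℝ) 1)
      hψ.continuous.continuousOn
    refine ⟨M, fun t => ?_⟩
    obtain ⟨y, hy, hty⟩ := hψp.exists_mem_Ico₀ one_pos t
    rw [hty]
    exact hM y (Ico_subset_Icc_self hy)
  have hM0 : 0 ≤ M := (abs_nonneg _).trans (hM 0)
  have dper : ∀ f : ℝ → ℝ, Function.Periodic f 1 → Function.Periodic (deriv f) 1 := by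
    intro f hf t
    have h := deriv_comp_add_const f 1 t
    rw [← h]; congr 1; ext x; exact hf x
  have deven : ∀ f : ℝ → ℝ, (∀ t, f (-t) = -f t) → ∀ t, deriv f (-t) = deriv f t := by
    intro f hf t
    have h := deriv_comp_neg f t
    have h2 : (fun x => f (-x)) = fun x => -f x := by ext x; exact hf x
    rw [h2, deriv.fun_neg] at h
    linarith
  have bint : ∀ (f g : ℝ → ℝ), Continuous f → Measurable g → (∀ t, |g t| ≤ D) → ∀ a b : ℝ,
      IntervalIntegrable (fun t => f t * g t) volume a b := by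
    intro f g hf hg hgD a b
    have h1 := (hf.intervalIntegrable (μ := volume) a b).norm.mul_const D
    refine h1.mono_fun (hf.aestronglyMeasurable.mul hg.aestronglyMeasurable)
      (Eventually.of_forall fun t => ?_)
    dsimp only
    rw [norm_mul, norm_mul, norm_norm, Real.norm_eq_abs D, abs_of_nonneg hD0]
    exact mul_le_mul_of_nonneg_left (hgD t) (norm_nonneg _)
  have hsupp := theta_supp hψ.continuous hψp hψb
  -- inequality for n, m
  have hnm : ∀ᶠ m in atTop, ∀ n, (∫ t in (0:ℝ)..1,
        Real.sqrt (1 - ((chi n t * (1 - theta h m t)) * T₁ (s t) + theta h m t * ψ t) ^ 2) * l t)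
      + 2 * ((∫ t in (0:ℝ)..(1 / 2), deriv (fun t => chi n t * (1 - theta h m t)) t * G₁ (s t))
        + ∫ t in (0:ℝ)..(1 / 2), deriv (fun t => theta h m t * ψ t) t * s t) ≤ P := by
    filter_upwards [hsupp] with m hm n
    have c1 : ContDiff ℝ 1 (fun t => chi n t * (1 - theta h m t)) :=
      (chi_contDiff n).mul (contDiff_const.sub (theta_contDiff h m))
    have c2 : ContDiff ℝ 1 (fun t => theta h m t * ψ t) := (theta_contDiff h m).mul hψ
    have p1 : Function.Periodic (fun t => chi n t * (1 - theta h m t)) 1 := fun t => by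
      simp only [chi_per n t, theta_per h m t]
    have p2 : Function.Periodic (fun t => theta h m t * ψ t) 1 := fun t => by
      simp only [hψp t, theta_per h m t]
    have h1 := key_bound hs hl H c1 c2 p1 p2 (fun t => by
      have a0 := theta_nonneg h m t
      have a1 := theta_le_one h m t
      have a2 : |chi n t * (1 - theta h m t)| ≤ 1 - theta h m t := by
        rw [abs_mul, abs_of_nonneg (sub_nonneg.2 a1)]
        calc |chi n t| * (1 - theta h m t) ≤ 1 * (1 - theta h m t) :=
              mul_le_mul_of_nonneg_right (abs_chi_le n t) (by linarith)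
          _ = 1 - theta h m t := one_mul _
      have a3 : |theta h m t * ψ t| ≤ theta h m t := by
        rcases hm t with h4 | h4
        · rw [h4]; simp
        · rw [abs_mul, abs_of_nonneg a0]
          calc theta h m t * |ψ t| ≤ theta h m t * 1 := mul_le_mul_of_nonneg_left h4 a0
            _ = theta h m t := mul_one _
      linarith) hT₁ (continuous_const (y := (1:ℝ))) hT₁b (fun _ => by simp)
    simp only [intervalIntegral.integral_const, smul_eq_mul, mul_one, sub_zero] at h1
    have i1 := bint _ _ (c1.continuous_deriv le_rfl) hg1m hg1b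
    have i2 := bint _ _ (c2.continuous_deriv le_rfl) hs.meas hD
    have e1 : ∫ t in (0:ℝ)..1, (deriv (fun t => chi n t * (1 - theta h m t)) t * G₁ (s t)
          + deriv (fun t => theta h m t * ψ t) t * s t)
        = 2 * ((∫ t in (0:ℝ)..(1 / 2), deriv (fun t => chi n t * (1 - theta h m t)) t * G₁ (s t))
        + ∫ t in (0:ℝ)..(1 / 2), deriv (fun t => theta h m t * ψ t) t * s t) := by
      rw [intervalIntegral.integral_add (i1 _ _) (i2 _ _), half_int (i1 _ _), half_int (i2 _ _),
        mul_add]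
      · exact (dper _ p2).mul (fun t => by simp only [hs.per t])
      · intro t
        rw [deven _ (fun t => by rw [hψo, theta_even]; ring) t, hse]
      · exact (dper _ p1).mul (fun t => by simp only [hs.per t])
      · intro t
        rw [deven _ (fun t => by rw [chi_odd, theta_even]; ring) t, hse]
    rw [e1] at h1
    exact h1
  have sqb : ∀ (x : ℝ) (y : ℝ), |y| ≤ C → ‖Real.sqrt (1 - x ^ 2) * y‖ ≤ C := by
    intro x y hy
    rw [norm_mul, Real.norm_eq_abs, Real.norm_eq_abs, abs_of_nonneg (Real.sqrt_nonneg _)]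
    have : Real.sqrt (1 - x ^ 2) ≤ 1 := Real.sqrt_le_one.2 (by nlinarith [sq_nonneg x])
    calc Real.sqrt (1 - x ^ 2) * |y| ≤ 1 * C :=
          mul_le_mul this hy (abs_nonneg _) zero_le_one
      _ = C := one_mul C
  have nn : ∀ᵐ t : ℝ, t ≠ 1 / 2 ∧ t ≠ 1 := by
    have h1 : ∀ᵐ t : ℝ, t ≠ 1 / 2 := by
      have : (volume : Measure ℝ) {(1 / 2 : ℝ)} = 0 := by simp
      exact compl_mem_ae_iff.2 this
    have h2 : ∀ᵐ t : ℝ, t ≠ 1 := by
      have : (volume : Measure ℝ) {(1 : ℝ)} = 0 := by simp
      exact compl_mem_ae_iff.2 this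
    filter_upwards [h1, h2] with t a b using ⟨a, b⟩
  have hms : ∀ (f : ℝ → ℝ), Measurable f → Measurable (fun t => Real.sqrt (1 - f t ^ 2) * l t) :=
    fun f hf => ((measurable_const.sub (hf.pow_const 2)).sqrt).mul hl.meas
  -- n → ∞
  have hm : ∀ᶠ m in atTop, (∫ t in (0:ℝ)..1,
        Real.sqrt (1 - (sgh t * (1 - theta h m t) * T₁ (s t) + theta h m t * ψ t) ^ 2) * l t)
      + 2 * (((1 - theta h m 0) * G₁ A - (1 - theta h m (1 / 2)) * G₁ B
          + ∫ t in (0:ℝ)..(1 / 2), deriv (fun t => 1 - theta h m t) t * G₁ (s t))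
        + ∫ t in (0:ℝ)..(1 / 2), deriv (fun t => theta h m t * ψ t) t * s t) ≤ P := by
    filter_upwards [hnm] with m hm
    have t1 := lim_chi (ψ := fun t => 1 - theta h m t) (contDiff_const.sub (theta_contDiff h m))
      (fun t => by
        rw [abs_of_nonneg (sub_nonneg.2 (theta_le_one h m t))]
        linarith [theta_nonneg h m t]) hg1m hg1b ((hG₁c.tendsto A).comp hA)
      ((hG₁c.tendsto B).comp hB)
    have t3 : Tendsto (fun n => ∫ t in (0:ℝ)..1,
        Real.sqrt (1 - ((chi n t * (1 - theta h m t)) * T₁ (s t)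
          + theta h m t * ψ t) ^ 2) * l t) atTop
        (𝓝 (∫ t in (0:ℝ)..1, Real.sqrt (1 - (sgh t * (1 - theta h m t) * T₁ (s t)
        + theta h m t * ψ t) ^ 2) * l t)) := by
      refine intervalIntegral.tendsto_integral_filter_of_dominated_convergence
        (fun _ => C) (Eventually.of_forall fun n => ?_) (Eventually.of_forall fun n => ?_) ?_ ?_
      · refine (hms (fun t => (chi n t * (1 - theta h m t)) * T₁ (s t)
          + theta h m t * ψ t) ?_).aestronglyMeasurable
        exact (((chi_contDiff n).continuous.measurable.mul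
          (measurable_const.sub (theta_contDiff h m).continuous.measurable)).mul
            (hT₁.measurable.comp hs.meas)).add
          ((theta_contDiff h m).continuous.measurable.mul hψ.continuous.measurable)
      · exact Eventually.of_forall fun t _ => sqb _ _ (hC t)
      · exact intervalIntegrable_const
      · filter_upwards [nn] with t ht1 ht2
        rw [uIoc_of_le zero_le_one] at ht2
        have hc : Tendsto (fun n => chi n t) atTop (𝓝 (sgh t)) := by
          unfold sgh
          rcases lt_or_gt_of_ne ht1.1 with h4 | h4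
          · rw [if_pos h4]
            exact chi_tendsto ht2.1 h4
          · rw [if_neg (not_lt.2 h4.le)]
            have h5 : ∀ n, chi n t = - chi n (1 - t) := fun n => by
              rw [← chi_odd, ← chi_per n (-(1 - t))]; congr 1; ring
            have h6 : Tendsto (fun n => chi n (1 - t)) atTop (𝓝 1) :=
              chi_tendsto (by
                have := lt_of_le_of_ne ht2.2 ht1.2
                linarith) (by linarith)
            simp_rw [h5]
            exact h6.neg
        have h7 : Tendsto (fun n => (chi n t * (1 - theta h m t)) * T₁ (s t) + theta h m t * ψ t)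
            atTop (𝓝 (sgh t * (1 - theta h m t) * T₁ (s t) + theta h m t * ψ t)) :=
          ((hc.mul_const _).mul_const _).add_const _
        exact (((tendsto_const_nhds (x := (1:ℝ))).sub (h7.pow 2)).sqrt).mul_const (l t)
    exact le_of_tendsto (t3.add ((t1.add_const _).const_mul 2)) (Eventually.of_forall hm)
  -- m → ∞
  have z0 : ∀ m, theta h m 0 = 1 := fun m => theta_eq_one m (by
    rw [mul_zero, Real.cos_zero]; exact Real.cos_le_one _)
  have z1 : ∀ᶠ m in atTop, theta h m (1 / 2) = 0 :=
    theta_eventually_zero (cos_lt_cos_iff' hh0.le le_rfl hh1)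
  have u1 := lim_theta hh0 hh1 hg1m hg1b ((hG₁c.tendsto σ).comp hσ)
  have hψs : Tendsto (fun t => ψ t * s t) (𝓝[>] h) (𝓝 (ψ h * σ)) :=
    ((hψ.continuous.tendsto h).mono_left nhdsWithin_le_nhds).mul hσ
  have u2 := lim_theta hh0 hh1 (g := fun t => ψ t * s t)
    (hψ.continuous.measurable.mul hs.meas) (C := M * D) (fun t => by
      rw [abs_mul]
      exact mul_le_mul (hM t) (hD t) (abs_nonneg _) hM0) hψs
  have hdψ : Continuous (deriv ψ) := hψ.continuous_deriv le_rfl
  have u5 : Tendsto (fun m => ∫ t in (0:ℝ)..(1 / 2), theta h m t * (deriv ψ t * s t)) atTop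
      (𝓝 (∫ t in (0:ℝ)..h, deriv ψ t * s t)) := by
    have e0 : (∫ t in (0:ℝ)..h, deriv ψ t * s t)
        = ∫ t in (0:ℝ)..(1 / 2), (if t ≤ h then deriv ψ t * s t else 0) := by
      have i0 := bint _ _ hdψ hs.meas hD
      have j1 : ∫ t in (0:ℝ)..h, (if t ≤ h then deriv ψ t * s t else 0)
          = ∫ t in (0:ℝ)..h, deriv ψ t * s t := by
        refine intervalIntegral.integral_congr_ae (Eventually.of_forall fun t ht => ?_)
        rw [uIoc_of_le hh0.le] at ht
        rw [if_pos ht.2]
      have j2 : ∫ t in h..(1 / 2), (if t ≤ h then deriv ψ t * s t else 0) = 0 := by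
        have : ∫ t in h..(1 / 2), (if t ≤ h then deriv ψ t * s t else 0)
            = ∫ t in h..(1 / 2), (0:ℝ) := by
          refine intervalIntegral.integral_congr_ae (Eventually.of_forall fun t ht => ?_)
          rw [uIoc_of_le hh1.le] at ht
          rw [if_neg (not_le.2 ht.1)]
        rw [this]; simp
      have k1 : IntervalIntegrable (fun t => if t ≤ h then deriv ψ t * s t else 0) volume 0 h := by
        refine (i0 0 h).congr_ae ?_
        filter_upwards [ae_restrict_mem measurableSet_uIoc] with t ht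
        rw [uIoc_of_le hh0.le] at ht
        rw [if_pos ht.2]
      have k2 : IntervalIntegrable (fun t => if t ≤ h then deriv ψ t * s t else 0) volume h
          (1 / 2) := by
        refine (intervalIntegrable_const (c := (0:ℝ))).congr_ae ?_
        filter_upwards [ae_restrict_mem measurableSet_uIoc] with t ht
        rw [uIoc_of_le hh1.le] at ht
        rw [if_neg (not_le.2 ht.1)]
      rw [← intervalIntegral.integral_add_adjacent_intervals k1 k2, j1, j2, add_zero]
    rw [e0]
    have hi := (bint _ _ hdψ hs.meas hD (0:ℝ) (1 / 2)).norm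
    refine intervalIntegral.tendsto_integral_filter_of_dominated_convergence
        (fun t => ‖deriv ψ t * s t‖) (Eventually.of_forall fun m => ?_)
        (Eventually.of_forall fun m => ?_) hi ?_
    · exact ((theta_contDiff h m).continuous.measurable.mul
        (hdψ.measurable.mul hs.meas)).aestronglyMeasurable
    · refine Eventually.of_forall fun t _ => ?_
      rw [norm_mul, Real.norm_eq_abs (theta h m t), abs_of_nonneg (theta_nonneg h m t)]
      calc theta h m t * ‖deriv ψ t * s t‖ ≤ 1 * ‖deriv ψ t * s t‖ :=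
            mul_le_mul_of_nonneg_right (theta_le_one h m t) (norm_nonneg _)
        _ = _ := one_mul _
    · refine Eventually.of_forall fun t ht => ?_
      rw [uIoc_of_le (by norm_num : (0:ℝ) ≤ 1 / 2)] at ht
      refine tendsto_const_nhds.congr' ?_
      by_cases hc : t ≤ h
      · refine Eventually.of_forall fun m => ?_
        dsimp only
        rw [if_pos hc]
        have : Real.cos (2 * Real.pi * h) ≤ Real.cos (2 * Real.pi * t) := by
          rcases hc.eq_or_lt with h4 | h4
          · rw [h4]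
          · exact (cos_lt_cos_iff' ht.1.le hh1.le h4).le
        rw [theta_eq_one m this, one_mul]
      · filter_upwards [theta_eventually_zero (cos_lt_cos_iff' hh0.le ht.2 (not_le.1 hc))] with m hm'
        rw [if_neg hc, hm', zero_mul]
  have u3 : Tendsto (fun m => ∫ t in (0:ℝ)..1,
        Real.sqrt (1 - (sgh t * (1 - theta h m t) * T₁ (s t) + theta h m t * ψ t) ^ 2) * l t) atTop
      (𝓝 (∫ t in (0:ℝ)..1, Real.sqrt (1 - (if Real.cos (2 * Real.pi * h) ≤
        Real.cos (2 * Real.pi * t) then ψ t else T₁ (s t)) ^ 2) * l t)) := by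
    refine intervalIntegral.tendsto_integral_filter_of_dominated_convergence
        (fun _ => C) (Eventually.of_forall fun m => ?_) (Eventually.of_forall fun m => ?_) ?_ ?_
    · refine (hms (fun t => sgh t * (1 - theta h m t) * T₁ (s t)
          + theta h m t * ψ t) ?_).aestronglyMeasurable
      exact ((measurable_sgh.mul
          (measurable_const.sub (theta_contDiff h m).continuous.measurable)).mul
            (hT₁.measurable.comp hs.meas)).add
          ((theta_contDiff h m).continuous.measurable.mul hψ.continuous.measurable)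
    · exact Eventually.of_forall fun t _ => sqb _ _ (hC t)
    · exact intervalIntegrable_const
    · refine Eventually.of_forall fun t _ => ?_
      refine tendsto_const_nhds.congr' ?_
      by_cases hc : Real.cos (2 * Real.pi * h) ≤ Real.cos (2 * Real.pi * t)
      · refine Eventually.of_forall fun m => ?_
        rw [if_pos hc]
        dsimp only
        rw [theta_eq_one m hc]
        congr 3; ring
      · rw [if_neg hc]
        filter_upwards [theta_eventually_zero (not_le.1 hc)] with m hm'
        rw [hm']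
        have : sgh t ^ 2 = 1 := by unfold sgh; split_ifs <;> norm_num
        have e : (sgh t * (1 - 0) * T₁ (s t) + 0 * ψ t) ^ 2 = T₁ (s t) ^ 2 := by
          rw [show (sgh t * (1 - 0) * T₁ (s t) + 0 * ψ t) = sgh t * T₁ (s t) by ring, mul_pow,
            this, one_mul]
        rw [e]
  have u4 : Tendsto (fun m => 2 * (((1 - theta h m 0) * G₁ A - (1 - theta h m (1 / 2)) * G₁ B
          + ∫ t in (0:ℝ)..(1 / 2), deriv (fun t => 1 - theta h m t) t * G₁ (s t))
        + ∫ t in (0:ℝ)..(1 / 2), deriv (fun t => theta h m t * ψ t) t * s t)) atTop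
      (𝓝 (2 * ((-G₁ B + G₁ σ) + (-(ψ h * σ) + ∫ t in (0:ℝ)..h, deriv ψ t * s t)))) := by
    have e1 : ∀ m, ∫ t in (0:ℝ)..(1 / 2), deriv (fun t => 1 - theta h m t) t * G₁ (s t)
        = -∫ t in (0:ℝ)..(1 / 2), deriv (theta h m) t * G₁ (s t) := fun m => by
      rw [← intervalIntegral.integral_neg]
      refine intervalIntegral.integral_congr fun t _ => ?_
      simp only [deriv_const_sub]
      ring
    have e2 : ∀ m, ∫ t in (0:ℝ)..(1 / 2), deriv (fun t => theta h m t * ψ t) t * s t
        = (∫ t in (0:ℝ)..(1 / 2), deriv (theta h m) t * (ψ t * s t))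
          + ∫ t in (0:ℝ)..(1 / 2), theta h m t * (deriv ψ t * s t) := fun m => by
      have hdθ : Continuous (deriv (theta h m)) := (theta_contDiff h m).continuous_deriv le_rfl
      rw [← intervalIntegral.integral_add]
      · refine intervalIntegral.integral_congr fun t _ => ?_
        have d1 : DifferentiableAt ℝ (theta h m) t :=
          (theta_contDiff h m).differentiable one_ne_zero t
        have d2 : DifferentiableAt ℝ ψ t := hψ.differentiable one_ne_zero t
        simp only [deriv_fun_mul d1 d2]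
        ring
      · have := bint (fun t => deriv (theta h m) t * ψ t) _ (hdθ.mul hψ.continuous) hs.meas hD 0 (1 / 2)
        refine this.congr ?_
        intro t _
        ring
      · have := bint (fun t => theta h m t * deriv ψ t) _
          ((theta_contDiff h m).continuous.mul hdψ) hs.meas hD 0 (1 / 2)
        refine this.congr ?_
        intro t _
        ring
    have v1 : Tendsto (fun m => (-G₁ B
          - ∫ t in (0:ℝ)..(1 / 2), deriv (theta h m) t * G₁ (s t))) atTop
        (𝓝 (-G₁ B - (-G₁ σ))) := tendsto_const_nhds.sub u1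
    have v3 := (v1.add (u2.add u5)).const_mul 2
    rw [sub_neg_eq_add] at v3
    refine v3.congr' ?_
    filter_upwards [z1] with m hm'
    rw [z0, hm', e1, e2]
    ring
  have hfin := le_of_tendsto (u3.add u4) hm
  have e3 : (∫ x in B..σ, T₁ x) = G₁ σ - G₁ B := by
    rw [hG₁]
    simp only
    rw [intervalIntegral.integral_interval_sub_left (hT₁.intervalIntegrable _ _)
      (hT₁.intervalIntegrable _ _)]
  rw [e3]
  linarith

/-- density of the truncated arcsine -/
noncomputable def gA (c u : ℝ) : ℝ := 1 / Real.sqrt (1 - min (u ^ 2) (c ^ 2))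

theorem gA_den_pos {c : ℝ} (hc1 : c ^ 2 < 1) (u : ℝ) : 0 < Real.sqrt (1 - min (u ^ 2) (c ^ 2)) :=
  Real.sqrt_pos.2 (by
    have := min_le_right (u ^ 2) (c ^ 2)
    linarith)

theorem gA_cont {c : ℝ} (hc1 : c ^ 2 < 1) : Continuous (gA c) := by
  unfold gA
  refine continuous_const.div ?_ (fun u => (gA_den_pos hc1 u).ne')
  exact (continuous_const.sub ((continuous_pow 2).min continuous_const)).sqrt

/-- truncated arcsine -/
noncomputable def GA (c x : ℝ) : ℝ := ∫ u in (0:ℝ)..x, gA c u

theorem GA_hasDerivAt {c : ℝ} (hc1 : c ^ 2 < 1) (x : ℝ) : HasDerivAt (GA c) (gA c x) x :=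
  ((gA_cont hc1).integral_hasStrictDerivAt 0 x).hasDerivAt

theorem GA_contDiff {c : ℝ} (hc1 : c ^ 2 < 1) : ContDiff ℝ 1 (GA c) := by
  rw [contDiff_one_iff_deriv]
  refine ⟨fun x => (GA_hasDerivAt hc1 x).differentiableAt, ?_⟩
  have : deriv (GA c) = gA c := funext fun x => (GA_hasDerivAt hc1 x).deriv
  rw [this]
  exact gA_cont hc1

theorem GA_odd (c x : ℝ) : GA c (-x) = -GA c x := by
  unfold GA
  have h1 := intervalIntegral.integral_comp_neg (a := (0:ℝ)) (b := x) (fun u => gA c u)
  have h2 : ∀ u, gA c (-u) = gA c u := fun u => by unfold gA; rw [neg_sq]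
  simp_rw [h2] at h1
  rw [h1, neg_zero, intervalIntegral.integral_symm]

/-- odd `C¹` function, equal to `D t` for `|t| ≤ h` -/
noncomputable def lpsi (D h t : ℝ) : ℝ :=
  D / (2 * Real.pi) * GA (Real.sin (2 * Real.pi * h)) (Real.sin (2 * Real.pi * t))

theorem sinsq_lt {h : ℝ} (h0 : 0 < h) (h1 : h < 1 / 4) : Real.sin (2 * Real.pi * h) ^ 2 < 1 := by
  have hp := Real.pi_pos
  have h2 : 0 < Real.cos (2 * Real.pi * h) := by
    apply Real.cos_pos_of_mem_Ioo
    constructor
    · have : 0 < 2 * Real.pi * h := by positivity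
      linarith
    · nlinarith
  have := Real.sin_sq_add_cos_sq (2 * Real.pi * h)
  nlinarith

theorem lpsi_contDiff (D : ℝ) {h : ℝ} (h0 : 0 < h) (h1 : h < 1 / 4) : ContDiff ℝ 1 (lpsi D h) := by
  unfold lpsi
  exact contDiff_const.mul ((GA_contDiff (sinsq_lt h0 h1)).comp
    (Real.contDiff_sin.comp (contDiff_const.mul contDiff_id)))

theorem lpsi_per (D h : ℝ) : Function.Periodic (lpsi D h) 1 := fun t => by
  unfold lpsi
  rw [show 2 * Real.pi * (t + 1) = 2 * Real.pi * t + 2 * Real.pi by ring, Real.sin_add_two_pi]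

theorem lpsi_odd (D h t : ℝ) : lpsi D h (-t) = -lpsi D h t := by
  unfold lpsi
  rw [show 2 * Real.pi * (-t) = -(2 * Real.pi * t) by ring, Real.sin_neg, GA_odd]
  ring

theorem lpsi_deriv (D : ℝ) {h : ℝ} (h0 : 0 < h) (h1 : h < 1 / 4) {t : ℝ} (ht : |t| ≤ h) :
    HasDerivAt (lpsi D h) D t := by
  have hp := Real.pi_pos
  have hc := sinsq_lt h0 h1
  have e1 : HasDerivAt (fun t : ℝ => 2 * Real.pi * t) (2 * Real.pi) t := by
    simpa using (hasDerivAt_id t).const_mul (2 * Real.pi)
  have e2 : HasDerivAt (fun t : ℝ => Real.sin (2 * Real.pi * t))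
      (Real.cos (2 * Real.pi * t) * (2 * Real.pi)) t := e1.sin
  have e3 := (GA_hasDerivAt hc (Real.sin (2 * Real.pi * t))).comp t e2
  have e4 := e3.const_mul (D / (2 * Real.pi))
  have ht' := abs_le.1 ht
  have hcos : 0 < Real.cos (2 * Real.pi * t) := by
    apply Real.cos_pos_of_mem_Ioo
    constructor <;> nlinarith
  have hcosh : 0 < Real.cos (2 * Real.pi * h) := by
    apply Real.cos_pos_of_mem_Ioo
    constructor <;> nlinarith
  have hcc : Real.cos (2 * Real.pi * h) ≤ Real.cos (2 * Real.pi * t) := by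
    rw [← Real.cos_abs (2 * Real.pi * t), abs_mul, abs_of_pos (by positivity : 0 < 2 * Real.pi)]
    apply Real.cos_le_cos_of_nonneg_of_le_pi (by positivity) (by nlinarith)
    exact mul_le_mul_of_nonneg_left ht (by positivity)
  have hss : Real.sin (2 * Real.pi * t) ^ 2 ≤ Real.sin (2 * Real.pi * h) ^ 2 := by
    have a1 := Real.sin_sq_add_cos_sq (2 * Real.pi * t)
    have a2 := Real.sin_sq_add_cos_sq (2 * Real.pi * h)
    nlinarith
  have e5 : gA (Real.sin (2 * Real.pi * h)) (Real.sin (2 * Real.pi * t))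
      = 1 / Real.cos (2 * Real.pi * t) := by
    unfold gA
    rw [min_eq_left hss]
    have : 1 - Real.sin (2 * Real.pi * t) ^ 2 = Real.cos (2 * Real.pi * t) ^ 2 := by
      have a1 := Real.sin_sq_add_cos_sq (2 * Real.pi * t)
      linarith
    rw [this, Real.sqrt_sq hcos.le]
  refine e4.congr_deriv ?_
  rw [e5]
  field_simp

theorem lpsi_eq (D : ℝ) {h : ℝ} (h0 : 0 < h) (h1 : h < 1 / 4) {t : ℝ} (ht : |t| ≤ h) :
    lpsi D h t = D * t := by
  have key : ∀ x, 0 ≤ x → x ≤ h → lpsi D h x = D * x := by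
    intro x hx0 hx
    have h2 := intervalIntegral.integral_eq_sub_of_hasDerivAt (a := (0:ℝ)) (b := x)
      (f := lpsi D h) (f' := fun _ => D) (fun y hy => by
        rw [uIcc_of_le hx0] at hy
        exact lpsi_deriv D h0 h1 (by rw [abs_of_nonneg hy.1]; exact hy.2.trans hx))
      intervalIntegrable_const
    have h3 : lpsi D h 0 = 0 := by
      have := lpsi_odd D h 0
      rw [neg_zero] at this
      linarith
    rw [h3, intervalIntegral.integral_const, smul_eq_mul] at h2
    linarith
  have ht' := abs_le.1 ht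
  rcases le_total 0 t with h2 | h2
  · exact key t h2 ht'.2
  · have h3 := key (-t) (by linarith) (by linarith)
    rw [lpsi_odd] at h3
    linarith

theorem abs_round_le {h : ℝ} (h0 : 0 < h) (h1 : h < 1 / 4) {t : ℝ}
    (ht : Real.cos (2 * Real.pi * h) ≤ Real.cos (2 * Real.pi * t)) : |t - round t| ≤ h := by
  have hp := Real.pi_pos
  by_contra hcon
  rw [not_le] at hcon
  have h2 := cos_lt_cos_iff' h0.le (abs_sub_round t) hcon
  have h3 : Real.cos (2 * Real.pi * |t - round t|) = Real.cos (2 * Real.pi * t) := by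
    have e : 2 * Real.pi * |t - round t| = |2 * Real.pi * (t - round t)| := by
      rw [abs_mul, abs_of_pos (by positivity : 0 < 2 * Real.pi)]
    rw [e, Real.cos_abs]
    have e2 : 2 * Real.pi * (t - round t) = 2 * Real.pi * t - (round t : ℤ) * (2 * Real.pi) := by
      ring
    rw [e2, Real.cos_sub_int_mul_two_pi]
  rw [h3] at h2
  linarith

theorem lpsi_eq' (D : ℝ) {h : ℝ} (h0 : 0 < h) (h1 : h < 1 / 4) {t : ℝ}
    (ht : Real.cos (2 * Real.pi * h) ≤ Real.cos (2 * Real.pi * t)) :
    lpsi D h t = D * (t - round t) := by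
  rw [← lpsi_eq D h0 h1 (abs_round_le h0 h1 ht)]
  have := (lpsi_per D h).sub_int_mul_eq (x := t) (round t)
  rw [mul_one] at this
  exact this.symm

/-- **Monotone substitution**, first zone calibrated by `D t`. -/
theorem mono_sub_lin {s l : ℝ → ℝ} (hs : BP s) (hl : BP l) (hse : ∀ t, s (-t) = s t)
    {P : ℝ} (H : DualIneq s l P) {T₁ : ℝ → ℝ} (hT₁ : Continuous T₁)
    (hT₁b : ∀ σ, |T₁ σ| ≤ 1) {h A B σ D : ℝ} (hh0 : 0 < h) (hh1 : h < 1 / 4)
    (hD0 : 0 ≤ D) (hDh : D * h < 1)
    (hA : Tendsto s (𝓝[>] 0) (𝓝 A)) (hB : Tendsto s (𝓝[<] (1 / 2)) (𝓝 B))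
    (hσ : Tendsto s (𝓝[>] h) (𝓝 σ)) :
    (∫ t in (0:ℝ)..1, Real.sqrt (1 - (if Real.cos (2 * Real.pi * h) ≤ Real.cos (2 * Real.pi * t)
        then D * (t - round t) else T₁ (s t)) ^ 2) * l t)
      + 2 * (D * (∫ t in (0:ℝ)..h, s t) - D * h * σ + ∫ x in B..σ, T₁ x) ≤ P := by
  have h1 := mono_sub_psi hs hl hse H hT₁ hT₁b (lpsi_contDiff D hh0 hh1) (lpsi_per D h)
    (lpsi_odd D h) hh0 (by linarith) (fun t ht => by
      rw [lpsi_eq' D hh0 hh1 ht, abs_mul, abs_of_nonneg hD0]
      exact lt_of_le_of_lt (mul_le_mul_of_nonneg_left (abs_round_le hh0 hh1 ht) hD0) hDh)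
    hA hB hσ
  have e1 : (∫ t in (0:ℝ)..1, Real.sqrt (1 - (if Real.cos (2 * Real.pi * h) ≤
        Real.cos (2 * Real.pi * t) then lpsi D h t else T₁ (s t)) ^ 2) * l t)
      = ∫ t in (0:ℝ)..1, Real.sqrt (1 - (if Real.cos (2 * Real.pi * h) ≤
        Real.cos (2 * Real.pi * t) then D * (t - round t) else T₁ (s t)) ^ 2) * l t := by
    refine intervalIntegral.integral_congr fun t _ => ?_
    by_cases hc : Real.cos (2 * Real.pi * h) ≤ Real.cos (2 * Real.pi * t)
    · simp only [if_pos hc, lpsi_eq' D hh0 hh1 hc]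
    · simp only [if_neg hc]
  have e2 : (∫ t in (0:ℝ)..h, deriv (lpsi D h) t * s t) = D * ∫ t in (0:ℝ)..h, s t := by
    rw [← intervalIntegral.integral_const_mul]
    refine intervalIntegral.integral_congr fun t ht => ?_
    rw [uIcc_of_le hh0.le] at ht
    rw [(lpsi_deriv D hh0 hh1 (t := t) (by rw [abs_of_nonneg ht.1]; exact ht.2)).deriv]
  rw [e1, e2, lpsi_eq D hh0 hh1 (by rw [abs_of_pos hh0])] at h1
  exact h1

end Crest.Agent.R214.MS
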