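import Mathlib

/-!
# R214: one-dimensional monotone substitution (helper937)
From the dual slicing inequality with `C¹` coefficients to the inequality with coefficients
that are functions of the slice area.
-/

open MeasureTheory Set Filter Topology
open scoped Convolution

namespace Crest.Agent.R214.MS

/-- bounded measurable 1-periodic functions -/
structure BP (f : ℝ → ℝ) : Prop where
  meas : Measurable f
  bdd : ∃ C, ∀ t, |f t| ≤ C
  per : Function.Periodic f 1

theorem BP.locInt {f : ℝ → ℝ} (hf : BP f) : LocallyIntegrable f volume := by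
  obtain ⟨C, hC⟩ := hf.bdd
  intro x
  refine ⟨Metric.closedBall x 1, Metric.closedBall_mem_nhds x one_pos, ?_⟩
  refine Measure.integrableOn_of_bounded (M := C) ?_ hf.meas.aestronglyMeasurable ?_
  · exact (isCompact_closedBall x 1).measure_lt_top.ne
  · exact Eventually.of_forall fun t => by simpa using hC t

theorem BP.intervalIntegrable {f : ℝ → ℝ} (hf : BP f) (a b : ℝ) :
    IntervalIntegrable f volume a b := by
  obtain ⟨C, hC⟩ := hf.bdd
  refine (intervalIntegrable_const (c := C)).mono_fun hf.meas.aestronglyMeasurable ?_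
  exact Eventually.of_forall fun t => by
    have := hC t
    simp only [Real.norm_eq_abs]
    exact this.trans (le_abs_self C)

theorem BP.mul {f g : ℝ → ℝ} (hf : BP f) (hg : BP g) : BP (fun t => f t * g t) where
  meas := hf.meas.mul hg.meas
  bdd := by
    obtain ⟨C, hC⟩ := hf.bdd
    obtain ⟨D, hD⟩ := hg.bdd
    refine ⟨C * D, fun t => ?_⟩
    rw [abs_mul]
    exact mul_le_mul (hC t) (hD t) (abs_nonneg _) ((abs_nonneg _).trans (hC t))
  per := fun t => by simp only [hf.per t, hg.per t]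

theorem BP.add {f g : ℝ → ℝ} (hf : BP f) (hg : BP g) : BP (fun t => f t + g t) where
  meas := hf.meas.add hg.meas
  bdd := by
    obtain ⟨C, hC⟩ := hf.bdd
    obtain ⟨D, hD⟩ := hg.bdd
    exact ⟨C + D, fun t => (abs_add_le _ _).trans (add_le_add (hC t) (hD t))⟩
  per := fun t => by simp only [hf.per t, hg.per t]

theorem BP.const_mul {f : ℝ → ℝ} (hf : BP f) (c : ℝ) : BP (fun t => c * f t) where
  meas := hf.meas.const_mul c
  bdd := by
    obtain ⟨C, hC⟩ := hf.bdd
    refine ⟨|c| * C, fun t => ?_⟩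
    rw [abs_mul]
    exact mul_le_mul_of_nonneg_left (hC t) (abs_nonneg c)
  per := fun t => by simp only [hf.per t]

theorem BP.of_continuous {f : ℝ → ℝ} (hf : Continuous f) (hper : Function.Periodic f 1) :
    BP f where
  meas := hf.measurable
  bdd := by
    obtain ⟨C, hC⟩ := (isCompact_Icc (a := (0:ℝ)) (b := 1)).exists_bound_of_continuousOn
      hf.continuousOn
    refine ⟨C, fun t => ?_⟩
    have h1 : f t = f (Int.fract t) := by
      have := hper.sub_int_mul_eq (x := t) ⌊t⌋
      rw [mul_one] at this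
      rw [← this]; rfl
    rw [h1]
    simpa using hC (Int.fract t) ⟨Int.fract_nonneg t, (Int.fract_lt_one t).le⟩
  per := hper

/-- mollifiers -/
noncomputable def bmp (k : ℕ) : ContDiffBump (0 : ℝ) where
  rIn := 1 / (k + 2)
  rOut := 2 / (k + 2)
  rIn_pos := by positivity
  rIn_lt_rOut := by
    have : (0:ℝ) < k + 2 := by positivity
    gcongr; norm_num

noncomputable def rho (k : ℕ) : ℝ → ℝ := (bmp k).normed volume

theorem rho_neg (k : ℕ) (x : ℝ) : rho k (-x) = rho k x := (bmp k).normed_neg x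

theorem rho_contDiff (k : ℕ) {n : ℕ∞} : ContDiff ℝ n (rho k) := (bmp k).contDiff_normed

theorem rho_compact (k : ℕ) : HasCompactSupport (rho k) := (bmp k).hasCompactSupport_normed

theorem rho_nonneg (k : ℕ) (x : ℝ) : 0 ≤ rho k x := (bmp k).nonneg_normed x

theorem rho_int (k : ℕ) : ∫ x, rho k x = 1 := (bmp k).integral_normed

/-- averaging with kernel `κ` -/
noncomputable def av (κ f : ℝ → ℝ) : ℝ → ℝ :=
  κ ⋆[ContinuousLinearMap.lsmul ℝ ℝ, volume] f

theorem av_apply (κ f : ℝ → ℝ) (t : ℝ) : av κ f t = ∫ u, κ u * f (t - u) := rfl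

theorem av_integrable {κ f : ℝ → ℝ} (hκ : Continuous κ) (hc : HasCompactSupport κ) (hf : BP f)
    (t : ℝ) : Integrable (fun u => κ u * f (t - u)) := by
  obtain ⟨C, hC⟩ := hf.bdd
  have h1 : Integrable κ := hκ.integrable_of_hasCompactSupport hc
  refine h1.mul_bdd (c := C) ?_ ?_
  · exact (hf.meas.comp (measurable_const.sub measurable_id)).aestronglyMeasurable
  · exact Eventually.of_forall fun u => by simpa using hC (t - u)

theorem av_adjoint {κ f g : ℝ → ℝ} (hκ : Continuous κ) (hc : HasCompactSupport κ) (hf : BP f)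
    (hg : BP g) :
    ∫ t in (0:ℝ)..1, av κ f t * g t = ∫ t in (0:ℝ)..1, f t * av (fun u => κ (-u)) g t := by
  obtain ⟨C, hC⟩ := hf.bdd
  obtain ⟨D, hD⟩ := hg.bdd
  have h1 : Integrable κ := hκ.integrable_of_hasCompactSupport hc
  have key : ∀ (F : ℝ → ℝ → ℝ), Measurable (fun p : ℝ × ℝ => F p.1 p.2) →
      (∀ t u, |F t u| ≤ C * D) →
      ∫ t in Ioc (0:ℝ) 1, ∫ u, κ u * F t u = ∫ u, ∫ t in Ioc (0:ℝ) 1, κ u * F t u := by
    intro F hF hFb
    refine integral_integral_swap (f := fun t u => κ u * F t u) ?_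
    have h2 : Integrable (fun p : ℝ × ℝ => (1:ℝ) * κ p.2)
        ((volume.restrict (Ioc (0:ℝ) 1)).prod volume) :=
      Integrable.mul_prod (f := fun _ => (1:ℝ)) (g := κ) (integrable_const _) h1
    have h3 : Integrable (fun p : ℝ × ℝ => ((1:ℝ) * κ p.2) * F p.1 p.2)
        ((volume.restrict (Ioc (0:ℝ) 1)).prod volume) := by
      refine h2.mul_bdd (c := C * D) hF.aestronglyMeasurable ?_
      exact Eventually.of_forall fun p => by simpa using hFb p.1 p.2
    simpa [Function.uncurry_def] using h3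
  rw [intervalIntegral.integral_of_le zero_le_one, intervalIntegral.integral_of_le zero_le_one]
  have e1 : ∀ t, av κ f t * g t = ∫ u, κ u * (f (t - u) * g t) := by
    intro t
    rw [av_apply, ← integral_mul_const]
    congr 1; ext u; ring
  have e2 : ∀ t, f t * av (fun u => κ (-u)) g t = ∫ u, κ u * (f t * g (t + u)) := by
    intro t
    rw [av_apply, ← integral_const_mul, ← integral_neg_eq_self]
    congr 1; ext u
    rw [neg_neg, sub_neg_eq_add]; ring
  simp_rw [e1, e2]
  have b1 : ∀ t u, |f (t - u) * g t| ≤ C * D := fun t u => by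
    rw [abs_mul]
    exact mul_le_mul (hC _) (hD _) (abs_nonneg _) ((abs_nonneg _).trans (hC t))
  have b2 : ∀ t u, |f t * g (t + u)| ≤ C * D := fun t u => by
    rw [abs_mul]
    exact mul_le_mul (hC _) (hD _) (abs_nonneg _) ((abs_nonneg _).trans (hC t))
  rw [key (fun t u => f (t - u) * g t) ?_ b1, key (fun t u => f t * g (t + u)) ?_ b2]
  · congr 1; ext u
    rw [integral_const_mul, integral_const_mul]
    congr 1
    rw [← intervalIntegral.integral_of_le zero_le_one,
      ← intervalIntegral.integral_of_le zero_le_one]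
    have hper : Function.Periodic (fun t => f t * g (t + u)) 1 := fun t => by
      simp only
      rw [hf.per t, show t + 1 + u = (t + u) + 1 by ring, hg.per]
    have h4 := hper.intervalIntegral_add_eq (-u) 0
    rw [zero_add] at h4
    rw [← h4]
    have h5 := intervalIntegral.integral_comp_sub_right (a := (0:ℝ)) (b := 1)
      (fun t => f t * g (t + u)) u
    simp only [sub_add_cancel] at h5
    rw [h5]
    congr 1 <;> ring
  · exact (hf.meas.comp measurable_fst).mul (hg.meas.comp (measurable_fst.add measurable_snd))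
  · exact (hf.meas.comp (measurable_fst.sub measurable_snd)).mul (hg.meas.comp measurable_fst)

theorem av_contDiff {κ f : ℝ → ℝ} {n : ℕ∞} (hκ : ContDiff ℝ n κ) (hc : HasCompactSupport κ)
    (hf : BP f) : ContDiff ℝ n (av κ f) :=
  hc.contDiff_convolution_left _ hκ hf.locInt

theorem av_hasDerivAt {κ f : ℝ → ℝ} (hκ : ContDiff ℝ 1 κ) (hc : HasCompactSupport κ)
    (hf : BP f) (t : ℝ) : HasDerivAt (av κ f) (av (deriv κ) f t) t :=
  hc.hasDerivAt_convolution_left _ hκ hf.locInt t

theorem av_periodic {κ f : ℝ → ℝ} (hf : BP f) : Function.Periodic (av κ f) 1 := fun t => by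
  rw [av_apply, av_apply]
  congr 1; ext u
  rw [show t + 1 - u = (t - u) + 1 by ring, hf.per]

theorem av_le {κ f : ℝ → ℝ} (hκ : Continuous κ) (hc : HasCompactSupport κ) (h0 : ∀ u, 0 ≤ κ u)
    (h1 : ∫ u, κ u = 1) (hf : BP f) {c : ℝ} (hfc : ∀ t, f t ≤ c) (t : ℝ) : av κ f t ≤ c := by
  rw [av_apply]
  calc ∫ u, κ u * f (t - u) ≤ ∫ u, κ u * c := by
        refine integral_mono (av_integrable hκ hc hf t)
          ((hκ.integrable_of_hasCompactSupport hc).mul_const c) fun u => ?_
        exact mul_le_mul_of_nonneg_left (hfc _) (h0 u)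
    _ = c := by rw [integral_mul_const, h1, one_mul]

theorem le_av {κ f : ℝ → ℝ} (hκ : Continuous κ) (hc : HasCompactSupport κ) (h0 : ∀ u, 0 ≤ κ u)
    (h1 : ∫ u, κ u = 1) (hf : BP f) {c : ℝ} (hfc : ∀ t, c ≤ f t) (t : ℝ) : c ≤ av κ f t := by
  rw [av_apply]
  calc c = ∫ u, κ u * c := by rw [integral_mul_const, h1, one_mul]
    _ ≤ ∫ u, κ u * f (t - u) := by
        refine integral_mono ((hκ.integrable_of_hasCompactSupport hc).mul_const c)
          (av_integrable hκ hc hf t) fun u => ?_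
        exact mul_le_mul_of_nonneg_left (hfc _) (h0 u)

/-- Jensen for a pair -/
theorem av_sq_add_sq {κ a b : ℝ → ℝ} (hκ : Continuous κ) (hc : HasCompactSupport κ)
    (h0 : ∀ u, 0 ≤ κ u) (h1 : ∫ u, κ u = 1) (ha : BP a) (hb : BP b)
    (hab : ∀ t, a t ^ 2 + b t ^ 2 ≤ 1) (t : ℝ) : av κ a t ^ 2 + av κ b t ^ 2 ≤ 1 := by
  set x := av κ a t with hx
  set y := av κ b t with hy
  have key : ∀ c d : ℝ, c ^ 2 + d ^ 2 ≤ 1 → c * x + d * y ≤ 1 := by
    intro c d hcd
    have h2 : c * x + d * y = av κ (fun s => c * a s + d * b s) t := by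
      rw [hx, hy, av_apply, av_apply, av_apply, ← integral_const_mul, ← integral_const_mul,
        ← integral_add ((av_integrable hκ hc ha t).const_mul c)
          ((av_integrable hκ hc hb t).const_mul d)]
      congr 1; ext u; ring
    rw [h2]
    refine av_le hκ hc h0 h1 ((ha.const_mul c).add (hb.const_mul d)) (fun s => ?_) t
    nlinarith [sq_nonneg (c - a s), sq_nonneg (d - b s), hab s]
  by_contra hlt
  rw [not_le] at hlt
  have hpos : 0 < x ^ 2 + y ^ 2 := by linarith
  set r := Real.sqrt (x ^ 2 + y ^ 2) with hr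
  have hr2 : r ^ 2 = x ^ 2 + y ^ 2 := Real.sq_sqrt hpos.le
  have hr0 : 0 < r := Real.sqrt_pos.2 hpos
  have hr1 : 1 < r := by nlinarith
  have h3 := key (x / r) (y / r) (by
    rw [div_pow, div_pow, ← add_div, hr2, div_self hpos.ne'])
  have h4 : x / r * x + y / r * y = r := by
    field_simp; nlinarith
  linarith


theorem rho_even_fun (k : ℕ) : (fun u => rho k (-u)) = rho k := by
  ext u; exact rho_neg k u

theorem deriv_rho_odd (k : ℕ) : (fun u => deriv (rho k) (-u)) = fun u => -deriv (rho k) u := by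
  ext u
  have h := deriv_comp_neg (rho k) u
  rw [rho_even_fun] at h
  linarith

theorem rOut_tendsto : Tendsto (fun k => (bmp k).rOut) atTop (𝓝 0) := by
  have h1 : (fun k => (bmp k).rOut) = fun k : ℕ => (2:ℝ) / ((k:ℝ) + 2) := rfl
  rw [h1]
  have h2 : Tendsto (fun k : ℕ => (k:ℝ) + 2) atTop atTop :=
    tendsto_atTop_add_const_right _ _ tendsto_natCast_atTop_atTop
  exact h2.const_div_atTop 2

theorem ae_tendsto_av {f : ℝ → ℝ} (hf : BP f) :
    ∀ᵐ t ∂(volume : Measure ℝ), Tendsto (fun k => av (rho k) f t) atTop (𝓝 (f t)) := by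
  refine ContDiffBump.ae_convolution_tendsto_right_of_locallyIntegrable (K := 2) rOut_tendsto
    (Eventually.of_forall fun k => ?_) hf.locInt
  show (2:ℝ) / (k + 2) ≤ 2 * (1 / (k + 2))
  rw [mul_one_div]

/-- integral of the derivative of a periodic `C¹` function -/
theorem integral_deriv_periodic {F F' : ℝ → ℝ} (hF : ∀ t, HasDerivAt F (F' t) t)
    (hF' : Continuous F') (hper : Function.Periodic F 1) : ∫ t in (0:ℝ)..1, F' t = 0 := by
  rw [intervalIntegral.integral_eq_sub_of_hasDerivAt (fun t _ => hF t)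
    (hF'.intervalIntegrable _ _)]
  have := hper 0
  rw [zero_add] at this
  rw [this, sub_self]

theorem step_id {χ T s : ℝ → ℝ} (hs : BP s) (hχ : ContDiff ℝ 1 χ) (hχp : Function.Periodic χ 1)
    (hT : Continuous T) (k : ℕ) :
    ∫ t in (0:ℝ)..1, χ t * T (av (rho k) s t) * av (deriv (rho k)) s t =
      - ∫ t in (0:ℝ)..1, deriv χ t * (∫ σ in (0:ℝ)..(av (rho k) s t), T σ) := by
  have hsd : ∀ t, HasDerivAt (av (rho k) s) (av (deriv (rho k)) s t) t :=
    av_hasDerivAt (rho_contDiff k) (rho_compact k) hs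
  have hcd : ContDiff ℝ 1 (av (rho k) s) := av_contDiff (n := 1) (rho_contDiff k) (rho_compact k) hs
  have hd1 : Continuous (av (deriv (rho k)) s) := by
    have : deriv (av (rho k) s) = av (deriv (rho k)) s := by
      ext t; exact (hsd t).deriv
    rw [← this]
    exact hcd.continuous_deriv le_rfl
  have hG : ∀ x, HasDerivAt (fun x => ∫ σ in (0:ℝ)..x, T σ) (T x) x := fun x =>
    intervalIntegral.integral_hasDerivAt_right (hT.intervalIntegrable _ _)
      hT.stronglyMeasurable.stronglyMeasurableAtFilter hT.continuousAt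
  have hGc : Continuous (fun x => ∫ σ in (0:ℝ)..x, T σ) :=
    continuous_iff_continuousAt.2 fun x => (hG x).continuousAt
  have hχd : ∀ t, HasDerivAt χ (deriv χ t) t := fun t =>
    (hχ.differentiable one_ne_zero t).hasDerivAt
  have hprod : ∀ t, HasDerivAt (fun t => χ t * (∫ σ in (0:ℝ)..(av (rho k) s t), T σ))
      (deriv χ t * (∫ σ in (0:ℝ)..(av (rho k) s t), T σ)
        + χ t * (T (av (rho k) s t) * av (deriv (rho k)) s t)) t := fun t =>
    (hχd t).mul ((hG _).comp t (hsd t))
  have hcont1 : Continuous fun t => deriv χ t * (∫ σ in (0:ℝ)..(av (rho k) s t), T σ) :=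
    (hχ.continuous_deriv le_rfl).mul (hGc.comp hcd.continuous)
  have hcont2 : Continuous fun t => χ t * (T (av (rho k) s t) * av (deriv (rho k)) s t) :=
    hχ.continuous.mul ((hT.comp hcd.continuous).mul hd1)
  have h0 := integral_deriv_periodic hprod (hcont1.add hcont2) (fun t => by
    simp only [hχp t, av_periodic hs t])
  rw [intervalIntegral.integral_add (hcont1.intervalIntegrable _ _)
    (hcont2.intervalIntegrable _ _)] at h0
  have h1 : ∫ t in (0:ℝ)..1, χ t * T (av (rho k) s t) * av (deriv (rho k)) s t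
      = ∫ t in (0:ℝ)..1, χ t * (T (av (rho k) s t) * av (deriv (rho k)) s t) := by
    congr 1; ext t; ring
  rw [h1]; linarith

/-- the hypothesis delivered by dual slicing -/
def DualIneq (s l : ℝ → ℝ) (P : ℝ) : Prop :=
  ∀ a b : ℝ → ℝ, ContDiff ℝ 1 a → ContDiff ℝ 1 b → Function.Periodic a 1 →
    Function.Periodic b 1 → (∀ t, 0 ≤ a t) → (∀ t, a t ^ 2 + b t ^ 2 ≤ 1) →
    (∫ t in (0:ℝ)..1, a t * l t) + (∫ t in (0:ℝ)..1, deriv b t * s t) ≤ P

theorem key_bound {s l : ℝ → ℝ} (hs : BP s) (hl : BP l) {P : ℝ} (H : DualIneq s l P)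
    {χ₁ χ₂ T₁ T₂ : ℝ → ℝ} (hχ₁ : ContDiff ℝ 1 χ₁) (hχ₂ : ContDiff ℝ 1 χ₂)
    (hp₁ : Function.Periodic χ₁ 1) (hp₂ : Function.Periodic χ₂ 1)
    (hχ : ∀ t, |χ₁ t| + |χ₂ t| ≤ 1) (hT₁ : Continuous T₁) (hT₂ : Continuous T₂)
    (hT₁b : ∀ σ, |T₁ σ| ≤ 1) (hT₂b : ∀ σ, |T₂ σ| ≤ 1) :
    (∫ t in (0:ℝ)..1, Real.sqrt (1 - (χ₁ t * T₁ (s t) + χ₂ t * T₂ (s t)) ^ 2) * l t)
      + (∫ t in (0:ℝ)..1, (deriv χ₁ t * (∫ σ in (0:ℝ)..(s t), T₁ σ)
          + deriv χ₂ t * (∫ σ in (0:ℝ)..(s t), T₂ σ))) ≤ P := by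
  -- notation
  set S : ℕ → ℝ → ℝ := fun k => av (rho k) s with hS
  have hScd : ∀ k, ContDiff ℝ 1 (S k) := fun k =>
    av_contDiff (n := 1) (rho_contDiff k) (rho_compact k) hs
  have hSper : ∀ k, Function.Periodic (S k) 1 := fun k => av_periodic hs
  set B : ℕ → ℝ → ℝ := fun k t => χ₁ t * T₁ (S k t) + χ₂ t * T₂ (S k t) with hB
  have hBc : ∀ k, Continuous (B k) := fun k =>
    (hχ₁.continuous.mul (hT₁.comp (hScd k).continuous)).add
      (hχ₂.continuous.mul (hT₂.comp (hScd k).continuous))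
  have hBper : ∀ k, Function.Periodic (B k) 1 := fun k t => by
    simp only [hB, hp₁ t, hp₂ t, hSper k t]
  have hBle : ∀ (x : ℝ) t, |χ₁ t * T₁ x + χ₂ t * T₂ x| ≤ 1 := fun x t => by
    calc |χ₁ t * T₁ x + χ₂ t * T₂ x| ≤ |χ₁ t * T₁ x| + |χ₂ t * T₂ x| := abs_add_le _ _
      _ = |χ₁ t| * |T₁ x| + |χ₂ t| * |T₂ x| := by rw [abs_mul, abs_mul]
      _ ≤ |χ₁ t| * 1 + |χ₂ t| * 1 := by
        gcongr
        · exact hT₁b x
        · exact hT₂b x
      _ ≤ 1 := by rw [mul_one, mul_one]; exact hχ t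
  set A : ℕ → ℝ → ℝ := fun k t => Real.sqrt (1 - B k t ^ 2) with hA
  have hAc : ∀ k, Continuous (A k) := fun k =>
    (continuous_const.sub ((hBc k).pow 2)).sqrt
  have hAper : ∀ k, Function.Periodic (A k) 1 := fun k t => by
    simp only [hA, hBper k t]
  have hA0 : ∀ k t, 0 ≤ A k t := fun k t => Real.sqrt_nonneg _
  have hAB : ∀ k t, A k t ^ 2 + B k t ^ 2 ≤ 1 := fun k t => by
    have h1 : B k t ^ 2 ≤ 1 := by
      have := hBle (S k t) t
      rw [← sq_abs]
      have h0 := abs_nonneg (B k t)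
      have h2 : |B k t| ≤ 1 := this
      nlinarith
    have h2 : A k t ^ 2 = 1 - B k t ^ 2 := Real.sq_sqrt (by linarith)
    linarith
  have hABP : ∀ k, BP (A k) := fun k => BP.of_continuous (hAc k) (hAper k)
  have hBBP : ∀ k, BP (B k) := fun k => BP.of_continuous (hBc k) (hBper k)
  have hrc : ∀ k, Continuous (rho k) := fun k => (rho_contDiff k (n := 0)).continuous
  -- the bound for every k
  have hk : ∀ k, (∫ t in (0:ℝ)..1, A k t * av (rho k) l t)
      + (∫ t in (0:ℝ)..1, (deriv χ₁ t * (∫ σ in (0:ℝ)..(S k t), T₁ σ)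
          + deriv χ₂ t * (∫ σ in (0:ℝ)..(S k t), T₂ σ))) ≤ P := by
    intro k
    have h1 := H (av (rho k) (A k)) (av (rho k) (B k))
      (av_contDiff (n := 1) (rho_contDiff k) (rho_compact k) (hABP k))
      (av_contDiff (n := 1) (rho_contDiff k) (rho_compact k) (hBBP k))
      (av_periodic (hABP k)) (av_periodic (hBBP k))
      (fun t => le_av (hrc k) (rho_compact k) (rho_nonneg k) (rho_int k) (hABP k) (hA0 k) t)
      (fun t => av_sq_add_sq (hrc k) (rho_compact k) (rho_nonneg k) (rho_int k) (hABP k)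
        (hBBP k) (hAB k) t)
    have h2 : ∫ t in (0:ℝ)..1, av (rho k) (A k) t * l t
        = ∫ t in (0:ℝ)..1, A k t * av (rho k) l t := by
      rw [av_adjoint (hrc k) (rho_compact k) (hABP k) hl, rho_even_fun]
    have hdc : Continuous (deriv (rho k)) :=
      (rho_contDiff k (n := 1)).continuous_deriv le_rfl
    have hds : HasCompactSupport (deriv (rho k)) := (rho_compact k).deriv
    have h3 : ∫ t in (0:ℝ)..1, deriv (av (rho k) (B k)) t * s t
        = ∫ t in (0:ℝ)..1, (deriv χ₁ t * (∫ σ in (0:ℝ)..(S k t), T₁ σ)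
          + deriv χ₂ t * (∫ σ in (0:ℝ)..(S k t), T₂ σ)) := by
      have e1 : ∀ t, deriv (av (rho k) (B k)) t = av (deriv (rho k)) (B k) t := fun t =>
        (av_hasDerivAt (rho_contDiff k) (rho_compact k) (hBBP k) t).deriv
      simp_rw [e1]
      rw [av_adjoint hdc hds (hBBP k) hs, deriv_rho_odd]
      have e2 : ∀ t, av (fun u => -deriv (rho k) u) s t = - av (deriv (rho k)) s t := fun t => by
        rw [av_apply, av_apply, ← integral_neg]
        congr 1; ext u; ring
      simp_rw [e2]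
      have e3 := step_id hs hχ₁ hp₁ hT₁ k
      have e4 := step_id hs hχ₂ hp₂ hT₂ k
      have hd1 : Continuous (av (deriv (rho k)) s) := by
        have h9 : ContDiff ℝ 0 (av (deriv (rho k)) s) := by
          have := av_contDiff (n := 0) (κ := deriv (rho k)) (f := s)
            (by exact_mod_cast contDiff_zero.2 hdc) hds hs
          exact_mod_cast this
        exact h9.continuous
      have hG : ∀ (T : ℝ → ℝ), Continuous T → Continuous (fun x => ∫ σ in (0:ℝ)..x, T σ) :=
        fun T hT => intervalIntegral.continuous_primitive (fun a b => hT.intervalIntegrable a b) 0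
      have c1 : Continuous fun t => χ₁ t * T₁ (av (rho k) s t) * av (deriv (rho k)) s t :=
        (hχ₁.continuous.mul (hT₁.comp (hScd k).continuous)).mul hd1
      have c2 : Continuous fun t => χ₂ t * T₂ (av (rho k) s t) * av (deriv (rho k)) s t :=
        (hχ₂.continuous.mul (hT₂.comp (hScd k).continuous)).mul hd1
      have c3 : Continuous fun t => deriv χ₁ t * (∫ σ in (0:ℝ)..(S k t), T₁ σ) :=
        (hχ₁.continuous_deriv le_rfl).mul ((hG T₁ hT₁).comp (hScd k).continuous)
      have c4 : Continuous fun t => deriv χ₂ t * (∫ σ in (0:ℝ)..(S k t), T₂ σ) :=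
        (hχ₂.continuous_deriv le_rfl).mul ((hG T₂ hT₂).comp (hScd k).continuous)
      rw [intervalIntegral.integral_add (c3.intervalIntegrable _ _) (c4.intervalIntegrable _ _)]
      have e5 : ∫ t in (0:ℝ)..1, B k t * -av (deriv (rho k)) s t
          = -((∫ t in (0:ℝ)..1, χ₁ t * T₁ (av (rho k) s t) * av (deriv (rho k)) s t)
            + ∫ t in (0:ℝ)..1, χ₂ t * T₂ (av (rho k) s t) * av (deriv (rho k)) s t) := by
        rw [← intervalIntegral.integral_add (c1.intervalIntegrable _ _)
          (c2.intervalIntegrable _ _), ← intervalIntegral.integral_neg]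
        congr 1; ext t; simp only [hB, hS]; ring
      rw [e5, e3, e4]; ring
    rw [h2, h3] at h1
    exact h1
  -- pass to the limit
  obtain ⟨C, hC⟩ := hl.bdd
  obtain ⟨D, hD⟩ := hs.bdd
  have hlae := ae_tendsto_av hl
  have hsae := ae_tendsto_av hs
  have hGc : ∀ (T : ℝ → ℝ), Continuous T → Continuous (fun x => ∫ σ in (0:ℝ)..x, T σ) :=
    fun T hT => intervalIntegral.continuous_primitive (fun a b => hT.intervalIntegrable a b) 0
  have avb : ∀ (f : ℝ → ℝ) (E : ℝ), BP f → (∀ t, |f t| ≤ E) → ∀ k t, |av (rho k) f t| ≤ E := by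
    intro f E hf hE k t
    rw [abs_le]
    exact ⟨le_av (hrc k) (rho_compact k) (rho_nonneg k) (rho_int k) hf
        (fun t => (abs_le.1 (hE t)).1) t,
      av_le (hrc k) (rho_compact k) (rho_nonneg k) (rho_int k) hf
        (fun t => (abs_le.1 (hE t)).2) t⟩
  have lim1 : Tendsto (fun k => ∫ t in (0:ℝ)..1, A k t * av (rho k) l t) atTop
      (𝓝 (∫ t in (0:ℝ)..1,
        Real.sqrt (1 - (χ₁ t * T₁ (s t) + χ₂ t * T₂ (s t)) ^ 2) * l t)) := by
    refine intervalIntegral.tendsto_integral_filter_of_dominated_convergence (fun _ => 1 * C)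
      (Eventually.of_forall fun k => ?_) (Eventually.of_forall fun k => ?_) ?_ ?_
    · exact ((hAc k).mul (av_contDiff (n := 0) (rho_contDiff k) (rho_compact k)
        hl).continuous).aestronglyMeasurable
    · refine Eventually.of_forall fun t _ => ?_
      rw [Real.norm_eq_abs, abs_mul]
      refine mul_le_mul ?_ (avb l C hl hC k t) (abs_nonneg _) zero_le_one
      rw [abs_of_nonneg (hA0 k t)]
      have := hAB k t
      nlinarith [sq_nonneg (B k t), hA0 k t]
    · exact intervalIntegrable_const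
    · filter_upwards [hlae, hsae] with t h1 h2 _
      have h3 : Tendsto (fun k => B k t) atTop (𝓝 (χ₁ t * T₁ (s t) + χ₂ t * T₂ (s t))) :=
        (tendsto_const_nhds.mul ((hT₁.tendsto _).comp h2)).add
          (tendsto_const_nhds.mul ((hT₂.tendsto _).comp h2))
      exact (((tendsto_const_nhds (x := (1:ℝ))).sub (h3.pow 2)).sqrt).mul h1
  have gb : ∀ (T : ℝ → ℝ), (∀ σ, |T σ| ≤ 1) → ∀ x, |∫ σ in (0:ℝ)..x, T σ| ≤ |x| := by
    intro T hT x
    have := intervalIntegral.norm_integral_le_of_norm_le_const (a := (0:ℝ)) (b := x) (C := 1)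
      (f := T) (fun σ _ => by simpa using hT σ)
    simpa using this
  obtain ⟨E1, hE1⟩ := (BP.of_continuous (hχ₁.continuous_deriv le_rfl) (fun t => by
    have h := deriv_comp_add_const χ₁ 1 t
    rw [← h]; congr 1; ext x; exact hp₁ x)).bdd
  obtain ⟨E2, hE2⟩ := (BP.of_continuous (hχ₂.continuous_deriv le_rfl) (fun t => by
    have h := deriv_comp_add_const χ₂ 1 t
    rw [← h]; congr 1; ext x; exact hp₂ x)).bdd
  have lim2 : Tendsto (fun k => ∫ t in (0:ℝ)..1, (deriv χ₁ t * (∫ σ in (0:ℝ)..(S k t), T₁ σ)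
          + deriv χ₂ t * (∫ σ in (0:ℝ)..(S k t), T₂ σ))) atTop
      (𝓝 (∫ t in (0:ℝ)..1, (deriv χ₁ t * (∫ σ in (0:ℝ)..(s t), T₁ σ)
          + deriv χ₂ t * (∫ σ in (0:ℝ)..(s t), T₂ σ)))) := by
    refine intervalIntegral.tendsto_integral_filter_of_dominated_convergence
      (fun _ => E1 * D + E2 * D)
      (Eventually.of_forall fun k => ?_) (Eventually.of_forall fun k => ?_) ?_ ?_
    · exact (((hχ₁.continuous_deriv le_rfl).mul
        ((hGc T₁ hT₁).comp (hScd k).continuous)).add ((hχ₂.continuous_deriv le_rfl).mul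
        ((hGc T₂ hT₂).comp (hScd k).continuous))).aestronglyMeasurable
    · refine Eventually.of_forall fun t _ => ?_
      rw [Real.norm_eq_abs]
      refine (abs_add_le _ _).trans (add_le_add ?_ ?_)
      · rw [abs_mul]
        exact mul_le_mul (hE1 t) ((gb T₁ hT₁b _).trans (avb s D hs hD k t)) (abs_nonneg _)
          ((abs_nonneg _).trans (hE1 t))
      · rw [abs_mul]
        exact mul_le_mul (hE2 t) ((gb T₂ hT₂b _).trans (avb s D hs hD k t)) (abs_nonneg _)
          ((abs_nonneg _).trans (hE2 t))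
    · exact intervalIntegrable_const
    · filter_upwards [hsae] with t h2 _
      exact (tendsto_const_nhds.mul (((hGc T₁ hT₁).tendsto _).comp h2)).add
        (tendsto_const_nhds.mul (((hGc T₂ hT₂).tendsto _).comp h2))
  exact le_of_tendsto (lim1.add lim2) (Eventually.of_forall hk)

end Crest.Agent.R214.MS
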