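import Crest.Agent.R214.MonoSub

/-!
# R214: monotone substitution, passage to characteristic cut-offs (helper937)
-/

open MeasureTheory Set Filter Topology

namespace Crest.Agent.R214.MS

/-- approximate identity at the left end point -/
theorem approx_left {p q : ℝ} (hpq : p < q) {Φ : ℕ → ℝ → ℝ} (hΦ : ∀ n, ContDiff ℝ 1 (Φ n))
    (hmono : ∀ n, ∀ t ∈ Ioo p q, 0 ≤ deriv (Φ n) t)
    (htot : Tendsto (fun n => Φ n q - Φ n p) atTop (𝓝 1))
    (htail : ∀ δ, 0 < δ → δ < q - p → Tendsto (fun n => Φ n q - Φ n (p + δ)) atTop (𝓝 0))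
    {g : ℝ → ℝ} {C L : ℝ} (hg : Measurable g) (hgC : ∀ t, |g t| ≤ C)
    (hlim : Tendsto g (𝓝[>] p) (𝓝 L)) :
    Tendsto (fun n => ∫ t in p..q, deriv (Φ n) t * g t) atTop (𝓝 L) := by
  have hdc : ∀ n, Continuous (deriv (Φ n)) := fun n => (hΦ n).continuous_deriv le_rfl
  have hint : ∀ n a b, IntervalIntegrable (deriv (Φ n)) volume a b := fun n a b =>
    (hdc n).intervalIntegrable a b
  have hftc : ∀ n a b, ∫ t in a..b, deriv (Φ n) t = Φ n b - Φ n a := fun n a b =>
    intervalIntegral.integral_deriv_eq_sub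
      (fun t _ => (hΦ n).differentiable one_ne_zero t) (hint n a b)
  have hgint : ∀ n a b (c : ℝ), IntervalIntegrable (fun t => deriv (Φ n) t * (g t - c))
      volume a b := by
    intro n a b c
    have h1 := (hint n a b).norm.mul_const (C + |c|)
    refine h1.mono_fun ((hdc n).aestronglyMeasurable.mul
      (hg.sub_const c).aestronglyMeasurable) (Eventually.of_forall fun t => ?_)
    dsimp only
    rw [norm_mul, norm_mul, norm_norm]
    refine mul_le_mul_of_nonneg_left ?_ (norm_nonneg _)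
    have h2 : ‖g t - c‖ ≤ C + |c| := (norm_sub_le _ _).trans (add_le_add (hgC t) le_rfl)
    exact h2.trans (le_abs_self _)
  have hC0 : 0 ≤ C := (abs_nonneg _).trans (hgC 0)
  have hmain : Tendsto (fun n => ∫ t in p..q, deriv (Φ n) t * (g t - L)) atTop (𝓝 0) := by
    rw [Metric.tendsto_atTop]
    intro ε hε
    -- choose δ
    have h1 : ∀ᶠ t in 𝓝[>] p, |g t - L| < ε / 4 := by
      have := (Metric.tendsto_nhds.1 hlim) (ε / 4) (by positivity)
      simpa [Real.dist_eq] using this
    rw [eventually_nhdsWithin_iff, Metric.eventually_nhds_iff] at h1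
    obtain ⟨δ', hδ'0, hδ'⟩ := h1
    set δ := min (δ' / 2) ((q - p) / 2) with hδ
    have hδ0 : 0 < δ := lt_min (by positivity) (by linarith)
    have hδq : δ < q - p := (min_le_right _ _).trans_lt (by linarith)
    have hδδ' : δ < δ' := (min_le_left _ _).trans_lt (by linarith)
    have h2 : ∀ᶠ n in atTop, |Φ n q - Φ n p| < 2 := by
      have := (Metric.tendsto_nhds.1 htot) 1 one_pos
      filter_upwards [this] with n hn
      rw [Real.dist_eq] at hn
      have := abs_lt.1 hn
      rw [abs_lt]; constructor <;> linarith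
    have h3 : ∀ᶠ n in atTop, |Φ n q - Φ n (p + δ)| * (C + |L|) < ε / 4 := by
      have h4 := ((htail δ hδ0 hδq).abs.mul_const (C + |L|))
      rw [abs_zero, zero_mul] at h4
      have := (Metric.tendsto_nhds.1 h4) (ε / 4) (by positivity)
      filter_upwards [this] with n hn
      rw [Real.dist_eq, sub_zero] at hn
      exact (le_abs_self _).trans_lt hn
    obtain ⟨N, hN⟩ := eventually_atTop.1 (h2.and h3)
    refine ⟨N, fun n hn => ?_⟩
    obtain ⟨hn2, hn3⟩ := hN n hn
    rw [Real.dist_eq, sub_zero]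
    have hsplit : ∫ t in p..q, deriv (Φ n) t * (g t - L)
        = (∫ t in p..(p + δ), deriv (Φ n) t * (g t - L))
          + ∫ t in (p + δ)..q, deriv (Φ n) t * (g t - L) :=
      (intervalIntegral.integral_add_adjacent_intervals (hgint n _ _ L) (hgint n _ _ L)).symm
    rw [hsplit]
    have hA : |∫ t in p..(p + δ), deriv (Φ n) t * (g t - L)| ≤ (Φ n (p + δ) - Φ n p) * (ε / 4) := by
      rw [← hftc n, ← intervalIntegral.integral_mul_const, ← Real.norm_eq_abs]
      refine intervalIntegral.norm_integral_le_of_norm_le (by linarith) ?_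
        ((hint n _ _).mul_const _)
      refine Eventually.of_forall fun t ht => ?_
      have ht' : t ∈ Ioo p q := ⟨ht.1, by linarith [ht.2]⟩
      rw [norm_mul, Real.norm_eq_abs, Real.norm_eq_abs, abs_of_nonneg (hmono n t ht')]
      refine mul_le_mul_of_nonneg_left ?_ (hmono n t ht')
      refine (hδ' ?_ ht.1).le
      rw [Real.dist_eq, abs_lt]; constructor <;> linarith [ht.1, ht.2]
    have hB : |∫ t in (p + δ)..q, deriv (Φ n) t * (g t - L)|
        ≤ (Φ n q - Φ n (p + δ)) * (C + |L|) := by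
      rw [← hftc n, ← intervalIntegral.integral_mul_const, ← Real.norm_eq_abs]
      refine intervalIntegral.norm_integral_le_of_norm_le (by linarith) ?_
        ((hint n _ _).mul_const _)
      have hne : ∀ᵐ t : ℝ, t ≠ q := by
        have : (volume : Measure ℝ) {q} = 0 := by simp
        exact compl_mem_ae_iff.2 this
      filter_upwards [hne] with t htq ht
      have ht' : t ∈ Ioo p q := ⟨by linarith [ht.1], lt_of_le_of_ne ht.2 htq⟩
      rw [norm_mul, Real.norm_eq_abs, Real.norm_eq_abs, abs_of_nonneg (hmono n t ht')]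
      refine mul_le_mul_of_nonneg_left ?_ (hmono n t ht')
      exact (abs_sub _ _).trans (add_le_add (hgC t) le_rfl)
    have hmon1 : 0 ≤ Φ n q - Φ n (p + δ) := by
      rw [← hftc n]
      refine intervalIntegral.integral_nonneg_of_ae_restrict (by linarith) ?_
      have hne : ∀ᵐ t : ℝ ∂(volume.restrict (Icc (p + δ) q)), t ≠ q := by
        have : (volume : Measure ℝ) {q} = 0 := by simp
        exact ae_restrict_of_ae (compl_mem_ae_iff.2 this)
      filter_upwards [hne, ae_restrict_mem measurableSet_Icc] with t htq ht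
      exact hmono n t ⟨by linarith [ht.1], lt_of_le_of_ne ht.2 htq⟩
    have hle : Φ n (p + δ) - Φ n p ≤ 2 := by
      have := abs_lt.1 hn2
      linarith
    have h5 : (Φ n (p + δ) - Φ n p) * (ε / 4) ≤ 2 * (ε / 4) :=
      mul_le_mul_of_nonneg_right hle (by positivity)
    have h6 : (Φ n q - Φ n (p + δ)) * (C + |L|) < ε / 4 := by
      rwa [abs_of_nonneg hmon1] at hn3
    calc |(∫ t in p..(p + δ), deriv (Φ n) t * (g t - L))
          + ∫ t in (p + δ)..q, deriv (Φ n) t * (g t - L)|
        ≤ _ := abs_add_le _ _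
      _ < ε := by linarith
  have hsum : ∀ n, ∫ t in p..q, deriv (Φ n) t * g t
      = (∫ t in p..q, deriv (Φ n) t * (g t - L)) + (Φ n q - Φ n p) * L := by
    intro n
    rw [← hftc n, ← intervalIntegral.integral_mul_const,
      ← intervalIntegral.integral_add (hgint n _ _ L) ((hint n _ _).mul_const L)]
    congr 1; ext t; ring
  simp_rw [hsum]
  have := hmain.add (htot.mul_const L)
  simpa using this


noncomputable def chi (n : ℕ) (t : ℝ) : ℝ :=
  2 / Real.pi * Real.arctan (n * Real.sin (2 * Real.pi * t))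

noncomputable def theta (h : ℝ) (m : ℕ) (t : ℝ) : ℝ :=
  Real.smoothTransition (m * (Real.cos (2 * Real.pi * t) - Real.cos (2 * Real.pi * h)) + 1)

theorem chi_contDiff (n : ℕ) : ContDiff ℝ 1 (chi n) := by
  unfold chi
  exact contDiff_const.mul ((contDiff_const.mul
    (Real.contDiff_sin.comp (contDiff_const.mul contDiff_id))).arctan)

theorem theta_contDiff (h : ℝ) (m : ℕ) : ContDiff ℝ 1 (theta h m) := by
  unfold theta
  have h1 : ContDiff ℝ 1 (fun t : ℝ =>
      (m * (Real.cos (2 * Real.pi * t) - Real.cos (2 * Real.pi * h)) + 1 : ℝ)) :=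
    (contDiff_const.mul ((Real.contDiff_cos.comp (contDiff_const.mul contDiff_id)).sub
      contDiff_const)).add contDiff_const
  exact (Real.smoothTransition.contDiff (n := 1)).comp h1

theorem chi_per (n : ℕ) : Function.Periodic (chi n) 1 := fun t => by
  unfold chi
  rw [show 2 * Real.pi * (t + 1) = 2 * Real.pi * t + 2 * Real.pi by ring, Real.sin_add_two_pi]

theorem theta_per (h : ℝ) (m : ℕ) : Function.Periodic (theta h m) 1 := fun t => by
  unfold theta
  rw [show 2 * Real.pi * (t + 1) = 2 * Real.pi * t + 2 * Real.pi by ring, Real.cos_add_two_pi]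

theorem chi_odd (n : ℕ) (t : ℝ) : chi n (-t) = -chi n t := by
  unfold chi
  rw [show 2 * Real.pi * (-t) = -(2 * Real.pi * t) by ring, Real.sin_neg, mul_neg,
    Real.arctan_neg, mul_neg]

theorem theta_even (h : ℝ) (m : ℕ) (t : ℝ) : theta h m (-t) = theta h m t := by
  unfold theta
  rw [show 2 * Real.pi * (-t) = -(2 * Real.pi * t) by ring, Real.cos_neg]

theorem chi_refl (n : ℕ) (t : ℝ) : chi n (1 / 2 - t) = chi n t := by
  unfold chi
  rw [show 2 * Real.pi * (1 / 2 - t) = Real.pi - 2 * Real.pi * t by ring, Real.sin_pi_sub]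

theorem abs_chi_le (n : ℕ) (t : ℝ) : |chi n t| ≤ 1 := by
  unfold chi
  have hp := Real.pi_pos
  rw [abs_mul, abs_of_pos (by positivity : 0 < 2 / Real.pi)]
  have h1 : |Real.arctan (n * Real.sin (2 * Real.pi * t))| ≤ Real.pi / 2 := by
    rw [abs_le]
    exact ⟨(Real.neg_pi_div_two_lt_arctan _).le, (Real.arctan_lt_pi_div_two _).le⟩
  calc 2 / Real.pi * |Real.arctan (n * Real.sin (2 * Real.pi * t))|
      ≤ 2 / Real.pi * (Real.pi / 2) := by gcongr
    _ = 1 := by field_simp

theorem theta_nonneg (h : ℝ) (m : ℕ) (t : ℝ) : 0 ≤ theta h m t := Real.smoothTransition.nonneg _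

theorem theta_le_one (h : ℝ) (m : ℕ) (t : ℝ) : theta h m t ≤ 1 := Real.smoothTransition.le_one _

theorem chi_tendsto {t : ℝ} (ht0 : 0 < t) (ht1 : t < 1 / 2) :
    Tendsto (fun n => chi n t) atTop (𝓝 1) := by
  have hp := Real.pi_pos
  have hs : 0 < Real.sin (2 * Real.pi * t) := by
    apply Real.sin_pos_of_pos_of_lt_pi
    · positivity
    · nlinarith
  have h1 : Tendsto (fun n : ℕ => (n : ℝ) * Real.sin (2 * Real.pi * t)) atTop atTop :=
    tendsto_natCast_atTop_atTop.atTop_mul_const hs
  have h2 : Tendsto (fun n : ℕ => Real.arctan ((n : ℝ) * Real.sin (2 * Real.pi * t))) atTop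
      (𝓝 (Real.pi / 2)) := (tendsto_nhds_of_tendsto_nhdsWithin Real.tendsto_arctan_atTop).comp h1
  have h3 := h2.const_mul (2 / Real.pi)
  rw [show 2 / Real.pi * (Real.pi / 2) = 1 by field_simp] at h3
  exact h3

theorem chi_zero (n : ℕ) : chi n 0 = 0 := by simp [chi]

theorem chi_deriv_nonneg (n : ℕ) {t : ℝ} (ht0 : 0 ≤ t) (ht1 : t ≤ 1 / 4) :
    0 ≤ deriv (chi n) t := by
  have hp := Real.pi_pos
  have h1 : HasDerivAt (fun t : ℝ => 2 * Real.pi * t) (2 * Real.pi) t := by
    simpa using (hasDerivAt_id t).const_mul (2 * Real.pi)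
  have h2 := ((h1.sin.const_mul (n : ℝ)).arctan).const_mul (2 / Real.pi)
  have h3 : HasDerivAt (chi n) _ t := h2
  rw [h3.deriv]
  have hc : 0 ≤ Real.cos (2 * Real.pi * t) := by
    apply Real.cos_nonneg_of_neg_pi_div_two_le_of_le
    · have : 0 ≤ 2 * Real.pi * t := by positivity
      linarith
    · nlinarith
  positivity

theorem theta_eq_one {h t : ℝ} (m : ℕ)
    (ht : Real.cos (2 * Real.pi * h) ≤ Real.cos (2 * Real.pi * t)) : theta h m t = 1 := by
  unfold theta
  apply Real.smoothTransition.one_of_one_le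
  have : 0 ≤ (m : ℝ) * (Real.cos (2 * Real.pi * t) - Real.cos (2 * Real.pi * h)) :=
    mul_nonneg (Nat.cast_nonneg _) (by linarith)
  linarith

theorem theta_eventually_zero {h t : ℝ}
    (ht : Real.cos (2 * Real.pi * t) < Real.cos (2 * Real.pi * h)) :
    ∀ᶠ m in atTop, theta h m t = 0 := by
  have h1 : Tendsto (fun m : ℕ => (m : ℝ) *
      (Real.cos (2 * Real.pi * h) - Real.cos (2 * Real.pi * t))) atTop atTop :=
    tendsto_natCast_atTop_atTop.atTop_mul_const (by linarith)
  filter_upwards [h1.eventually_ge_atTop 1] with m hm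
  unfold theta
  apply Real.smoothTransition.zero_of_nonpos
  nlinarith

theorem cos_lt_cos_iff' {h t : ℝ} (hh0 : 0 ≤ h) (ht1 : t ≤ 1 / 2) (hht : h < t) :
    Real.cos (2 * Real.pi * t) < Real.cos (2 * Real.pi * h) := by
  have hp := Real.pi_pos
  apply Real.cos_lt_cos_of_nonneg_of_le_pi
  · positivity
  · nlinarith
  · nlinarith

theorem theta_deriv_nonpos (h : ℝ) (m : ℕ) {t : ℝ} (ht0 : 0 < t) (ht1 : t < 1 / 2) :
    deriv (theta h m) t ≤ 0 := by
  have hp := Real.pi_pos
  have hd : HasDerivAt (theta h m) (deriv (theta h m) t) t :=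
    ((theta_contDiff h m).differentiable one_ne_zero t).hasDerivAt
  by_contra hcon
  rw [not_le] at hcon
  have h1 := hd.tendsto_slope
  have h2 : ∀ᶠ x in 𝓝[≠] t, 0 < slope (theta h m) t x := h1.eventually (lt_mem_nhds hcon)
  have h3 : ∀ᶠ x in 𝓝[>] t, 0 < slope (theta h m) t x :=
    h2.filter_mono (nhdsWithin_mono _ (fun x hx => ne_of_gt hx))
  have h4 : ∀ᶠ x in 𝓝[>] t, x < 1 / 2 := by
    filter_upwards [Ioo_mem_nhdsGT ht1] with x hx using hx.2
  obtain ⟨x, ⟨hx1, hx2⟩, hx3⟩ := ((h3.and h4).and self_mem_nhdsWithin).exists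
  have hx3' : t < x := hx3
  have h5 : theta h m x ≤ theta h m t := by
    unfold theta
    apply Real.smoothTransition.monotone
    have := (cos_lt_cos_iff' ht0.le hx2.le hx3').le
    have hm : (0:ℝ) ≤ m := Nat.cast_nonneg _
    nlinarith
  rw [slope_def_field] at hx1
  have h6 : 0 < x - t := by linarith
  have h7 : (theta h m x - theta h m t) / (x - t) ≤ 0 :=
    div_nonpos_of_nonpos_of_nonneg (by linarith) h6.le
  linarith


theorem half_int {F : ℝ → ℝ} (hF : IntervalIntegrable F volume 0 1) (hper : Function.Periodic F 1)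
    (heven : ∀ t, F (-t) = F t) : ∫ t in (0:ℝ)..1, F t = 2 * ∫ t in (0:ℝ)..(1 / 2), F t := by
  have h1 : IntervalIntegrable F volume 0 (1 / 2) := hF.mono_set (by
    rw [uIcc_of_le (by norm_num), uIcc_of_le (by norm_num)]
    exact Icc_subset_Icc le_rfl (by norm_num))
  have h2 : IntervalIntegrable F volume (1 / 2) 1 := hF.mono_set (by
    rw [uIcc_of_le (by norm_num), uIcc_of_le (by norm_num)]
    exact Icc_subset_Icc (by norm_num) le_rfl)
  rw [← intervalIntegral.integral_add_adjacent_intervals h1 h2]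
  have h3 := intervalIntegral.integral_comp_sub_left (a := (0:ℝ)) (b := 1 / 2) F 1
  have h4 : ∀ t, F (1 - t) = F t := fun t => by
    rw [show (1:ℝ) - t = -t + 1 by ring, hper, heven]
  simp_rw [h4] at h3
  rw [h3]
  norm_num
  ring

theorem lim_chi {ψ g : ℝ → ℝ} (hψ : ContDiff ℝ 1 ψ) (hψb : ∀ t, |ψ t| ≤ 1) (hg : Measurable g)
    {C : ℝ} (hgC : ∀ t, |g t| ≤ C) {gA gB : ℝ} (hA : Tendsto g (𝓝[>] 0) (𝓝 gA))
    (hB : Tendsto g (𝓝[<] (1 / 2)) (𝓝 gB)) :
    Tendsto (fun n => ∫ t in (0:ℝ)..(1 / 2), deriv (fun t => chi n t * ψ t) t * g t) atTop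
      (𝓝 (ψ 0 * gA - ψ (1 / 2) * gB + ∫ t in (0:ℝ)..(1 / 2), deriv ψ t * g t)) := by
  have hC0 : 0 ≤ C := (abs_nonneg _).trans (hgC 0)
  have hψm : Measurable ψ := hψ.continuous.measurable
  have hψg : ∀ t, |ψ t * g t| ≤ C := fun t => by
    rw [abs_mul]
    calc |ψ t| * |g t| ≤ 1 * C := mul_le_mul (hψb t) (hgC t) (abs_nonneg _) zero_le_one
      _ = C := one_mul C
  have hdc : ∀ n, Continuous (deriv (chi n)) := fun n => (chi_contDiff n).continuous_deriv le_rfl
  have hdψ : Continuous (deriv ψ) := hψ.continuous_deriv le_rfl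
  have hbint : ∀ (k f : ℝ → ℝ), Continuous k → Measurable f → (∀ t, |f t| ≤ C) → ∀ a b : ℝ,
      IntervalIntegrable (fun t => k t * f t) volume a b := by
    intro k f hk hf hfC a b
    have h1 := (hk.intervalIntegrable (μ := volume) a b).norm.mul_const C
    refine h1.mono_fun (hk.aestronglyMeasurable.mul hf.aestronglyMeasurable)
      (Eventually.of_forall fun t => ?_)
    dsimp only
    rw [norm_mul, norm_mul, norm_norm, Real.norm_eq_abs C, abs_of_nonneg hC0]
    exact mul_le_mul_of_nonneg_left (hfC t) (norm_nonneg _)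
  have hder : ∀ n t, deriv (fun t => chi n t * ψ t) t = deriv (chi n) t * ψ t + chi n t * deriv ψ t :=
    fun n t => ((((chi_contDiff n).differentiable one_ne_zero t).hasDerivAt).mul
      ((hψ.differentiable one_ne_zero t).hasDerivAt)).deriv
  have hq : Tendsto (fun n => chi n (1 / 4)) atTop (𝓝 1) := chi_tendsto (by norm_num) (by norm_num)
  have hap : ∀ (f : ℝ → ℝ) (L : ℝ), Measurable f → (∀ t, |f t| ≤ C) →
      Tendsto f (𝓝[>] 0) (𝓝 L) →
      Tendsto (fun n => ∫ t in (0:ℝ)..(1 / 4), deriv (chi n) t * f t) atTop (𝓝 L) := by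
    intro f L hf hfC hL
    refine approx_left (by norm_num) chi_contDiff
      (fun n t ht => chi_deriv_nonneg n ht.1.le ht.2.le) ?_ ?_ hf hfC hL
    · simpa [chi_zero] using hq
    · intro δ hδ0 hδ1
      have h1 : Tendsto (fun n => chi n (0 + δ)) atTop (𝓝 1) :=
        chi_tendsto (by linarith) (by linarith)
      simpa using hq.sub h1
  -- first piece
  have t1 : Tendsto (fun n => ∫ t in (0:ℝ)..(1 / 4), deriv (chi n) t * (ψ t * g t)) atTop
      (𝓝 (ψ 0 * gA)) := by
    refine hap _ _ (hψm.mul hg) hψg ?_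
    have h1 : Tendsto ψ (𝓝[>] 0) (𝓝 (ψ 0)) := hψ.continuous.continuousAt.mono_left
      nhdsWithin_le_nhds
    exact h1.mul hA
  -- second piece
  have t2 : Tendsto (fun n => ∫ t in (1 / 4:ℝ)..(1 / 2), deriv (chi n) t * (ψ t * g t)) atTop
      (𝓝 (-(ψ (1 / 2) * gB))) := by
    have e1 : ∀ n, ∫ t in (1 / 4:ℝ)..(1 / 2), deriv (chi n) t * (ψ t * g t)
        = -∫ t in (0:ℝ)..(1 / 4), deriv (chi n) t * (ψ (1 / 2 - t) * g (1 / 2 - t)) := by
      intro n
      have h3 := intervalIntegral.integral_comp_sub_left (a := (0:ℝ)) (b := 1 / 4)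
        (fun t => deriv (chi n) t * (ψ t * g t)) (1 / 2)
      have h4 : ∀ t, deriv (chi n) (1 / 2 - t) = -deriv (chi n) t := by
        intro t
        have h5 := deriv_comp_const_sub (chi n) (1 / 2) t
        have h6 : (fun x => chi n (1 / 2 - x)) = chi n := by
          ext x; exact chi_refl n x
        rw [h6] at h5
        linarith
      simp_rw [h4] at h3
      norm_num at h3 ⊢
      rw [← h3]
    simp_rw [e1]
    refine Tendsto.neg (hap _ _ ((hψm.comp (measurable_const.sub measurable_id)).mul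
      (hg.comp (measurable_const.sub measurable_id))) (fun t => hψg _) ?_)
    have h1 : Tendsto (fun t : ℝ => 1 / 2 - t) (𝓝[>] 0) (𝓝[<] (1 / 2)) := by
      refine tendsto_nhdsWithin_iff.2 ⟨?_, ?_⟩
      · have : Tendsto (fun t : ℝ => 1 / 2 - t) (𝓝 0) (𝓝 (1 / 2 - 0)) :=
          tendsto_const_nhds.sub tendsto_id
        rw [sub_zero] at this
        exact this.mono_left nhdsWithin_le_nhds
      · filter_upwards [self_mem_nhdsWithin] with t ht
        have : (0:ℝ) < t := ht
        show 1 / 2 - t < 1 / 2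
        linarith
    have h2 : Tendsto (fun t => ψ (1 / 2 - t)) (𝓝[>] 0) (𝓝 (ψ (1 / 2))) :=
      (hψ.continuous.continuousAt.mono_left nhdsWithin_le_nhds).comp h1
    exact h2.mul (hB.comp h1)
  -- third piece
  have t3 : Tendsto (fun n => ∫ t in (0:ℝ)..(1 / 2), chi n t * (deriv ψ t * g t)) atTop
      (𝓝 (∫ t in (0:ℝ)..(1 / 2), deriv ψ t * g t)) := by
    refine intervalIntegral.tendsto_integral_filter_of_dominated_convergence
      (fun t => |deriv ψ t| * C) (Eventually.of_forall fun n => ?_)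
      (Eventually.of_forall fun n => ?_) ?_ ?_
    · exact (chi_contDiff n).continuous.aestronglyMeasurable.mul
        (hdψ.aestronglyMeasurable.mul hg.aestronglyMeasurable)
    · refine Eventually.of_forall fun t _ => ?_
      rw [norm_mul, norm_mul, Real.norm_eq_abs, Real.norm_eq_abs, Real.norm_eq_abs]
      calc |chi n t| * (|deriv ψ t| * |g t|) ≤ 1 * (|deriv ψ t| * C) :=
            mul_le_mul (abs_chi_le n t) (mul_le_mul_of_nonneg_left (hgC t) (abs_nonneg _))
              (by positivity) zero_le_one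
        _ = _ := one_mul _
    · exact (hdψ.abs.intervalIntegrable _ _).mul_const C
    · have hne : ∀ᵐ t : ℝ, t ≠ 1 / 2 := by
        have : (volume : Measure ℝ) {(1 / 2 : ℝ)} = 0 := by simp
        exact compl_mem_ae_iff.2 this
      filter_upwards [hne] with t htq ht
      rw [uIoc_of_le (by norm_num)] at ht
      have := (chi_tendsto ht.1 (lt_of_le_of_ne ht.2 htq)).mul_const (deriv ψ t * g t)
      simpa using this
  have hsum : ∀ n, ∫ t in (0:ℝ)..(1 / 2), deriv (fun t => chi n t * ψ t) t * g t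
      = (∫ t in (0:ℝ)..(1 / 4), deriv (chi n) t * (ψ t * g t))
        + (∫ t in (1 / 4:ℝ)..(1 / 2), deriv (chi n) t * (ψ t * g t))
        + ∫ t in (0:ℝ)..(1 / 2), chi n t * (deriv ψ t * g t) := by
    intro n
    have i1 : ∀ a b : ℝ, IntervalIntegrable (fun t => deriv (chi n) t * (ψ t * g t)) volume a b :=
      hbint _ _ (hdc n) (hψm.mul hg) hψg
    have i2 : IntervalIntegrable (fun t => chi n t * (deriv ψ t * g t)) volume 0 (1 / 2) := by
      have := hbint (fun t => chi n t * deriv ψ t) g ((chi_contDiff n).continuous.mul hdψ) hg hgC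
        0 (1 / 2)
      refine this.congr ?_
      exact fun t _ => by ring
    rw [intervalIntegral.integral_add_adjacent_intervals (i1 _ _) (i1 _ _),
      ← intervalIntegral.integral_add (i1 _ _) i2]
    refine intervalIntegral.integral_congr fun t _ => ?_
    simp only [hder]
    ring
  simp_rw [hsum]
  have := (t1.add t2).add t3
  rw [← sub_eq_add_neg] at this
  exact this


theorem lim_theta {h : ℝ} (hh0 : 0 < h) (hh1 : h < 1 / 2) {g : ℝ → ℝ} (hg : Measurable g)
    {C : ℝ} (hgC : ∀ t, |g t| ≤ C) {gσ : ℝ} (hσ : Tendsto g (𝓝[>] h) (𝓝 gσ)) :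
    Tendsto (fun m => ∫ t in (0:ℝ)..(1 / 2), deriv (theta h m) t * g t) atTop (𝓝 (-gσ)) := by
  have hC0 : 0 ≤ C := (abs_nonneg _).trans (hgC 0)
  have hdc : ∀ m, Continuous (deriv (theta h m)) := fun m =>
    (theta_contDiff h m).continuous_deriv le_rfl
  have hbint : ∀ m (a b : ℝ), IntervalIntegrable (fun t => deriv (theta h m) t * g t) volume a b := by
    intro m a b
    have h1 := ((hdc m).intervalIntegrable (μ := volume) a b).norm.mul_const C
    refine h1.mono_fun ((hdc m).aestronglyMeasurable.mul hg.aestronglyMeasurable)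
      (Eventually.of_forall fun t => ?_)
    dsimp only
    rw [norm_mul, norm_mul, norm_norm, Real.norm_eq_abs C, abs_of_nonneg hC0]
    exact mul_le_mul_of_nonneg_left (hgC t) (norm_nonneg _)
  have hzero : ∀ m, ∫ t in (0:ℝ)..h, deriv (theta h m) t * g t = 0 := by
    intro m
    have h1 : ∫ t in (0:ℝ)..h, deriv (theta h m) t * g t = ∫ t in (0:ℝ)..h, (0:ℝ) := by
      refine intervalIntegral.integral_congr_ae ?_
      have hne : ∀ᵐ t : ℝ, t ≠ h := by
        have : (volume : Measure ℝ) {h} = 0 := by simp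
        exact compl_mem_ae_iff.2 this
      filter_upwards [hne] with t hth ht
      rw [uIoc_of_le hh0.le] at ht
      have hlt : t < h := lt_of_le_of_ne ht.2 hth
      have h2 : Real.cos (2 * Real.pi * h) < Real.cos (2 * Real.pi * t) :=
        cos_lt_cos_iff' ht.1.le hh1.le hlt
      have h3 : ∀ᶠ x in 𝓝 t, theta h m x = 1 := by
        have hcont : Continuous fun x : ℝ => Real.cos (2 * Real.pi * x) := by fun_prop
        filter_upwards [hcont.continuousAt.eventually (lt_mem_nhds h2)] with x hx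
        exact theta_eq_one m (le_of_lt hx)
      have h4 : deriv (theta h m) t = 0 := by
        have : theta h m =ᶠ[𝓝 t] fun _ => (1:ℝ) := h3
        rw [this.deriv_eq]; simp
      rw [h4, zero_mul]
    rw [h1]; simp
  have hsplit : ∀ m, ∫ t in (0:ℝ)..(1 / 2), deriv (theta h m) t * g t
      = -∫ t in h..(1 / 2), deriv (fun t => -theta h m t) t * g t := by
    intro m
    rw [← intervalIntegral.integral_add_adjacent_intervals (hbint m 0 h) (hbint m h (1 / 2)),
      hzero m, zero_add, ← intervalIntegral.integral_neg]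
    refine intervalIntegral.integral_congr fun t _ => ?_
    simp only [deriv.fun_neg]
    ring
  simp_rw [hsplit]
  refine Tendsto.neg (approx_left hh1 (fun m => (theta_contDiff h m).neg) ?_ ?_ ?_ hg hgC hσ)
  · intro m t ht
    rw [deriv.fun_neg]
    have := theta_deriv_nonpos h m (lt_trans hh0 ht.1) ht.2
    linarith
  · have h1 : ∀ m, theta h m h = 1 := fun m => theta_eq_one m le_rfl
    have h2 : ∀ᶠ m in atTop, theta h m (1 / 2) = 0 :=
      theta_eventually_zero (cos_lt_cos_iff' hh0.le le_rfl hh1)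
    refine tendsto_const_nhds.congr' ?_
    filter_upwards [h2] with m hm
    rw [h1, hm]; norm_num
  · intro δ hδ0 hδ1
    have h2 : ∀ᶠ m in atTop, theta h m (1 / 2) = 0 :=
      theta_eventually_zero (cos_lt_cos_iff' hh0.le le_rfl hh1)
    have h3 : ∀ᶠ m in atTop, theta h m (h + δ) = 0 :=
      theta_eventually_zero (cos_lt_cos_iff' hh0.le (by linarith) (by linarith))
    refine tendsto_const_nhds.congr' ?_
    filter_upwards [h2, h3] with m hm hm'
    rw [hm, hm']; norm_num

/-- **Monotone substitution**, two-zone version. -/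
theorem mono_sub {s l : ℝ → ℝ} (hs : BP s) (hl : BP l) (hse : ∀ t, s (-t) = s t)
    {P : ℝ} (H : DualIneq s l P) {T₁ T₂ : ℝ → ℝ} (hT₁ : Continuous T₁) (hT₂ : Continuous T₂)
    (hT₁b : ∀ σ, |T₁ σ| ≤ 1) (hT₂b : ∀ σ, |T₂ σ| ≤ 1) {h A B σ : ℝ} (hh0 : 0 < h)
    (hh1 : h < 1 / 2) (hA : Tendsto s (𝓝[>] 0) (𝓝 A)) (hB : Tendsto s (𝓝[<] (1 / 2)) (𝓝 B))
    (hσ : Tendsto s (𝓝[>] h) (𝓝 σ)) :
    (∫ t in (0:ℝ)..1, Real.sqrt (1 - (if Real.cos (2 * Real.pi * h) ≤ Real.cos (2 * Real.pi * t)
        then T₂ (s t) else T₁ (s t)) ^ 2) * l t)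
      + 2 * ((∫ x in σ..A, T₂ x) + ∫ x in B..σ, T₁ x) ≤ P := by
  obtain ⟨C, hC⟩ := hl.bdd
  obtain ⟨D, hD⟩ := hs.bdd
  set G₁ : ℝ → ℝ := fun x => ∫ y in (0:ℝ)..x, T₁ y with hG₁
  set G₂ : ℝ → ℝ := fun x => ∫ y in (0:ℝ)..x, T₂ y with hG₂
  have hG₁c : Continuous G₁ :=
    intervalIntegral.continuous_primitive (fun a b => hT₁.intervalIntegrable a b) 0
  have hG₂c : Continuous G₂ :=
    intervalIntegral.continuous_primitive (fun a b => hT₂.intervalIntegrable a b) 0
  have gb : ∀ (T : ℝ → ℝ), (∀ σ, |T σ| ≤ 1) → ∀ x, |∫ σ in (0:ℝ)..x, T σ| ≤ |x| := by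
    intro T hT x
    have := intervalIntegral.norm_integral_le_of_norm_le_const (a := (0:ℝ)) (b := x) (C := 1)
      (f := T) (fun σ _ => by simpa using hT σ)
    simpa using this
  have hg1m : Measurable fun t => G₁ (s t) := hG₁c.measurable.comp hs.meas
  have hg2m : Measurable fun t => G₂ (s t) := hG₂c.measurable.comp hs.meas
  have hg1b : ∀ t, |G₁ (s t)| ≤ D := fun t => (gb T₁ hT₁b _).trans (hD t)
  have hg2b : ∀ t, |G₂ (s t)| ≤ D := fun t => (gb T₂ hT₂b _).trans (hD t)
  -- inequality for n, m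
  have hnm : ∀ m n, (∫ t in (0:ℝ)..1, Real.sqrt (1 - ((chi n t * (1 - theta h m t)) * T₁ (s t)
        + (chi n t * theta h m t) * T₂ (s t)) ^ 2) * l t)
      + 2 * ((∫ t in (0:ℝ)..(1 / 2), deriv (fun t => chi n t * (1 - theta h m t)) t * G₁ (s t))
        + ∫ t in (0:ℝ)..(1 / 2), deriv (fun t => chi n t * theta h m t) t * G₂ (s t)) ≤ P := by
    intro m n
    have c1 : ContDiff ℝ 1 (fun t => chi n t * (1 - theta h m t)) :=
      (chi_contDiff n).mul (contDiff_const.sub (theta_contDiff h m))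
    have c2 : ContDiff ℝ 1 (fun t => chi n t * theta h m t) :=
      (chi_contDiff n).mul (theta_contDiff h m)
    have p1 : Function.Periodic (fun t => chi n t * (1 - theta h m t)) 1 := fun t => by
      simp only [chi_per n t, theta_per h m t]
    have p2 : Function.Periodic (fun t => chi n t * theta h m t) 1 := fun t => by
      simp only [chi_per n t, theta_per h m t]
    have h1 := key_bound hs hl H c1 c2 p1 p2 (fun t => by
      rw [abs_mul, abs_mul, abs_of_nonneg (theta_nonneg h m t),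
        abs_of_nonneg (sub_nonneg.2 (theta_le_one h m t)), ← mul_add]
      simpa using abs_chi_le n t) hT₁ hT₂ hT₁b hT₂b
    have dper : ∀ f : ℝ → ℝ, Function.Periodic f 1 → Function.Periodic (deriv f) 1 := by
      intro f hf t
      have h := deriv_comp_add_const f 1 t
      rw [← h]; congr 1; ext x; exact hf x
    have deven : ∀ f : ℝ → ℝ, (∀ t, f (-t) = -f t) → ∀ t, deriv f (-t) = deriv f t := by
      intro f hf t
      have h := deriv_comp_neg f t
      have h2 : (fun x => f (-x)) = fun x => -f x := by ext x; exact hf x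
      rw [h2, deriv.fun_neg] at h
      linarith
    have bint : ∀ (f g : ℝ → ℝ), Continuous f → Measurable g → (∀ t, |g t| ≤ D) → ∀ a b : ℝ,
        IntervalIntegrable (fun t => f t * g t) volume a b := by
      intro f g hf hg hgD a b
      have h1 := (hf.intervalIntegrable (μ := volume) a b).norm.mul_const D
      refine h1.mono_fun (hf.aestronglyMeasurable.mul hg.aestronglyMeasurable)
        (Eventually.of_forall fun t => ?_)
      have hD0 : 0 ≤ D := (abs_nonneg _).trans (hgD t)
      dsimp only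
      rw [norm_mul, norm_mul, norm_norm, Real.norm_eq_abs D, abs_of_nonneg hD0]
      exact mul_le_mul_of_nonneg_left (hgD t) (norm_nonneg _)
    have i1 := bint _ _ (c1.continuous_deriv le_rfl) hg1m hg1b
    have i2 := bint _ _ (c2.continuous_deriv le_rfl) hg2m hg2b
    have e1 : ∫ t in (0:ℝ)..1, (deriv (fun t => chi n t * (1 - theta h m t)) t * G₁ (s t)
          + deriv (fun t => chi n t * theta h m t) t * G₂ (s t))
        = 2 * ((∫ t in (0:ℝ)..(1 / 2), deriv (fun t => chi n t * (1 - theta h m t)) t * G₁ (s t))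
        + ∫ t in (0:ℝ)..(1 / 2), deriv (fun t => chi n t * theta h m t) t * G₂ (s t)) := by
      rw [intervalIntegral.integral_add (i1 _ _) (i2 _ _), half_int (i1 _ _), half_int (i2 _ _),
        mul_add]
      · exact (dper _ p2).mul (fun t => by simp only [hs.per t])
      · intro t
        rw [deven _ (fun t => by rw [chi_odd, theta_even]; ring) t, hse]
      · exact (dper _ p1).mul (fun t => by simp only [hs.per t])
      · intro t
        rw [deven _ (fun t => by rw [chi_odd, theta_even]; ring) t, hse]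
    rw [e1] at h1
    exact h1
  have sqb : ∀ (x : ℝ) (y : ℝ), |y| ≤ C → ‖Real.sqrt (1 - x ^ 2) * y‖ ≤ C := by
    intro x y hy
    rw [norm_mul, Real.norm_eq_abs, Real.norm_eq_abs, abs_of_nonneg (Real.sqrt_nonneg _)]
    have : Real.sqrt (1 - x ^ 2) ≤ 1 := Real.sqrt_le_one.2 (by nlinarith [sq_nonneg x])
    calc Real.sqrt (1 - x ^ 2) * |y| ≤ 1 * C :=
          mul_le_mul this hy (abs_nonneg _) zero_le_one
      _ = C := one_mul C
  have nn : ∀ᵐ t : ℝ, t ≠ 1 / 2 ∧ t ≠ 1 := by
    have h1 : ∀ᵐ t : ℝ, t ≠ 1 / 2 := by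
      have : (volume : Measure ℝ) {(1 / 2 : ℝ)} = 0 := by simp
      exact compl_mem_ae_iff.2 this
    have h2 : ∀ᵐ t : ℝ, t ≠ 1 := by
      have : (volume : Measure ℝ) {(1 : ℝ)} = 0 := by simp
      exact compl_mem_ae_iff.2 this
    filter_upwards [h1, h2] with t a b using ⟨a, b⟩
  -- n → ∞
  have hm : ∀ m, (∫ t in (0:ℝ)..1, Real.sqrt (1 - ((1 - theta h m t) * T₁ (s t)
        + theta h m t * T₂ (s t)) ^ 2) * l t)
      + 2 * (((1 - theta h m 0) * G₁ A - (1 - theta h m (1 / 2)) * G₁ B
          + ∫ t in (0:ℝ)..(1 / 2), deriv (fun t => 1 - theta h m t) t * G₁ (s t))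
        + (theta h m 0 * G₂ A - theta h m (1 / 2) * G₂ B
          + ∫ t in (0:ℝ)..(1 / 2), deriv (theta h m) t * G₂ (s t))) ≤ P := by
    intro m
    have t1 := lim_chi (ψ := fun t => 1 - theta h m t) (contDiff_const.sub (theta_contDiff h m))
      (fun t => by
        rw [abs_of_nonneg (sub_nonneg.2 (theta_le_one h m t))]
        linarith [theta_nonneg h m t]) hg1m hg1b ((hG₁c.tendsto A).comp hA)
      ((hG₁c.tendsto B).comp hB)
    have t2 := lim_chi (ψ := theta h m) (theta_contDiff h m)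
      (fun t => by
        rw [abs_of_nonneg (theta_nonneg h m t)]
        exact theta_le_one h m t) hg2m hg2b ((hG₂c.tendsto A).comp hA)
      ((hG₂c.tendsto B).comp hB)
    have t3 : Tendsto (fun n => ∫ t in (0:ℝ)..1,
        Real.sqrt (1 - ((chi n t * (1 - theta h m t)) * T₁ (s t)
          + (chi n t * theta h m t) * T₂ (s t)) ^ 2) * l t) atTop
        (𝓝 (∫ t in (0:ℝ)..1, Real.sqrt (1 - ((1 - theta h m t) * T₁ (s t)
        + theta h m t * T₂ (s t)) ^ 2) * l t)) := by
      have hms : ∀ (f : ℝ → ℝ), Measurable f → Measurable (fun t => Real.sqrt (1 - f t ^ 2) * l t) :=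
        fun f hf => ((measurable_const.sub (hf.pow_const 2)).sqrt).mul hl.meas
      refine intervalIntegral.tendsto_integral_filter_of_dominated_convergence
        (fun _ => C) (Eventually.of_forall fun n => ?_) (Eventually.of_forall fun n => ?_) ?_ ?_
      · refine (hms (fun t => (chi n t * (1 - theta h m t)) * T₁ (s t)
          + (chi n t * theta h m t) * T₂ (s t)) ?_).aestronglyMeasurable
        exact (((chi_contDiff n).continuous.measurable.mul
          (measurable_const.sub (theta_contDiff h m).continuous.measurable)).mul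
            (hT₁.measurable.comp hs.meas)).add
          (((chi_contDiff n).continuous.measurable.mul
            (theta_contDiff h m).continuous.measurable).mul (hT₂.measurable.comp hs.meas))
      · exact Eventually.of_forall fun t _ => sqb _ _ (hC t)
      · exact intervalIntegrable_const
      · filter_upwards [nn] with t ht1 ht2
        rw [uIoc_of_le zero_le_one] at ht2
        -- chi n t ^ 2 → 1
        have hsq : Tendsto (fun n => chi n t ^ 2) atTop (𝓝 1) := by
          rcases lt_or_gt_of_ne ht1.1 with h4 | h4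
          · simpa using (chi_tendsto ht2.1 h4).pow 2
          · have h5 : ∀ n, chi n t = - chi n (1 - t) := fun n => by
              rw [← chi_odd, ← chi_per n (-(1 - t))]; congr 1; ring
            have h6 : Tendsto (fun n => chi n (1 - t)) atTop (𝓝 1) :=
              chi_tendsto (by
                have := lt_of_le_of_ne ht2.2 ht1.2
                linarith) (by linarith)
            simp_rw [h5]
            simpa using h6.pow 2
        have e : ∀ n, Real.sqrt (1 - ((chi n t * (1 - theta h m t)) * T₁ (s t)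
            + (chi n t * theta h m t) * T₂ (s t)) ^ 2) * l t
            = Real.sqrt (1 - chi n t ^ 2 * ((1 - theta h m t) * T₁ (s t)
            + theta h m t * T₂ (s t)) ^ 2) * l t := fun n => by
          congr 3; ring
        simp_rw [e]
        have := (((tendsto_const_nhds (x := (1:ℝ))).sub (hsq.mul_const
          (((1 - theta h m t) * T₁ (s t) + theta h m t * T₂ (s t)) ^ 2))).sqrt).mul_const (l t)
        simpa using this
    exact le_of_tendsto (t3.add ((t1.add t2).const_mul 2)) (Eventually.of_forall (hnm m))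
  -- m → ∞
  have z0 : ∀ m, theta h m 0 = 1 := fun m => theta_eq_one m (by
    rw [mul_zero, Real.cos_zero]; exact Real.cos_le_one _)
  have z1 : ∀ᶠ m in atTop, theta h m (1 / 2) = 0 :=
    theta_eventually_zero (cos_lt_cos_iff' hh0.le le_rfl hh1)
  have u1 := lim_theta hh0 hh1 hg1m hg1b ((hG₁c.tendsto σ).comp hσ)
  have u2 := lim_theta hh0 hh1 hg2m hg2b ((hG₂c.tendsto σ).comp hσ)
  have u3 : Tendsto (fun m => ∫ t in (0:ℝ)..1, Real.sqrt (1 - ((1 - theta h m t) * T₁ (s t)
        + theta h m t * T₂ (s t)) ^ 2) * l t) atTop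
      (𝓝 (∫ t in (0:ℝ)..1, Real.sqrt (1 - (if Real.cos (2 * Real.pi * h) ≤
        Real.cos (2 * Real.pi * t) then T₂ (s t) else T₁ (s t)) ^ 2) * l t)) := by
    refine intervalIntegral.tendsto_integral_filter_of_dominated_convergence
        (fun _ => C) (Eventually.of_forall fun m => ?_) (Eventually.of_forall fun m => ?_) ?_ ?_
    · refine Measurable.aestronglyMeasurable ?_
      refine ((measurable_const.sub (Measurable.pow_const ?_ 2)).sqrt).mul hl.meas
      exact ((measurable_const.sub (theta_contDiff h m).continuous.measurable).mul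
            (hT₁.measurable.comp hs.meas)).add
          ((theta_contDiff h m).continuous.measurable.mul (hT₂.measurable.comp hs.meas))
    · exact Eventually.of_forall fun t _ => sqb _ _ (hC t)
    · exact intervalIntegrable_const
    · refine Eventually.of_forall fun t _ => ?_
      refine tendsto_const_nhds.congr' ?_
      by_cases hc : Real.cos (2 * Real.pi * h) ≤ Real.cos (2 * Real.pi * t)
      · refine Eventually.of_forall fun m => ?_
        rw [if_pos hc]
        dsimp only
        rw [theta_eq_one m hc]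
        congr 3; ring
      · rw [if_neg hc]
        filter_upwards [theta_eventually_zero (not_le.1 hc)] with m hm'
        rw [hm']
        congr 3; ring
  have u4 : Tendsto (fun m => 2 * (((1 - theta h m 0) * G₁ A - (1 - theta h m (1 / 2)) * G₁ B
          + ∫ t in (0:ℝ)..(1 / 2), deriv (fun t => 1 - theta h m t) t * G₁ (s t))
        + (theta h m 0 * G₂ A - theta h m (1 / 2) * G₂ B
          + ∫ t in (0:ℝ)..(1 / 2), deriv (theta h m) t * G₂ (s t)))) atTop
      (𝓝 (2 * ((-G₁ B + G₁ σ) + (G₂ A + -G₂ σ)))) := by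
    have e1 : ∀ m, ∫ t in (0:ℝ)..(1 / 2), deriv (fun t => 1 - theta h m t) t * G₁ (s t)
        = -∫ t in (0:ℝ)..(1 / 2), deriv (theta h m) t * G₁ (s t) := fun m => by
      rw [← intervalIntegral.integral_neg]
      refine intervalIntegral.integral_congr fun t _ => ?_
      simp only [deriv_const_sub]
      ring
    have v1 : Tendsto (fun m => (-G₁ B
          - ∫ t in (0:ℝ)..(1 / 2), deriv (theta h m) t * G₁ (s t))) atTop
        (𝓝 (-G₁ B - (-G₁ σ))) := tendsto_const_nhds.sub u1
    have v2 : Tendsto (fun m => (G₂ A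
          + ∫ t in (0:ℝ)..(1 / 2), deriv (theta h m) t * G₂ (s t))) atTop
        (𝓝 (G₂ A + -G₂ σ)) := tendsto_const_nhds.add u2
    have v3 := (v1.add v2).const_mul 2
    rw [sub_neg_eq_add] at v3
    refine v3.congr' ?_
    filter_upwards [z1] with m hm'
    rw [z0, hm', e1]
    ring
  have hfin := le_of_tendsto (u3.add u4) (Eventually.of_forall hm)
  have e2 : (∫ x in σ..A, T₂ x) = G₂ A - G₂ σ := by
    rw [hG₂]
    simp only
    rw [intervalIntegral.integral_interval_sub_left (hT₂.intervalIntegrable _ _)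
      (hT₂.intervalIntegrable _ _)]
  have e3 : (∫ x in B..σ, T₁ x) = G₁ σ - G₁ B := by
    rw [hG₁]
    simp only
    rw [intervalIntegral.integral_interval_sub_left (hT₁.intervalIntegrable _ _)
      (hT₁.intervalIntegrable _ _)]
  rw [e2, e3]
  linarith

/-- right limits of a bounded function, antitone on `(0,1/2)` -/
theorem exists_right_lim {s : ℝ → ℝ} (hs : BP s) (hanti : AntitoneOn s (Ioo 0 (1 / 2))) {h : ℝ}
    (h0 : 0 ≤ h) (h1 : h < 1 / 2) :
    ∃ σ, Tendsto s (𝓝[>] h) (𝓝 σ) ∧ (∀ t ∈ Ioo h (1 / 2), s t ≤ σ) ∧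
      (∀ t, 0 < t → t ≤ h → σ ≤ s t) := by
  obtain ⟨D, hD⟩ := hs.bdd
  have hb : BddAbove (s '' Ioo h (1 / 2)) := ⟨D, by
    rintro _ ⟨t, _, rfl⟩; exact (le_abs_self _).trans (hD t)⟩
  have hne : (Ioo h (1 / 2 : ℝ)).Nonempty := nonempty_Ioo.2 h1
  refine ⟨_, AntitoneOn.tendsto_nhdsWithin_Ioo_right hne
    (hanti.mono (Ioo_subset_Ioo_left h0)) hb, fun t ht => le_csSup hb ⟨t, ht, rfl⟩, ?_⟩
  intro t ht0 hth
  refine csSup_le (hne.image s) ?_
  rintro _ ⟨x, hx, rfl⟩
  exact hanti ⟨ht0, by linarith⟩ ⟨by linarith [hx.1], hx.2⟩ (by linarith [hx.1])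

/-- left limit at `1/2` -/
theorem exists_left_lim {s : ℝ → ℝ} (hs : BP s) (hanti : AntitoneOn s (Ioo 0 (1 / 2))) :
    ∃ B, Tendsto s (𝓝[<] (1 / 2)) (𝓝 B) ∧ (∀ t ∈ Ioo 0 (1 / 2), B ≤ s t) := by
  obtain ⟨D, hD⟩ := hs.bdd
  have hb : BddBelow (s '' Ioo 0 (1 / 2)) := ⟨-D, by
    rintro _ ⟨t, _, rfl⟩; exact (abs_le.1 (hD t)).1⟩
  have hne : (Ioo (0:ℝ) (1 / 2 : ℝ)).Nonempty := nonempty_Ioo.2 (by norm_num)
  exact ⟨_, AntitoneOn.tendsto_nhdsWithin_Ioo_left hne hanti hb,
    fun t ht => csInf_le hb ⟨t, ht, rfl⟩⟩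

/-- one-zone version -/
theorem mono_sub_one {s l : ℝ → ℝ} (hs : BP s) (hl : BP l) (hse : ∀ t, s (-t) = s t)
    {P : ℝ} (H : DualIneq s l P) {T : ℝ → ℝ} (hT : Continuous T)
    (hTb : ∀ σ, |T σ| ≤ 1) {A B : ℝ} (hA : Tendsto s (𝓝[>] 0) (𝓝 A))
    (hB : Tendsto s (𝓝[<] (1 / 2)) (𝓝 B)) (hanti : AntitoneOn s (Ioo 0 (1 / 2))) :
    (∫ t in (0:ℝ)..1, Real.sqrt (1 - T (s t) ^ 2) * l t) + 2 * (∫ x in B..A, T x) ≤ P := by
  obtain ⟨σ, hσ, -⟩ := exists_right_lim hs hanti (h := 1 / 4) (by norm_num) (by norm_num)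
  have h1 := mono_sub hs hl hse H hT hT hTb hTb (h := 1 / 4) (by norm_num) (by norm_num) hA hB hσ
  simp only [ite_self] at h1
  have e : (∫ x in B..A, T x) = (∫ x in σ..A, T x) + ∫ x in B..σ, T x := by
    rw [add_comm, intervalIntegral.integral_add_adjacent_intervals (hT.intervalIntegrable _ _)
      (hT.intervalIntegrable _ _)]
  rw [e]
  exact h1

end Crest.Agent.R214.MS
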