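import Crest.Agent.R214.OneDBase

/-!
# OneD: one-dimensional inequalities, general tools and the exact (Delaunay) part

`calib`: `∫ (w(t, s t)) ≤ ∫ √(1-β(s t)²) L t`, add `∫ β`, use the field `SB` of `OD`.
`mm_le_*`: tangent lines of the three pieces of `mm` (AM-GM): for all `0 ≤ v ≤ 1/2`
  (a) `0 ≤ λ ≤ π/2`: `mm v ≤ λ v + 1 - λ/π`;  (b) `λ > 0`: `mm v ≤ λ v + π/(4λ)`;
  (c) `λ > 0`: `mm v ≤ λ v + 2π/(3λ²)`;  (d) `9/4 ≤ λ ≤ 3`: `mm v ≤ λ v + 2π/9 - 4πλ/81`;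
  (e) `λ ≤ 0`: `mm v ≤ λ v + 1 - λ/2`.
`pure`: let `a = √(sTop s)`, `b = √(sBot s)`, `S = a+b`, `D = a-b`. If `a = b`: `s ≡ v` a.e. and
`P2 ≥ ∫ L ≥ √(πv)`. Otherwise `w(σ) = √π (σ+ab)/S` (chord of `√(πσ)` between `b²` and `a²`),
`β(σ) = √(1 - w²/(πσ))` on `[b²,a²]` (`0` elsewhere; if `b = 0`, `β(σ) = √(1-σ/a²)` on `[0,a²]`);
`πσ - w² = π(a²-σ)(σ-b²)/S²`, so with `σ = (b+Du)²`:
`K = ∫_{b²}^{a²} β = (2D²/S) ∫_0^1 √(u(1-u)) √((S+Du)(S-D+Du)) du ≥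
(2D²/S)((S-D) π/8 + D/3) ≥ (2/3) D²` since `√((S+Du)(S-D+Du)) ≥ (S-D) + D√(u(1+u))` (Cauchy-Schwarz),
`∫√(u(1-u)) = π/8`, `∫ u√(1-u²) = 1/3`; strict if `0 < b < a`. Hence
`P2 ≥ √π(v+ab)/S + K`, `ab = (S²-D²)/4`. If `S ≥ 3√π/8`: `√π(v+ab)/S + (2/3)D² ≥ √π v/S + √π S/4 ≥ √(πv)`.
If `S ≤ 3√π/8`: `≥ √π v/S + (2/3)S² ≥ (9π/2)^{1/3} v^{2/3}` (AM-GM). [`√πab/S + (2/3)D²` compared with
`√πS/4` resp. `(2/3)S²`: the differences are `(2/3 - √π/(4S)) D²`, `(√π/(4S) - 2/3)(S²-D²)`.]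
Equality analysis: `0<b<a` impossible; `a = b` gives `ConstEq`-data; `b = 0`: then
`P2 = √πv/a + (2/3)a²` must equal `(9π/2)^{1/3}v^{2/3}`, so `v = 4a³/(3√π)`; for `0 < σ₀ < a²`, `ε > 0` use
`w(σ) = √πσ/a - ε 1_{σ ≥ σ₀}`: `P2 ≥ √πv/a - ε|{s ≥ σ₀}| + ∫β_ε`; derivative at `ε = 0+`:
`|{s ≥ σ₀}| ≥ (2/√π) √(a²-σ₀)`, i.e. `s t ≥ a² - πt²/4`; with `r = 2a/√π`: `s ≥ (π/4)(r²-t²)₊`, `v = πr³/6`
(`r ≤ 1` as `v ≤ 1/2 < π/6`), equal integrals, so equality a.e.; finally equality in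
`∫√(1-β²)(L-√(πs)) ≤ 0` gives `L = √(πs)` a.e. where `s > 0`.
-/

set_option autoImplicit false
open MeasureTheory Crest.GeometryTopology.PeriodicPerimeter Filter
open scoped ENNReal NNReal Topology
noncomputable section
namespace Crest.Agent.R214

theorem pure {v P2 : ℝ} {s L : ℝ → ℝ} (h : OD v P2 s L) (hv : 0 < v) (hv2 : v ≤ 1 / 2)
    (hL : ∀ᵐ t ∂(volume.restrict (Set.Ioo (0 : ℝ) 1)), Real.sqrt (Real.pi * s t) ≤ L t) :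
    mm v ≤ P2 ∧ (P2 ≤ mm v → SphereEq v s L ∨ ConstEq v s L) := by
  sorry

end Crest.Agent.R214
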