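import Crest.Agent.R214.Defs2

/-!
# OneDBase: one-dimensional inequalities, general tools

`calib`: `∫ (w(t, s t)) ≤ ∫ √(1-β(s t)²) L t`, add `∫ β`, use the field `SB` of `OD`.
`mm_le_*`: tangent lines of the three pieces of `mm` (AM-GM).
(`pure` is proved in `OneDPure.lean`.)
-/

set_option autoImplicit false
open MeasureTheory Crest.GeometryTopology.PeriodicPerimeter Filter
open scoped ENNReal NNReal Topology
noncomputable section
namespace Crest.Agent.R214

namespace OneDAux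

lemma meas_s {v P2 : ℝ} {s L : ℝ → ℝ} (h : OD v P2 s L) :
    AEMeasurable s (volume.restrict (Set.Ioo (0 : ℝ) 1)) :=
  aemeasurable_restrict_of_antitoneOn measurableSet_Ioo h.anti

lemma int_s {v P2 : ℝ} {s L : ℝ → ℝ} (h : OD v P2 s L) :
    IntegrableOn s (Set.Ioo (0 : ℝ) 1) := by
  refine Integrable.mono' (g := fun _ => (1 : ℝ)) (by simp) (meas_s h).aestronglyMeasurable ?_
  refine (ae_restrict_iff' measurableSet_Ioo).2 (Eventually.of_forall fun t ht => ?_)
  rw [Real.norm_eq_abs, abs_of_nonneg (h.nonneg t ht)]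
  exact h.le_one t ht

lemma vol_Ioo : (volume (Set.Ioo (0 : ℝ) 1)).toReal = 1 := by simp

end OneDAux

open OneDAux

theorem calib {v P2 : ℝ} {s L : ℝ → ℝ} (h : OD v P2 s L) (β : ℝ → ℝ) (Z : Set ℝ)
    (hZ1 : Z.Finite) (hc : ContinuousOn β Zᶜ) (hm : Measurable β) (h0 : ∀ σ, 0 ≤ β σ)
    (h1 : ∀ σ, β σ ≤ 1) (lam cA cC h0' : ℝ) (hh0 : 0 ≤ h0') (hh1 : h0' ≤ 1)
    (hw : ∀ᵐ t ∂(volume.restrict (Set.Ioo (0 : ℝ) 1)),
      (if t < h0' then lam * s t + cA else lam * s t + cC) ≤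
        Real.sqrt (1 - β (s t) ^ 2) * L t) :
    lam * v + cA * h0' + cC * (1 - h0') + ∫ σ in (sBot s)..(sTop s), β σ ≤ P2 := by
  have hs := meas_s h
  have hi := int_s h
  have hSB := h.SB β Z hZ1 hc hm h0 h1
  -- integrability of the right-hand side
  have hI : IntegrableOn (fun t => Real.sqrt (1 - β (s t) ^ 2) * L t) (Set.Ioo (0 : ℝ) 1) := by
    have hmeas : AEStronglyMeasurable (fun t => Real.sqrt (1 - β (s t) ^ 2) * L t)
        (volume.restrict (Set.Ioo (0 : ℝ) 1)) := by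
      have h1 : AEMeasurable (fun t => β (s t)) (volume.restrict (Set.Ioo (0 : ℝ) 1)) :=
        hm.comp_aemeasurable hs
      have h2 : AEMeasurable (fun t => Real.sqrt (1 - β (s t) ^ 2))
          (volume.restrict (Set.Ioo (0 : ℝ) 1)) :=
        Real.continuous_sqrt.measurable.comp_aemeasurable
          ((aemeasurable_const (b := (1:ℝ))).sub (h1.pow_const 2))
      exact (h2.mul h.Lmeas.aemeasurable).aestronglyMeasurable
    refine Integrable.mono' h.Lint hmeas ?_
    refine Eventually.of_forall fun t => ?_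
    rw [norm_mul, Real.norm_eq_abs, Real.norm_eq_abs, abs_of_nonneg (Real.sqrt_nonneg _),
      abs_of_nonneg (h.Lnonneg t)]
    have : Real.sqrt (1 - β (s t) ^ 2) ≤ 1 := by
      refine Real.sqrt_le_one.2 ?_
      nlinarith [sq_nonneg (β (s t))]
    nlinarith [h.Lnonneg t]
  -- the left-hand side
  have hsplit : (fun t => if t < h0' then lam * s t + cA else lam * s t + cC)
      = fun t => lam * s t + ((Set.Iio h0').indicator (fun _ => cA - cC) t + cC) := by
    funext t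
    by_cases ht : t < h0'
    · rw [if_pos ht, Set.indicator_of_mem (show t ∈ Set.Iio h0' from ht)]; ring
    · rw [if_neg ht, Set.indicator_of_notMem (show t ∉ Set.Iio h0' from ht)]; ring
  have hJ1 : IntegrableOn (fun t => lam * s t) (Set.Ioo (0 : ℝ) 1) := hi.const_mul lam
  have hJ2 : IntegrableOn (fun t => (Set.Iio h0').indicator (fun _ => cA - cC) t)
      (Set.Ioo (0 : ℝ) 1) :=
    (integrableOn_const (by simp)).indicator measurableSet_Iio
  have hJ3 : IntegrableOn (fun _ : ℝ => cC) (Set.Ioo (0 : ℝ) 1) := integrableOn_const (by simp)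
  have hLHS : ∫ t in Set.Ioo (0 : ℝ) 1, (if t < h0' then lam * s t + cA else lam * s t + cC)
      = lam * v + cA * h0' + cC * (1 - h0') := by
    have e23 : ∫ t in Set.Ioo (0 : ℝ) 1,
        (lam * s t + ((Set.Iio h0').indicator (fun _ => cA - cC) t + cC))
        = (∫ t in Set.Ioo (0 : ℝ) 1, lam * s t) +
          ∫ t in Set.Ioo (0 : ℝ) 1, ((Set.Iio h0').indicator (fun _ => cA - cC) t + cC) :=
      integral_add hJ1 (hJ2.add hJ3)
    rw [hsplit, e23, integral_add hJ2 hJ3, integral_const_mul, h.vol,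
      setIntegral_const, integral_indicator measurableSet_Iio, setIntegral_const,
      measureReal_restrict_apply measurableSet_Iio]
    have : Set.Iio h0' ∩ Set.Ioo (0:ℝ) 1 = Set.Ioo 0 h0' := by
      ext t
      simp only [Set.mem_inter_iff, Set.mem_Iio, Set.mem_Ioo]
      constructor
      · rintro ⟨a, b, c⟩; exact ⟨b, a⟩
      · rintro ⟨a, b⟩; exact ⟨b, a, by linarith⟩
    rw [this, Real.volume_real_Ioo_of_le hh0, Real.volume_real_Ioo_of_le zero_le_one]
    simp only [smul_eq_mul]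
    ring
  have hJ : IntegrableOn (fun t => if t < h0' then lam * s t + cA else lam * s t + cC)
      (Set.Ioo (0 : ℝ) 1) := by
    rw [hsplit]
    exact hJ1.add (hJ2.add hJ3)
  have hmono := integral_mono_ae hJ hI hw
  rw [hLHS] at hmono
  linarith

theorem mm_le_a (v lam : ℝ) (hv : 0 ≤ v) (h0 : 0 ≤ lam) (h1 : lam ≤ Real.pi / 2) :
    mm v ≤ lam * v + (1 - lam / Real.pi) := by
  have hpi := Real.pi_pos
  rcases le_total (1 / Real.pi) v with h | h
  · refine (min_le_right _ _).trans ?_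
    have : lam * (1 / Real.pi) ≤ lam * v := mul_le_mul_of_nonneg_left h h0
    have e : lam / Real.pi = lam * (1 / Real.pi) := by ring
    linarith
  · refine ((min_le_left _ _).trans (min_le_right _ _)).trans ?_
    set x := Real.sqrt (Real.pi * v) with hx
    have hx0 : 0 ≤ x := Real.sqrt_nonneg _
    have hx2 : x ^ 2 = Real.pi * v := Real.sq_sqrt (by positivity)
    have hx1 : x ≤ 1 := by
      rw [hx]
      refine Real.sqrt_le_one.2 ?_ |>.trans le_rfl
      rw [div_eq_mul_inv, one_mul] at h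
      calc Real.pi * v ≤ Real.pi * Real.pi⁻¹ := mul_le_mul_of_nonneg_left h hpi.le
        _ = 1 := mul_inv_cancel₀ hpi.ne'
    have hv' : v = x ^ 2 / Real.pi := by rw [hx2]; field_simp
    rw [hv']
    have hl : lam / Real.pi ≤ 1 / 2 := by
      rw [div_le_iff₀ hpi]; linarith
    have hl0 : 0 ≤ lam / Real.pi := by positivity
    have e : lam * (x ^ 2 / Real.pi) = lam / Real.pi * x ^ 2 := by ring
    rw [e]
    nlinarith [mul_nonneg hl0 hx0, mul_nonneg (sub_nonneg.2 hx1) (sub_nonneg.2 hl),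
      mul_nonneg (mul_nonneg (sub_nonneg.2 hx1) hx0) (sub_nonneg.2 hl), sq_nonneg (1 - x)]

theorem mm_le_b (v lam : ℝ) (hv : 0 ≤ v) (h0 : 0 < lam) :
    mm v ≤ lam * v + Real.pi / (4 * lam) := by
  have hpi := Real.pi_pos
  refine ((min_le_left _ _).trans (min_le_right _ _)).trans ?_
  refine Real.sqrt_le_iff.2 ⟨by positivity, ?_⟩
  have e : (lam * v + Real.pi / (4 * lam)) ^ 2
      = (lam * v - Real.pi / (4 * lam)) ^ 2 + Real.pi * v := by
    field_simp
    ring
  rw [e]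
  nlinarith [sq_nonneg (lam * v - Real.pi / (4 * lam))]

theorem mm_le_c (v lam : ℝ) (hv : 0 ≤ v) (h0 : 0 < lam) :
    mm v ≤ lam * v + 2 * Real.pi / (3 * lam ^ 2) := by
  have hpi := Real.pi_pos
  refine ((min_le_left _ _).trans (min_le_left _ _)).trans ?_
  set X := (9 * Real.pi / 2) ^ ((1 : ℝ) / 3) * v ^ ((2 : ℝ) / 3) with hX
  have hX0 : 0 ≤ X := by positivity
  have hX3 : X ^ 3 = 9 * Real.pi / 2 * v ^ 2 := by
    rw [hX, mul_pow, ← Real.rpow_natCast, ← Real.rpow_natCast, ← Real.rpow_mul (by positivity),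
      ← Real.rpow_mul hv]
    have e1 : (1:ℝ) / 3 * ((3 : ℕ) : ℝ) = 1 := by norm_num
    have e2 : (2:ℝ) / 3 * ((3 : ℕ) : ℝ) = ((2 : ℕ) : ℝ) := by norm_num
    rw [e1, e2, Real.rpow_one, Real.rpow_natCast]
  set m := 2 * Real.pi / (3 * lam ^ 2) with hm
  have hm0 : 0 < m := by positivity
  have hml : m * lam ^ 2 = 2 * Real.pi / 3 := by rw [hm]; field_simp
  have hR0 : 0 ≤ lam * v + m := by positivity
  refine le_of_pow_le_pow_left₀ (n := 3) (by norm_num) hR0 ?_
  rw [hX3]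
  have e : 9 * Real.pi / 2 * v ^ 2 = 27 / 4 * m * (lam * v) ^ 2 := by
    have : 27 / 4 * m * (lam * v) ^ 2 = 27 / 4 * (m * lam ^ 2) * v ^ 2 := by ring
    rw [this, hml]; ring
  rw [e]
  have hu : 0 ≤ lam * v := by positivity
  generalize lam * v = u at hu ⊢
  have : (u + m) ^ 3 - 27 / 4 * m * u ^ 2 = (u - 2 * m) ^ 2 * (u + m / 4) := by ring
  have h2 : 0 ≤ (u - 2 * m) ^ 2 * (u + m / 4) := by positivity
  linarith

theorem mm_le_d (v lam : ℝ) (hv : 0 ≤ v) (h0 : 9 / 4 ≤ lam) (h1 : lam ≤ 3) :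
    mm v ≤ lam * v + (2 * Real.pi / 9 - 4 * Real.pi * lam / 81) := by
  rcases le_total v (4 * Real.pi / 81) with h | h
  · refine (mm_le_c v 3 hv (by norm_num)).trans ?_
    nlinarith [mul_nonneg (sub_nonneg.2 h) (sub_nonneg.2 h1)]
  · refine (mm_le_b v (9 / 4) hv (by norm_num)).trans ?_
    nlinarith [mul_nonneg (sub_nonneg.2 h) (sub_nonneg.2 h0)]

theorem mm_le_e (v lam : ℝ) (hv : 0 ≤ v) (hv1 : v ≤ 1 / 2) (h0 : lam ≤ 0) :
    mm v ≤ lam * v + (1 - lam / 2) := by
  refine (min_le_right _ _).trans ?_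
  nlinarith [mul_nonneg (sub_nonneg.2 hv1) (neg_nonneg.2 h0)]

theorem sBot_le_sTop {v P2 : ℝ} {s L : ℝ → ℝ} (h : OD v P2 s L) :
    0 ≤ sBot s ∧ sBot s ≤ v ∧ v ≤ sTop s ∧ sTop s ≤ 1 ∧
      ∀ t ∈ Set.Ioo (0 : ℝ) 1, sBot s ≤ s t ∧ s t ≤ sTop s := by
  have hne : (s '' Set.Ioo 0 1).Nonempty := ⟨s (1/2), ⟨1/2, by norm_num, rfl⟩⟩
  have hbb : BddBelow (s '' Set.Ioo 0 1) := ⟨0, by rintro _ ⟨t, ht, rfl⟩; exact h.nonneg t ht⟩
  have hba : BddAbove (s '' Set.Ioo 0 1) := ⟨1, by rintro _ ⟨t, ht, rfl⟩; exact h.le_one t ht⟩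
  have hb : ∀ t ∈ Set.Ioo (0 : ℝ) 1, sBot s ≤ s t := fun t ht => csInf_le hbb ⟨t, ht, rfl⟩
  have ht' : ∀ t ∈ Set.Ioo (0 : ℝ) 1, s t ≤ sTop s := fun t ht => le_csSup hba ⟨t, ht, rfl⟩
  have hi := int_s h
  refine ⟨?_, ?_, ?_, ?_, fun t ht => ⟨hb t ht, ht' t ht⟩⟩
  · exact le_csInf hne (by rintro _ ⟨t, ht, rfl⟩; exact h.nonneg t ht)
  · rw [← h.vol]
    have := setIntegral_mono_on (μ := volume) (s := Set.Ioo (0:ℝ) 1) (f := fun _ => sBot s)
      (g := s) (integrableOn_const (by simp)) hi measurableSet_Ioo hb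
    rw [setIntegral_const, Real.volume_real_Ioo_of_le zero_le_one] at this
    simpa using this
  · rw [← h.vol]
    have := setIntegral_mono_on (μ := volume) (s := Set.Ioo (0:ℝ) 1) (f := s)
      (g := fun _ => sTop s) hi (integrableOn_const (by simp)) measurableSet_Ioo ht'
    rw [setIntegral_const, Real.volume_real_Ioo_of_le zero_le_one] at this
    simpa using this
  · exact csSup_le hne (by rintro _ ⟨t, ht, rfl⟩; exact h.le_one t ht)

end Crest.Agent.R214
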