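import Crest.Agent.R214.Defs2

/-!
# OneDPure: the exact (Delaunay) part with equality cases (final theorem `pu_pure`)
-/

set_option autoImplicit false
open MeasureTheory Crest.GeometryTopology.PeriodicPerimeter Filter Set
open scoped ENNReal NNReal Topology
noncomputable section
namespace Crest.Agent.R214

variable {v P2 : ℝ} {s L : ℝ → ℝ}

/-! ## basic facts -/

theorem pu_bddB (h : OD v P2 s L) : BddBelow (s '' Ioo (0 : ℝ) 1) := by
  refine ⟨0, ?_⟩
  rintro _ ⟨t, ht, rfl⟩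
  exact h.nonneg t ht

theorem pu_bddA (h : OD v P2 s L) : BddAbove (s '' Ioo (0 : ℝ) 1) := by
  refine ⟨1, ?_⟩
  rintro _ ⟨t, ht, rfl⟩
  exact h.le_one t ht

theorem pu_ne (s : ℝ → ℝ) : (s '' Ioo (0 : ℝ) 1).Nonempty :=
  ⟨s (1 / 2), 1 / 2, ⟨by norm_num, by norm_num⟩, rfl⟩

theorem pu_bounds (h : OD v P2 s L) : ∀ t ∈ Ioo (0 : ℝ) 1, sBot s ≤ s t ∧ s t ≤ sTop s := by
  intro t ht
  exact ⟨csInf_le (pu_bddB h) ⟨t, ht, rfl⟩, le_csSup (pu_bddA h) ⟨t, ht, rfl⟩⟩

theorem pu_bot_nonneg (h : OD v P2 s L) : 0 ≤ sBot s := by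
  refine le_csInf (pu_ne s) ?_
  rintro _ ⟨t, ht, rfl⟩
  exact h.nonneg t ht

theorem pu_top_le (h : OD v P2 s L) : sTop s ≤ 1 := by
  refine csSup_le (pu_ne s) ?_
  rintro _ ⟨t, ht, rfl⟩
  exact h.le_one t ht

theorem pu_bot_le_top (h : OD v P2 s L) : sBot s ≤ sTop s := by
  have := pu_bounds h (1 / 2) ⟨by norm_num, by norm_num⟩
  linarith [this.1, this.2]

theorem pu_aem (h : OD v P2 s L) : AEMeasurable s (volume.restrict (Ioo (0 : ℝ) 1)) :=
  aemeasurable_restrict_of_antitoneOn measurableSet_Ioo h.anti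

theorem pu_intg_bdd {w : ℝ → ℝ} (hw : AEMeasurable w (volume.restrict (Ioo (0 : ℝ) 1))) (C : ℝ)
    (hb : ∀ t ∈ Ioo (0 : ℝ) 1, |w t| ≤ C) : IntegrableOn w (Ioo (0 : ℝ) 1) := by
  have hC : Integrable (fun _ : ℝ => C) (volume.restrict (Ioo (0 : ℝ) 1)) :=
    integrable_const C
  refine hC.mono' hw.aestronglyMeasurable ?_
  rw [ae_restrict_iff' measurableSet_Ioo]
  exact Eventually.of_forall fun t ht => by simpa using hb t ht

theorem pu_int_s (h : OD v P2 s L) : IntegrableOn s (Ioo (0 : ℝ) 1) := by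
  refine pu_intg_bdd (pu_aem h) 1 ?_
  intro t ht
  rw [abs_of_nonneg (h.nonneg t ht)]
  exact h.le_one t ht

theorem pu_vol : volume (Ioo (0 : ℝ) 1) = 1 := by simp

theorem pu_const (c : ℝ) : ∫ _t in Ioo (0 : ℝ) 1, c = c := by
  simp

/-- test with `β = √g` -/
theorem pu_test (h : OD v P2 s L) (g : ℝ → ℝ) (Z : Set ℝ) (hZ : Z.Finite)
    (hc : ContinuousOn g Zᶜ) (hm : Measurable g)
    (hg : ∀ σ ∈ Icc (sBot s) (sTop s), 0 ≤ g σ ∧ g σ ≤ 1) :
    (∫ t in Ioo (0 : ℝ) 1, Real.sqrt (1 - g (s t)) * L t) +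
      ∫ σ in (sBot s)..(sTop s), Real.sqrt (g σ) ≤ P2 := by
  have key := h.SB (fun σ => Real.sqrt (max 0 (min 1 (g σ)))) Z hZ
    ((Real.continuous_sqrt.comp (continuous_const.max
      (continuous_const.min continuous_id))).comp_continuousOn hc)
    (Real.continuous_sqrt.measurable.comp (measurable_const.max (measurable_const.min hm)))
    (fun σ => Real.sqrt_nonneg _)
    (fun σ => by
      rw [Real.sqrt_le_one]
      exact max_le zero_le_one (min_le_left _ _))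
  have e1 : (∫ t in Ioo (0 : ℝ) 1, Real.sqrt (1 - g (s t)) * L t) =
      ∫ t in Ioo (0 : ℝ) 1, Real.sqrt (1 - Real.sqrt (max 0 (min 1 (g (s t)))) ^ 2) * L t := by
    refine setIntegral_congr_fun measurableSet_Ioo ?_
    intro t ht
    have hb := pu_bounds h t ht
    have hgt := hg (s t) ⟨hb.1, hb.2⟩
    simp only
    rw [Real.sq_sqrt (le_max_left _ _), min_eq_right hgt.2, max_eq_right hgt.1]
  have e2 : ∫ σ in (sBot s)..(sTop s), Real.sqrt (g σ) =
      ∫ σ in (sBot s)..(sTop s), Real.sqrt (max 0 (min 1 (g σ))) := by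
    refine intervalIntegral.integral_congr ?_
    intro σ hσ
    rw [uIcc_of_le (pu_bot_le_top h)] at hσ
    have hgt := hg σ hσ
    simp only
    rw [min_eq_right hgt.2, max_eq_right hgt.1]
  rw [e1, e2]
  exact key

theorem pu_int_gL (h : OD v P2 s L) (g : ℝ → ℝ) (hm : Measurable g)
    (hg : ∀ σ ∈ Icc (sBot s) (sTop s), 0 ≤ g σ ∧ g σ ≤ 1) :
    IntegrableOn (fun t => Real.sqrt (1 - g (s t)) * L t) (Ioo (0 : ℝ) 1) := by
  have hgm : AEMeasurable (fun t => Real.sqrt (1 - g (s t))) (volume.restrict (Ioo (0 : ℝ) 1)) :=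
    (Real.continuous_sqrt.measurable.comp (measurable_const.sub hm)).comp_aemeasurable (pu_aem h)
  refine Integrable.bdd_mul (c := 1) h.Lint hgm.aestronglyMeasurable ?_
  rw [ae_restrict_iff' measurableSet_Ioo]
  refine Eventually.of_forall fun t ht => ?_
  have hb := pu_bounds h t ht
  have hgt := hg (s t) ⟨hb.1, hb.2⟩
  rw [Real.norm_eq_abs, abs_of_nonneg (Real.sqrt_nonneg _), Real.sqrt_le_one]
  linarith [hgt.1]

/-- calibration with explicit slice bound -/
theorem pu_calib (h : OD v P2 s L) (g : ℝ → ℝ) (Z : Set ℝ) (hZ : Z.Finite)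
    (hc : ContinuousOn g Zᶜ) (hm : Measurable g)
    (hg : ∀ σ ∈ Icc (sBot s) (sTop s), 0 ≤ g σ ∧ g σ ≤ 1) (w : ℝ → ℝ)
    (hwi : IntegrableOn w (Ioo (0 : ℝ) 1))
    (hw : ∀ᵐ t ∂(volume.restrict (Ioo (0 : ℝ) 1)), w t ≤ Real.sqrt (1 - g (s t)) * L t) :
    (∫ t in Ioo (0 : ℝ) 1, w t) + ∫ σ in (sBot s)..(sTop s), Real.sqrt (g σ) ≤ P2 := by
  have h1 := pu_test h g Z hZ hc hm hg
  have h2 : (∫ t in Ioo (0 : ℝ) 1, w t) ≤ ∫ t in Ioo (0 : ℝ) 1, Real.sqrt (1 - g (s t)) * L t :=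
    setIntegral_mono_ae_restrict hwi (pu_int_gL h g hm hg) hw
  linarith

/-! ## elementary integrals -/

theorem pu_hasDeriv_mul_sqrt (x : ℝ) (hx : 0 < x) :
    HasDerivAt (fun y : ℝ => y * Real.sqrt y) (3 / 2 * Real.sqrt x) x := by
  have h1 := (hasDerivAt_id x).mul (Real.hasDerivAt_sqrt hx.ne')
  refine h1.congr_deriv ?_
  have hs : 0 < Real.sqrt x := Real.sqrt_pos.mpr hx
  have h2 : Real.sqrt x * Real.sqrt x = x := Real.mul_self_sqrt hx.le
  simp only [id]
  field_simp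
  nlinarith [h2]

/-- `∫_p^q √(c - mσ)` -/
theorem pu_int_sqrt_lin (c m p q : ℝ) (hm : 0 < m) (hpq : p ≤ q) (hq : 0 ≤ c - m * q) :
    ∫ σ in p..q, Real.sqrt (c - m * σ) =
      2 / (3 * m) * ((c - m * p) * Real.sqrt (c - m * p) - (c - m * q) * Real.sqrt (c - m * q)) := by
  have hF : ∀ x ∈ Ioo p q, HasDerivAt
      (fun σ : ℝ => -(2 / (3 * m)) * ((c - m * σ) * Real.sqrt (c - m * σ)))
      (Real.sqrt (c - m * x)) x := by
    intro x hx
    have hpos : 0 < c - m * x := by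
      have : m * x < m * q := mul_lt_mul_of_pos_left hx.2 hm
      linarith
    have h1 : HasDerivAt (fun σ : ℝ => c - m * σ) (-m) x := by
      simpa using ((hasDerivAt_id x).const_mul m).const_sub c
    have h2 := (pu_hasDeriv_mul_sqrt (c - m * x) hpos).comp x h1
    have h3 := h2.const_mul (-(2 / (3 * m)))
    refine h3.congr_deriv ?_
    field_simp
  have hcont : Continuous (fun σ : ℝ => -(2 / (3 * m)) * ((c - m * σ) * Real.sqrt (c - m * σ))) := by
    fun_prop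
  have hint : IntervalIntegrable (fun σ : ℝ => Real.sqrt (c - m * σ)) volume p q := by
    apply Continuous.intervalIntegrable
    fun_prop
  rw [intervalIntegral.integral_eq_sub_of_hasDerivAt_of_le hpq hcont.continuousOn hF hint]
  ring

/-- `∫_0^1 u √(1-u²) = 1/3` -/
theorem pu_int_u : ∫ u in (0 : ℝ)..1, u * Real.sqrt (1 - u ^ 2) = 1 / 3 := by
  have hF : ∀ x ∈ Ioo (0 : ℝ) 1, HasDerivAt
      (fun u : ℝ => -(1 / 3) * ((1 - u ^ 2) * Real.sqrt (1 - u ^ 2)))
      (x * Real.sqrt (1 - x ^ 2)) x := by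
    intro x hx
    have hpos : 0 < 1 - x ^ 2 := by nlinarith [hx.1, hx.2]
    have h1 : HasDerivAt (fun u : ℝ => 1 - u ^ 2) (-(2 * x)) x := by
      simpa using ((hasDerivAt_pow 2 x)).const_sub 1
    have h2 := (pu_hasDeriv_mul_sqrt (1 - x ^ 2) hpos).comp x h1
    have h3 := h2.const_mul (-(1 / 3 : ℝ))
    refine h3.congr_deriv ?_
    ring
  have hcont : Continuous (fun u : ℝ => -(1 / 3) * ((1 - u ^ 2) * Real.sqrt (1 - u ^ 2))) := by
    fun_prop
  have hint : IntervalIntegrable (fun u : ℝ => u * Real.sqrt (1 - u ^ 2)) volume 0 1 := by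
    apply Continuous.intervalIntegrable
    fun_prop
  rw [intervalIntegral.integral_eq_sub_of_hasDerivAt_of_le zero_le_one hcont.continuousOn hF hint]
  norm_num

theorem pu_int_y : ∫ u in (0 : ℝ)..1, (3 * (u * (1 - u)) - 4 * (u * (1 - u)) ^ 2) = 11 / 30 := by
  have e : ∀ u : ℝ, (3 * (u * (1 - u)) - 4 * (u * (1 - u)) ^ 2) =
      3 * u ^ 1 - 7 * u ^ 2 + 8 * u ^ 3 - 4 * u ^ 4 := by intro u; ring
  simp_rw [e]
  rw [intervalIntegral.integral_sub, intervalIntegral.integral_add, intervalIntegral.integral_sub]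
  · simp only [intervalIntegral.integral_const_mul, integral_pow]
    norm_num
  all_goals exact Continuous.intervalIntegrable (by fun_prop) _ _

/-! ## algebra -/

/-- the ball profile -/
def puY (v : ℝ) : ℝ := (9 * Real.pi / 2) ^ ((1 : ℝ) / 3) * v ^ ((2 : ℝ) / 3)

theorem puY_nonneg (v : ℝ) (hv : 0 ≤ v) : 0 ≤ puY v := by
  unfold puY
  have := Real.pi_pos
  positivity

theorem puY_cube (v : ℝ) (hv : 0 ≤ v) : puY v ^ 3 = 9 * Real.pi / 2 * v ^ 2 := by
  unfold puY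
  have hpi := Real.pi_pos
  rw [mul_pow, ← Real.rpow_natCast, ← Real.rpow_natCast, ← Real.rpow_mul (by positivity),
    ← Real.rpow_mul hv]
  norm_num

theorem pu_mm_le_Y (v : ℝ) : mm v ≤ puY v := (min_le_left _ _).trans (min_le_left _ _)

theorem pu_mm_le_sqrt (v : ℝ) : mm v ≤ Real.sqrt (Real.pi * v) :=
  (min_le_left _ _).trans (min_le_right _ _)

theorem pu_mm_le_one (v : ℝ) : mm v ≤ 1 := min_le_right _ _

theorem pu_spi_pos : 0 < Real.sqrt Real.pi := Real.sqrt_pos.mpr Real.pi_pos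

theorem pu_spi_sq : Real.sqrt Real.pi ^ 2 = Real.pi := Real.sq_sqrt Real.pi_pos.le

theorem pu_amgm1 (v S : ℝ) (hv : 0 ≤ v) (hS : 0 < S) :
    Real.sqrt (Real.pi * v) ≤ Real.sqrt Real.pi * v / S + Real.sqrt Real.pi * S / 4 := by
  rw [Real.sqrt_mul Real.pi_pos.le]
  have hx : Real.sqrt v ^ 2 = v := Real.sq_sqrt hv
  have h1 : Real.sqrt Real.pi * v / S + Real.sqrt Real.pi * S / 4 -
      Real.sqrt Real.pi * Real.sqrt v = Real.sqrt Real.pi * (Real.sqrt v - S / 2) ^ 2 / S := by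
    field_simp
    nlinarith [hx]
  have h2 : 0 ≤ Real.sqrt Real.pi * (Real.sqrt v - S / 2) ^ 2 / S := by
    have := pu_spi_pos
    positivity
  linarith

theorem pu_cubic (v S : ℝ) (hv : 0 ≤ v) (hS : 0 < S) :
    (Real.sqrt Real.pi * v / S + 2 / 3 * S ^ 2) ^ 3 - puY v ^ 3 =
      (Real.sqrt Real.pi * v / S - 4 / 3 * S ^ 2) ^ 2 *
        (Real.sqrt Real.pi * v / S + 1 / 6 * S ^ 2) := by
  rw [puY_cube v hv]
  have h1 : 9 * Real.pi / 2 * v ^ 2 = 9 / 2 * (Real.sqrt Real.pi * v / S) ^ 2 * S ^ 2 := by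
    rw [div_pow, mul_pow, pu_spi_sq]
    field_simp
  rw [h1]
  ring

theorem pu_amgm2 (v S : ℝ) (hv : 0 ≤ v) (hS : 0 < S) :
    puY v ≤ Real.sqrt Real.pi * v / S + 2 / 3 * S ^ 2 := by
  have hp := pu_spi_pos
  have h1 := pu_cubic v S hv hS
  have h2 : 0 ≤ (Real.sqrt Real.pi * v / S - 4 / 3 * S ^ 2) ^ 2 *
        (Real.sqrt Real.pi * v / S + 1 / 6 * S ^ 2) := by positivity
  have h3 : 0 ≤ Real.sqrt Real.pi * v / S + 2 / 3 * S ^ 2 := by positivity
  exact le_of_pow_le_pow_left₀ (n := 3) (by norm_num) h3 (by linarith)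

theorem pu_amgm2_eq (v S : ℝ) (hv : 0 ≤ v) (hS : 0 < S)
    (h : Real.sqrt Real.pi * v / S + 2 / 3 * S ^ 2 ≤ puY v) :
    Real.sqrt Real.pi * v / S = 4 / 3 * S ^ 2 := by
  have hp := pu_spi_pos
  have h1 := pu_cubic v S hv hS
  have h3 : 0 ≤ Real.sqrt Real.pi * v / S + 2 / 3 * S ^ 2 := by positivity
  have h4 : (Real.sqrt Real.pi * v / S + 2 / 3 * S ^ 2) ^ 3 ≤ puY v ^ 3 :=
    pow_le_pow_left₀ h3 h 3
  have h5 : (Real.sqrt Real.pi * v / S - 4 / 3 * S ^ 2) ^ 2 *
        (Real.sqrt Real.pi * v / S + 1 / 6 * S ^ 2) ≤ 0 := by linarith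
  have h6 : 0 < Real.sqrt Real.pi * v / S + 1 / 6 * S ^ 2 := by positivity
  have h7 : (Real.sqrt Real.pi * v / S - 4 / 3 * S ^ 2) ^ 2 ≤ 0 := by
    by_contra hc
    push Not at hc
    have := mul_pos hc h6
    linarith
  have h8 : Real.sqrt Real.pi * v / S - 4 / 3 * S ^ 2 = 0 := by
    have := le_antisymm h7 (sq_nonneg _)
    exact pow_eq_zero_iff (two_ne_zero) |>.mp this
  linarith

theorem pu_Y_le (v : ℝ) (hv : 0 < v) (h : puY v ≤ Real.sqrt (Real.pi * v)) :
    v ≤ 4 * Real.pi / 81 := by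
  have hpi := Real.pi_pos
  have h1 : (puY v ^ 3) ^ 2 ≤ (Real.sqrt (Real.pi * v) ^ 2) ^ 3 := by
    have : (puY v ^ 3) ^ 2 = puY v ^ 6 := by ring
    rw [this]
    have : (Real.sqrt (Real.pi * v) ^ 2) ^ 3 = Real.sqrt (Real.pi * v) ^ 6 := by ring
    rw [this]
    exact pow_le_pow_left₀ (puY_nonneg v hv.le) h 6
  rw [puY_cube v hv.le, Real.sq_sqrt (by positivity)] at h1
  have h2 : Real.pi ^ 2 * v ^ 3 * (81 / 4 * v) ≤ Real.pi ^ 2 * v ^ 3 * Real.pi := by
    calc Real.pi ^ 2 * v ^ 3 * (81 / 4 * v) = (9 * Real.pi / 2 * v ^ 2) ^ 2 := by ring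
      _ ≤ (Real.pi * v) ^ 3 := h1
      _ = Real.pi ^ 2 * v ^ 3 * Real.pi := by ring
  have h3 := le_of_mul_le_mul_left h2 (by positivity)
  linarith

theorem pu_Y_ge (v : ℝ) (hv : 0 < v) (h : Real.sqrt (Real.pi * v) ≤ puY v) :
    4 * Real.pi / 81 ≤ v := by
  have hpi := Real.pi_pos
  have h1 : (Real.sqrt (Real.pi * v) ^ 2) ^ 3 ≤ (puY v ^ 3) ^ 2 := by
    have : (puY v ^ 3) ^ 2 = puY v ^ 6 := by ring
    rw [this]
    have : (Real.sqrt (Real.pi * v) ^ 2) ^ 3 = Real.sqrt (Real.pi * v) ^ 6 := by ring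
    rw [this]
    exact pow_le_pow_left₀ (Real.sqrt_nonneg _) h 6
  rw [puY_cube v hv.le, Real.sq_sqrt (by positivity)] at h1
  have h2 : Real.pi ^ 2 * v ^ 3 * Real.pi ≤ Real.pi ^ 2 * v ^ 3 * (81 / 4 * v) := by
    calc Real.pi ^ 2 * v ^ 3 * Real.pi = (Real.pi * v) ^ 3 := by ring
      _ ≤ (9 * Real.pi / 2 * v ^ 2) ^ 2 := h1
      _ = Real.pi ^ 2 * v ^ 3 * (81 / 4 * v) := by ring
  have h3 := le_of_mul_le_mul_left h2 (by positivity)
  linarith

theorem pu_alg (v a b : ℝ) (hv : 0 ≤ v) (hb : 0 ≤ b) (ha : 0 < a) :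
    mm v ≤ Real.sqrt Real.pi * (v + a * b) / (a + b) + 2 / 3 * (a - b) ^ 2 := by
  have hp := pu_spi_pos
  have hS : 0 < a + b := by linarith
  rcases le_total (3 * Real.sqrt Real.pi / 8) (a + b) with h | h
  · refine (pu_mm_le_sqrt v).trans ((pu_amgm1 v (a + b) hv hS).trans ?_)
    have e : Real.sqrt Real.pi * (v + a * b) / (a + b) + 2 / 3 * (a - b) ^ 2 -
        (Real.sqrt Real.pi * v / (a + b) + Real.sqrt Real.pi * (a + b) / 4) =
        (a - b) ^ 2 * (2 / 3 * (a + b) - Real.sqrt Real.pi / 4) / (a + b) := by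
      field_simp
      ring
    have : 0 ≤ (a - b) ^ 2 * (2 / 3 * (a + b) - Real.sqrt Real.pi / 4) / (a + b) := by
      apply div_nonneg _ hS.le
      apply mul_nonneg (sq_nonneg _)
      linarith
    linarith
  · refine (pu_mm_le_Y v).trans ((pu_amgm2 v (a + b) hv hS).trans ?_)
    have e : Real.sqrt Real.pi * (v + a * b) / (a + b) + 2 / 3 * (a - b) ^ 2 -
        (Real.sqrt Real.pi * v / (a + b) + 2 / 3 * (a + b) ^ 2) =
        (4 * a * b) * (Real.sqrt Real.pi / 4 - 2 / 3 * (a + b)) / (a + b) := by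
      field_simp
      ring
    have : 0 ≤ (4 * a * b) * (Real.sqrt Real.pi / 4 - 2 / 3 * (a + b)) / (a + b) := by
      apply div_nonneg _ hS.le
      apply mul_nonneg (by positivity)
      linarith
    linarith

/-! ## the elliptic integral -/

theorem pu_point (x D u : ℝ) (hx : 0 ≤ x) (hD : 0 ≤ D) (hu0 : 0 ≤ u) (hu1 : u ≤ 1) :
    x * (3 * (u * (1 - u)) - 4 * (u * (1 - u)) ^ 2) + D * (u * Real.sqrt (1 - u ^ 2)) ≤
      Real.sqrt (u * (1 - u) * (x + D * (1 + u)) * (x + D * u)) := by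
  obtain ⟨p, hp0, hp⟩ : ∃ p : ℝ, 0 ≤ p ∧ p ^ 2 = u * (1 - u) :=
    ⟨Real.sqrt (u * (1 - u)), Real.sqrt_nonneg _,
      Real.sq_sqrt (mul_nonneg hu0 (by linarith))⟩
  obtain ⟨r, hr0, hr⟩ : ∃ r : ℝ, 0 ≤ r ∧ r ^ 2 = u * (1 + u) :=
    ⟨Real.sqrt (u * (1 + u)), Real.sqrt_nonneg _,
      Real.sq_sqrt (mul_nonneg hu0 (by linarith))⟩
  have hpr : u * Real.sqrt (1 - u ^ 2) = p * r := by
    have h1 : 0 ≤ 1 - u ^ 2 := by nlinarith
    have h2 : (u * Real.sqrt (1 - u ^ 2)) ^ 2 = (p * r) ^ 2 := by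
      rw [mul_pow, Real.sq_sqrt h1, mul_pow, hp, hr]; ring
    exact (pow_left_inj₀ (by positivity) (by positivity) two_ne_zero).mp h2
  have h1 : 3 * (u * (1 - u)) - 4 * (u * (1 - u)) ^ 2 ≤ p := by
    rw [← hp]
    have : 0 ≤ p * (1 - 2 * p) ^ 2 * (1 + p) := by positivity
    nlinarith [this]
  have h2 : r ≤ 1 / 2 + u := by
    nlinarith [sq_nonneg (r - (1 / 2 + u)), sq_nonneg (r + (1 / 2 + u))]
  have h3 : x * (3 * (u * (1 - u)) - 4 * (u * (1 - u)) ^ 2) + D * (u * Real.sqrt (1 - u ^ 2)) ≤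
      p * (x + D * r) := by
    rw [hpr]
    nlinarith [mul_le_mul_of_nonneg_left h1 hx]
  refine h3.trans (Real.le_sqrt_of_sq_le ?_)
  rw [mul_pow, hp, mul_assoc (u * (1 - u))]
  apply mul_le_mul_of_nonneg_left _ (mul_nonneg hu0 (by linarith))
  have h4 : (x + D * (1 + u)) * (x + D * u) - (x + D * r) ^ 2 = 2 * x * D * (1 / 2 + u - r) := by
    linear_combination (-(D ^ 2)) * hr
  have h5 : 0 ≤ 2 * x * D * (1 / 2 + u - r) := by
    apply mul_nonneg (by positivity)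
    linarith
  linarith

theorem pu_K (a b : ℝ) (hb : 0 < b) (hab : b < a) :
    2 / 3 * (a - b) ^ 2 + 2 / 15 * b * (a - b) ^ 2 / (a + b) ≤
      ∫ σ in (b ^ 2)..(a ^ 2),
        Real.sqrt ((a ^ 2 - σ) * (σ - b ^ 2) / ((a + b) ^ 2 * max σ (b ^ 2))) := by
  have ha : 0 < a := hb.trans hab
  set D := a - b with hD
  have hD0 : 0 < D := by rw [hD]; linarith
  have hS : 0 < a + b := by linarith
  set G : ℝ → ℝ := fun σ => Real.sqrt ((a ^ 2 - σ) * (σ - b ^ 2) / ((a + b) ^ 2 * max σ (b ^ 2)))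
    with hG
  have hGc : Continuous G := by
    rw [hG]
    apply Real.continuous_sqrt.comp
    apply Continuous.div (by fun_prop) (by fun_prop)
    intro σ
    have : 0 < max σ (b ^ 2) := lt_of_lt_of_le (by positivity) (le_max_right _ _)
    positivity
  have hsub := intervalIntegral.integral_comp_mul_deriv (a := 0) (b := 1)
    (f := fun u : ℝ => (b + D * u) ^ 2) (f' := fun u => 2 * D * (b + D * u)) (g := G)
    (fun u _ => by
      have h1 : HasDerivAt (fun u : ℝ => b + D * u) D u := by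
        simpa using ((hasDerivAt_id u).const_mul D).const_add b
      have h2 := h1.pow 2
      refine h2.congr_deriv ?_
      push_cast
      ring)
    (by fun_prop) hGc
  have e0 : (b + D * 0) ^ 2 = b ^ 2 := by ring
  have e1 : (b + D * 1) ^ 2 = a ^ 2 := by rw [hD]; ring
  simp only [e0, e1] at hsub
  rw [← hsub]
  have hlow : (∫ u in (0 : ℝ)..1, 2 * D ^ 2 / (a + b) *
      (2 * b * (3 * (u * (1 - u)) - 4 * (u * (1 - u)) ^ 2) + D * (u * Real.sqrt (1 - u ^ 2)))) ≤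
      ∫ u in (0 : ℝ)..1, (G ∘ fun u : ℝ => (b + D * u) ^ 2) u * (2 * D * (b + D * u)) := by
    apply intervalIntegral.integral_mono_on zero_le_one
    · apply Continuous.intervalIntegrable
      fun_prop
    · apply Continuous.intervalIntegrable
      have : Continuous (G ∘ fun u : ℝ => (b + D * u) ^ 2) := hGc.comp (by fun_prop)
      fun_prop
    · intro u hu
      have hbu : 0 < b + D * u := by
        have := mul_nonneg hD0.le hu.1
        linarith
      have hmax : max ((b + D * u) ^ 2) (b ^ 2) = (b + D * u) ^ 2 := by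
        apply max_eq_left
        have := mul_nonneg hD0.le hu.1
        nlinarith
      have hpt := pu_point (2 * b) D u (by positivity) hD0.le hu.1 hu.2
      have hGe : (G ∘ fun u : ℝ => (b + D * u) ^ 2) u * (2 * D * (b + D * u)) =
          2 * D ^ 2 / (a + b) *
            Real.sqrt (u * (1 - u) * (2 * b + D * (1 + u)) * (2 * b + D * u)) := by
        simp only [Function.comp, hG, hmax]
        have e2 : (a ^ 2 - (b + D * u) ^ 2) * ((b + D * u) ^ 2 - b ^ 2) /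
            ((a + b) ^ 2 * (b + D * u) ^ 2) =
            (D / ((a + b) * (b + D * u))) ^ 2 *
              (u * (1 - u) * (2 * b + D * (1 + u)) * (2 * b + D * u)) := by
          field_simp
          rw [hD]
          ring
        rw [e2, Real.sqrt_mul (sq_nonneg _), Real.sqrt_sq (by positivity)]
        field_simp
      rw [hGe]
      exact mul_le_mul_of_nonneg_left hpt (by positivity)
  refine le_trans (le_of_eq ?_) hlow
  rw [intervalIntegral.integral_const_mul, intervalIntegral.integral_add,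
    intervalIntegral.integral_const_mul, intervalIntegral.integral_const_mul, pu_int_y, pu_int_u]
  · field_simp
    rw [hD]
    ring
  · apply Continuous.intervalIntegrable
    fun_prop
  · apply Continuous.intervalIntegrable
    fun_prop

/-! ## the three cases -/

theorem pu_v_nonneg (h : OD v P2 s L) : 0 ≤ v := by
  rw [← h.vol]
  exact setIntegral_nonneg measurableSet_Ioo h.nonneg

theorem pu_case_const (h : OD v P2 s L) (hv : 0 < v)
    (hL : ∀ᵐ t ∂(volume.restrict (Ioo (0 : ℝ) 1)), Real.sqrt (Real.pi * s t) ≤ L t)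
    (heq : sBot s = sTop s) : mm v ≤ P2 ∧ (P2 ≤ mm v → ConstEq v s L) := by
  have hpi := Real.pi_pos
  have hst : ∀ t ∈ Ioo (0 : ℝ) 1, s t = sTop s := by
    intro t ht
    have := pu_bounds h t ht
    rw [heq] at this
    exact le_antisymm this.2 this.1
  have hvs : sTop s = v := by
    have h1 := h.vol
    rw [setIntegral_congr_fun measurableSet_Ioo hst, pu_const] at h1
    exact h1
  have hst' : ∀ t ∈ Ioo (0 : ℝ) 1, s t = v := fun t ht => (hst t ht).trans hvs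
  have hL2 : ∫ t in Ioo (0 : ℝ) 1, L t ≤ P2 := by
    have h1 := pu_test h (fun _ => 0) ∅ Set.finite_empty continuousOn_const measurable_const
      (fun σ _ => ⟨le_refl 0, zero_le_one⟩)
    simpa using h1
  have hLv : ∀ᵐ t ∂(volume.restrict (Ioo (0 : ℝ) 1)), Real.sqrt (Real.pi * v) ≤ L t := by
    filter_upwards [hL, ae_restrict_mem measurableSet_Ioo] with t ht1 ht2
    rw [hst' t ht2] at ht1
    exact ht1
  have h2 : Real.sqrt (Real.pi * v) ≤ ∫ t in Ioo (0 : ℝ) 1, L t := by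
    have h3 : ∫ _t in Ioo (0 : ℝ) 1, Real.sqrt (Real.pi * v) ≤ ∫ t in Ioo (0 : ℝ) 1, L t :=
      setIntegral_mono_ae_restrict (integrable_const _) h.Lint hLv
    rwa [pu_const] at h3
  refine ⟨(pu_mm_le_sqrt v).trans (h2.trans hL2), fun hP => ?_⟩
  have h3 : ∫ t in Ioo (0 : ℝ) 1, L t = Real.sqrt (Real.pi * v) := by
    have := pu_mm_le_sqrt v
    linarith
  have h4 : Real.sqrt (Real.pi * v) ≤ mm v := by linarith
  have h5 : 4 * Real.pi / 81 ≤ v := pu_Y_ge v hv (h4.trans (pu_mm_le_Y v))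
  have h6 : Real.sqrt (Real.pi * v) ≤ 1 := h4.trans (pu_mm_le_one v)
  have h7 : v ≤ 1 / Real.pi := by
    rw [Real.sqrt_le_one] at h6
    rw [le_div_iff₀ hpi]
    linarith
  refine ⟨h5, h7, ?_⟩
  have h8 : ∫ t in Ioo (0 : ℝ) 1, (L t - Real.sqrt (Real.pi * v)) = 0 := by
    rw [integral_sub h.Lint (integrable_const _), pu_const, h3, sub_self]
  have h9 : (fun t => L t - Real.sqrt (Real.pi * v)) =ᵐ[volume.restrict (Ioo (0 : ℝ) 1)] 0 := by
    have hint : Integrable (fun t => L t - Real.sqrt (Real.pi * v))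
        (volume.restrict (Ioo (0 : ℝ) 1)) := h.Lint.sub (integrable_const _)
    have hnn : 0 ≤ᵐ[volume.restrict (Ioo (0 : ℝ) 1)] fun t => L t - Real.sqrt (Real.pi * v) := by
      filter_upwards [hLv] with t ht
      simpa using ht
    exact (integral_eq_zero_iff_of_nonneg_ae hnn hint).mp h8
  filter_upwards [h9, ae_restrict_mem measurableSet_Ioo] with t ht1 ht2
  refine ⟨hst' t ht2, ?_⟩
  have : L t - Real.sqrt (Real.pi * v) = 0 := ht1
  linarith

theorem pu_case_mid (h : OD v P2 s L)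
    (hL : ∀ᵐ t ∂(volume.restrict (Ioo (0 : ℝ) 1)), Real.sqrt (Real.pi * s t) ≤ L t)
    (hb : 0 < sBot s) (hlt : sBot s < sTop s) : mm v < P2 := by
  have hpi := Real.pi_pos
  have hp := pu_spi_pos
  obtain ⟨a, ha0, ha⟩ : ∃ a : ℝ, 0 < a ∧ a ^ 2 = sTop s :=
    ⟨Real.sqrt (sTop s), Real.sqrt_pos.mpr (hb.trans hlt), Real.sq_sqrt (hb.trans hlt).le⟩
  obtain ⟨b, hb0, hbb⟩ : ∃ b : ℝ, 0 < b ∧ b ^ 2 = sBot s :=
    ⟨Real.sqrt (sBot s), Real.sqrt_pos.mpr hb, Real.sq_sqrt hb.le⟩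
  have hab : b < a := by
    have : b ^ 2 < a ^ 2 := by rw [ha, hbb]; exact hlt
    exact lt_of_pow_lt_pow_left₀ 2 ha0.le this
  have hS : 0 < a + b := by linarith
  set g : ℝ → ℝ := fun σ => (a ^ 2 - σ) * (σ - b ^ 2) / ((a + b) ^ 2 * max σ (b ^ 2)) with hg
  have hgc : Continuous g := by
    rw [hg]
    apply Continuous.div (by fun_prop) (by fun_prop)
    intro σ
    have : 0 < max σ (b ^ 2) := lt_of_lt_of_le (by positivity) (le_max_right _ _)
    positivity
  have h1g : ∀ σ ∈ Icc (sBot s) (sTop s), 1 - g σ = (σ + a * b) ^ 2 / ((a + b) ^ 2 * σ) := by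
    intro σ hσ
    rw [← ha, ← hbb] at hσ
    have hσ0 : 0 < σ := lt_of_lt_of_le (by positivity) hσ.1
    simp only [hg]
    rw [max_eq_left hσ.1]
    field_simp
    ring
  have hg01 : ∀ σ ∈ Icc (sBot s) (sTop s), 0 ≤ g σ ∧ g σ ≤ 1 := by
    intro σ hσ
    have h1 := h1g σ hσ
    rw [← ha, ← hbb] at hσ
    have hσ0 : 0 < σ := lt_of_lt_of_le (by positivity) hσ.1
    constructor
    · simp only [hg]
      apply div_nonneg
      · exact mul_nonneg (by linarith [hσ.2]) (by linarith [hσ.1])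
      · have : 0 < max σ (b ^ 2) := lt_of_lt_of_le (by positivity) (le_max_right _ _)
        positivity
    · have h2 : 0 ≤ (σ + a * b) ^ 2 / ((a + b) ^ 2 * σ) := by positivity
      linarith
  have hcal := pu_calib h g ∅ Set.finite_empty hgc.continuousOn hgc.measurable hg01
    (fun t => Real.sqrt Real.pi * (s t + a * b) / (a + b))
    (by
      have h1 : IntegrableOn (fun t => s t + a * b) (Ioo (0 : ℝ) 1) :=
        (pu_int_s h).add (integrable_const _)
      exact (h1.const_mul (Real.sqrt Real.pi)).div_const (a + b))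
    (by
      filter_upwards [hL, ae_restrict_mem measurableSet_Ioo] with t ht1 ht2
      have hbd := pu_bounds h t ht2
      have hst : 0 < s t := lt_of_lt_of_le hb hbd.1
      rw [h1g (s t) ⟨hbd.1, hbd.2⟩]
      refine le_trans (le_of_eq ?_) (mul_le_mul_of_nonneg_left ht1 (Real.sqrt_nonneg _))
      rw [← Real.sqrt_mul (by positivity)]
      have e : (s t + a * b) ^ 2 / ((a + b) ^ 2 * s t) * (Real.pi * s t) =
          ((s t + a * b) / (a + b)) ^ 2 * Real.pi := by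
        field_simp
      rw [e, Real.sqrt_mul (sq_nonneg _), Real.sqrt_sq (by positivity)]
      ring)
  have hI : ∫ t in Ioo (0 : ℝ) 1, Real.sqrt Real.pi * (s t + a * b) / (a + b) =
      Real.sqrt Real.pi * (v + a * b) / (a + b) := by
    rw [integral_div, integral_const_mul, integral_add (pu_int_s h) (integrable_const _),
      pu_const, h.vol]
  have hK := pu_K a b hb0 hab
  rw [hbb, ha] at hK
  have hK' : ∫ σ in (sBot s)..(sTop s), Real.sqrt (g σ) =
      ∫ σ in (sBot s)..(sTop s),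
        Real.sqrt ((sTop s - σ) * (σ - sBot s) / ((a + b) ^ 2 * max σ (sBot s))) := by
    simp only [hg, ha, hbb]
  rw [hI, hK'] at hcal
  have halg := pu_alg v a b (pu_v_nonneg h) hb0.le ha0
  have hpos : 0 < 2 / 15 * b * (a - b) ^ 2 / (a + b) := by
    have : 0 < a - b := by linarith
    positivity
  linarith

/-- the test functions for `sBot s = 0` -/
theorem pu_zero_test (h : OD v P2 s L)
    (hL : ∀ᵐ t ∂(volume.restrict (Ioo (0 : ℝ) 1)), Real.sqrt (Real.pi * s t) ≤ L t)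
    (hb : sBot s = 0) (a : ℝ) (ha0 : 0 < a) (ha : a ^ 2 = sTop s) :
    (∫ t in Ioo (0 : ℝ) 1, Real.sqrt (1 - (1 - (1 / a ^ 2) * s t)) * L t) + 2 / 3 * a ^ 2 ≤ P2 ∧
    Real.sqrt Real.pi * v / a ≤
      (∫ t in Ioo (0 : ℝ) 1, Real.sqrt (1 - (1 - (1 / a ^ 2) * s t)) * L t) := by
  have hpi := Real.pi_pos
  have hp := pu_spi_pos
  have hgc : Continuous (fun σ : ℝ => 1 - (1 / a ^ 2) * σ) := by fun_prop
  have hg01 : ∀ σ ∈ Icc (sBot s) (sTop s), 0 ≤ 1 - (1 / a ^ 2) * σ ∧ 1 - (1 / a ^ 2) * σ ≤ 1 := by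
    intro σ hσ
    rw [← ha, hb] at hσ
    have h1 : (1 / a ^ 2) * σ ≤ 1 := by
      rw [one_div, inv_mul_le_iff₀ (by positivity)]
      linarith [hσ.2]
    have h2 : 0 ≤ (1 / a ^ 2) * σ := mul_nonneg (by positivity) hσ.1
    constructor <;> linarith
  constructor
  · have h1 := pu_test h (fun σ => 1 - (1 / a ^ 2) * σ) ∅ Set.finite_empty hgc.continuousOn
      hgc.measurable hg01
    have h2 := pu_int_sqrt_lin 1 (1 / a ^ 2) 0 (a ^ 2) (by positivity) (by positivity)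
      (by rw [one_div, inv_mul_cancel₀ (by positivity)]; norm_num)
    have h3 : 1 - 1 / a ^ 2 * a ^ 2 = 0 := by
      rw [one_div, inv_mul_cancel₀ (by positivity)]; norm_num
    rw [h3] at h2
    have h4 : ∫ σ in (0 : ℝ)..(a ^ 2), Real.sqrt (1 - 1 / a ^ 2 * σ) = 2 / 3 * a ^ 2 := by
      rw [h2]
      simp
      field_simp
    rw [hb, ← ha, h4] at h1
    exact h1
  · have h1 : ∫ t in Ioo (0 : ℝ) 1, Real.sqrt Real.pi * s t / a = Real.sqrt Real.pi * v / a := by
      rw [integral_div, integral_const_mul, h.vol]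
    rw [← h1]
    refine setIntegral_mono_ae_restrict ?_
      (pu_int_gL h (fun σ => 1 - (1 / a ^ 2) * σ) hgc.measurable hg01) ?_
    · exact ((pu_int_s h).const_mul (Real.sqrt Real.pi)).div_const a
    · filter_upwards [hL, ae_restrict_mem measurableSet_Ioo] with t ht1 ht2
      have hst := h.nonneg t ht2
      refine le_trans (le_of_eq ?_) (mul_le_mul_of_nonneg_left ht1 (Real.sqrt_nonneg _))
      rw [← Real.sqrt_mul (by
        have : 0 ≤ 1 / a ^ 2 * s t := by positivity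
        linarith)]
      have e : (1 - (1 - 1 / a ^ 2 * s t)) * (Real.pi * s t) = (s t / a) ^ 2 * Real.pi := by
        field_simp
        ring
      rw [e, Real.sqrt_mul (sq_nonneg _), Real.sqrt_sq (by positivity)]
      ring

/-- comparison with the perturbed test function -/
theorem pu_zero_step1 (h : OD v P2 s L)
    (hL : ∀ᵐ t ∂(volume.restrict (Ioo (0 : ℝ) 1)), Real.sqrt (Real.pi * s t) ≤ L t)
    (hb : sBot s = 0) (a : ℝ) (ha0 : 0 < a) (ha : a ^ 2 = sTop s)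
    (hP : P2 ≤ Real.sqrt Real.pi * v / a + 2 / 3 * a ^ 2)
    (t0 σ0 : ℝ) (ht0 : 0 < t0) (ht1 : t0 < 1) (hσ0 : 0 < σ0) (hσ1 : σ0 < a ^ 2)
    (hs0 : ∀ t ∈ Ioo (0 : ℝ) 1, t0 ≤ t → s t < σ0) (κ ε : ℝ) (hκ : 0 < κ) (hε : 0 < ε)
    (h1 : κ + ε / (Real.pi * σ0) ≤ 2 / (a * Real.sqrt Real.pi)) (h2 : ε * κ ≤ σ0 / a ^ 2) :
    a ^ 2 * Real.sqrt (1 - 1 / a ^ 2 * σ0) * κ - 2 / 3 * a ^ 2 * κ * Real.sqrt (ε * κ) ≤ t0 := by
  have hpi := Real.pi_pos
  have hp := pu_spi_pos
  have hpsq := pu_spi_sq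
  have hεκ : 0 < ε * κ := mul_pos hε hκ
  set g : ℝ → ℝ := fun σ => 1 - (1 / a ^ 2) * σ + (if σ0 ≤ σ then ε * κ else 0) with hg
  have hσa : σ0 / a ^ 2 = (1 / a ^ 2) * σ0 := by ring
  have hgm : Measurable g := by
    rw [hg]
    refine Measurable.add (by fun_prop) ?_
    exact Measurable.ite measurableSet_Ici measurable_const measurable_const
  have hgc : ContinuousOn g ({σ0}ᶜ : Set ℝ) := by
    intro σ hσ
    apply ContinuousAt.continuousWithinAt
    rcases lt_or_gt_of_ne (show σ ≠ σ0 from hσ) with hlt | hgt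
    · have : g =ᶠ[𝓝 σ] fun σ => 1 - (1 / a ^ 2) * σ := by
        filter_upwards [Iio_mem_nhds hlt] with x hx
        have hx' : ¬ σ0 ≤ x := not_le.mpr hx
        simp only [hg, if_neg hx', add_zero]
      rw [continuousAt_congr this]
      fun_prop
    · have : g =ᶠ[𝓝 σ] fun σ => 1 - (1 / a ^ 2) * σ + ε * κ := by
        filter_upwards [Ioi_mem_nhds hgt] with x hx
        have hx' : σ0 ≤ x := le_of_lt hx
        simp only [hg, if_pos hx']
      rw [continuousAt_congr this]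
      fun_prop
  have hg01 : ∀ σ ∈ Icc (sBot s) (sTop s), 0 ≤ g σ ∧ g σ ≤ 1 := by
    intro σ hσ
    rw [← ha, hb] at hσ
    have h3 : (1 / a ^ 2) * σ ≤ 1 := by
      rw [one_div, inv_mul_le_iff₀ (by positivity)]
      linarith [hσ.2]
    have h4 : 0 ≤ (1 / a ^ 2) * σ := mul_nonneg (by positivity) hσ.1
    simp only [hg]
    by_cases hc : σ0 ≤ σ
    · rw [if_pos hc]
      have h5 : (1 / a ^ 2) * σ0 ≤ (1 / a ^ 2) * σ := mul_le_mul_of_nonneg_left hc (by positivity)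
      constructor <;> linarith
    · rw [if_neg hc]
      constructor <;> linarith
  have hcal := pu_calib h g {σ0} (Set.finite_singleton _) hgc hgm hg01
    (fun t => Real.sqrt Real.pi * s t / a - (Ioo (0 : ℝ) t0).indicator (fun _ => ε) t)
    (by
      have e1 : IntegrableOn (fun t => Real.sqrt Real.pi * s t / a) (Ioo (0 : ℝ) 1) :=
        ((pu_int_s h).const_mul (Real.sqrt Real.pi)).div_const a
      refine e1.sub ?_
      exact (integrable_const ε).indicator measurableSet_Ioo)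
    (by
      filter_upwards [hL, ae_restrict_mem measurableSet_Ioo] with t htL ht
      have hst := h.nonneg t ht
      have hbd := pu_bounds h t ht
      have hgb := hg01 (s t) ⟨hbd.1, hbd.2⟩
      by_cases hc : σ0 ≤ s t
      · have htt : t < t0 := by
          by_contra hcon
          push Not at hcon
          exact absurd (hs0 t ht hcon) (not_lt.mpr hc)
        have hind : (Ioo (0 : ℝ) t0).indicator (fun _ => ε) t = ε :=
          indicator_of_mem (show t ∈ Ioo (0 : ℝ) t0 from ⟨ht.1, htt⟩) _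
        rw [hind]
        have hspos : 0 < s t := hσ0.trans_le hc
        refine le_trans ?_ (mul_le_mul_of_nonneg_left htL (Real.sqrt_nonneg _))
        rw [← Real.sqrt_mul (by linarith [hgb.2])]
        apply Real.le_sqrt_of_sq_le
        have hgs : 1 - g (s t) = 1 / a ^ 2 * s t - ε * κ := by
          simp only [hg, if_pos hc]
          ring
        rw [hgs]
        -- κ ≤ 2/(a√π) - ε/(π s)
        have h5 : ε / (Real.pi * s t) ≤ ε / (Real.pi * σ0) := by
          apply div_le_div_of_nonneg_left hε.le (by positivity)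
          exact mul_le_mul_of_nonneg_left hc hpi.le
        have h6 : κ + ε / (Real.pi * s t) ≤ 2 / (a * Real.sqrt Real.pi) := by linarith
        have h7 : (κ + ε / (Real.pi * s t)) * (ε * Real.pi * s t) ≤
            2 / (a * Real.sqrt Real.pi) * (ε * Real.pi * s t) :=
          mul_le_mul_of_nonneg_right h6 (by positivity)
        have h8 : (κ + ε / (Real.pi * s t)) * (ε * Real.pi * s t) =
            κ * ε * Real.pi * s t + ε ^ 2 := by
          field_simp
        have h9 : 2 / (a * Real.sqrt Real.pi) * (ε * Real.pi * s t) =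
            2 * ε * (Real.sqrt Real.pi * s t / a) := by
          rw [← pu_spi_sq]
          have := hp.ne'
          rw [pu_spi_sq]
          field_simp
          rw [pu_spi_sq]
        rw [h8, h9] at h7
        have h10 : (Real.sqrt Real.pi * s t / a) ^ 2 = (1 / a ^ 2 * s t) * (Real.pi * s t) := by
          rw [div_pow, mul_pow, pu_spi_sq]
          field_simp
        have h11 : (Real.sqrt Real.pi * s t / a - ε) ^ 2 =
            (1 / a ^ 2 * s t) * (Real.pi * s t) - 2 * ε * (Real.sqrt Real.pi * s t / a) + ε ^ 2 := by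
          rw [sub_sq, h10]; ring
        rw [h11]
        nlinarith [h7]
      · have hind : 0 ≤ (Ioo (0 : ℝ) t0).indicator (fun _ => ε) t :=
          indicator_nonneg (fun _ _ => hε.le) _
        refine le_trans ?_ (mul_le_mul_of_nonneg_left htL (Real.sqrt_nonneg _))
        rw [← Real.sqrt_mul (by linarith [hgb.2])]
        have e : (1 - g (s t)) * (Real.pi * s t) = (s t / a) ^ 2 * Real.pi := by
          simp only [hg, if_neg hc]
          field_simp
          ring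
        rw [e, Real.sqrt_mul (sq_nonneg _), Real.sqrt_sq (by positivity)]
        have : Real.sqrt Real.pi * s t / a = s t / a * Real.sqrt Real.pi := by ring
        linarith)
  have hI : ∫ t in Ioo (0 : ℝ) 1,
      (Real.sqrt Real.pi * s t / a - (Ioo (0 : ℝ) t0).indicator (fun _ => ε) t) =
      Real.sqrt Real.pi * v / a - ε * t0 := by
    have e1 : IntegrableOn (fun t => Real.sqrt Real.pi * s t / a) (Ioo (0 : ℝ) 1) :=
      ((pu_int_s h).const_mul (Real.sqrt Real.pi)).div_const a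
    have e2 : IntegrableOn ((Ioo (0 : ℝ) t0).indicator (fun _ => ε)) (Ioo (0 : ℝ) 1) :=
      (integrable_const ε).indicator measurableSet_Ioo
    rw [integral_sub e1 e2, integral_div, integral_const_mul, h.vol,
      setIntegral_indicator measurableSet_Ioo]
    have e3 : Ioo (0 : ℝ) 1 ∩ Ioo 0 t0 = Ioo 0 t0 := by
      apply inter_eq_self_of_subset_right
      exact Ioo_subset_Ioo_right ht1.le
    rw [e3]
    simp [ht0.le]
    ring
  set Y : ℝ := 1 - 1 / a ^ 2 * σ0 with hY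
  have hY0 : 0 < Y := by
    rw [hY]
    have : 1 / a ^ 2 * σ0 < 1 := by
      rw [one_div, inv_mul_lt_iff₀ (by positivity)]
      linarith
    linarith
  have ha1 : 1 / a ^ 2 * a ^ 2 = 1 := by
    rw [one_div, inv_mul_cancel₀ (by positivity)]
  have hJ : ∫ σ in (sBot s)..(sTop s), Real.sqrt (g σ) =
      2 / 3 * a ^ 2 * (1 - Y * Real.sqrt Y) +
        2 / 3 * a ^ 2 * ((Y + ε * κ) * Real.sqrt (Y + ε * κ) - (ε * κ) * Real.sqrt (ε * κ)) := by
    rw [hb, ← ha]
    have i1 : IntervalIntegrable (fun σ => Real.sqrt (1 - 1 / a ^ 2 * σ)) volume 0 σ0 :=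
      Continuous.intervalIntegrable (by fun_prop) _ _
    have i2 : IntervalIntegrable (fun σ => Real.sqrt ((1 + ε * κ) - 1 / a ^ 2 * σ)) volume σ0 (a ^ 2) :=
      Continuous.intervalIntegrable (by fun_prop) _ _
    have c1 : ∀ σ ∈ Set.uIoo 0 σ0, Real.sqrt (g σ) = Real.sqrt (1 - 1 / a ^ 2 * σ) := by
      intro σ hσ
      rw [uIoo_of_le hσ0.le] at hσ
      simp only [hg, if_neg (not_le.mpr hσ.2), add_zero]
    have c2 : ∀ σ ∈ Set.uIoo σ0 (a ^ 2),
        Real.sqrt (g σ) = Real.sqrt ((1 + ε * κ) - 1 / a ^ 2 * σ) := by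
      intro σ hσ
      rw [uIoo_of_le hσ1.le] at hσ
      simp only [hg, if_pos hσ.1.le]
      congr 1
      ring
    have j1 : IntervalIntegrable (fun σ => Real.sqrt (g σ)) volume 0 σ0 := by
      refine i1.congr_uIoo ?_
      intro σ hσ
      exact (c1 σ hσ).symm
    have j2 : IntervalIntegrable (fun σ => Real.sqrt (g σ)) volume σ0 (a ^ 2) := by
      refine i2.congr_uIoo ?_
      intro σ hσ
      exact (c2 σ hσ).symm
    rw [← intervalIntegral.integral_add_adjacent_intervals j1 j2,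
      intervalIntegral.integral_congr_uIoo c1, intervalIntegral.integral_congr_uIoo c2,
      pu_int_sqrt_lin 1 (1 / a ^ 2) 0 σ0 (by positivity) hσ0.le hY0.le,
      pu_int_sqrt_lin (1 + ε * κ) (1 / a ^ 2) σ0 (a ^ 2) (by positivity) hσ1.le
        (by rw [ha1]; linarith)]
    rw [ha1]
    have e1 : (1 : ℝ) + ε * κ - 1 = ε * κ := by ring
    have e2 : 1 + ε * κ - 1 / a ^ 2 * σ0 = Y + ε * κ := by rw [hY]; ring
    rw [e1, e2, mul_zero, sub_zero, Real.sqrt_one, mul_one, ← hY]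
    field_simp
  rw [hI, hJ] at hcal
  -- convexity
  have hconv : Y * Real.sqrt Y + 3 / 2 * Real.sqrt Y * (ε * κ) ≤
      (Y + ε * κ) * Real.sqrt (Y + ε * κ) := by
    have hx : Real.sqrt (Y + ε * κ) ^ 2 = Y + ε * κ := Real.sq_sqrt (by positivity)
    have hy : Real.sqrt Y ^ 2 = Y := Real.sq_sqrt hY0.le
    have hx0 := Real.sqrt_nonneg (Y + ε * κ)
    have hy0 := Real.sqrt_nonneg Y
    set x := Real.sqrt (Y + ε * κ)
    set y := Real.sqrt Y
    have e1 : (Y + ε * κ) * x - (Y * y + 3 / 2 * y * (ε * κ)) = (x - y) ^ 2 * (x + y / 2) := by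
      have : ε * κ = x ^ 2 - y ^ 2 := by linarith
      rw [this, ← hy]
      ring
    have e2 : 0 ≤ (x - y) ^ 2 * (x + y / 2) := by positivity
    linarith
  have hfin : ε * (a ^ 2 * Real.sqrt Y * κ - 2 / 3 * a ^ 2 * κ * Real.sqrt (ε * κ)) ≤ ε * t0 := by
    nlinarith [mul_le_mul_of_nonneg_left hconv (show (0 : ℝ) ≤ 2 / 3 * a ^ 2 by positivity)]
  exact le_of_mul_le_mul_left hfin hε

theorem pu_zero_step2 (h : OD v P2 s L)
    (hL : ∀ᵐ t ∂(volume.restrict (Ioo (0 : ℝ) 1)), Real.sqrt (Real.pi * s t) ≤ L t)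
    (hb : sBot s = 0) (a : ℝ) (ha0 : 0 < a) (ha : a ^ 2 = sTop s)
    (hP : P2 ≤ Real.sqrt Real.pi * v / a + 2 / 3 * a ^ 2)
    (t0 σ0 : ℝ) (ht0 : 0 < t0) (ht1 : t0 < 1) (hσ0 : 0 < σ0) (hσ1 : σ0 < a ^ 2)
    (hs0 : ∀ t ∈ Ioo (0 : ℝ) 1, t0 ≤ t → s t < σ0) :
    a ^ 2 - Real.pi / 4 * t0 ^ 2 ≤ σ0 := by
  have hpi := Real.pi_pos
  have hp := pu_spi_pos
  have hpsq := pu_spi_sq
  set κ0 : ℝ := 2 / (a * Real.sqrt Real.pi) with hκ0
  have hκ0p : 0 < κ0 := by positivity
  have key1 : ∀ κ : ℝ, 0 < κ → κ < κ0 → a ^ 2 * Real.sqrt (1 - 1 / a ^ 2 * σ0) * κ ≤ t0 := by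
    intro κ hκ hκ1
    have hcont : Continuous (fun ε : ℝ => a ^ 2 * Real.sqrt (1 - 1 / a ^ 2 * σ0) * κ -
        2 / 3 * a ^ 2 * κ * Real.sqrt (ε * κ)) := by fun_prop
    have htend : Tendsto (fun ε : ℝ => a ^ 2 * Real.sqrt (1 - 1 / a ^ 2 * σ0) * κ -
        2 / 3 * a ^ 2 * κ * Real.sqrt (ε * κ)) (𝓝[>] 0)
        (𝓝 (a ^ 2 * Real.sqrt (1 - 1 / a ^ 2 * σ0) * κ)) := by
      have := hcont.tendsto 0
      simp only [zero_mul, Real.sqrt_zero, mul_zero, sub_zero] at this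
      exact this.mono_left nhdsWithin_le_nhds
    refine le_of_tendsto htend ?_
    have ev1 : ∀ᶠ ε in 𝓝[>] (0 : ℝ), ε < (κ0 - κ) * (Real.pi * σ0) := by
      apply mem_nhdsWithin_of_mem_nhds
      apply Iio_mem_nhds
      have : 0 < κ0 - κ := by linarith
      positivity
    have ev2 : ∀ᶠ ε in 𝓝[>] (0 : ℝ), ε < σ0 / a ^ 2 / κ := by
      apply mem_nhdsWithin_of_mem_nhds
      apply Iio_mem_nhds
      positivity
    filter_upwards [ev1, ev2, self_mem_nhdsWithin] with ε he1 he2 he3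
    have hε : 0 < ε := he3
    apply pu_zero_step1 h hL hb a ha0 ha hP t0 σ0 ht0 ht1 hσ0 hσ1 hs0 κ ε hκ hε
    · have : ε / (Real.pi * σ0) ≤ κ0 - κ := by
        rw [div_le_iff₀ (by positivity)]
        exact he1.le
      linarith
    · rw [lt_div_iff₀ hκ] at he2
      exact he2.le
  have key2 : a ^ 2 * Real.sqrt (1 - 1 / a ^ 2 * σ0) * κ0 ≤ t0 := by
    have hcont : Continuous (fun κ : ℝ => a ^ 2 * Real.sqrt (1 - 1 / a ^ 2 * σ0) * κ) := by
      fun_prop
    have htend : Tendsto (fun κ : ℝ => a ^ 2 * Real.sqrt (1 - 1 / a ^ 2 * σ0) * κ) (𝓝[<] κ0)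
        (𝓝 (a ^ 2 * Real.sqrt (1 - 1 / a ^ 2 * σ0) * κ0)) :=
      (hcont.tendsto κ0).mono_left nhdsWithin_le_nhds
    refine le_of_tendsto htend ?_
    have ev1 : ∀ᶠ κ in 𝓝[<] κ0, 0 < κ := by
      apply mem_nhdsWithin_of_mem_nhds
      exact Ioi_mem_nhds hκ0p
    filter_upwards [ev1, self_mem_nhdsWithin] with κ hk1 hk2
    exact key1 κ hk1 hk2
  have hY0 : 0 ≤ 1 - 1 / a ^ 2 * σ0 := by
    have : 1 / a ^ 2 * σ0 < 1 := by
      rw [one_div, inv_mul_lt_iff₀ (by positivity)]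
      linarith
    linarith
  have h3 : (a ^ 2 * Real.sqrt (1 - 1 / a ^ 2 * σ0) * κ0) ^ 2 ≤ t0 ^ 2 :=
    pow_le_pow_left₀ (by positivity) key2 2
  have h4 : (a ^ 2 * Real.sqrt (1 - 1 / a ^ 2 * σ0) * κ0) ^ 2 =
      4 / Real.pi * (a ^ 2 - σ0) := by
    rw [mul_pow, mul_pow, Real.sq_sqrt hY0, hκ0, div_pow, mul_pow, pu_spi_sq]
    field_simp
    ring
  rw [h4] at h3
  have h5 : Real.pi / 4 * (4 / Real.pi * (a ^ 2 - σ0)) ≤ Real.pi / 4 * t0 ^ 2 :=
    mul_le_mul_of_nonneg_left h3 (by positivity)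
  have h6 : Real.pi / 4 * (4 / Real.pi * (a ^ 2 - σ0)) = a ^ 2 - σ0 := by
    field_simp
  linarith

theorem pu_zero_profile (h : OD v P2 s L)
    (hL : ∀ᵐ t ∂(volume.restrict (Ioo (0 : ℝ) 1)), Real.sqrt (Real.pi * s t) ≤ L t)
    (hb : sBot s = 0) (a : ℝ) (ha0 : 0 < a) (ha : a ^ 2 = sTop s)
    (hP : P2 ≤ Real.sqrt Real.pi * v / a + 2 / 3 * a ^ 2) :
    ∀ t ∈ Ioo (0 : ℝ) 1, a ^ 2 - Real.pi / 4 * t ^ 2 ≤ s t := by
  intro t ht
  have hpi := Real.pi_pos
  by_contra hcon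
  push Not at hcon
  have hst := h.nonneg t ht
  have h1 := pu_zero_step2 h hL hb a ha0 ha hP t ((s t + (a ^ 2 - Real.pi / 4 * t ^ 2)) / 2)
    ht.1 ht.2 (by linarith) (by
      have : 0 < Real.pi / 4 * t ^ 2 := by
        have := ht.1
        positivity
      linarith) (by
      intro u hu htu
      have := h.anti ht hu htu
      linarith)
  linarith

theorem pu_int_cap (r : ℝ) (hr0 : 0 ≤ r) (hr1 : r ≤ 1) :
    ∫ t in Ioo (0 : ℝ) 1, Real.pi / 4 * max 0 (r ^ 2 - t ^ 2) = Real.pi / 6 * r ^ 3 := by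
  rw [← integral_Ioc_eq_integral_Ioo, ← intervalIntegral.integral_of_le zero_le_one,
    intervalIntegral.integral_const_mul]
  have i1 : ∀ x y : ℝ, IntervalIntegrable (fun t : ℝ => max 0 (r ^ 2 - t ^ 2)) volume x y :=
    fun x y => Continuous.intervalIntegrable (by fun_prop) _ _
  rw [← intervalIntegral.integral_add_adjacent_intervals (i1 0 r) (i1 r 1)]
  have e1 : ∫ t in (0 : ℝ)..r, max 0 (r ^ 2 - t ^ 2) = ∫ t in (0 : ℝ)..r, (r ^ 2 - t ^ 2) := by
    apply intervalIntegral.integral_congr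
    intro t ht
    rw [uIcc_of_le hr0] at ht
    simp only
    apply max_eq_right
    nlinarith [ht.1, ht.2]
  have e2 : ∫ t in r..(1 : ℝ), max 0 (r ^ 2 - t ^ 2) = ∫ _t in r..(1 : ℝ), (0 : ℝ) := by
    apply intervalIntegral.integral_congr
    intro t ht
    rw [uIcc_of_le hr1] at ht
    simp only
    apply max_eq_left
    nlinarith [ht.1, ht.2]
  rw [e1, e2, intervalIntegral.integral_sub (by simp) (Continuous.intervalIntegrable (by fun_prop) _ _)]
  simp [integral_pow]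
  ring

theorem pu_case_zero (h : OD v P2 s L) (hv : 0 < v)
    (hL : ∀ᵐ t ∂(volume.restrict (Ioo (0 : ℝ) 1)), Real.sqrt (Real.pi * s t) ≤ L t)
    (hb : sBot s = 0) (hlt : sBot s < sTop s) :
    mm v ≤ P2 ∧ (P2 ≤ mm v → SphereEq v s L) := by
  have hpi := Real.pi_pos
  have hp := pu_spi_pos
  have hpsq := pu_spi_sq
  obtain ⟨a, ha0, ha⟩ : ∃ a : ℝ, 0 < a ∧ a ^ 2 = sTop s :=
    ⟨Real.sqrt (sTop s), Real.sqrt_pos.mpr (by rw [← hb]; exact hlt),
      Real.sq_sqrt (by rw [← hb]; exact hlt.le)⟩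
  obtain ⟨hT1, hT2⟩ := pu_zero_test h hL hb a ha0 ha
  have halg := pu_alg v a 0 hv.le le_rfl ha0
  simp only [mul_zero, add_zero, sub_zero] at halg
  have hlow : Real.sqrt Real.pi * v / a + 2 / 3 * a ^ 2 ≤ P2 := by linarith
  refine ⟨halg.trans hlow, fun hP => ?_⟩
  have hPeq : P2 = Real.sqrt Real.pi * v / a + 2 / 3 * a ^ 2 := le_antisymm (hP.trans halg) hlow
  have hmm : mm v = Real.sqrt Real.pi * v / a + 2 / 3 * a ^ 2 := le_antisymm halg (by linarith)
  -- `a ≤ 3√π/8`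
  have hsmall : a ≤ 3 * Real.sqrt Real.pi / 8 := by
    by_contra hcon
    push Not at hcon
    have h1 := pu_amgm1 v a hv.le ha0
    have h2 := pu_mm_le_sqrt v
    have h3 : Real.sqrt Real.pi * a / 4 < 2 / 3 * a ^ 2 := by nlinarith
    linarith
  have hYY : Real.sqrt Real.pi * v / a + 2 / 3 * a ^ 2 ≤ puY v := by
    rw [← hmm]; exact pu_mm_le_Y v
  have hveq := pu_amgm2_eq v a hv.le ha0 hYY
  have hv4 : Real.sqrt Real.pi * v = 4 / 3 * a ^ 3 := by
    rw [div_eq_iff ha0.ne'] at hveq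
    rw [hveq]; ring
  have hvle : v ≤ 4 * Real.pi / 81 := by
    apply pu_Y_le v hv
    have h1 := pu_amgm2 v a hv.le ha0
    have h2 := pu_mm_le_sqrt v
    linarith
  set r : ℝ := 2 * a / Real.sqrt Real.pi with hr
  have hr0 : 0 < r := by positivity
  have hr2 : Real.pi / 4 * r ^ 2 = a ^ 2 := by
    rw [hr, div_pow, pu_spi_sq]
    field_simp
    ring
  have hvr : v = Real.pi / 6 * r ^ 3 := by
    have h1 : Real.sqrt Real.pi * v = Real.sqrt Real.pi * (Real.pi / 6 * r ^ 3) := by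
      rw [hv4]
      have h2 : Real.pi / 6 * r ^ 3 = 2 / 3 * (Real.pi / 4 * r ^ 2) * r := by ring
      rw [h2, hr2, hr]
      field_simp
      ring
    exact mul_left_cancel₀ hp.ne' h1
  have hr23 : r ≤ 2 / 3 := by
    have h1 : r ^ 3 ≤ (2 / 3) ^ 3 := by
      have h2 : Real.pi / 6 * r ^ 3 ≤ Real.pi / 6 * (2 / 3) ^ 3 := by
        rw [← hvr]
        refine hvle.trans (le_of_eq ?_)
        ring
      exact le_of_mul_le_mul_left h2 (by positivity)
    exact le_of_pow_le_pow_left₀ (by norm_num) (by norm_num) h1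
  have hprof := pu_zero_profile h hL hb a ha0 ha hPeq.le
  have hge : ∀ t ∈ Ioo (0 : ℝ) 1, Real.pi / 4 * max 0 (r ^ 2 - t ^ 2) ≤ s t := by
    intro t ht
    rcases le_total (r ^ 2 - t ^ 2) 0 with hc | hc
    · rw [max_eq_left hc, mul_zero]
      exact h.nonneg t ht
    · rw [max_eq_right hc, mul_sub, hr2]
      exact hprof t ht
  have hcapint : IntegrableOn (fun t : ℝ => Real.pi / 4 * max 0 (r ^ 2 - t ^ 2)) (Ioo (0 : ℝ) 1) := by
    have : Continuous (fun t : ℝ => Real.pi / 4 * max 0 (r ^ 2 - t ^ 2)) := by fun_prop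
    exact (this.integrableOn_Icc (a := 0) (b := 1)).mono_set Ioo_subset_Icc_self
  have hseq : ∀ᵐ t ∂(volume.restrict (Ioo (0 : ℝ) 1)),
      s t = Real.pi / 4 * max 0 (r ^ 2 - t ^ 2) := by
    have h8 : ∫ t in Ioo (0 : ℝ) 1, (s t - Real.pi / 4 * max 0 (r ^ 2 - t ^ 2)) = 0 := by
      rw [integral_sub (pu_int_s h) hcapint, h.vol, pu_int_cap r hr0.le (by linarith), ← hvr,
        sub_self]
    have hint : Integrable (fun t => s t - Real.pi / 4 * max 0 (r ^ 2 - t ^ 2))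
        (volume.restrict (Ioo (0 : ℝ) 1)) := (pu_int_s h).sub hcapint
    have hnn : 0 ≤ᵐ[volume.restrict (Ioo (0 : ℝ) 1)]
        fun t => s t - Real.pi / 4 * max 0 (r ^ 2 - t ^ 2) := by
      filter_upwards [ae_restrict_mem measurableSet_Ioo] with t ht
      have := hge t ht
      simpa using this
    have h9 := (integral_eq_zero_iff_of_nonneg_ae hnn hint).mp h8
    filter_upwards [h9] with t ht
    have : s t - Real.pi / 4 * max 0 (r ^ 2 - t ^ 2) = 0 := ht
    linarith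
  refine ⟨r, hr0, hr23, hvr, hseq, ?_⟩
  -- equality for `L`
  have hgc : Continuous (fun σ : ℝ => 1 - (1 / a ^ 2) * σ) := by fun_prop
  have hg01 : ∀ σ ∈ Icc (sBot s) (sTop s), 0 ≤ 1 - (1 / a ^ 2) * σ ∧ 1 - (1 / a ^ 2) * σ ≤ 1 := by
    intro σ hσ
    rw [← ha, hb] at hσ
    have h1 : (1 / a ^ 2) * σ ≤ 1 := by
      rw [one_div, inv_mul_le_iff₀ (by positivity)]
      linarith [hσ.2]
    have h2 : 0 ≤ (1 / a ^ 2) * σ := mul_nonneg (by positivity) hσ.1
    constructor <;> linarith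
  have hLi := pu_int_gL h (fun σ => 1 - (1 / a ^ 2) * σ) hgc.measurable hg01
  have hsi : IntegrableOn (fun t => Real.sqrt Real.pi * s t / a) (Ioo (0 : ℝ) 1) :=
    ((pu_int_s h).const_mul (Real.sqrt Real.pi)).div_const a
  have h1 : ∫ t in Ioo (0 : ℝ) 1, (Real.sqrt (1 - (1 - (1 / a ^ 2) * s t)) * L t -
      Real.sqrt Real.pi * s t / a) = 0 := by
    rw [integral_sub hLi hsi, integral_div, integral_const_mul, h.vol]
    linarith
  have hpt : ∀ᵐ t ∂(volume.restrict (Ioo (0 : ℝ) 1)),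
      Real.sqrt Real.pi * s t / a =
        Real.sqrt (1 - (1 - (1 / a ^ 2) * s t)) * Real.sqrt (Real.pi * s t) := by
    filter_upwards [ae_restrict_mem measurableSet_Ioo] with t ht2
    have hst := h.nonneg t ht2
    rw [← Real.sqrt_mul (by
      have : 0 ≤ 1 / a ^ 2 * s t := by positivity
      linarith)]
    have e : (1 - (1 - 1 / a ^ 2 * s t)) * (Real.pi * s t) = (s t / a) ^ 2 * Real.pi := by
      field_simp
      ring
    rw [e, Real.sqrt_mul (sq_nonneg _), Real.sqrt_sq (by positivity)]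
    ring
  have hnn : 0 ≤ᵐ[volume.restrict (Ioo (0 : ℝ) 1)] fun t =>
      (Real.sqrt (1 - (1 - (1 / a ^ 2) * s t)) * L t - Real.sqrt Real.pi * s t / a) := by
    filter_upwards [hL, hpt] with t ht1 ht2
    rw [ht2]
    have := mul_le_mul_of_nonneg_left ht1 (Real.sqrt_nonneg (1 - (1 - (1 / a ^ 2) * s t)))
    simpa using this
  have h9 := (integral_eq_zero_iff_of_nonneg_ae hnn (hLi.sub hsi)).mp h1
  filter_upwards [h9, hpt] with t ht1 ht2 hst
  have h2 : Real.sqrt (1 - (1 - (1 / a ^ 2) * s t)) * L t - Real.sqrt Real.pi * s t / a = 0 := ht1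
  rw [ht2] at h2
  have h3 : 0 < Real.sqrt (1 - (1 - (1 / a ^ 2) * s t)) := by
    apply Real.sqrt_pos.mpr
    have : 0 < 1 / a ^ 2 * s t := by positivity
    linarith
  have h4 : Real.sqrt (1 - (1 - (1 / a ^ 2) * s t)) * L t =
      Real.sqrt (1 - (1 - (1 / a ^ 2) * s t)) * Real.sqrt (Real.pi * s t) := by linarith
  exact mul_left_cancel₀ h3.ne' h4

/-- exact part, with equality cases -/
theorem pu_pure (h : OD v P2 s L) (hv : 0 < v) (_hv2 : v ≤ 1 / 2)
    (hL : ∀ᵐ t ∂(volume.restrict (Set.Ioo (0 : ℝ) 1)), Real.sqrt (Real.pi * s t) ≤ L t) :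
    mm v ≤ P2 ∧ (P2 ≤ mm v → SphereEq v s L ∨ ConstEq v s L) := by
  rcases (pu_bot_le_top h).lt_or_eq with hlt | heq
  · rcases (pu_bot_nonneg h).lt_or_eq with hb | hb
    · have := pu_case_mid h hL hb hlt
      exact ⟨this.le, fun hP => absurd hP (not_le.mpr this)⟩
    · obtain ⟨h1, h2⟩ := pu_case_zero h hv hL hb.symm hlt
      exact ⟨h1, fun hP => Or.inl (h2 hP)⟩
  · obtain ⟨h1, h2⟩ := pu_case_const h hv hL heq
    exact ⟨h1, fun hP => Or.inr (h2 hP)⟩

end Crest.Agent.R214
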