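import Crest.Agent.R214.SBthm

/-!
# Planar: planar symmetric decreasing sets

`D ⊆ Eu 2` is `SymDown`, `g = prof D` (antitone on `(0,1)`, values in `[0,1]`, `∫ g = v`), the slices
`sl D (t/2) ⊆ Eu 1` have perimeter `≥ 2` when `0 < g t < 1` (`per_one_ge_two`), i.e. `L ≥ 1` there.
`tx D = g(1-)`; `ty D > 0 ↔ ∃ t > 0, g t = 1` (and `ty D = sup of such t`), because a full line over
`t > 0` forces the far face `coordinate 1 = 1/2` to be touched up to `t`, and conversely.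

General estimate (from `exists_slice_majorant`/the construction in `SBthm` with `b(x) = k x` for
`x ≤ X`, then a fast ramp down to `0`): if `ty D = 0`, `g > 0` on `(0,X)`, `k X ≤ 1`, `k ≥ 0`, `X < 1`:
`P(D)/2 ≥ ∫_0^X √(1-k²x²) dx + k ∫_0^X g - k X g(X)`; letting `X → 1`: `... - k tx D`.
It is best to first prove the field inequality: for `b̃ : [0,1] → [0,1]` Lipschitz, `b̃ 0 = b̃ 1 = 0`,
`P(D)/2 ≥ ∫_{0<g<1} √(1-b̃²) + ∫ b̃' g`.

* type 0 (`tx = ty = 0`): with `X = sup {g > 0}` and `k = 1/X`: `P/2 ≥ πX/4 + v/X ≥ √(πv)` (AM-GM).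
* type 1 (`tx > 0`, `ty = 0`): `k = 0`: `P/2 ≥ 1`; general `k`: `P/2 ≥ Fk k + k(v - tx)`.
* type 2: the set `{x | (x₀+1/2, x₁+1/2) ∉ D}` is `SymDown` (`dZ (x+1/2) = 1/2 - dZ x`), has the same
  perimeter, volume `1-v`, is of type 0 with extent `1 - tx D` in direction 1; apply the type 0
  estimate after swapping coordinates: `P/2 ≥ (1-v)/H + πH/4` with `H = 1 - tx D`; as a function of `H`
  this is decreasing for `πH²/4 ≤ 1-v`.
* equality, type 0: `P/2 = √(πv)`; use the `OD` data (rows in direction 0 or 1) with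
  `w(σ) = λσ - ε 1_{σ ≥ σ₀}`, `λ = 1/Y`, `Y = g(0+)`, `β(σ) = √(1 - max(w,0)²)` on `σ ≤ Y` (recall
  `L ≥ 1`): `P/2 ≥ λ v - ε|{g ≥ σ₀}| + ∫_0^Y β`, and `P/2 = √(πv) ≤ λv + πY/4 = λ v + ∫_0^Y √(1-λ²σ²)` with
  equality needed (AM-GM; first with `ε = 0`, so `v = πY²/4`); derivative at `ε = 0+` gives
  `|{g ≥ σ₀}| ≥ √(Y² - σ₀²)` for all `σ₀ < Y`, so `g(t) ≥ √(Y²-t²)`; volumes agree, so equality a.e.
-/

set_option autoImplicit false
open MeasureTheory Crest.GeometryTopology.PeriodicPerimeter Filter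
open scoped ENNReal NNReal Topology
noncomputable section
namespace Crest.Agent.R214

theorem planar_type0 (D : Set (Eu 2)) (hD : MeasurableSet D) (hS : SymDown D)
    (hx : tx D = 0) (hy : ty D = 0) :
    ENNReal.ofReal (2 * Real.sqrt (Real.pi * periodicVolume D)) ≤ periodicPerimeter D := by
  sorry

theorem planar_type1x (D : Set (Eu 2)) (hD : MeasurableSet D) (hS : SymDown D)
    (hx : 0 < tx D) (hy : ty D = 0) :
    2 ≤ periodicPerimeter D ∧ ∀ k : ℝ, 0 ≤ k → k ≤ 1 → ∀ q : ℝ, tx D ≤ q →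
      ENNReal.ofReal (2 * (Fk k + k * (periodicVolume D - q))) ≤ periodicPerimeter D := by
  sorry

theorem planar_type1y (D : Set (Eu 2)) (hD : MeasurableSet D) (hS : SymDown D)
    (hx : tx D = 0) (hy : 0 < ty D) :
    2 ≤ periodicPerimeter D ∧ ∀ k : ℝ, 0 ≤ k → k ≤ 1 → ∀ q : ℝ, ty D ≤ q →
      ENNReal.ofReal (2 * (Fk k + k * (periodicVolume D - q))) ≤ periodicPerimeter D := by
  sorry

theorem planar_type2 (D : Set (Eu 2)) (hD : MeasurableSet D) (hS : SymDown D)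
    (hx : 0 < tx D) (hy : 0 < ty D) :
    ENNReal.ofReal (2 * Real.sqrt (Real.pi * (1 - periodicVolume D))) ≤ periodicPerimeter D ∧
      ∀ η : ℝ, 0 < η → η ≤ 1 → 1 - tx D ≤ η →
        Real.pi * η ^ 2 / 4 ≤ 1 - periodicVolume D →
        ENNReal.ofReal (2 * ((1 - periodicVolume D) / η + Real.pi * η / 4)) ≤
          periodicPerimeter D := by
  sorry

theorem planar_disc (D : Set (Eu 2)) (hD : MeasurableSet D) (hS : SymDown D)
    (hx : tx D = 0) (hy : ty D = 0) (hv : 0 < periodicVolume D)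
    (hP : periodicPerimeter D ≤
      ENNReal.ofReal (2 * Real.sqrt (Real.pi * periodicVolume D))) :
    D =ᵐ[volume] PB 0 (Real.sqrt (periodicVolume D / Real.pi)) := by
  sorry

theorem planar_stripx (D : Set (Eu 2)) (hD : MeasurableSet D) (hS : SymDown D)
    (hx : 0 < tx D) (hy : ty D = 0) (hP : periodicPerimeter D ≤ 2) :
    D =ᵐ[volume] SL 1 0 (periodicVolume D) := by
  sorry

theorem planar_stripy (D : Set (Eu 2)) (hD : MeasurableSet D) (hS : SymDown D)
    (hx : tx D = 0) (hy : 0 < ty D) (hP : periodicPerimeter D ≤ 2) :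
    D =ᵐ[volume] SL 0 0 (periodicVolume D) := by
  sorry

/-- traces are in `[0,1]` -/
theorem tx_mem (D : Set (Eu 2)) : 0 ≤ tx D ∧ tx D ≤ 1 := by
  sorry

theorem ty_mem (D : Set (Eu 2)) : 0 ≤ ty D ∧ ty D ≤ 1 := by
  sorry

end Crest.Agent.R214
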