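import Crest.Agent.R214.Defs2

/-!
# PlanarOD: one-dimensional data of planar sets: the equality cases (real analysis only)

* `od_strip`: `P/2 ≤ 1` and `L ≥ 1` a.e. imply that the profile is constant.
* `od_disc`: `P/2 ≤ √(πv)`, `L ≥ 1` where the profile is positive, `s(1-) = 0` imply
  `v = πY²/4` and `√(Y²-t²) ≤ s t` with `Y = s(0+)`.
-/

set_option autoImplicit false
open MeasureTheory Crest.GeometryTopology.PeriodicPerimeter Filter
open scoped ENNReal NNReal Topology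
noncomputable section
namespace Crest.Agent.R214.PlanarOD

/-! ### Elementary integrals -/

theorem integral_sqrt_quarter : ∫ x in (0 : ℝ)..1, Real.sqrt (1 - x ^ 2) = Real.pi / 4 := by
  have h := integral_sqrt_one_sub_sq
  have hc : Continuous fun x : ℝ => Real.sqrt (1 - x ^ 2) := by fun_prop
  have h1 : ∫ x in (-1 : ℝ)..0, Real.sqrt (1 - x ^ 2) = ∫ x in (0 : ℝ)..1, Real.sqrt (1 - x ^ 2) := by
    have := intervalIntegral.integral_comp_neg (a := 0) (b := 1)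
      (fun x : ℝ => Real.sqrt (1 - x ^ 2))
    simp only [neg_zero, even_two.neg_pow] at this
    rw [this]
  have h2 := intervalIntegral.integral_add_adjacent_intervals
    (hc.intervalIntegrable (μ := volume) (-1) 0) (hc.intervalIntegrable (μ := volume) 0 1)
  rw [h1, h] at h2
  linarith

theorem integral_sqrt_div {Y : ℝ} (hY : 0 < Y) :
    ∫ x in (0 : ℝ)..Y, Real.sqrt (1 - (x / Y) ^ 2) = Real.pi * Y / 4 := by
  have h := intervalIntegral.integral_comp_div (a := 0) (b := Y)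
    (fun x : ℝ => Real.sqrt (1 - x ^ 2)) hY.ne'
  rw [h, zero_div, div_self hY.ne', integral_sqrt_quarter, smul_eq_mul]
  ring

theorem integral_sqrt_sub {Y : ℝ} (hY : 0 < Y) (hY1 : Y ≤ 1) :
    ∫ t in Set.Ioo (0 : ℝ) 1, Real.sqrt (Y ^ 2 - t ^ 2) = Real.pi * Y ^ 2 / 4 := by
  have hc : Continuous fun x : ℝ => Real.sqrt (Y ^ 2 - x ^ 2) := by fun_prop
  rw [← integral_Ioc_eq_integral_Ioo, ← intervalIntegral.integral_of_le zero_le_one,
    ← intervalIntegral.integral_add_adjacent_intervals (b := Y)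
      (hc.intervalIntegrable (μ := volume) 0 Y) (hc.intervalIntegrable (μ := volume) Y 1)]
  have h0 : ∫ x in Y..1, Real.sqrt (Y ^ 2 - x ^ 2) = 0 := by
    rw [intervalIntegral.integral_of_le hY1]
    refine setIntegral_eq_zero_of_forall_eq_zero fun x hx => ?_
    exact Real.sqrt_eq_zero_of_nonpos (by nlinarith [hx.1])
  have h1 : ∫ x in (0 : ℝ)..Y, Real.sqrt (Y ^ 2 - x ^ 2) =
      ∫ x in (0 : ℝ)..Y, Y * Real.sqrt (1 - (x / Y) ^ 2) := by
    refine intervalIntegral.integral_congr fun x _ => ?_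
    have e : Y ^ 2 - x ^ 2 = Y ^ 2 * (1 - (x / Y) ^ 2) := by field_simp
    rw [e, Real.sqrt_mul (sq_nonneg _), Real.sqrt_sq hY.le]
  rw [h0, h1, intervalIntegral.integral_const_mul, integral_sqrt_div hY]
  ring

/-- the concavity step -/
theorem sqrt_step {a ε : ℝ} (hε : 0 < ε) (ha : ε ≤ a) (ha1 : a ≤ 1) :
    Real.sqrt (1 - a ^ 2) + ε * ((a - ε) / Real.sqrt (1 - (a - ε) ^ 2)) ≤
      Real.sqrt (1 - (a - ε) ^ 2) := by
  have hx2 : 0 < 1 - (a - ε) ^ 2 := by nlinarith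
  have hy2 : 0 ≤ 1 - a ^ 2 := by nlinarith
  have hx := Real.sqrt_pos.mpr hx2
  have ex := Real.sq_sqrt hx2.le
  have ey := Real.sq_sqrt hy2
  have hy := Real.sqrt_nonneg (1 - a ^ 2)
  set x := Real.sqrt (1 - (a - ε) ^ 2)
  set y := Real.sqrt (1 - a ^ 2)
  have hyx : y ≤ x := by
    refine (abs_le_of_sq_le_sq' ?_ hx.le).2
    nlinarith
  have key : (y + ε * ((a - ε) / x)) * x ≤ x * x := by
    have : (y + ε * ((a - ε) / x)) * x = y * x + ε * (a - ε) := by field_simp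
    rw [this]
    nlinarith [sq_nonneg (x - y)]
  exact le_of_mul_le_mul_right key hx

/-- the integral of the derivative -/
theorem integral_step {Y σ₀ ε : ℝ} (hY : 0 < Y) (hσ : σ₀ ≤ Y) (hε : 0 < ε) (h : ε ≤ σ₀ / Y) :
    ∫ σ in σ₀..Y, (σ / Y - ε) / Real.sqrt (1 - (σ / Y - ε) ^ 2) =
      Y * (Real.sqrt (1 - (σ₀ / Y - ε) ^ 2) - Real.sqrt (1 - (1 - ε) ^ 2)) := by
  have hpos : ∀ σ ∈ Set.uIcc σ₀ Y, 0 < 1 - (σ / Y - ε) ^ 2 := by
    intro σ hσ'
    rw [Set.uIcc_of_le hσ] at hσ'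
    have h1 : σ₀ / Y ≤ σ / Y := div_le_div_of_nonneg_right hσ'.1 hY.le
    have h2 : σ / Y ≤ 1 := (div_le_one hY).mpr hσ'.2
    nlinarith
  have hd : ∀ σ ∈ Set.uIcc σ₀ Y, HasDerivAt (fun σ => -(Y * Real.sqrt (1 - (σ / Y - ε) ^ 2)))
      ((σ / Y - ε) / Real.sqrt (1 - (σ / Y - ε) ^ 2)) σ := by
    intro σ hσ'
    have h0 := hpos σ hσ'
    have h1 : HasDerivAt (fun σ : ℝ => σ / Y - ε) (1 / Y) σ :=
      ((hasDerivAt_id σ).div_const Y).sub_const ε
    have h2 : HasDerivAt (fun σ : ℝ => 1 - (σ / Y - ε) ^ 2) (-(2 * (σ / Y - ε) * (1 / Y))) σ := by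
      have := (h1.pow 2).const_sub 1
      simpa using this
    have h3 := ((h2.sqrt h0.ne').const_mul Y).neg
    refine h3.congr_deriv ?_
    have := (Real.sqrt_pos.mpr h0).ne'
    field_simp
  have hcont : ContinuousOn (fun σ => (σ / Y - ε) / Real.sqrt (1 - (σ / Y - ε) ^ 2))
      (Set.uIcc σ₀ Y) := by
    refine ContinuousOn.div (by fun_prop) (by fun_prop) ?_
    intro σ hσ'
    exact (Real.sqrt_pos.mpr (hpos σ hσ')).ne'
  rw [intervalIntegral.integral_eq_sub_of_hasDerivAt hd hcont.intervalIntegrable]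
  rw [div_self hY.ne']
  ring

/-! ### The data -/

variable {v P2 : ℝ} {s L : ℝ → ℝ}

theorem bdd (h : OD v P2 s L) : BddAbove (s '' Set.Ioo 0 1) ∧ BddBelow (s '' Set.Ioo 0 1) := by
  constructor
  · refine ⟨1, ?_⟩
    rintro _ ⟨t, ht, rfl⟩
    exact h.le_one t ht
  · refine ⟨0, ?_⟩
    rintro _ ⟨t, ht, rfl⟩
    exact h.nonneg t ht

theorem le_top (h : OD v P2 s L) {t : ℝ} (ht : t ∈ Set.Ioo (0 : ℝ) 1) : s t ≤ sTop s :=
  le_csSup (bdd h).1 ⟨t, ht, rfl⟩

theorem bot_le (h : OD v P2 s L) {t : ℝ} (ht : t ∈ Set.Ioo (0 : ℝ) 1) : sBot s ≤ s t :=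
  csInf_le (bdd h).2 ⟨t, ht, rfl⟩

theorem top_le_one (h : OD v P2 s L) : sTop s ≤ 1 := by
  refine csSup_le ⟨_, 1 / 2, ⟨by norm_num, by norm_num⟩, rfl⟩ ?_
  rintro _ ⟨t, ht, rfl⟩
  exact h.le_one t ht

theorem aesm (h : OD v P2 s L) : AEMeasurable s (volume.restrict (Set.Ioo (0 : ℝ) 1)) :=
  aemeasurable_restrict_of_antitoneOn measurableSet_Ioo h.anti

/-- the profile is integrable -/
theorem intble (h : OD v P2 s L) : IntegrableOn s (Set.Ioo (0 : ℝ) 1) := by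
  refine Integrable.mono' (g := fun _ => (1 : ℝ)) (integrable_const _)
    (aesm h).aestronglyMeasurable ?_
  refine (ae_restrict_iff' measurableSet_Ioo).mpr (Eventually.of_forall fun t ht => ?_)
  rw [Real.norm_of_nonneg (h.nonneg t ht)]
  exact h.le_one t ht

/-- **Constant profile.** -/
theorem od_strip (h : OD v P2 s L)
    (hL : ∀ᵐ t ∂(volume.restrict (Set.Ioo (0 : ℝ) 1)), 1 ≤ L t) (hP : P2 ≤ 1) :
    ∀ t ∈ Set.Ioo (0 : ℝ) 1, s t = v := by
  have hI : 1 ≤ ∫ t in Set.Ioo (0 : ℝ) 1, L t := by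
    have := setIntegral_mono_ae_restrict (μ := volume) (s := Set.Ioo (0 : ℝ) 1)
      (f := fun _ => (1 : ℝ)) (g := L) (integrableOn_const (by simp) (by simp)) h.Lint hL
    simpa using this
  have key : ∀ b : ℝ, 0 < b → b ≤ 1 → sTop s - sBot s ≤ b := by
    intro b hb hb1
    have := h.SB (fun _ => b) ∅ Set.finite_empty continuousOn_const measurable_const
      (fun _ => hb.le) (fun _ => hb1)
    simp only [integral_const_mul, intervalIntegral.integral_const, smul_eq_mul] at this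
    have h1 : 1 - b ^ 2 ≤ Real.sqrt (1 - b ^ 2) := by
      have h2 : 0 ≤ 1 - b ^ 2 := by nlinarith
      refine Real.le_sqrt_of_sq_le ?_
      nlinarith [sq_nonneg b]
    have h3 := mul_le_mul_of_nonneg_left hI (Real.sqrt_nonneg (1 - b ^ 2))
    have h4 : (sTop s - sBot s) * b ≤ b * b := by nlinarith
    exact le_of_mul_le_mul_right h4 hb
  have hδ : sTop s ≤ sBot s := by
    by_contra hcon
    rw [not_le] at hcon
    have h1 := key (min 1 ((sTop s - sBot s) / 2)) (by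
      rw [lt_min_iff]; constructor <;> linarith) (min_le_left _ _)
    have h2 := min_le_right 1 ((sTop s - sBot s) / 2)
    linarith
  have hconst : ∀ t ∈ Set.Ioo (0 : ℝ) 1, s t = sBot s := fun t ht =>
    le_antisymm ((le_top h ht).trans hδ) (bot_le h ht)
  have hv : sBot s = v := by
    rw [← h.vol, setIntegral_congr_fun measurableSet_Ioo hconst]
    simp
  intro t ht
  rw [hconst t ht, hv]

/-- the test weight -/
def wt (Y σ₀ ε σ : ℝ) : ℝ := max 0 (min 1 (σ / Y - if σ₀ ≤ σ then ε else 0))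

theorem wt_nonneg (Y σ₀ ε σ : ℝ) : 0 ≤ wt Y σ₀ ε σ := le_max_left _ _

theorem wt_le_one (Y σ₀ ε σ : ℝ) : wt Y σ₀ ε σ ≤ 1 := max_le zero_le_one (min_le_left _ _)

theorem measurable_wt (Y σ₀ ε : ℝ) : Measurable (wt Y σ₀ ε) := by
  unfold wt
  refine measurable_const.max (measurable_const.min ?_)
  refine Measurable.sub (by fun_prop) ?_
  exact Measurable.ite (measurableSet_le measurable_const measurable_id) measurable_const
    measurable_const

theorem continuousOn_wt (Y σ₀ ε : ℝ) : ContinuousOn (wt Y σ₀ ε) {σ₀}ᶜ := by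
  intro x hx
  have hx' : x ≠ σ₀ := hx
  refine ContinuousAt.continuousWithinAt ?_
  have hev : (fun σ => if σ₀ ≤ σ then ε else (0:ℝ)) =ᶠ[𝓝 x] fun _ => if σ₀ ≤ x then ε else 0 := by
    rcases lt_or_gt_of_ne hx' with h | h
    · filter_upwards [Iio_mem_nhds h] with y hy
      rw [if_neg (not_le.mpr hy), if_neg (not_le.mpr h)]
    · filter_upwards [Ioi_mem_nhds h] with y hy
      rw [if_pos (le_of_lt hy), if_pos h.le]
  have h1 : ContinuousAt (fun σ => if σ₀ ≤ σ then ε else (0:ℝ)) x :=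
    continuousAt_const.congr hev.symm
  unfold wt
  exact continuousAt_const.max (continuousAt_const.min
    ((continuousAt_id.div_const Y).sub h1))

theorem wt_eq_of_le {Y σ₀ ε σ : ℝ} (hY : 0 < Y) (hε : 0 ≤ ε) (hεσ : ε ≤ σ₀ / Y) (h0 : 0 ≤ σ)
    (hσ : σ ≤ Y) : wt Y σ₀ ε σ = σ / Y - if σ₀ ≤ σ then ε else 0 := by
  unfold wt
  have h2 : σ / Y ≤ 1 := (div_le_one hY).mpr hσ
  have h3 : 0 ≤ σ / Y := div_nonneg h0 hY.le
  split_ifs with h
  · have h1 : σ₀ / Y ≤ σ / Y := div_le_div_of_nonneg_right h hY.le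
    rw [min_eq_right (by linarith), max_eq_right (by linarith)]
  · rw [min_eq_right (by linarith), max_eq_right (by linarith)]

/-- **Raw inequality.** -/
theorem raw (h : OD v P2 s L)
    (hL : ∀ᵐ t ∂(volume.restrict (Set.Ioo (0 : ℝ) 1)), 0 < s t → 1 ≤ L t) (hbot : sBot s = 0)
    (hY : 0 < sTop s) {σ₀ ε t : ℝ} (hσ0 : 0 < σ₀) (hε : 0 ≤ ε) (hεσ : ε ≤ σ₀ / sTop s)
    (ht : 0 ≤ t) (ht1 : t ≤ 1) (hu : ∀ u ∈ Set.Ioo (0 : ℝ) 1, t ≤ u → s u < σ₀) :
    v / sTop s - ε * t + ∫ σ in (0 : ℝ)..(sTop s), Real.sqrt (1 - wt (sTop s) σ₀ ε σ ^ 2) ≤ P2 := by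
  set Y := sTop s with hYdef
  set β : ℝ → ℝ := fun σ => Real.sqrt (1 - wt Y σ₀ ε σ ^ 2) with hβ
  have hw0 := wt_nonneg Y σ₀ ε
  have hw1 := wt_le_one Y σ₀ ε
  have hw2 : ∀ σ, 0 ≤ 1 - wt Y σ₀ ε σ ^ 2 := fun σ => by
    have := pow_le_one₀ (hw0 σ) (hw1 σ) (n := 2)
    linarith
  have hβ1 : ∀ σ, Real.sqrt (1 - β σ ^ 2) = wt Y σ₀ ε σ := by
    intro σ
    simp only [hβ]
    rw [Real.sq_sqrt (hw2 σ), sub_sub_cancel, Real.sqrt_sq (hw0 σ)]
  have hmβ : Measurable β := (((measurable_wt Y σ₀ ε).pow_const 2).const_sub 1).sqrt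
  have key := h.SB β {σ₀} (Set.finite_singleton _)
    ((continuousOn_const.sub ((continuousOn_wt Y σ₀ ε).pow 2)).sqrt) hmβ
    (fun σ => Real.sqrt_nonneg _) (fun σ => Real.sqrt_le_one.mpr (by nlinarith [sq_nonneg (wt Y σ₀ ε σ)]))
  simp only [hβ1, hbot] at key
  refine le_trans ?_ key
  refine add_le_add ?_ le_rfl
  -- the integral over `t`
  have hm1 : AEStronglyMeasurable (fun u => wt Y σ₀ ε (s u)) (volume.restrict (Set.Ioo (0 : ℝ) 1)) :=
    ((measurable_wt Y σ₀ ε).comp_aemeasurable (aesm h)).aestronglyMeasurable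
  have hint1 : IntegrableOn (fun u => wt Y σ₀ ε (s u) * L u) (Set.Ioo (0 : ℝ) 1) := by
    refine Integrable.mono' h.Lint (hm1.mul h.Lint.aestronglyMeasurable) ?_
    refine Eventually.of_forall fun u => ?_
    rw [Real.norm_of_nonneg (mul_nonneg (hw0 _) (h.Lnonneg u))]
    have := mul_le_mul_of_nonneg_right (hw1 (s u)) (h.Lnonneg u)
    linarith
  have hi1 : Integrable ((Set.Ioo 0 t).indicator fun _ => (1:ℝ))
      (volume.restrict (Set.Ioo (0 : ℝ) 1)) := (integrable_const 1).indicator measurableSet_Ioo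
  have hi2 : Integrable (fun u => ε * (Set.Ioo 0 t).indicator (fun _ => (1:ℝ)) u)
      (volume.restrict (Set.Ioo (0 : ℝ) 1)) := hi1.const_mul ε
  have hi3 : Integrable (fun u => s u / Y) (volume.restrict (Set.Ioo (0 : ℝ) 1)) :=
    (intble h).div_const Y
  have hlow : IntegrableOn (fun u => s u / Y - ε * (Set.Ioo 0 t).indicator (fun _ => (1:ℝ)) u)
      (Set.Ioo (0 : ℝ) 1) := hi3.sub hi2
  have hle : ∀ᵐ u ∂(volume.restrict (Set.Ioo (0 : ℝ) 1)),
      s u / Y - ε * (Set.Ioo 0 t).indicator (fun _ => (1:ℝ)) u ≤ wt Y σ₀ ε (s u) * L u := by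
    filter_upwards [hL, ae_restrict_mem measurableSet_Ioo] with u hLu huI
    have hs0 := h.nonneg u huI
    have hsY := le_top h huI
    have ew := wt_eq_of_le (σ₀ := σ₀) hY hε hεσ hs0 hsY
    have h1 : s u / Y - ε * (Set.Ioo 0 t).indicator (fun _ => (1:ℝ)) u ≤ wt Y σ₀ ε (s u) := by
      rw [ew]
      by_cases hut : u < t
      · rw [Set.indicator_of_mem (show u ∈ Set.Ioo 0 t from ⟨huI.1, hut⟩)]
        split_ifs <;> linarith
      · rw [Set.indicator_of_notMem (fun hm => hut hm.2),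
          if_neg (not_le.mpr (hu u huI (not_lt.mp hut)))]
        linarith
    refine h1.trans ?_
    rcases hs0.eq_or_lt with h0 | h0
    · have hz : wt Y σ₀ ε (s u) = 0 := by
        rw [ew, ← h0, if_neg (not_le.mpr hσ0)]; simp
      rw [hz]; simp
    · have := mul_le_mul_of_nonneg_left (hLu h0) (hw0 (s u))
      linarith
  have hfin := setIntegral_mono_ae_restrict hlow hint1 hle
  refine le_trans (le_of_eq ?_) hfin
  rw [integral_sub hi3 hi2, integral_div, h.vol, integral_const_mul, setIntegral_indicator measurableSet_Ioo]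
  have e : Set.Ioo (0:ℝ) 1 ∩ Set.Ioo 0 t = Set.Ioo 0 t := by
    rw [Set.Ioo_inter_Ioo]; simp [ht1]
  rw [e]
  simp [ht]

/-- **Disc.** -/
theorem od_disc (h : OD v P2 s L)
    (hL : ∀ᵐ t ∂(volume.restrict (Set.Ioo (0 : ℝ) 1)), 0 < s t → 1 ≤ L t) (hbot : sBot s = 0)
    (hv : 0 < v) (hP : P2 ≤ Real.sqrt (Real.pi * v)) :
    0 < sTop s ∧ v = Real.pi * (sTop s) ^ 2 / 4 ∧
      ∀ t ∈ Set.Ioo (0 : ℝ) 1, Real.sqrt ((sTop s) ^ 2 - t ^ 2) ≤ s t := by
  have hY : 0 < sTop s := by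
    by_contra hcon
    rw [not_lt] at hcon
    have : v ≤ 0 := by
      rw [← h.vol]
      refine setIntegral_nonpos measurableSet_Ioo fun t ht => (le_top h ht).trans hcon
    linarith
  set Y := sTop s with hYdef
  have hpi := Real.pi_pos
  -- AM-GM
  have amgm : Real.sqrt (Real.pi * v) ≤ v / Y + Real.pi * Y / 4 := by
    refine Real.sqrt_le_iff.mpr ⟨by positivity, ?_⟩
    have e : Real.pi * v = 4 * (v / Y) * (Real.pi * Y / 4) := by field_simp
    rw [e]
    nlinarith [sq_nonneg (v / Y - Real.pi * Y / 4)]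
  -- `ε = 0`
  have h0 := raw h hL hbot hY (σ₀ := 2) (ε := 0) (t := 1) (by norm_num) le_rfl
    (by positivity) zero_le_one le_rfl (fun u hu h1 => absurd hu.2 (not_lt.mpr h1))
  have e0 : ∫ σ in (0 : ℝ)..Y, Real.sqrt (1 - wt Y 2 0 σ ^ 2) = Real.pi * Y / 4 := by
    rw [← integral_sqrt_div hY]
    refine intervalIntegral.integral_congr fun σ hσ => ?_
    rw [Set.uIcc_of_le hY.le] at hσ
    rw [wt_eq_of_le hY le_rfl (by positivity) hσ.1 hσ.2]
    simp
  rw [e0] at h0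
  have heq : v / Y + Real.pi * Y / 4 ≤ Real.sqrt (Real.pi * v) := by linarith
  have hvY : v = Real.pi * Y ^ 2 / 4 := by
    have h1 : (v / Y + Real.pi * Y / 4) ^ 2 ≤ Real.pi * v := by
      have := pow_le_pow_left₀ (by positivity) heq 2
      rwa [Real.sq_sqrt (by positivity)] at this
    have e : Real.pi * v = 4 * (v / Y) * (Real.pi * Y / 4) := by field_simp
    rw [e] at h1
    have h2 : (v / Y - Real.pi * Y / 4) ^ 2 ≤ 0 := by nlinarith
    have h3 : v / Y - Real.pi * Y / 4 = 0 := by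
      have := le_antisymm h2 (sq_nonneg _)
      exact pow_eq_zero_iff (two_ne_zero) |>.mp this
    have h4 : v / Y = Real.pi * Y / 4 := by linarith
    rw [div_eq_iff hY.ne'] at h4
    rw [h4]; ring
  refine ⟨hY, hvY, ?_⟩
  intro t ht
  by_contra hcon
  rw [not_le] at hcon
  set r := Real.sqrt (Y ^ 2 - t ^ 2) with hr
  have hs0 := h.nonneg t ht
  have hr0 : 0 < r := lt_of_le_of_lt hs0 hcon
  have hr2 : r ^ 2 = Y ^ 2 - t ^ 2 := Real.sq_sqrt (Real.sqrt_pos.mp hr0).le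
  have hrY : r < Y := by nlinarith [ht.1]
  set σ₀ := (s t + r) / 2 with hσ₀
  have hσ0 : 0 < σ₀ := by rw [hσ₀]; linarith
  have hσs : s t < σ₀ := by rw [hσ₀]; linarith
  have hσr : σ₀ < r := by rw [hσ₀]; linarith
  have hu : ∀ u ∈ Set.Ioo (0 : ℝ) 1, t ≤ u → s u < σ₀ := fun u hu htu =>
    lt_of_le_of_lt (h.anti ht hu htu) hσs
  -- the inequality for every small `ε`
  have key : ∀ ε : ℝ, 0 < ε → ε ≤ σ₀ / Y →
      Y * (Real.sqrt (1 - (σ₀ / Y - ε) ^ 2) - Real.sqrt (1 - (1 - ε) ^ 2)) ≤ t := by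
    intro ε hε hεσ
    have hraw := raw h hL hbot hY hσ0 hε.le hεσ ht.1.le ht.2.le hu
    have hσY : σ₀ ≤ Y := by linarith
    have hlow : Real.pi * Y / 4 + ε * (Y * (Real.sqrt (1 - (σ₀ / Y - ε) ^ 2) -
        Real.sqrt (1 - (1 - ε) ^ 2))) ≤ ∫ σ in (0 : ℝ)..Y, Real.sqrt (1 - wt Y σ₀ ε σ ^ 2) := by
      have hc1 : Continuous fun σ : ℝ => Real.sqrt (1 - (σ / Y) ^ 2) := by fun_prop
      have hmw : Measurable fun σ : ℝ => Real.sqrt (1 - wt Y σ₀ ε σ ^ 2) :=
        (((measurable_wt Y σ₀ ε).pow_const 2).const_sub 1).sqrt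
      have hbw : ∀ σ : ℝ, ‖Real.sqrt (1 - wt Y σ₀ ε σ ^ 2)‖ ≤ 1 := by
        intro σ
        rw [Real.norm_of_nonneg (Real.sqrt_nonneg _)]
        exact Real.sqrt_le_one.mpr (by nlinarith [sq_nonneg (wt Y σ₀ ε σ)])
      have hiw : ∀ a b : ℝ, IntervalIntegrable (fun σ : ℝ => Real.sqrt (1 - wt Y σ₀ ε σ ^ 2))
          volume a b := by
        intro a b
        rw [intervalIntegrable_iff]
        exact Measure.integrableOn_of_bounded (M := 1) (by simp) hmw.aestronglyMeasurable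
          (Eventually.of_forall hbw)
      have hpos : ∀ σ ∈ Set.Icc σ₀ Y, 0 < 1 - (σ / Y - ε) ^ 2 := by
        intro σ hσ'
        have h1 : σ₀ / Y ≤ σ / Y := div_le_div_of_nonneg_right hσ'.1 hY.le
        have h2 : σ / Y ≤ 1 := (div_le_one hY).mpr hσ'.2
        nlinarith
      have hc2 : ContinuousOn (fun σ => (σ / Y - ε) / Real.sqrt (1 - (σ / Y - ε) ^ 2))
          (Set.uIcc σ₀ Y) := by
        rw [Set.uIcc_of_le hσY]
        refine ContinuousOn.div (by fun_prop) (by fun_prop) ?_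
        intro σ hσ'
        exact (Real.sqrt_pos.mpr (hpos σ hσ')).ne'
      rw [← integral_step hY hσY hε hεσ, ← integral_sqrt_div hY,
        ← intervalIntegral.integral_add_adjacent_intervals (b := σ₀)
          (hc1.intervalIntegrable (μ := volume) 0 σ₀) (hc1.intervalIntegrable (μ := volume) σ₀ Y),
        ← intervalIntegral.integral_add_adjacent_intervals (b := σ₀) (hiw 0 σ₀) (hiw σ₀ Y),
        ← intervalIntegral.integral_const_mul, add_assoc,
        ← intervalIntegral.integral_add (hc1.intervalIntegrable (μ := volume) σ₀ Y)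
          (hc2.intervalIntegrable.const_mul ε)]
      refine add_le_add (le_of_eq ?_) ?_
      · refine intervalIntegral.integral_congr_ae ?_
        have hne : ∀ᵐ σ : ℝ, σ ≠ σ₀ := by
          rw [ae_iff]; simp
        filter_upwards [hne] with σ hσne hσ'
        rw [Set.uIoc_of_le hσ0.le] at hσ'
        have hlt : σ < σ₀ := lt_of_le_of_ne hσ'.2 hσne
        rw [wt_eq_of_le hY hε.le hεσ hσ'.1.le (by linarith), if_neg (not_le.mpr hlt), sub_zero]
      · refine intervalIntegral.integral_mono_on hσY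
          ((hc1.intervalIntegrable (μ := volume) σ₀ Y).add (hc2.intervalIntegrable.const_mul ε))
          (hiw σ₀ Y) fun σ hσ' => ?_
        rw [wt_eq_of_le hY hε.le hεσ (by linarith [hσ'.1]) hσ'.2, if_pos hσ'.1]
        refine sqrt_step hε ?_ ((div_le_one hY).mpr hσ'.2)
        exact hεσ.trans (div_le_div_of_nonneg_right hσ'.1 hY.le)
    have h1 : ε * (Y * (Real.sqrt (1 - (σ₀ / Y - ε) ^ 2) -
        Real.sqrt (1 - (1 - ε) ^ 2))) ≤ ε * t := by linarith
    exact le_of_mul_le_mul_left h1 hε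
  -- limit `ε → 0`
  have hlim : Tendsto (fun ε : ℝ => Y * (Real.sqrt (1 - (σ₀ / Y - ε) ^ 2) -
      Real.sqrt (1 - (1 - ε) ^ 2))) (𝓝[>] 0)
      (𝓝 (Y * (Real.sqrt (1 - (σ₀ / Y - 0) ^ 2) - Real.sqrt (1 - (1 - 0) ^ 2)))) := by
    apply tendsto_nhdsWithin_of_tendsto_nhds
    have : Continuous fun ε : ℝ => Y * (Real.sqrt (1 - (σ₀ / Y - ε) ^ 2) -
      Real.sqrt (1 - (1 - ε) ^ 2)) := by fun_prop
    exact this.tendsto 0
  have hle := le_of_tendsto hlim (by
    have hmem : Set.Ioc (0:ℝ) (σ₀ / Y) ∈ 𝓝[>] (0:ℝ) := Ioc_mem_nhdsGT (by positivity)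
    filter_upwards [hmem] with ε hε
    exact key ε hε.1 hε.2)
  have e1 : Y * (Real.sqrt (1 - (σ₀ / Y - 0) ^ 2) - Real.sqrt (1 - (1 - 0) ^ 2)) =
      Real.sqrt (Y ^ 2 - σ₀ ^ 2) := by
    have e2 : Real.sqrt (1 - (1 - (0:ℝ)) ^ 2) = 0 := by norm_num
    rw [e2, sub_zero, sub_zero]
    have e3 : Y ^ 2 - σ₀ ^ 2 = Y ^ 2 * (1 - (σ₀ / Y) ^ 2) := by field_simp
    rw [e3, Real.sqrt_mul (sq_nonneg _), Real.sqrt_sq hY.le]
  rw [e1] at hle
  have h5 : Y ^ 2 - σ₀ ^ 2 ≤ t ^ 2 := by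
    have := (Real.sqrt_le_left ht.1.le).mp hle
    exact this
  nlinarith

end Crest.Agent.R214.PlanarOD
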