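import Crest.Agent.R214.SBthm
import Crest.Agent.R214.PlanarOD

/-!
# PlanarEq: equality cases of the planar isoperimetric inequality for symmetric decreasing sets

`planar_disc'`, `planar_stripx'`, `planar_stripy'` (statements of `Planar.lean`).
-/

set_option autoImplicit false
open MeasureTheory Crest.GeometryTopology.PeriodicPerimeter Filter
open scoped ENNReal NNReal Topology
noncomputable section
namespace Crest.Agent.R214

namespace PlanarEq

/-! ### dimension one -/

theorem vol_arc1 {m : ℝ} (h0 : 0 ≤ m) (h1 : m ≤ 1) :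
    periodicVolume {y : Eu 1 | dZ (y 0) < m / 2} = m := by
  rw [ArcB.io_volume]
  have h := volume_arc m 0 h0 h1
  simp only [sub_zero] at h
  have e : ArcB.io ⁻¹' {y : Eu 1 | dZ (y 0) < m / 2} = {t : ℝ | dZ t < m / 2} := by
    ext t; simp
  rw [e, h, ENNReal.toReal_ofReal h0]

theorem vol_mono {n : ℕ} {A B : Set (Eu n)} (h : A ⊆ B) : periodicVolume A ≤ periodicVolume B := by
  unfold periodicVolume
  refine ENNReal.toReal_mono ?_ (measure_mono (Set.inter_subset_inter_left _ h))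
  refine ne_top_of_le_ne_top ?_ (measure_mono Set.inter_subset_right)
  rw [volume_cell]; exact ENNReal.one_ne_top

/-- a symmetric decreasing set of the line contains the arc of its volume -/
theorem arc_subset {A : Set (Eu 1)} (hA : SymDown A) {m : ℝ} (hm : m ≤ periodicVolume A) :
    {y : Eu 1 | dZ (y 0) < m / 2} ⊆ A := by
  intro y hy
  by_contra hcon
  have hy' : dZ (y 0) < m / 2 := hy
  have hsub : A ⊆ {z : Eu 1 | dZ (z 0) < (2 * dZ (y 0)) / 2} := by
    intro z hz
    show dZ (z 0) < (2 * dZ (y 0)) / 2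
    by_contra h
    rw [not_lt] at h
    refine hcon (hA y z (fun i => ?_) hz)
    have hi : i = 0 := Subsingleton.elim _ _
    subst hi
    linarith
  have h1 := vol_mono hsub
  rw [vol_arc1 (by have := dZ_nonneg (y 0); linarith)
    (by have := dZ_le_half (y 0); linarith)] at h1
  linarith

/-! ### periodic sets with equal volumes -/

theorem null_of_vol_zero {n : ℕ} {A : Set (Eu n)} (hA : MeasurableSet A)
    (hp : IsLatticePeriodic A) (h : volume (A ∩ unitCell n) = 0) : volume A = 0 := by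
  refine (Inv.isCell_unitCell n).fd.measure_zero_of_invariant A (fun g => ?_) h
  obtain ⟨v, hv⟩ := g
  ext x
  rw [Set.mem_vadd_set]
  constructor
  · rintro ⟨y, hy, rfl⟩
    show v + y ∈ A
    rw [add_comm]
    exact (hp v hv y).2 hy
  · intro hx
    refine ⟨x - v, ?_, ?_⟩
    · have := (hp v hv (x - v)).1 (by simpa using hx)
      exact this
    · show v + (x - v) = x
      abel

theorem ae_eq_of_subset {n : ℕ} {A B : Set (Eu n)} (hA : MeasurableSet A) (hB : MeasurableSet B)
    (hpA : IsLatticePeriodic A) (hpB : IsLatticePeriodic B) (h : A ⊆ B)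
    (hv : periodicVolume A = periodicVolume B) : A =ᵐ[volume] B := by
  have hfin : ∀ C : Set (Eu n), volume (C ∩ unitCell n) ≠ ⊤ := fun C => by
    refine ne_top_of_le_ne_top ?_ (measure_mono Set.inter_subset_right)
    rw [volume_cell]; exact ENNReal.one_ne_top
  have h1 : volume ((B \ A) ∩ unitCell n) = 0 := by
    have e : (B \ A) ∩ unitCell n = (B ∩ unitCell n) \ (A ∩ unitCell n) := by
      ext x
      simp only [Set.mem_inter_iff, Set.mem_sdiff, not_and]
      tauto
    have hv' : volume (A ∩ unitCell n) = volume (B ∩ unitCell n) :=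
      (ENNReal.toReal_eq_toReal_iff' (hfin _) (hfin _)).1 hv
    rw [e, measure_sdiff (Set.inter_subset_inter_left _ h)
      (hA.inter measurableSet_cell).nullMeasurableSet (hfin _), hv', tsub_self]
  have hp : IsLatticePeriodic (B \ A) := by
    intro v hv x
    simp only [Set.mem_sdiff, hpA v hv x, hpB v hv x]
  have h2 := null_of_vol_zero (MeasurableSet.diff hB hA) hp h1
  exact (HasSubset.Subset.eventuallyLE h).antisymm (ae_le_set.2 h2)

/-! ### slices -/

theorem dZ_half {t : ℝ} (ht : t ∈ Set.Ioo (0 : ℝ) 1) : dZ (t / 2) = t / 2 := by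
  rw [dZ_of_abs_le _ (by rw [abs_of_pos (by linarith [ht.1])]; linarith [ht.2]),
    abs_of_pos (by linarith [ht.1])]

theorem cons_one {t : ℝ} {y : Eu 1} : (cons t y : Eu 2) 1 = y 0 := cons_succ t y 0

theorem symDown_inter {n : ℕ} {A B : Set (Eu n)} (hA : SymDown A) (hB : SymDown B) :
    SymDown (A ∩ B) := fun x y h hy => ⟨hA x y h hy.1, hB x y h hy.2⟩

theorem symDown_PB {n : ℕ} (ρ : ℝ) : SymDown (PB (0 : Eu n) ρ) := by
  intro x y h hy
  have hy' : ∑ i, dZ (y i - (0 : Eu n) i) ^ 2 < ρ ^ 2 := hy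
  show ∑ i, dZ (x i - (0 : Eu n) i) ^ 2 < ρ ^ 2
  refine lt_of_le_of_lt (Finset.sum_le_sum fun i _ => ?_) hy'
  simp only [PiLp.zero_apply, sub_zero]
  exact pow_le_pow_left₀ (dZ_nonneg _) (h i) 2

theorem symDown_SL {n : ℕ} (i : Fin n) (w : ℝ) : SymDown (SL i 0 w) := by
  intro x y h hy
  have hy' : dZ (y i - 0) < w / 2 := hy
  show dZ (x i - 0) < w / 2
  simp only [sub_zero] at hy' ⊢
  exact lt_of_le_of_lt (h i) hy'

theorem measurableSet_PB {n : ℕ} (c : Eu n) (ρ : ℝ) : MeasurableSet (PB c ρ) := by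
  have hc : Continuous fun x : Eu n => ∑ i, dZ (x i - c i) ^ 2 := by
    have := continuous_dZ
    fun_prop
  exact measurableSet_lt hc.measurable measurable_const

theorem measurableSet_SL {n : ℕ} (i : Fin n) (a w : ℝ) : MeasurableSet (SL i a w) := by
  have hc : Continuous fun x : Eu n => dZ (x i - a) := by
    have := continuous_dZ
    fun_prop
  exact measurableSet_lt hc.measurable measurable_const

theorem mem_PB2 (x : Eu 2) (ρ : ℝ) :
    x ∈ PB (0 : Eu 2) ρ ↔ dZ (x 0) ^ 2 + dZ (x 1) ^ 2 < ρ ^ 2 := by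
  show (∑ i, dZ (x i - (0 : Eu 2) i) ^ 2 < ρ ^ 2) ↔ _
  rw [Fin.sum_univ_two]
  simp only [PiLp.zero_apply, sub_zero]

theorem sl_PB {Y t : ℝ} (ht : t ∈ Set.Ioo (0 : ℝ) 1) :
    sl (PB (0 : Eu 2) (Y / 2)) (t / 2) = {y : Eu 1 | dZ (y 0) < Real.sqrt (Y ^ 2 - t ^ 2) / 2} := by
  ext y
  show (cons (t / 2) y : Eu 2) ∈ PB (0 : Eu 2) (Y / 2) ↔
    dZ (y 0) < Real.sqrt (Y ^ 2 - t ^ 2) / 2
  have c0 : (cons (t / 2) y : Eu 2) 0 = t / 2 := cons_zero _ _
  have c1 : (cons (t / 2) y : Eu 2) 1 = y 0 := cons_one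
  rw [mem_PB2, c0, c1, dZ_half ht]
  have hy := dZ_nonneg (y 0)
  constructor
  · intro h
    have h1 : 2 * dZ (y 0) < Real.sqrt (Y ^ 2 - t ^ 2) := by
      refine Real.lt_sqrt_of_sq_lt ?_
      nlinarith
    linarith
  · intro h
    have h1 : 2 * dZ (y 0) < Real.sqrt (Y ^ 2 - t ^ 2) := by linarith
    rw [Real.lt_sqrt (by linarith)] at h1
    nlinarith

theorem sl_SL1 {w t : ℝ} : sl (SL (1 : Fin 2) 0 w) t = {y : Eu 1 | dZ (y 0) < w / 2} := by
  ext y
  show dZ ((cons t y : Eu 2) 1 - 0) < w / 2 ↔ dZ (y 0) < w / 2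
  rw [cons_one, sub_zero]

/-- if `ty D = 0`, no line `coordinate 0 = t/2`, `t > 0`, is full -/
theorem prof_lt_one {D : Set (Eu 2)} (hS : SymDown D) (hy : ty D = 0)
    {t : ℝ} (ht : t ∈ Set.Ioo (0 : ℝ) 1) : prof D t < 1 := by
  by_contra hcon
  rw [not_lt] at hcon
  have hfull := arc_subset (symDown_sl hS (t / 2)) (m := 1) hcon
  -- all slices in the other direction are long
  have hle : t ≤ ty D := by
    refine le_csInf ⟨_, 1 / 2, ⟨by norm_num, by norm_num⟩, rfl⟩ ?_
    rintro _ ⟨u, hu, rfl⟩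
    show t ≤ periodicVolume (sl (pm (Equiv.swap 0 1) D) (u / 2))
    rw [← vol_arc1 ht.1.le ht.2.le]
    apply vol_mono
    intro y hy
    have hy' : dZ (y 0) < t / 2 := hy
    show (WithLp.toLp 2 (fun i => (cons (u / 2) y : Eu 2) (Equiv.swap 0 1 i)) : Eu 2) ∈ D
    have hmem : (cons (t / 2) (WithLp.toLp 2 (fun _ => u / 2) : Eu 1) : Eu 2) ∈ D := by
      refine hfull ?_
      show dZ ((WithLp.toLp 2 (fun _ => u / 2) : Eu 1) 0) < 1 / 2
      show dZ (u / 2) < 1 / 2
      rw [dZ_half hu]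
      linarith [hu.2]
    refine hS _ _ (fun i => ?_) hmem
    fin_cases i
    · show dZ ((cons (u / 2) y : Eu 2) (Equiv.swap (0 : Fin 2) 1 0)) ≤ dZ (cons (t / 2) _ 0)
      rw [Equiv.swap_apply_left, cons_one, cons_zero, dZ_half ht]
      exact hy'.le
    · show dZ ((cons (u / 2) y : Eu 2) (Equiv.swap (0 : Fin 2) 1 1)) ≤
        dZ ((cons (t / 2) (WithLp.toLp 2 (fun _ => u / 2) : Eu 1) : Eu 2) 1)
      rw [Equiv.swap_apply_right, cons_zero, cons_one]
  rw [hy] at hle
  linarith [ht.1]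

/-- the bound `1 ≤ L` on the nontrivial slices -/
theorem one_le_L {D : Set (Eu 2)} (hD : MeasurableSet D) (hS : SymDown D) {L : ℝ → ℝ}
    (h : ∀ᵐ t ∂(volume.restrict (Set.Ioo (0 : ℝ) 1)),
      periodicPerimeter (sl D (t / 2)) ≤ ENNReal.ofReal (2 * L t))
    (h1 : ∀ t ∈ Set.Ioo (0 : ℝ) 1, prof D t < 1) :
    ∀ᵐ t ∂(volume.restrict (Set.Ioo (0 : ℝ) 1)), 0 < prof D t → 1 ≤ L t := by
  filter_upwards [h, ae_restrict_mem measurableSet_Ioo] with t ht htI h0
  have h2 := (per_one_ge_two (sl D (t / 2)) (measurableSet_sl hD _)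
    (symDown_periodic (symDown_sl hS _)) h0 (h1 t htI)).trans ht
  have h3 : (2 : ℝ≥0∞) = ENNReal.ofReal 2 := by norm_num
  rw [h3] at h2
  by_contra hcon
  rw [not_le] at hcon
  have h4 : ENNReal.ofReal (2 * L t) < ENNReal.ofReal 2 := by
    rw [ENNReal.ofReal_lt_ofReal_iff (by norm_num)]; linarith
  exact absurd h2 (not_le.mpr h4)

end PlanarEq

open PlanarEq

theorem planar_disc' (D : Set (Eu 2)) (hD : MeasurableSet D) (hS : SymDown D)
    (hx : tx D = 0) (hy : ty D = 0) (hv : 0 < periodicVolume D)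
    (hP : periodicPerimeter D ≤
      ENNReal.ofReal (2 * Real.sqrt (Real.pi * periodicVolume D))) :
    D =ᵐ[volume] PB 0 (Real.sqrt (periodicVolume D / Real.pi)) := by
  have hfin : periodicPerimeter D ≠ ⊤ := ne_top_of_le_ne_top ENNReal.ofReal_ne_top hP
  obtain ⟨L, hOD, hL⟩ := exists_OD D hD hS hfin
  have h1 := fun t ht => prof_lt_one hS hy (t := t) ht
  have hL1 := one_le_L hD hS hL h1
  have hP2 : (periodicPerimeter D).toReal / 2 ≤ Real.sqrt (Real.pi * periodicVolume D) := by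
    have h2 := ENNReal.toReal_mono ENNReal.ofReal_ne_top hP
    rw [ENNReal.toReal_ofReal (by positivity)] at h2
    linarith
  obtain ⟨hY, hvY, hlow⟩ := PlanarOD.od_disc hOD hL1 hx hv hP2
  set Y := sTop (prof D) with hYdef
  have hY1 : Y ≤ 1 := PlanarOD.top_le_one hOD
  have hpi := Real.pi_pos
  have hρ : Real.sqrt (periodicVolume D / Real.pi) = Y / 2 := by
    have e : periodicVolume D / Real.pi = (Y / 2) ^ 2 := by
      rw [hvY]; field_simp; ring
    rw [e, Real.sqrt_sq (by linarith)]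
  rw [hρ]
  -- profile of the disc
  have hprofPB : ∀ t ∈ Set.Ioo (0 : ℝ) 1, prof (PB (0 : Eu 2) (Y / 2)) t =
      Real.sqrt (Y ^ 2 - t ^ 2) := by
    intro t ht
    unfold prof
    rw [sl_PB ht]
    refine vol_arc1 (Real.sqrt_nonneg _) ?_
    exact Real.sqrt_le_one.mpr (by nlinarith [ht.1])
  have hmPB := measurableSet_PB (0 : Eu 2) (Y / 2)
  have hsPB := symDown_PB (n := 2) (Y / 2)
  have hvPB : periodicVolume (PB (0 : Eu 2) (Y / 2)) = periodicVolume D := by
    rw [← prof_integral hmPB hsPB, setIntegral_congr_fun measurableSet_Ioo hprofPB,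
      PlanarOD.integral_sqrt_sub hY hY1, hvY]
  -- the intersection
  have hsE := symDown_inter hS hsPB
  have hmE := hD.inter hmPB
  have hprofE : ∀ t ∈ Set.Ioo (0 : ℝ) 1, prof (D ∩ PB (0 : Eu 2) (Y / 2)) t =
      prof (PB (0 : Eu 2) (Y / 2)) t := by
    intro t ht
    unfold prof
    congr 1
    have hsub : sl (PB (0 : Eu 2) (Y / 2)) (t / 2) ⊆ sl D (t / 2) := by
      rw [sl_PB ht]
      exact arc_subset (symDown_sl hS (t / 2)) (hlow t ht)
    exact Set.inter_eq_right.mpr hsub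
  have hvE : periodicVolume (D ∩ PB (0 : Eu 2) (Y / 2)) = periodicVolume D := by
    rw [← hvPB, ← prof_integral hmE hsE, ← prof_integral hmPB hsPB,
      setIntegral_congr_fun measurableSet_Ioo hprofE]
  have e1 := ae_eq_of_subset hmE hD (symDown_periodic hsE) (symDown_periodic hS)
    Set.inter_subset_left hvE
  have e2 := ae_eq_of_subset hmE hmPB (symDown_periodic hsE) (symDown_periodic hsPB)
    Set.inter_subset_right (by rw [hvE, hvPB])
  exact e1.symm.trans e2

theorem planar_stripx' (D : Set (Eu 2)) (hD : MeasurableSet D) (hS : SymDown D)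
    (hx : 0 < tx D) (hy : ty D = 0) (hP : periodicPerimeter D ≤ 2) :
    D =ᵐ[volume] SL 1 0 (periodicVolume D) := by
  have hfin : periodicPerimeter D ≠ ⊤ := ne_top_of_le_ne_top (by norm_num) hP
  obtain ⟨L, hOD, hL⟩ := exists_OD D hD hS hfin
  have h1 := fun t ht => prof_lt_one hS hy (t := t) ht
  have hL1 := one_le_L hD hS hL h1
  have hpos : ∀ t ∈ Set.Ioo (0 : ℝ) 1, 0 < prof D t := fun t ht =>
    lt_of_lt_of_le hx (PlanarOD.bot_le hOD ht)
  have hL2 : ∀ᵐ t ∂(volume.restrict (Set.Ioo (0 : ℝ) 1)), 1 ≤ L t := by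
    filter_upwards [hL1, ae_restrict_mem measurableSet_Ioo] with t ht htI
    exact ht (hpos t htI)
  have hP2 : (periodicPerimeter D).toReal / 2 ≤ 1 := by
    have h2 := ENNReal.toReal_mono (by norm_num) hP
    norm_num at h2
    linarith
  have hconst := PlanarOD.od_strip hOD hL2 hP2
  have hv0 := vol_nonneg D
  have hv1 := vol_le_one D
  have hmSL := measurableSet_SL (1 : Fin 2) 0 (periodicVolume D)
  have hsSL := symDown_SL (1 : Fin 2) (periodicVolume D)
  have hprofSL : ∀ t ∈ Set.Ioo (0 : ℝ) 1, prof (SL (1 : Fin 2) 0 (periodicVolume D)) t =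
      periodicVolume D := by
    intro t _
    unfold prof
    rw [sl_SL1]
    exact vol_arc1 hv0 hv1
  have hvSL : periodicVolume (SL (1 : Fin 2) 0 (periodicVolume D)) = periodicVolume D := by
    rw [← prof_integral hmSL hsSL, setIntegral_congr_fun measurableSet_Ioo hprofSL]
    simp
  have hsE := symDown_inter hS hsSL
  have hmE := hD.inter hmSL
  have hprofE : ∀ t ∈ Set.Ioo (0 : ℝ) 1, prof (D ∩ SL (1 : Fin 2) 0 (periodicVolume D)) t =
      prof (SL (1 : Fin 2) 0 (periodicVolume D)) t := by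
    intro t ht
    unfold prof
    congr 1
    have hsub : sl (SL (1 : Fin 2) 0 (periodicVolume D)) (t / 2) ⊆ sl D (t / 2) := by
      rw [sl_SL1]
      exact arc_subset (symDown_sl hS (t / 2)) (hconst t ht).ge
    exact Set.inter_eq_right.mpr hsub
  have hvE : periodicVolume (D ∩ SL (1 : Fin 2) 0 (periodicVolume D)) = periodicVolume D := by
    rw [← prof_integral hmE hsE, setIntegral_congr_fun measurableSet_Ioo hprofE,
      setIntegral_congr_fun measurableSet_Ioo hprofSL]
    simp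
  have e1 := ae_eq_of_subset hmE hD (symDown_periodic hsE) (symDown_periodic hS)
    Set.inter_subset_left hvE
  have e2 := ae_eq_of_subset hmE hmSL (symDown_periodic hsE) (symDown_periodic hsSL)
    Set.inter_subset_right (by rw [hvE, hvSL])
  exact e1.symm.trans e2

theorem planar_stripy' (D : Set (Eu 2)) (hD : MeasurableSet D) (hS : SymDown D)
    (hx : tx D = 0) (hy : 0 < ty D) (hP : periodicPerimeter D ≤ 2) :
    D =ᵐ[volume] SL 0 0 (periodicVolume D) := by
  have hp := symDown_periodic hS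
  have hpp : pm (Equiv.swap 0 1) (pm (Equiv.swap 0 1) D) = D := by
    rw [pm_pm, Equiv.swap_mul_self]
    rfl
  have h := planar_stripx' (pm (Equiv.swap 0 1) D) (measurableSet_pm _ hD) (symDown_pm _ hS)
    hy (by show tx (pm (Equiv.swap 0 1) (pm (Equiv.swap 0 1) D)) = 0; rw [hpp]; exact hx)
    (by rw [per_pm _ D hD hp]; exact hP)
  rw [vol_pm _ D hD hp] at h
  have h2 := pm_congr (Equiv.swap 0 1) h
  rw [hpp] at h2
  refine h2.trans (Filter.EventuallyEq.of_eq ?_)
  ext x
  show dZ (x (Equiv.swap (0 : Fin 2) 1 1) - 0) < periodicVolume D / 2 ↔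
    dZ (x 0 - 0) < periodicVolume D / 2
  rw [Equiv.swap_apply_right]

end Crest.Agent.R214
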