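import Crest.Agent.R214.Core3
import Crest.Agent.R214.Core4
import Crest.Agent.R214.Geo
import Crest.Agent.R214.Arc

/-!
# PolarA: elementary facts on polarizations (helpers for `Polar.lean`)
-/

set_option autoImplicit false
open MeasureTheory Crest.GeometryTopology.PeriodicPerimeter Filter
open scoped ENNReal NNReal Topology
noncomputable section
namespace Crest.Agent.R214
namespace PolA

/-! ### `dZ` -/

theorem eq_of_dZ_eq {s t : ℝ} (h : dZ s = dZ t) :
    (∃ k : ℤ, s = t + k) ∨ (∃ k : ℤ, s = -t + k) := by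
  unfold dZ at h
  rcases abs_eq_abs.1 h with h1 | h1
  · left
    refine ⟨round s - round t, ?_⟩
    push_cast
    linarith
  · right
    refine ⟨round s + round t, ?_⟩
    push_cast
    linarith

theorem refl_eq {a t : ℝ} (ha : ∀ k : ℤ, 2 * a ≠ k) (h : dZ t = dZ (2 * a - t)) :
    ∃ k : ℤ, 2 * a - t = t + k := by
  rcases eq_of_dZ_eq h.symm with ⟨k, hk⟩ | ⟨k, hk⟩
  · exact ⟨k, hk⟩
  · exact absurd (by linarith) (ha k)

theorem cos_eq_dZ (t : ℝ) : Real.cos (2 * Real.pi * t) = Real.cos (2 * Real.pi * dZ t) := by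
  have h1 : Real.cos (2 * Real.pi * t) = Real.cos (2 * Real.pi * (t - round t)) := by
    have : 2 * Real.pi * t = 2 * Real.pi * (t - round t) + (round t : ℤ) * (2 * Real.pi) := by
      ring
    rw [this, Real.cos_add_int_mul_two_pi]
  have h2 : Real.cos (2 * Real.pi * dZ t) = Real.cos (2 * Real.pi * (t - round t)) := by
    unfold dZ
    rw [← Real.cos_abs (2 * Real.pi * (t - round t)), abs_mul,
      abs_of_pos (by positivity : (0 : ℝ) < 2 * Real.pi)]
  rw [h1, h2]

theorem cos_lt {s t : ℝ} (h : dZ s < dZ t) :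
    Real.cos (2 * Real.pi * t) < Real.cos (2 * Real.pi * s) := by
  rw [cos_eq_dZ t, cos_eq_dZ s]
  have hs := dZ_nonneg s
  have ht := dZ_le_half t
  have hp := Real.pi_pos
  apply Real.cos_lt_cos_of_nonneg_of_le_pi
  · positivity
  · nlinarith
  · nlinarith

theorem cos_eq {s t : ℝ} (h : dZ s = dZ t) :
    Real.cos (2 * Real.pi * t) = Real.cos (2 * Real.pi * s) := by
  rw [cos_eq_dZ t, cos_eq_dZ s, h]

/-! ### the reflection -/

variable {n : ℕ}

theorem hasInt_int (k : ℤ) : HasIntegerCoords (cons (k : ℝ) (0 : Eu n)) :=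
  hasIntegerCoords_cons k 0 hasIntegerCoords_zero'

@[simp] theorem rf_zero (a : ℝ) (x : Eu (n + 1)) : (rf a x) 0 = 2 * a - x 0 := by simp [rf]

@[simp] theorem tl_rf (a : ℝ) (x : Eu (n + 1)) : tl (rf a x) = tl x := by simp [rf]

@[simp] theorem rf_rf (a : ℝ) (x : Eu (n + 1)) : rf a (rf a x) = x := by
  conv_rhs => rw [← cons_tl x]
  simp [rf]

theorem rf_cons (a t : ℝ) (y : Eu n) : rf a (cons t y) = cons (2 * a - t) y := by simp [rf]

theorem cons_sub (s t : ℝ) (y z : Eu n) : cons s y - cons t z = cons (s - t) (y - z) := by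
  have h : cons (s - t) (y - z) + cons t z = cons s y := by
    rw [← cons_add]; simp
  rw [← h]; abel

theorem tl_add (x z : Eu (n + 1)) : tl (x + z) = tl x + tl z := by
  ext i; simp [tl]

theorem norm_rf_sub (a : ℝ) (x z : Eu (n + 1)) : ‖rf a x - rf a z‖ = ‖x - z‖ := by
  have h1 : rf a x - rf a z = cons (-(x 0 - z 0)) (tl x - tl z) := by
    unfold rf
    rw [cons_sub]
    congr 1
    ring
  have h2 : x - z = cons (x 0 - z 0) (tl x - tl z) := by
    conv_lhs => rw [← cons_tl x, ← cons_tl z]
    rw [cons_sub]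
  rw [← sq_eq_sq₀ (norm_nonneg _) (norm_nonneg _), h1, h2, norm_cons_sq, norm_cons_sq]
  ring

theorem continuous_rf (a : ℝ) : Continuous (rf a : Eu (n + 1) → Eu (n + 1)) := by
  unfold rf
  have h1 : Continuous fun x : Eu (n + 1) => ((2 * a - x 0, tl x) : ℝ × Eu n) := by
    refine Continuous.prodMk ?_ (contDiff_tl (m := 0)).continuous
    exact continuous_const.sub (by fun_prop)
  exact continuous_cons.comp h1

theorem lipschitz_comp_rf (a : ℝ) {g : Eu (n + 1) → ℝ} {K : ℝ≥0} (hK : LipschitzWith K g) :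
    LipschitzWith K (fun x => g (rf a x)) := by
  apply LipschitzWith.of_dist_le_mul
  intro x z
  have := hK.dist_le_mul (rf a x) (rf a z)
  rw [dist_eq_norm (rf a x), norm_rf_sub, ← dist_eq_norm] at this
  exact this

/-- on the interface the reflected point is a lattice translate -/
theorem g_rf_eq {a : ℝ} (ha : ∀ k : ℤ, 2 * a ≠ k) {α : Type*} {g : Eu (n + 1) → α}
    (hp : PerFun g) {x : Eu (n + 1)} (h : dZ (x 0) = dZ (2 * a - x 0)) : g (rf a x) = g x := by
  obtain ⟨k, hk⟩ := refl_eq ha h
  have : rf a x = x + cons (k : ℝ) (0 : Eu n) := by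
    unfold rf
    rw [hk]
    conv_rhs => rw [← cons_tl x]
    rw [← cons_add]
    simp
  rw [this]
  exact hp _ (hasInt_int k) x

theorem rf_add (a : ℝ) (x v : Eu (n + 1)) : rf a (x + v) = rf a x + cons (-(v 0)) (tl v) := by
  unfold rf
  rw [← cons_add, tl_add]
  congr 1
  simp
  ring

theorem hasInt_neg {v : Eu (n + 1)} (hv : HasIntegerCoords v) :
    HasIntegerCoords (cons (-(v 0)) (tl v) : Eu (n + 1)) := by
  obtain ⟨k, hk⟩ := hv 0
  have h1 : -(v 0) = ((-k : ℤ) : ℝ) := by push_cast; rw [hk]
  rw [h1]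
  apply hasIntegerCoords_cons
  intro i
  obtain ⟨m, hm⟩ := hv i.succ
  exact ⟨m, by simpa [tl] using hm⟩

theorem per_comp_rf (a : ℝ) {α : Type*} {g : Eu (n + 1) → α} (hp : PerFun g) :
    PerFun (fun x => g (rf a x)) := by
  intro v hv x
  show g (rf a (x + v)) = g (rf a x)
  rw [rf_add]
  exact hp _ (hasInt_neg hv) _

theorem dZ_add_v {v : Eu (n + 1)} (hv : HasIntegerCoords v) (x : Eu (n + 1)) :
    dZ ((x + v) 0) = dZ (x 0) := by
  obtain ⟨k, hk⟩ := hv 0
  have : (x + v) 0 = x 0 + (k : ℤ) := by
    simp only [PiLp.add_apply]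
    rw [hk]
  rw [this, dZ_add_int]

theorem dZ_refl_add_v {v : Eu (n + 1)} (a : ℝ) (hv : HasIntegerCoords v) (x : Eu (n + 1)) :
    dZ (2 * a - (x + v) 0) = dZ (2 * a - x 0) := by
  obtain ⟨k, hk⟩ := hv 0
  have : 2 * a - (x + v) 0 = 2 * a - x 0 + ((-k : ℤ) : ℝ) := by
    simp only [PiLp.add_apply]
    rw [hk]
    push_cast
    ring
  rw [this, dZ_add_int]

/-- `if`-functions across the interface are periodic -/
theorem per_ite (a : ℝ) {α : Type*} {p q : Eu (n + 1) → α} (hp : PerFun p) (hq : PerFun q) :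
    PerFun (fun x => if dZ (x 0) ≤ dZ (2 * a - x 0) then p x else q x) := by
  intro v hv x
  show (if dZ ((x + v) 0) ≤ dZ (2 * a - (x + v) 0) then p (x + v) else q (x + v)) = _
  rw [dZ_add_v hv, dZ_refl_add_v a hv, hp v hv, hq v hv]

/-- `if`-functions which agree on the interface are continuous -/
theorem continuous_ite (a : ℝ) {E : Type*} [TopologicalSpace E] {p q : Eu (n + 1) → E}
    (hp : Continuous p) (hq : Continuous q)
    (h : ∀ x, dZ (x 0) = dZ (2 * a - x 0) → p x = q x) :
    Continuous (fun x : Eu (n + 1) => if dZ (x 0) ≤ dZ (2 * a - x 0) then p x else q x) := by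
  apply Continuous.if_le hp hq
  · exact continuous_dZ.comp (by fun_prop)
  · exact continuous_dZ.comp (by fun_prop)
  · exact h

end PolA

open PolA

theorem pol_perFun_A {n : ℕ} (a : ℝ) (g : Eu (n + 1) → ℝ) (hp : PerFun g) :
    PerFun (pol a g) := by
  have h1 := per_comp_rf a hp
  exact per_ite a (p := fun x => max (g x) (g (rf a x))) (q := fun x => min (g x) (g (rf a x)))
    (fun v hv x => by
      show max (g (x + v)) (g (rf a (x + v))) = _
      rw [hp v hv x]; congr 1; exact h1 v hv x)
    (fun v hv x => by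
      show min (g (x + v)) (g (rf a (x + v))) = _
      rw [hp v hv x]; congr 1; exact h1 v hv x)

theorem continuous_pol {n : ℕ} (a : ℝ) (ha : ∀ k : ℤ, 2 * a ≠ k) (g : Eu (n + 1) → ℝ)
    (hg : Continuous g) (hp : PerFun g) : Continuous (pol a g) := by
  have h1 : Continuous (fun x => g (rf a x)) := hg.comp (continuous_rf a)
  apply continuous_ite a (hg.max h1) (hg.min h1)
  intro x hx
  rw [g_rf_eq ha hp hx]
  simp

theorem pol_lipschitz_A {n : ℕ} (a : ℝ) (ha : ∀ k : ℤ, 2 * a ≠ k) (g : Eu (n + 1) → ℝ) (K : ℝ≥0)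
    (hK : LipschitzWith K g) (hp : PerFun g) : LipschitzWith K (pol a g) := by
  have h1 : LipschitzWith K (fun x => g (rf a x)) := lipschitz_comp_rf a hK
  have hmax : LipschitzWith K (fun x => max (g x) (g (rf a x))) := by
    have := hK.max h1
    rwa [max_self] at this
  have hmin : LipschitzWith K (fun x => min (g x) (g (rf a x))) := by
    have := hK.min h1
    rwa [max_self] at this
  -- one point on each side
  have key : ∀ x z : Eu (n + 1), dZ (x 0) ≤ dZ (2 * a - x 0) → ¬ dZ (z 0) ≤ dZ (2 * a - z 0) →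
      dist (pol a g x) (pol a g z) ≤ K * dist x z := by
    intro x z hx hz
    -- intermediate point
    set F : ℝ → ℝ := fun r => dZ (2 * a - (AffineMap.lineMap x z r : Eu (n + 1)) 0) -
      dZ ((AffineMap.lineMap x z r : Eu (n + 1)) 0) with hF
    have hFc : Continuous F := by
      have hc : Continuous fun r : ℝ => (AffineMap.lineMap x z r : Eu (n + 1)) 0 := by
        have : Continuous fun r : ℝ => (AffineMap.lineMap x z r : Eu (n + 1)) :=
          AffineMap.lineMap_continuous
        fun_prop
      exact (continuous_dZ.comp (continuous_const.sub hc)).sub (continuous_dZ.comp hc)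
    have h0 : 0 ≤ F 0 := by simp only [hF, AffineMap.lineMap_apply_zero]; linarith
    have h1' : F 1 ≤ 0 := by
      simp only [hF, AffineMap.lineMap_apply_one]
      push Not at hz
      linarith
    obtain ⟨r, hr, hFr⟩ := intermediate_value_Icc' zero_le_one hFc.continuousOn ⟨h1', h0⟩
    set m : Eu (n + 1) := AffineMap.lineMap x z r with hm
    have hmeq : dZ (m 0) = dZ (2 * a - m 0) := by
      have : dZ (2 * a - m 0) - dZ (m 0) = 0 := hFr
      linarith
    have hgm : g (rf a m) = g m := g_rf_eq ha hp hmeq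
    have e1 : pol a g x = max (g x) (g (rf a x)) := by unfold pol; rw [if_pos hx]
    have e2 : pol a g z = min (g z) (g (rf a z)) := by unfold pol; rw [if_neg hz]
    have d1 : dist (max (g x) (g (rf a x))) (max (g m) (g (rf a m))) ≤ K * dist x m :=
      hmax.dist_le_mul x m
    have d2 : dist (min (g m) (g (rf a m))) (min (g z) (g (rf a z))) ≤ K * dist m z :=
      hmin.dist_le_mul m z
    rw [hgm, max_self] at d1
    rw [hgm, min_self] at d2
    rw [e1, e2]
    have d3 : dist x m + dist m z = dist x z := by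
      rw [hm, dist_lineMap_right, dist_comm x, dist_lineMap_left, Real.norm_eq_abs,
        Real.norm_eq_abs, abs_of_nonneg hr.1, abs_of_nonneg (by linarith [hr.2])]
      ring
    calc dist (max (g x) (g (rf a x))) (min (g z) (g (rf a z)))
        ≤ dist (max (g x) (g (rf a x))) (g m) + dist (g m) (min (g z) (g (rf a z))) :=
          dist_triangle _ _ _
      _ ≤ K * dist x m + K * dist m z := add_le_add d1 d2
      _ = K * dist x z := by rw [← mul_add, d3]
  apply LipschitzWith.of_dist_le_mul
  intro x z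
  by_cases hx : dZ (x 0) ≤ dZ (2 * a - x 0) <;> by_cases hz : dZ (z 0) ≤ dZ (2 * a - z 0)
  · have e1 : pol a g x = max (g x) (g (rf a x)) := by unfold pol; rw [if_pos hx]
    have e2 : pol a g z = max (g z) (g (rf a z)) := by unfold pol; rw [if_pos hz]
    rw [e1, e2]
    exact hmax.dist_le_mul x z
  · exact key x z hx hz
  · rw [dist_comm, dist_comm x z]
    exact key z x hz hx
  · have e1 : pol a g x = min (g x) (g (rf a x)) := by unfold pol; rw [if_neg hx]
    have e2 : pol a g z = min (g z) (g (rf a z)) := by unfold pol; rw [if_neg hz]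
    rw [e1, e2]
    exact hmin.dist_le_mul x z


/-! ### pairing `x` with its reflection -/

namespace PolA

theorem pol_pair {n : ℕ} (a : ℝ) (ha : ∀ k : ℤ, 2 * a ≠ k) (g : Eu (n + 1) → ℝ)
    (hp : PerFun g) (x : Eu (n + 1)) :
    (pol a g x = g x ∧ pol a g (rf a x) = g (rf a x)) ∨
      (pol a g x = g (rf a x) ∧ pol a g (rf a x) = g x) := by
  have hr : (rf a x) 0 = 2 * a - x 0 := rf_zero a x
  have e1 : 2 * a - (rf a x) 0 = x 0 := by rw [hr]; ring
  have P1 : pol a g x = if dZ (x 0) ≤ dZ (2 * a - x 0) then max (g x) (g (rf a x))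
    else min (g x) (g (rf a x)) := rfl
  have P2 : pol a g (rf a x) = if dZ (2 * a - x 0) ≤ dZ (x 0) then max (g (rf a x)) (g x)
      else min (g (rf a x)) (g x) := by
    unfold pol
    rw [e1, hr, rf_rf]
  rcases lt_trichotomy (dZ (x 0)) (dZ (2 * a - x 0)) with h | h | h
  · rw [P1, P2, if_pos h.le, if_neg (not_le.2 h)]
    rcases le_total (g x) (g (rf a x)) with h1 | h1
    · right; exact ⟨max_eq_right h1, min_eq_right h1⟩
    · left; exact ⟨max_eq_left h1, min_eq_left h1⟩
  · left
    have hgr := g_rf_eq ha hp h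
    rw [P1, P2, if_pos h.le, if_pos h.ge, hgr]
    simp
  · rw [P1, P2, if_neg (not_le.2 h), if_pos h.le]
    rcases le_total (g x) (g (rf a x)) with h1 | h1
    · left; exact ⟨min_eq_left h1, max_eq_left h1⟩
    · right; exact ⟨min_eq_right h1, max_eq_right h1⟩

/-- reflection of a periodic function on the circle -/
theorem integral_reflect {E : Type*} [NormedAddCommGroup E] [NormedSpace ℝ E] (G : ℝ → E)
    (hG : Function.Periodic G 1) (b : ℝ) :
    ∫ t in Set.Ico (0 : ℝ) 1, G (b - t) = ∫ t in Set.Ico (0 : ℝ) 1, G t := by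
  have h1 : ∀ F : ℝ → E, ∫ t in Set.Ico (0 : ℝ) 1, F t = ∫ t in (0 : ℝ)..1, F t := by
    intro F
    rw [intervalIntegral.integral_of_le zero_le_one, integral_Ico_eq_integral_Ioc]
  rw [h1, h1, intervalIntegral.integral_comp_sub_left (fun t => G t) b]
  have h2 := hG.intervalIntegral_add_eq (b - 1) 0
  rw [zero_add] at h2
  rw [← h2]
  congr 1
  ring_nf

theorem per_line {n : ℕ} {α : Type*} {g : Eu (n + 1) → α} (hp : PerFun g) (y : Eu n) :
    Function.Periodic (fun t => g (cons t y)) 1 := by
  intro t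
  have h := hp (cons ((1 : ℤ) : ℝ) (0 : Eu n)) (hasInt_int 1) (cons t y)
  rw [← cons_add] at h
  simpa using h

theorem continuous_line {n : ℕ} {E : Type*} [TopologicalSpace E] {g : Eu (n + 1) → E}
    (hg : Continuous g) (y : Eu n) : Continuous (fun t => g (cons t y)) := by
  have h : Continuous fun t : ℝ => ((t, y) : ℝ × Eu n) := by fun_prop
  exact hg.comp (continuous_cons.comp h)

end PolA

theorem pol_equimeas_A {n : ℕ} (a : ℝ) (ha : ∀ k : ℤ, 2 * a ≠ k) (g : Eu (n + 1) → ℝ)
    (hg : Continuous g) (hp : PerFun g) (Φ : ℝ → ℝ) (hΦ : Continuous Φ) (y : Eu n) :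
    ∫ t in Set.Ico (0 : ℝ) 1, Φ (pol a g (cons t y)) =
      ∫ t in Set.Ico (0 : ℝ) 1, Φ (g (cons t y)) := by
  set F : ℝ → ℝ := fun t => Φ (pol a g (cons t y)) with hF
  set G : ℝ → ℝ := fun t => Φ (g (cons t y)) with hG
  have hFc : Continuous F := hΦ.comp (continuous_line (continuous_pol a ha g hg hp) y)
  have hGc : Continuous G := hΦ.comp (continuous_line hg y)
  have hFp : Function.Periodic F 1 := fun t => by
    have := per_line (pol_perFun_A a g hp) y t
    simp only [hF]
    exact congrArg Φ this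
  have hGp : Function.Periodic G 1 := fun t => by
    have := per_line hp y t
    simp only [hG]
    exact congrArg Φ this
  have hpair : ∀ t, F t + F (2 * a - t) = G t + G (2 * a - t) := by
    intro t
    have h := pol_pair a ha g hp (cons t y)
    rw [rf_cons] at h
    simp only [hF, hG]
    rcases h with ⟨h1, h2⟩ | ⟨h1, h2⟩
    · rw [h1, h2]
    · rw [h1, h2]; ring
  have hint : ∀ H : ℝ → ℝ, Continuous H → IntegrableOn H (Set.Ico (0 : ℝ) 1) := fun H hH =>
    (hH.integrableOn_Icc (a := 0) (b := 1)).mono_set Set.Ico_subset_Icc_self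
  have e1 := integral_reflect F hFp (2 * a)
  have e2 := integral_reflect G hGp (2 * a)
  have e3 : ∫ t in Set.Ico (0 : ℝ) 1, (F t + F (2 * a - t)) =
      ∫ t in Set.Ico (0 : ℝ) 1, (G t + G (2 * a - t)) := by
    congr 1
    ext t
    exact hpair t
  have hsub : Continuous fun t : ℝ => 2 * a - t := by fun_prop
  rw [integral_add (hint F hFc) (hint (fun t => F (2 * a - t)) (hFc.comp hsub)),
    integral_add (hint G hGc) (hint (fun t => G (2 * a - t)) (hGc.comp hsub)), e1, e2] at e3
  linarith

namespace PolA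

/-- change of variables by the reflection on the cell -/
theorem integral_cell_rf {n : ℕ} (a : ℝ) (F : Eu (n + 1) → ℝ) (hF : Continuous F)
    (hp : PerFun F) :
    ∫ x in unitCell (n + 1), F (rf a x) = ∫ x in unitCell (n + 1), F x := by
  rw [integral_cell_fubini (fun x => F (rf a x))
      (integrableOn_cell (fun x => F (rf a x)) (hF.comp (continuous_rf a))),
    integral_cell_fubini _ (integrableOn_cell _ hF)]
  simp_rw [rf_cons]
  exact integral_reflect (fun t => ∫ y in unitCell n, F (cons t y))
    (fun t => by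
      apply integral_congr_ae
      filter_upwards with y
      exact per_line hp y t) (2 * a)

/-- a nonnegative continuous periodic function which is positive somewhere has positive
integral -/
theorem integral_cell_pos {n : ℕ} (F : Eu n → ℝ) (hF : Continuous F) (hp : PerFun F)
    (h0 : ∀ x, 0 ≤ F x) (x0 : Eu n) (hx : 0 < F x0) : 0 < ∫ x in unitCell n, F x := by
  set c0 : Eu n := WithLp.toLp 2 (fun _ => (1 / 2 : ℝ)) with hc0
  rw [← integral_cell_translate F hp hF.aestronglyMeasurable (x0 - c0)]
  set G : Eu n → ℝ := fun x => F (x + (x0 - c0)) with hG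
  have hGc : Continuous G := hF.comp (by fun_prop)
  have hGpos : 0 < G c0 := by
    simp only [hG]
    rw [add_sub_cancel]
    exact hx
  rw [setIntegral_pos_iff_support_of_nonneg_ae (Filter.Eventually.of_forall fun x => h0 _)
    (integrableOn_cell G hGc)]
  -- an open set around `c0`
  have hopen : IsOpen ({x : Eu n | 0 < G x} ∩ {x : Eu n | ∀ i, 0 < x i ∧ x i < 1}) := by
    apply IsOpen.inter (isOpen_lt continuous_const hGc)
    rw [Set.ofPred_forall]
    apply isOpen_iInter_of_finite
    intro i
    have hi : Continuous fun x : Eu n => x i := by fun_prop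
    exact (isOpen_lt continuous_const hi).inter (isOpen_lt hi continuous_const)
  have hne : ({x : Eu n | 0 < G x} ∩ {x : Eu n | ∀ i, 0 < x i ∧ x i < 1}).Nonempty :=
    ⟨c0, hGpos, fun i => by simp only [hc0]; norm_num⟩
  refine lt_of_lt_of_le (hopen.measure_pos volume hne) (measure_mono ?_)
  rintro x ⟨hx1, hx2⟩
  refine ⟨ne_of_gt hx1, ?_⟩
  intro i
  exact ⟨(hx2 i).1.le, (hx2 i).2⟩

end PolA

/-- polarization increases the correlation with `cos 2πt`, strictly unless `g` is polarized -/
theorem pol_corr_A {n : ℕ} (a : ℝ) (ha : ∀ k : ℤ, 2 * a ≠ k) (g : Eu (n + 1) → ℝ)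
    (hg : Continuous g) (hp : PerFun g) (hne : pol a g ≠ g) :
    ∫ x in unitCell (n + 1), g x * Real.cos (2 * Real.pi * x 0) <
      ∫ x in unitCell (n + 1), pol a g x * Real.cos (2 * Real.pi * x 0) := by
  set C : Eu (n + 1) → ℝ := fun x => Real.cos (2 * Real.pi * x 0) with hC
  set w : Eu (n + 1) → ℝ := fun x => pol a g x - g x with hw
  have hCc : Continuous C := by
    simp only [hC]
    exact Real.continuous_cos.comp (by fun_prop)
  have hpc := continuous_pol a ha g hg hp
  have hwc : Continuous w := hpc.sub hg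
  have hCp : PerFun C := by
    intro v hv x
    obtain ⟨k, hk⟩ := hv 0
    simp only [hC, PiLp.add_apply]
    rw [hk, mul_add]
    have : 2 * Real.pi * (k : ℝ) = (k : ℤ) * (2 * Real.pi) := by ring
    rw [this, Real.cos_add_int_mul_two_pi]
  have hwp : PerFun w := by
    intro v hv x
    simp only [hw]
    rw [hp v hv x, pol_perFun_A a g hp v hv x]
  have hwr : ∀ x, w (rf a x) = - w x := by
    intro x
    simp only [hw]
    rcases pol_pair a ha g hp x with ⟨h1, h2⟩ | ⟨h1, h2⟩
    · rw [h1, h2]; ring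
    · rw [h1, h2]; ring
  set J : Eu (n + 1) → ℝ := fun x => w x * (C x - C (rf a x)) with hJ
  have hCr : Continuous fun x => C (rf a x) := hCc.comp (continuous_rf a)
  have hJc : Continuous J := hwc.mul (hCc.sub hCr)
  have hJp : PerFun J := by
    intro v hv x
    simp only [hJ]
    rw [hwp v hv x, hCp v hv x]
    have := per_comp_rf a hCp v hv x
    simp only at this
    rw [this]
  -- sign
  have hsign : ∀ x, 0 ≤ J x ∧ (w x ≠ 0 → 0 < J x) := by
    intro x
    have hCrx : C (rf a x) = Real.cos (2 * Real.pi * (2 * a - x 0)) := by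
      simp only [hC, rf_zero]
    rcases lt_trichotomy (dZ (x 0)) (dZ (2 * a - x 0)) with h | h | h
    · have hw0 : 0 ≤ w x := by
        simp only [hw, pol]
        rw [if_pos h.le]
        linarith [le_max_left (g x) (g (rf a x))]
      have hc := cos_lt h
      have hd : 0 < C x - C (rf a x) := by rw [hCrx]; simp only [hC]; linarith
      exact ⟨mul_nonneg hw0 hd.le, fun hne => mul_pos (lt_of_le_of_ne hw0 (Ne.symm hne)) hd⟩
    · have hw0 : w x = 0 := by
        simp only [hw, pol]
        rw [if_pos h.le, g_rf_eq ha hp h]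
        simp
      exact ⟨by simp [hJ, hw0], fun hne => absurd hw0 hne⟩
    · have hw0 : w x ≤ 0 := by
        simp only [hw, pol]
        rw [if_neg (not_le.2 h)]
        linarith [min_le_left (g x) (g (rf a x))]
      have hc := cos_lt h
      have hd : C x - C (rf a x) < 0 := by rw [hCrx]; simp only [hC]; linarith
      refine ⟨mul_nonneg_of_nonpos_of_nonpos hw0 hd.le, fun hne => ?_⟩
      exact mul_pos_of_neg_of_neg (lt_of_le_of_ne hw0 hne) hd
  have hex : ∃ x, w x ≠ 0 := by
    by_contra hcon
    push Not at hcon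
    apply hne
    ext x
    have := hcon x
    simp only [hw] at this
    linarith
  obtain ⟨x0, hx0⟩ := hex
  have hpos := integral_cell_pos J hJc hJp (fun x => (hsign x).1) x0 ((hsign x0).2 hx0)
  -- evaluate
  have i1 := integrableOn_cell (fun x => w x * C x) (hwc.mul hCc)
  have i2 := integrableOn_cell (fun x => w x * C (rf a x)) (hwc.mul hCr)
  have e1 : ∫ x in unitCell (n + 1), J x =
      (∫ x in unitCell (n + 1), w x * C x) - ∫ x in unitCell (n + 1), w x * C (rf a x) := by
    rw [← integral_sub i1 i2]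
    congr 1
    ext x
    simp only [hJ]
    ring
  have e2 : ∫ x in unitCell (n + 1), w x * C (rf a x) =
      - ∫ x in unitCell (n + 1), w x * C x := by
    have h1 : (fun x => w x * C (rf a x)) = fun x => (fun z => -(w z * C z)) (rf a x) := by
      ext x
      simp only [hwr x]
      ring
    rw [h1, integral_cell_rf a (fun z => -(w z * C z)) (hwc.mul hCc).neg (fun v hv x => by
      simp only
      rw [hwp v hv x, hCp v hv x]), integral_neg]
  rw [e1, e2] at hpos
  have hfin : 0 < ∫ x in unitCell (n + 1), w x * C x := by linarith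
  have i3 := integrableOn_cell (fun x => pol a g x * C x) (hpc.mul hCc)
  have i4 := integrableOn_cell (fun x => g x * C x) (hg.mul hCc)
  have e3 : ∫ x in unitCell (n + 1), w x * C x =
      (∫ x in unitCell (n + 1), pol a g x * C x) - ∫ x in unitCell (n + 1), g x * C x := by
    rw [← integral_sub i3 i4]
    congr 1
    ext x
    simp only [hw]
    ring
  rw [e3] at hfin
  linarith

/-- if `g` equals all its polarizations then it is symmetric decreasing in coordinate `0` -/
theorem symm_of_pol_A {n : ℕ} (g : Eu (n + 1) → ℝ) (hg : Continuous g) (hp : PerFun g)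
    (h : ∀ a : ℝ, (∀ k : ℤ, 2 * a ≠ k) → pol a g = g) :
    ∀ (s t : ℝ) (y : Eu n), dZ s ≤ dZ t → g (cons t y) ≤ g (cons s y) := by
  -- strict case
  have strict : ∀ (s t : ℝ) (y : Eu n), dZ s < dZ t → g (cons t y) ≤ g (cons s y) := by
    intro s t y hst
    have ha : ∀ k : ℤ, 2 * ((s + t) / 2) ≠ k := by
      intro k hk
      have : s = -t + k := by linarith
      rw [this, dZ_add_int, dZ_neg] at hst
      exact lt_irrefl _ hst
    have hpol := congrFun (h ((s + t) / 2) ha) (cons s y)
    unfold pol at hpol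
    rw [rf_cons, cons_zero] at hpol
    have e : 2 * ((s + t) / 2) - s = t := by ring
    rw [e, if_pos hst.le] at hpol
    rw [← hpol]
    exact le_max_right _ _
  intro s t y hst
  rcases eq_or_lt_of_le (dZ_nonneg s) with hs0 | hs0
  · rcases eq_or_lt_of_le (dZ_nonneg t) with ht0 | ht0
    · -- both integers
      have hint : ∀ r : ℝ, 0 = dZ r → g (cons r y) = g (cons 0 y) := by
        intro r hr
        have hr' : r = ((round r : ℤ) : ℝ) := by
          have := abs_eq_zero.1 hr.symm
          linarith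
        have e := hp (cons ((round r : ℤ) : ℝ) (0 : Eu n)) (hasInt_int _) (cons 0 y)
        rw [← cons_add, zero_add, add_zero, ← hr'] at e
        exact e
      rw [hint s hs0, hint t ht0]
    · exact strict s t y (by rw [← hs0]; exact ht0)
  · -- approximate `s`
    set m : ℝ := ((round s : ℤ) : ℝ) with hm
    have hlim : Tendsto (fun k : ℕ => s - 1 / ((k : ℝ) + 1) * (s - m)) atTop (𝓝 s) := by
      have h1 : Tendsto (fun k : ℕ => 1 / ((k : ℝ) + 1)) atTop (𝓝 0) :=
        tendsto_one_div_add_atTop_nhds_zero_nat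
      have h2 := (h1.mul_const (s - m)).const_sub s
      simpa using h2
    have hgl : Tendsto (fun k : ℕ => g (cons (s - 1 / ((k : ℝ) + 1) * (s - m)) y)) atTop
        (𝓝 (g (cons s y))) := ((continuous_line hg y).tendsto s).comp hlim
    apply ge_of_tendsto' hgl
    intro k
    apply strict
    refine lt_of_lt_of_le ?_ hst
    have hk : (0 : ℝ) < 1 / ((k : ℝ) + 1) := by positivity
    have hk1 : 1 / ((k : ℝ) + 1) ≤ 1 := by
      rw [div_le_one (by positivity)]
      have : (0 : ℝ) ≤ k := Nat.cast_nonneg k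
      linarith
    have h1 : dZ (s - 1 / ((k : ℝ) + 1) * (s - m)) ≤
        |s - 1 / ((k : ℝ) + 1) * (s - m) - ((round s : ℤ) : ℝ)| := round_le _ _
    refine lt_of_le_of_lt h1 ?_
    rw [← hm]
    have h2 : s - 1 / ((k : ℝ) + 1) * (s - m) - m = (1 - 1 / ((k : ℝ) + 1)) * (s - m) := by ring
    rw [h2, abs_mul, abs_of_nonneg (by linarith)]
    have h3 : dZ s = |s - m| := rfl
    rw [h3] at hs0 ⊢
    nlinarith

end Crest.Agent.R214
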