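import Crest.Agent.R214.Core3
import Crest.Agent.R214.Core4
import Crest.Agent.R214.Geo

/-!
# PolarTV: polarization does not increase the total variation (helper465)
-/

set_option autoImplicit false
open MeasureTheory Crest.GeometryTopology.PeriodicPerimeter Filter
open scoped ENNReal NNReal Topology
noncomputable section
namespace Crest.Agent.R214
namespace PTV

variable {n : ℕ}

/-- smoothing of the absolute value -/
def q (ε w : ℝ) : ℝ := Real.sqrt (w ^ 2 + ε ^ 2) - ε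

/-- derivative of `q` -/
def q' (ε w : ℝ) : ℝ := w / Real.sqrt (w ^ 2 + ε ^ 2)

theorem q_zero {ε : ℝ} (hε : 0 < ε) : q ε 0 = 0 := by
  simp [q, Real.sqrt_sq hε.le]

theorem q'_zero (ε : ℝ) : q' ε 0 = 0 := by simp [q']

theorem rad_pos {ε : ℝ} (hε : 0 < ε) (w : ℝ) : 0 < w ^ 2 + ε ^ 2 := by positivity

theorem q'_neg (ε w : ℝ) : q' ε (-w) = - q' ε w := by
  simp [q', neg_div]

theorem abs_q'_le {ε : ℝ} (hε : 0 < ε) (w : ℝ) : |q' ε w| ≤ 1 := by
  unfold q'
  have h : 0 < Real.sqrt (w ^ 2 + ε ^ 2) := Real.sqrt_pos.2 (rad_pos hε w)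
  rw [abs_div, abs_of_pos h, div_le_one h]
  rw [← Real.sqrt_sq_eq_abs]
  exact Real.sqrt_le_sqrt (by nlinarith [sq_nonneg ε])

theorem hasDerivAt_q {ε : ℝ} (hε : 0 < ε) (w : ℝ) : HasDerivAt (q ε) (q' ε w) w := by
  have h1 : HasDerivAt (fun w : ℝ => w ^ 2 + ε ^ 2) (2 * w) w := by
    have := (hasDerivAt_pow 2 w).add_const (ε ^ 2)
    simpa using this
  have h2 := (h1.sqrt (rad_pos hε w).ne').sub_const ε
  rw [mul_div_mul_left _ _ (by norm_num : (2 : ℝ) ≠ 0)] at h2
  exact h2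

theorem continuous_q' {ε : ℝ} (hε : 0 < ε) : Continuous (q' ε) := by
  unfold q'
  refine continuous_id.div (by fun_prop) fun w => ?_
  exact (Real.sqrt_pos.2 (rad_pos hε w)).ne'

theorem abs_q_sub_le {ε : ℝ} (hε : 0 < ε) (w : ℝ) : |q ε w - (|w|)| ≤ ε := by
  unfold q
  have h1 : |w| ≤ Real.sqrt (w ^ 2 + ε ^ 2) := by
    rw [← Real.sqrt_sq_eq_abs]
    exact Real.sqrt_le_sqrt (by nlinarith [sq_nonneg ε])
  have h2 : Real.sqrt (w ^ 2 + ε ^ 2) ≤ |w| + ε := by
    rw [← Real.sqrt_sq (by positivity : 0 ≤ |w| + ε)]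
    refine Real.sqrt_le_sqrt ?_
    have : |w| ^ 2 = w ^ 2 := sq_abs w
    nlinarith [abs_nonneg w, mul_nonneg (abs_nonneg w) hε.le]
  rw [abs_le]
  constructor <;> linarith

section gen

variable {E : Type*} [NormedAddCommGroup E] [NormedSpace ℝ E]

omit [NormedSpace ℝ E] in
theorem continuous_sgn {s w : E → ℝ} {p : ℝ → ℝ} (hp : Continuous p) (hp0 : p 0 = 0)
    (hw : Continuous w) (hs : ∀ x, |s x| ≤ 1)
    (hloc : ∀ x, w x ≠ 0 → ∀ᶠ y in 𝓝 x, s y = s x) :
    Continuous fun x => s x * p (w x) := by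
  rw [continuous_iff_continuousAt]
  intro x
  by_cases h : w x = 0
  · have h0 : s x * p (w x) = 0 := by rw [h, hp0, mul_zero]
    rw [ContinuousAt, h0]
    have h1 : Tendsto (fun y => |p (w y)|) (𝓝 x) (𝓝 0) := by
      have : Continuous fun y => |p (w y)| := (hp.comp hw).abs
      have h2 := this.tendsto x
      rwa [h, hp0, abs_zero] at h2
    refine squeeze_zero_norm (fun y => ?_) h1
    rw [norm_mul, Real.norm_eq_abs, Real.norm_eq_abs]
    calc |s y| * |p (w y)| ≤ 1 * |p (w y)| := mul_le_mul_of_nonneg_right (hs y) (abs_nonneg _)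
      _ = _ := one_mul _
  · have h1 : (fun y => s y * p (w y)) =ᶠ[𝓝 x] fun y => s x * p (w y) := by
      filter_upwards [hloc x h] with y hy
      rw [hy]
    exact ContinuousAt.congr (by fun_prop : ContinuousAt (fun y => s x * p (w y)) x) h1.symm

theorem hasFDerivAt_sgn {s w : E → ℝ} {ε : ℝ} (hε : 0 < ε)
    (hw : ContDiff ℝ 1 w) (hs : ∀ x, |s x| ≤ 1)
    (hloc : ∀ x, w x ≠ 0 → ∀ᶠ y in 𝓝 x, s y = s x) (x : E) :
    HasFDerivAt (fun x => s x * q ε (w x)) ((s x * q' ε (w x)) • fderiv ℝ w x) x := by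
  have hwx : HasFDerivAt w (fderiv ℝ w x) x :=
    (hw.differentiable (by norm_num)).differentiableAt.hasFDerivAt
  have hq : HasFDerivAt (fun y => q ε (w y)) (q' ε (w x) • fderiv ℝ w x) x :=
    (hasDerivAt_q hε (w x)).comp_hasFDerivAt x hwx
  by_cases h : w x = 0
  · rw [h, q'_zero, mul_zero, zero_smul]
    rw [h, q'_zero, zero_smul] at hq
    rw [hasFDerivAt_iff_isLittleO] at hq ⊢
    refine Asymptotics.IsBigO.trans_isLittleO ?_ hq
    refine Asymptotics.isBigO_of_le _ fun y => ?_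
    simp only [h, q_zero hε, mul_zero, sub_zero, _root_.zero_apply, norm_mul,
      Real.norm_eq_abs]
    calc |s y| * |q ε (w y)| ≤ 1 * |q ε (w y)| := mul_le_mul_of_nonneg_right (hs y) (abs_nonneg _)
      _ = _ := one_mul _
  · have h1 : (fun y => s y * q ε (w y)) =ᶠ[𝓝 x] fun y => s x * q ε (w y) := by
      filter_upwards [hloc x h] with y hy
      rw [hy]
    have h2 := (hq.const_mul (s x)).congr_of_eventuallyEq h1
    rwa [smul_smul] at h2

end gen

/-! ### the reflection -/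

/-- linear part of the reflection -/
def R (n : ℕ) : Eu (n + 1) →L[ℝ] Eu (n + 1) :=
  LinearMap.mkContinuous
    { toFun := fun x => cons (-(x 0)) (tl x)
      map_add' := fun x y => by
        ext i
        refine Fin.cases ?_ (fun i => ?_) i
        · simp; ring
        · simp [tl]
      map_smul' := fun c x => by
        ext i
        refine Fin.cases ?_ (fun i => ?_) i
        · simp
        · simp [tl] } 1 (fun x => by
      rw [one_mul]
      have h1 := norm_cons_sq (-(x 0)) (tl x)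
      have h2 := norm_cons_sq (x 0) (tl x)
      rw [cons_tl] at h2
      have h3 : ‖cons (-(x 0)) (tl x)‖ ^ 2 = ‖x‖ ^ 2 := by rw [h1, h2]; ring
      have h4 := (sq_eq_sq₀ (norm_nonneg _) (norm_nonneg _)).1 h3
      exact h4.le)

@[simp] theorem R_apply (x : Eu (n + 1)) : R n x = cons (-(x 0)) (tl x) := rfl

theorem norm_R_le : ‖R n‖ ≤ 1 := LinearMap.mkContinuous_norm_le _ zero_le_one _

theorem rf_eq (a : ℝ) (x : Eu (n + 1)) : rf a x = R n x + cons (2 * a) 0 := by
  rw [R_apply, ← cons_add]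
  unfold rf
  congr 1
  · ring
  · simp

theorem rf_zero (a : ℝ) (x : Eu (n + 1)) : (rf a x) 0 = 2 * a - x 0 := by simp [rf]

theorem rf_rf (a : ℝ) (x : Eu (n + 1)) : rf a (rf a x) = x := by
  unfold rf
  simp

theorem contDiff_rf (a : ℝ) : ContDiff ℝ 1 (rf a : Eu (n + 1) → Eu (n + 1)) := by
  have : (rf a : Eu (n + 1) → Eu (n + 1)) = fun x => R n x + cons (2 * a) 0 := by
    funext x; exact rf_eq a x
  rw [this]
  exact (R n).contDiff.add contDiff_const

theorem hasFDerivAt_rf (a : ℝ) (x : Eu (n + 1)) :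
    HasFDerivAt (rf a : Eu (n + 1) → Eu (n + 1)) (R n) x := by
  have : (rf a : Eu (n + 1) → Eu (n + 1)) = fun x => R n x + cons (2 * a) 0 := by
    funext x; exact rf_eq a x
  rw [this]
  exact (R n).hasFDerivAt.add_const _

theorem hasInt_rf {v : Eu (n + 1)} (hv : HasIntegerCoords v) :
    HasIntegerCoords (cons (-(v 0)) (tl v)) := by
  obtain ⟨m, hm⟩ := hv 0
  have h1 : (-(v 0)) = ((-m : ℤ) : ℝ) := by rw [hm]; push_cast; rfl
  rw [h1]
  exact hasIntegerCoords_cons _ _ fun i => hv i.succ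

theorem rf_add (a : ℝ) (x v : Eu (n + 1)) : rf a (x + v) = rf a x + cons (-(v 0)) (tl v) := by
  rw [rf_eq, rf_eq, map_add, R_apply v]
  abel

theorem perFun_rf {α : Type*} (a : ℝ) {u : Eu (n + 1) → α} (hu : PerFun u) :
    PerFun fun x => u (rf a x) := by
  intro v hv x
  simp only []
  rw [rf_add]
  exact hu _ (hasInt_rf hv) _

/-! ### the distance to the nearest integer -/

theorem dZ_le (t : ℝ) (m : ℤ) : dZ t ≤ |t - m| := round_le t m

theorem dZ_sub_le (s t : ℝ) : dZ s - dZ t ≤ |s - t| := by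
  have h1 := dZ_le s (round t)
  have h2 : |s - (round t : ℤ)| ≤ |s - t| + |t - (round t : ℤ)| := abs_sub_le _ _ _
  unfold dZ at *
  linarith

theorem continuous_dZ : Continuous dZ := by
  have : LipschitzWith 1 dZ := by
    refine LipschitzWith.of_dist_le_mul fun s t => ?_
    rw [Real.dist_eq, Real.dist_eq, NNReal.coe_one, one_mul, abs_le]
    have h1 := dZ_sub_le s t
    have h2 := dZ_sub_le t s
    rw [abs_sub_comm] at h2
    constructor <;> linarith
  exact this.continuous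

theorem dZ_add_int (t : ℝ) (m : ℤ) : dZ (t + m) = dZ t := by
  unfold dZ
  rw [round_add_intCast]
  push_cast
  congr 1
  ring

theorem eq_of_dZ_eq {a : ℝ} (ha : ∀ k : ℤ, 2 * a ≠ k) {x : ℝ} (h : dZ x = dZ (2 * a - x)) :
    ∃ m : ℤ, 2 * a - x = x + m := by
  unfold dZ at h
  rcases abs_eq_abs.1 h with h1 | h1
  · refine ⟨round (2 * a - x) - round x, ?_⟩
    push_cast
    linarith
  · exact absurd (show 2 * a = ((round x + round (2 * a - x) : ℤ) : ℝ) by push_cast; linarith)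
      (ha _)

/-- the sign of the half cell -/
def sg (a : ℝ) (x : Eu (n + 1)) : ℝ := if dZ (x 0) ≤ dZ (2 * a - x 0) then 1 else -1

theorem abs_sg_le (a : ℝ) (x : Eu (n + 1)) : |sg a x| ≤ 1 := by
  unfold sg
  split_ifs <;> simp

/-- the difference -/
def dw (a : ℝ) (u : Eu (n + 1) → ℝ) (x : Eu (n + 1)) : ℝ := u x - u (rf a x)

theorem dw_eq_zero {a : ℝ} (ha : ∀ k : ℤ, 2 * a ≠ k) {u : Eu (n + 1) → ℝ} (hu : PerFun u)
    {x : Eu (n + 1)} (h : dZ (x 0) = dZ (2 * a - x 0)) : dw a u x = 0 := by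
  obtain ⟨m, hm⟩ := eq_of_dZ_eq ha h
  have h1 : rf a x = x + cons (m : ℝ) 0 := by
    unfold rf
    conv_rhs => rw [← cons_tl x, ← cons_add]
    rw [hm]
    simp
  unfold dw
  rw [h1, hu _ (hasIntegerCoords_cons _ _ hasIntegerCoords_zero')]
  ring

theorem sg_loc {a : ℝ} {x : Eu (n + 1)} (h : dZ (x 0) ≠ dZ (2 * a - x 0)) :
    ∀ᶠ y in 𝓝 x, sg a y = sg a x := by
  have c0 : Continuous fun y : Eu (n + 1) => y 0 := by fun_prop
  have c1 : Continuous fun y : Eu (n + 1) => dZ (y 0) := continuous_dZ.comp c0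
  have c2 : Continuous fun y : Eu (n + 1) => dZ (2 * a - y 0) :=
    continuous_dZ.comp (continuous_const.sub c0)
  rcases lt_or_gt_of_ne h with h1 | h1
  · filter_upwards [(isOpen_lt c1 c2).mem_nhds h1] with y hy
    have hy' : dZ (y 0) < dZ (2 * a - y 0) := hy
    unfold sg
    rw [if_pos hy'.le, if_pos h1.le]
  · filter_upwards [(isOpen_lt c2 c1).mem_nhds h1] with y hy
    have hy' : dZ (2 * a - y 0) < dZ (y 0) := hy
    unfold sg
    rw [if_neg (not_le.2 hy'), if_neg (not_le.2 h1)]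

theorem sg_rf {a : ℝ} {x : Eu (n + 1)} (h : dZ (x 0) ≠ dZ (2 * a - x 0)) :
    sg a (rf a x) = - sg a x := by
  unfold sg
  rw [rf_zero]
  have h2 : 2 * a - (2 * a - x 0) = x 0 := by ring
  rw [h2]
  rcases lt_or_gt_of_ne h with h1 | h1
  · rw [if_neg (not_le.2 h1), if_pos h1.le]
  · rw [if_pos h1.le, if_neg (not_le.2 h1)]
    simp

theorem perFun_sg (a : ℝ) : PerFun (sg a : Eu (n + 1) → ℝ) := by
  intro v hv x
  obtain ⟨m, hm⟩ := hv 0
  unfold sg
  have h1 : (x + v) 0 = x 0 + m := by simp [hm]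
  have h2 : 2 * a - (x 0 + m) = (2 * a - x 0) + ((-m : ℤ) : ℝ) := by push_cast; ring
  rw [h1, h2, dZ_add_int, dZ_add_int]

theorem dw_rf (a : ℝ) (u : Eu (n + 1) → ℝ) (x : Eu (n + 1)) : dw a u (rf a x) = - dw a u x := by
  unfold dw
  rw [rf_rf]
  ring

theorem perFun_dw (a : ℝ) {u : Eu (n + 1) → ℝ} (hu : PerFun u) : PerFun (dw a u) := by
  intro v hv x
  unfold dw
  rw [hu v hv x]
  have := perFun_rf a hu v hv x
  simp only [] at this
  rw [this]

theorem contDiff_dw (a : ℝ) {u : Eu (n + 1) → ℝ} (hu : ContDiff ℝ 1 u) :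
    ContDiff ℝ 1 (dw a u) := hu.sub (hu.comp (contDiff_rf a))

/-- smoothed polarization -/
def FF (a ε : ℝ) (u : Eu (n + 1) → ℝ) (x : Eu (n + 1)) : ℝ :=
  (u x + u (rf a x)) / 2 + (sg a x * q ε (dw a u x)) / 2

/-- the mixing coefficient -/
def cc (a ε : ℝ) (u : Eu (n + 1) → ℝ) (x : Eu (n + 1)) : ℝ := sg a x * q' ε (dw a u x)

theorem cc_rf {a : ℝ} (ha : ∀ k : ℤ, 2 * a ≠ k) {u : Eu (n + 1) → ℝ} (hu : PerFun u) (ε : ℝ)
    (x : Eu (n + 1)) : cc a ε u (rf a x) = cc a ε u x := by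
  unfold cc
  rw [dw_rf, q'_neg]
  by_cases h : dZ (x 0) = dZ (2 * a - x 0)
  · rw [dw_eq_zero ha hu h, q'_zero]
    simp
  · rw [sg_rf h]
    ring

theorem abs_cc_le (a : ℝ) {ε : ℝ} (hε : 0 < ε) (u : Eu (n + 1) → ℝ) (x : Eu (n + 1)) :
    |cc a ε u x| ≤ 1 := by
  unfold cc
  rw [abs_mul]
  calc |sg a x| * |q' ε (dw a u x)| ≤ 1 * 1 :=
        mul_le_mul (abs_sg_le a x) (abs_q'_le hε _) (abs_nonneg _) zero_le_one
    _ = 1 := one_mul 1

theorem sg_loc' {a : ℝ} (ha : ∀ k : ℤ, 2 * a ≠ k) {u : Eu (n + 1) → ℝ} (hu : PerFun u)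
    (x : Eu (n + 1)) (hx : dw a u x ≠ 0) : ∀ᶠ y in 𝓝 x, sg a y = sg a x :=
  sg_loc fun h => hx (dw_eq_zero ha hu h)

theorem continuous_cc {a : ℝ} (ha : ∀ k : ℤ, 2 * a ≠ k) {ε : ℝ} (hε : 0 < ε)
    {u : Eu (n + 1) → ℝ} (hu : PerFun u) (hc : ContDiff ℝ 1 u) : Continuous (cc a ε u) :=
  continuous_sgn (continuous_q' hε) (q'_zero ε) (contDiff_dw a hc).continuous (abs_sg_le a)
    (sg_loc' ha hu)

theorem perFun_cc (a ε : ℝ) {u : Eu (n + 1) → ℝ} (hu : PerFun u) : PerFun (cc a ε u) := by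
  intro v hv x
  unfold cc
  rw [perFun_sg a v hv x, perFun_dw a hu v hv x]

theorem perFun_FF (a ε : ℝ) {u : Eu (n + 1) → ℝ} (hu : PerFun u) : PerFun (FF a ε u) := by
  intro v hv x
  unfold FF
  have := perFun_rf a hu v hv x
  simp only [] at this
  rw [perFun_sg a v hv x, perFun_dw a hu v hv x, hu v hv x, this]

theorem hasFDerivAt_FF {a : ℝ} (ha : ∀ k : ℤ, 2 * a ≠ k) {ε : ℝ} (hε : 0 < ε)
    {u : Eu (n + 1) → ℝ} (hu : PerFun u) (hc : ContDiff ℝ 1 u) (x : Eu (n + 1)) :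
    HasFDerivAt (FF a ε u) (((1 + cc a ε u x) / 2) • fderiv ℝ u x +
      ((1 - cc a ε u x) / 2) • (fderiv ℝ u (rf a x)).comp (R n)) x := by
  have h1 : HasFDerivAt u (fderiv ℝ u x) x :=
    (hc.differentiable (by norm_num)).differentiableAt.hasFDerivAt
  have h2 : HasFDerivAt (fun y => u (rf a y)) ((fderiv ℝ u (rf a x)).comp (R n)) x :=
    ((hc.differentiable (by norm_num)).differentiableAt.hasFDerivAt (x := rf a x)).comp x
      (hasFDerivAt_rf a x)
  have h3 := hasFDerivAt_sgn hε (contDiff_dw a hc) (abs_sg_le a) (sg_loc' ha hu) x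
  have h4 : fderiv ℝ (dw a u) x = fderiv ℝ u x - (fderiv ℝ u (rf a x)).comp (R n) :=
    (h1.sub h2).fderiv
  rw [h4] at h3
  have h5 := ((h1.add h2).mul_const (1 / 2 : ℝ)).add (h3.mul_const (1 / 2 : ℝ))
  have h6 : FF a ε u = fun x => (u x + u (rf a x)) * (1 / 2 : ℝ) +
      (sg a x * q ε (dw a u x)) * (1 / 2 : ℝ) := by
    funext x; unfold FF; ring
  rw [h6]
  refine h5.congr_fderiv ?_
  unfold cc
  module

theorem contDiff_FF {a : ℝ} (ha : ∀ k : ℤ, 2 * a ≠ k) {ε : ℝ} (hε : 0 < ε)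
    {u : Eu (n + 1) → ℝ} (hu : PerFun u) (hc : ContDiff ℝ 1 u) : ContDiff ℝ 1 (FF a ε u) := by
  rw [contDiff_one_iff_fderiv]
  refine ⟨fun x => (hasFDerivAt_FF ha hε hu hc x).differentiableAt, ?_⟩
  have h1 : fderiv ℝ (FF a ε u) = fun x => ((1 + cc a ε u x) / 2) • fderiv ℝ u x +
      ((1 - cc a ε u x) / 2) • (fderiv ℝ u (rf a x)).comp (R n) := by
    funext x
    exact (hasFDerivAt_FF ha hε hu hc x).fderiv
  rw [h1]
  have hcc := continuous_cc ha hε hu hc
  have hd : Continuous (fderiv ℝ u) := hc.continuous_fderiv (by norm_num)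
  have hr : Continuous (rf a : Eu (n + 1) → Eu (n + 1)) := (contDiff_rf a).continuous
  have hd2 : Continuous fun x : Eu (n + 1) => (fderiv ℝ u (rf a x)).comp (R n) :=
    (hd.comp hr).clm_comp continuous_const
  exact (((continuous_const.add hcc).div_const 2).smul hd).add
    (((continuous_const.sub hcc).div_const 2).smul hd2)

theorem norm_fderiv_FF_le {a : ℝ} (ha : ∀ k : ℤ, 2 * a ≠ k) {ε : ℝ} (hε : 0 < ε)
    {u : Eu (n + 1) → ℝ} (hu : PerFun u) (hc : ContDiff ℝ 1 u) (x : Eu (n + 1)) :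
    ‖fderiv ℝ (FF a ε u) x‖ ≤ (1 + cc a ε u x) / 2 * ‖fderiv ℝ u x‖ +
      (1 - cc a ε u x) / 2 * ‖fderiv ℝ u (rf a x)‖ := by
  rw [(hasFDerivAt_FF ha hε hu hc x).fderiv]
  have h1 := abs_le.1 (abs_cc_le a hε u x)
  refine (norm_add_le _ _).trans ?_
  rw [norm_smul, norm_smul, Real.norm_eq_abs, Real.norm_eq_abs,
    abs_of_nonneg (by linarith : (0 : ℝ) ≤ (1 + cc a ε u x) / 2),
    abs_of_nonneg (by linarith : (0 : ℝ) ≤ (1 - cc a ε u x) / 2)]
  refine add_le_add le_rfl (mul_le_mul_of_nonneg_left ?_ (by linarith))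
  calc ‖(fderiv ℝ u (rf a x)).comp (R n)‖ ≤ ‖fderiv ℝ u (rf a x)‖ * ‖R n‖ :=
        ContinuousLinearMap.opNorm_comp_le _ _
    _ ≤ ‖fderiv ℝ u (rf a x)‖ * 1 := mul_le_mul_of_nonneg_left norm_R_le (norm_nonneg _)
    _ = _ := mul_one _

/-- integration over the cell is invariant under the reflection -/
theorem integral_cell_rf (a : ℝ) {G : Eu (n + 1) → ℝ} (hG : Continuous G) (hp : PerFun G) :
    ∫ x in unitCell (n + 1), G (rf a x) = ∫ x in unitCell (n + 1), G x := by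
  have hr : Continuous (rf a : Eu (n + 1) → Eu (n + 1)) := (contDiff_rf a).continuous
  rw [integral_cell_fubini' (fun x => G (rf a x)) (integrableOn_cell _ (hG.comp hr)),
    integral_cell_fubini' _ (integrableOn_cell _ hG)]
  congr 1
  funext y
  have h1 : ∀ t : ℝ, rf a (cons t y) = cons (2 * a - t) y := fun t => by simp [rf]
  simp only [h1]
  have hper : Function.Periodic (fun t : ℝ => G (cons t y)) 1 := by
    intro t
    have := hp (cons 1 0) (by simpa using hasIntegerCoords_cons 1 0 hasIntegerCoords_zero')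
      (cons t y)
    rw [← cons_add, add_zero] at this
    exact this
  rw [integral_Ico_eq_integral_Ioc, integral_Ico_eq_integral_Ioc,
    ← intervalIntegral.integral_of_le zero_le_one, ← intervalIntegral.integral_of_le zero_le_one]
  rw [intervalIntegral.integral_comp_sub_left (fun t => G (cons t y)) (2 * a)]
  have h2 := hper.intervalIntegral_add_eq (2 * a - 1) 0
  simp only [sub_add_cancel, zero_add] at h2
  rw [sub_zero]
  exact h2

theorem VV_FF_le {a : ℝ} (ha : ∀ k : ℤ, 2 * a ≠ k) {ε : ℝ} (hε : 0 < ε)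
    {u : Eu (n + 1) → ℝ} (hu : PerFun u) (hc : ContDiff ℝ 1 u) : VV (FF a ε u) ≤ VV u := by
  have hcc := continuous_cc ha hε hu hc
  have hd : Continuous (fderiv ℝ u) := hc.continuous_fderiv (by norm_num)
  have hdF : Continuous (fderiv ℝ (FF a ε u)) :=
    (contDiff_FF ha hε hu hc).continuous_fderiv (by norm_num)
  have hr : Continuous (rf a : Eu (n + 1) → Eu (n + 1)) := (contDiff_rf a).continuous
  set G : Eu (n + 1) → ℝ := fun x => (1 - cc a ε u x) / 2 * ‖fderiv ℝ u x‖ with hG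
  have hGc : Continuous G := ((continuous_const.sub hcc).div_const 2).mul hd.norm
  have hGp : PerFun G := by
    intro v hv x
    have h1 : fderiv ℝ u (x + v) = fderiv ℝ u x := by
      have h2 : (fun y => u (y + v)) = u := funext fun y => hu v hv y
      rw [← fderiv_comp_add_right, h2]
    simp only [hG]
    rw [h1, perFun_cc a ε hu v hv x]
  have h1 : VV (FF a ε u) ≤ ∫ x in unitCell (n + 1),
      ((1 + cc a ε u x) / 2 * ‖fderiv ℝ u x‖ + G (rf a x)) := by
    unfold VV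
    refine setIntegral_mono_on (integrableOn_cell _ hdF.norm) (integrableOn_cell _ ?_)
      measurableSet_cell fun x _ => ?_
    · exact (((continuous_const.add hcc).div_const 2).mul hd.norm).add (hGc.comp hr)
    · simp only [hG]
      rw [cc_rf ha hu ε x]
      exact norm_fderiv_FF_le ha hε hu hc x
  have i1 : IntegrableOn (fun x => (1 + cc a ε u x) / 2 * ‖fderiv ℝ u x‖) (unitCell (n + 1)) :=
    integrableOn_cell _ (((continuous_const.add hcc).div_const 2).mul hd.norm)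
  have i2 : IntegrableOn (fun x => G (rf a x)) (unitCell (n + 1)) :=
    integrableOn_cell _ (hGc.comp hr)
  have i3 : IntegrableOn G (unitCell (n + 1)) := integrableOn_cell _ hGc
  rw [integral_add i1 i2, integral_cell_rf a hGc hGp, ← integral_add i1 i3] at h1
  refine h1.trans (le_of_eq ?_)
  unfold VV
  congr 1
  funext x
  simp only [hG]
  ring

theorem pol_eq (a : ℝ) (u : Eu (n + 1) → ℝ) (x : Eu (n + 1)) :
    pol a u x = (u x + u (rf a x)) / 2 + (sg a x * |dw a u x|) / 2 := by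
  unfold pol sg dw
  split_ifs with h
  · rcases le_total (u x) (u (rf a x)) with h1 | h1
    · rw [max_eq_right h1, abs_of_nonpos (by linarith)]; ring
    · rw [max_eq_left h1, abs_of_nonneg (by linarith)]; ring
  · rcases le_total (u x) (u (rf a x)) with h1 | h1
    · rw [min_eq_left h1, abs_of_nonpos (by linarith)]; ring
    · rw [min_eq_right h1, abs_of_nonneg (by linarith)]; ring

theorem abs_FF_sub_pol_le (a : ℝ) {ε : ℝ} (hε : 0 < ε) (u : Eu (n + 1) → ℝ) (x : Eu (n + 1)) :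
    |FF a ε u x - pol a u x| ≤ ε := by
  rw [pol_eq]
  have h1 : FF a ε u x - ((u x + u (rf a x)) / 2 + (sg a x * |dw a u x|) / 2) =
      sg a x * (q ε (dw a u x) - |dw a u x|) / 2 := by
    unfold FF; ring
  rw [h1, abs_div, abs_mul, abs_of_pos (by norm_num : (0 : ℝ) < 2)]
  have h2 : |sg a x| * |q ε (dw a u x) - (|dw a u x|)| ≤ 1 * ε :=
    mul_le_mul (abs_sg_le a x) (abs_q_sub_le hε _) (abs_nonneg _) zero_le_one
  linarith

theorem abs_pol_sub_pol_le (a : ℝ) (u v : Eu (n + 1) → ℝ) {C : ℝ} (h : ∀ x, |u x - v x| ≤ C)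
    (x : Eu (n + 1)) : |pol a u x - pol a v x| ≤ C := by
  unfold pol
  split_ifs
  · exact (abs_max_sub_max_le_max _ _ _ _).trans (max_le (h _) (h _))
  · exact (abs_min_sub_min_le_max _ _ _ _).trans (max_le (h _) (h _))

theorem measurable_pol (a : ℝ) {g : Eu (n + 1) → ℝ} (hg : Continuous g) :
    Measurable (pol a g) := by
  have c0 : Continuous fun y : Eu (n + 1) => y 0 := by fun_prop
  have c1 : Continuous fun y : Eu (n + 1) => dZ (y 0) := continuous_dZ.comp c0
  have c2 : Continuous fun y : Eu (n + 1) => dZ (2 * a - y 0) :=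
    continuous_dZ.comp (continuous_const.sub c0)
  have hr : Continuous (rf a : Eu (n + 1) → Eu (n + 1)) := (contDiff_rf a).continuous
  exact Measurable.ite (isClosed_le c1 c2).measurableSet
    (hg.max (hg.comp hr)).measurable (hg.min (hg.comp hr)).measurable

theorem pol_mem (a : ℝ) {g : Eu (n + 1) → ℝ} (h0 : ∀ x, 0 ≤ g x) (h1 : ∀ x, g x ≤ 1)
    (x : Eu (n + 1)) : 0 ≤ pol a g x ∧ pol a g x ≤ 1 := by
  unfold pol
  split_ifs
  · exact ⟨le_max_of_le_left (h0 _), max_le (h1 _) (h1 _)⟩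
  · exact ⟨le_min (h0 _) (h0 _), min_le_of_left_le (h1 _)⟩

theorem integrableOn_pol (a : ℝ) {g : Eu (n + 1) → ℝ} (hg : Continuous g) (h0 : ∀ x, 0 ≤ g x)
    (h1 : ∀ x, g x ≤ 1) : IntegrableOn (pol a g) (unitCell (n + 1)) := by
  refine Measure.integrableOn_of_bounded (M := 1) (by rw [volume_cell]; simp)
    (measurable_pol a hg).aestronglyMeasurable (Eventually.of_forall fun x => ?_)
  rw [Real.norm_eq_abs, abs_le]
  have := pol_mem a h0 h1 x
  constructor <;> linarith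

end PTV

theorem TV_pol_le' {n : ℕ} (a : ℝ) (ha : ∀ k : ℤ, 2 * a ≠ k) (g : Eu (n + 1) → ℝ) (K : ℝ≥0)
    (hK : LipschitzWith K g) (hp : PerFun g) (h0 : ∀ x, 0 ≤ g x) (h1 : ∀ x, g x ≤ 1) :
    TV (pol a g) ≤ TV g := by
  obtain ⟨G, hG2, hGp, hG0, hG1, hGV, -, hGK⟩ := exists_moll g hK.continuous.measurable h0 h1 hp
  set ε : ℕ → ℝ := fun k => 1 / ((k : ℝ) + 1) with hε
  have hεp : ∀ k, 0 < ε k := fun k => by simp only [hε]; positivity
  have hc : ∀ k, ContDiff ℝ 1 (G k) := fun k => (hG2 k).of_le (by norm_num)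
  have hF : ∀ k, ContDiff ℝ 1 (PTV.FF a (ε k) (G k)) := fun k =>
    PTV.contDiff_FF ha (hεp k) (hGp k) (hc k)
  have hclose : ∀ k x, |PTV.FF a (ε k) (G k) x - pol a g x| ≤ (1 + K) / ((k : ℝ) + 1) := by
    intro k x
    have e1 := PTV.abs_FF_sub_pol_le a (hεp k) (G k) x
    have e2 := PTV.abs_pol_sub_pol_le a (G k) g (fun x => (hGK K hK k).2 x) x
    calc |PTV.FF a (ε k) (G k) x - pol a g x|
        ≤ |PTV.FF a (ε k) (G k) x - pol a (G k) x| + |pol a (G k) x - pol a g x| :=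
          abs_sub_le _ _ _
      _ ≤ ε k + K / (k + 1) := add_le_add e1 e2
      _ = (1 + K) / ((k : ℝ) + 1) := by simp only [hε]; ring
  have iF : ∀ k, IntegrableOn (PTV.FF a (ε k) (G k)) (unitCell (n + 1)) := fun k =>
    integrableOn_cell _ (hF k).continuous
  have ip := PTV.integrableOn_pol a hK.continuous h0 h1
  refine TV_le_of_tendsto (pol a g) (fun k => PTV.FF a (ε k) (G k)) _ ip iF ?_ fun k => ?_
  · have ht : Tendsto (fun k : ℕ => (1 + (K : ℝ)) / ((k : ℝ) + 1)) atTop (𝓝 0) := by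
      have := (tendsto_one_div_add_atTop_nhds_zero_nat (𝕜 := ℝ)).const_mul (1 + (K : ℝ))
      simpa [div_eq_mul_inv] using this
    refine squeeze_zero (fun k => integral_nonneg fun x => abs_nonneg _) (fun k => ?_) ht
    have hvol : (volume (unitCell (n + 1))).toReal = 1 := by rw [volume_cell]; simp
    calc ∫ x in unitCell (n + 1), |PTV.FF a (ε k) (G k) x - pol a g x|
        ≤ ∫ x in unitCell (n + 1), (1 + (K : ℝ)) / ((k : ℝ) + 1) := by
          refine setIntegral_mono_on ((iF k).sub ip).abs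
            (integrableOn_cell _ continuous_const) measurableSet_cell fun x _ => hclose k x
      _ = (1 + K) / ((k : ℝ) + 1) := by
          rw [setIntegral_const, Measure.real, hvol, smul_eq_mul, one_mul]
  · calc TV (PTV.FF a (ε k) (G k)) ≤ ENNReal.ofReal (VV (PTV.FF a (ε k) (G k))) :=
          TV_le_VV _ (hF k) (PTV.perFun_FF a (ε k) (hGp k))
      _ ≤ ENNReal.ofReal (VV (G k)) :=
          ENNReal.ofReal_le_ofReal (PTV.VV_FF_le ha (hεp k) (hGp k) (hc k))
      _ ≤ TV g := hGV k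

end Crest.Agent.R214
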