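import Crest.Agent.R214.Core3
import Crest.Agent.R214.Core4
import Crest.Agent.R214.Geo
import Crest.Agent.R214.Arc
import Crest.Agent.R214.PolarA
import Crest.Agent.R214.PolarTV

/-!
# Polar: polarization does not increase the total variation (no a.e. differentiability needed)

Let `u = g`, `v = g ∘ rf a`, `H = {dZ (x 0) < dZ (2a - x 0)}` (a half cell; `rf a` exchanges `H` and the
opposite half; for `x` on the interface `x 0 ≡ a` or `a + 1/2 mod 1`, so `u = v` there).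
For `C¹` (indeed `C²`) periodic `g` and `ε > 0` put
`g^{a,ε} = (u+v)/2 + sgn_H (√((u-v)²+ε²) - ε)/2`, `sgn_H = ±1`. It is `C¹` (across the interface
`w = u - v` vanishes and `√(w²+ε²) - ε` is `O(w²)`), periodic, and on `H` its gradient is
`(1+θ)/2 ∇u + (1-θ)/2 ∇v`, on the other side `(1-θ)/2 ∇u + (1+θ)/2 ∇v` with
`θ = |w|.../√(w²+ε²) ∈ [-1,1]`. Hence (pairing `x` with `rf a x`) `VV (g^{a,ε}) ≤ VV g` and the sup of
the gradient norm does not increase; `g^{a,ε} → pol a g` uniformly as `ε → 0`.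
For Lipschitz `g`: `g_k = exists_moll g`, `pol a g_k → pol a g` uniformly (`|max - max| ≤ sup`), so
`TV (pol a g) ≤ liminf TV (g_k^{a,ε_k}) ≤ liminf VV (g_k) ≤ TV g` by `TV_lsc`, `TV_le_VV`.
Equimeasurability on lines: pair `t` with `2a - t`.
-/

set_option autoImplicit false
open MeasureTheory Crest.GeometryTopology.PeriodicPerimeter Filter
open scoped ENNReal NNReal Topology
noncomputable section
namespace Crest.Agent.R214

theorem pol_lipschitz {n : ℕ} (a : ℝ) (ha : ∀ k : ℤ, 2 * a ≠ k) (g : Eu (n + 1) → ℝ) (K : ℝ≥0)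
    (hK : LipschitzWith K g) (hp : PerFun g) : LipschitzWith K (pol a g) :=
  pol_lipschitz_A a ha g K hK hp

theorem pol_perFun {n : ℕ} (a : ℝ) (g : Eu (n + 1) → ℝ) (hp : PerFun g) : PerFun (pol a g) :=
  pol_perFun_A a g hp

theorem TV_pol_le {n : ℕ} (a : ℝ) (ha : ∀ k : ℤ, 2 * a ≠ k) (g : Eu (n + 1) → ℝ) (K : ℝ≥0)
    (hK : LipschitzWith K g) (hp : PerFun g) (h0 : ∀ x, 0 ≤ g x) (h1 : ∀ x, g x ≤ 1) :
    TV (pol a g) ≤ TV g :=
  TV_pol_le' a ha g K hK hp h0 h1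

theorem pol_equimeas {n : ℕ} (a : ℝ) (ha : ∀ k : ℤ, 2 * a ≠ k) (g : Eu (n + 1) → ℝ)
    (hg : Continuous g) (hp : PerFun g) (Φ : ℝ → ℝ) (hΦ : Continuous Φ) (y : Eu n) :
    ∫ t in Set.Ico (0 : ℝ) 1, Φ (pol a g (cons t y)) =
      ∫ t in Set.Ico (0 : ℝ) 1, Φ (g (cons t y)) :=
  pol_equimeas_A a ha g hg hp Φ hΦ y

/-- polarization increases the correlation with `cos 2πt`, strictly unless `g` is polarized -/
theorem pol_corr {n : ℕ} (a : ℝ) (ha : ∀ k : ℤ, 2 * a ≠ k) (g : Eu (n + 1) → ℝ)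
    (hg : Continuous g) (hp : PerFun g) (hne : pol a g ≠ g) :
    ∫ x in unitCell (n + 1), g x * Real.cos (2 * Real.pi * x 0) <
      ∫ x in unitCell (n + 1), pol a g x * Real.cos (2 * Real.pi * x 0) :=
  pol_corr_A a ha g hg hp hne

/-- if `g` equals all its polarizations then it is symmetric decreasing in coordinate `0` -/
theorem symm_of_pol {n : ℕ} (g : Eu (n + 1) → ℝ) (hg : Continuous g) (hp : PerFun g)
    (h : ∀ a : ℝ, (∀ k : ℤ, 2 * a ≠ k) → pol a g = g) :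
    ∀ (s t : ℝ) (y : Eu n), dZ s ≤ dZ t → g (cons t y) ≤ g (cons s y) :=
  symm_of_pol_A g hg hp h

end Crest.Agent.R214
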