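import Mathlib

set_option autoImplicit false

/-! Row 214, rigidity: one-dimensional lemmas. A periodic measurable set of the line which is an a.e.
limit of `C¹` periodic functions with total variation `< 3` along a subsequence is an arc. -/

open MeasureTheory Set Filter Topology

noncomputable section

namespace Crest.Agent.R214.Rig

/-- indicator -/
def ind (A : Set ℝ) : ℝ → ℝ := A.indicator (fun _ => (1 : ℝ))

theorem ind_of_mem {A : Set ℝ} {t : ℝ} (h : t ∈ A) : ind A t = 1 := by simp [ind, h]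
theorem ind_of_notMem {A : Set ℝ} {t : ℝ} (h : t ∉ A) : ind A t = 0 := by simp [ind, h]

/-- the open arc of length `L` centred at `c`, as a periodic subset of the line -/
def arc (c L : ℝ) : Set ℝ := {t | |t - c - round (t - c)| < L / 2}

theorem variation_le {h g : ℝ → ℝ} (hd : ContDiff ℝ 1 h) (hg : Continuous g) {a b m : ℝ}
    (hab : a ≤ b) (hm : ∀ t ∈ Icc a b, m ≤ g t) (hm0 : 0 ≤ m) :
    m * |h b - h a| ≤ ∫ t in a..b, g t * |deriv h t| := by
  have hdc : Continuous (deriv h) := hd.continuous_deriv le_rfl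
  have h1 : ∫ t in a..b, deriv h t = h b - h a :=
    intervalIntegral.integral_deriv_eq_sub (fun x _ => hd.differentiable one_ne_zero x)
      (hdc.intervalIntegrable _ _)
  have h2 : |h b - h a| ≤ ∫ t in a..b, |deriv h t| := by
    rw [← h1]
    exact intervalIntegral.abs_integral_le_integral_abs hab
  calc m * |h b - h a| ≤ m * ∫ t in a..b, |deriv h t| := mul_le_mul_of_nonneg_left h2 hm0
    _ = ∫ t in a..b, m * |deriv h t| := by rw [intervalIntegral.integral_const_mul]
    _ ≤ ∫ t in a..b, g t * |deriv h t| := by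
        apply intervalIntegral.integral_mono_on hab
        · exact (continuous_const.mul hdc.abs).intervalIntegrable _ _
        · exact (hg.mul hdc.abs).intervalIntegrable _ _
        · intro t ht
          exact mul_le_mul_of_nonneg_right (hm t ht) (abs_nonneg _)

theorem deriv_periodic {h : ℝ → ℝ} (hp : Function.Periodic h 1) :
    Function.Periodic (deriv h) 1 := by
  intro t
  have h1 : (fun s => h (s + 1)) = h := funext hp
  have h2 := deriv_comp_add_const h 1 t
  rw [h1] at h2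
  exact h2.symm

theorem integral_shift {h g : ℝ → ℝ} (hp : Function.Periodic h 1) (hgp : Function.Periodic g 1)
    (a : ℝ) : ∫ t in a..(a + 1), g t * |deriv h t| = ∫ t in (0:ℝ)..1, g t * |deriv h t| := by
  have hper : Function.Periodic (fun t => g t * |deriv h t|) 1 := by
    intro t
    simp only [hgp t, deriv_periodic hp t]
  have := hper.intervalIntegral_add_eq a 0
  simpa using this

/-- the weighted variation over a period dominates the sum over two disjoint intervals -/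
theorem two_interval {h g : ℝ → ℝ} (hd : ContDiff ℝ 1 h) (hp : Function.Periodic h 1)
    (hg : Continuous g) (hgp : Function.Periodic g 1) (hg0 : ∀ t, 0 ≤ g t)
    {t1 t2 t3 t4 m1 m2 : ℝ} (h12 : t1 ≤ t2) (h23 : t2 ≤ t3) (h34 : t3 ≤ t4) (h41 : t4 ≤ t1 + 1)
    (hm1 : ∀ t ∈ Icc t1 t2, m1 ≤ g t) (hm2 : ∀ t ∈ Icc t3 t4, m2 ≤ g t)
    (hm10 : 0 ≤ m1) (hm20 : 0 ≤ m2) :
    m1 * |h t2 - h t1| + m2 * |h t4 - h t3| ≤ ∫ t in (0:ℝ)..1, g t * |deriv h t| := by
  have hdc : Continuous (deriv h) := hd.continuous_deriv le_rfl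
  have hc : Continuous (fun t => g t * |deriv h t|) := hg.mul hdc.abs
  have hnn : ∀ t, 0 ≤ g t * |deriv h t| := fun t => mul_nonneg (hg0 t) (abs_nonneg _)
  rw [← integral_shift hp hgp t1]
  have e1 : ∫ t in t1..(t1+1), g t * |deriv h t|
      = (∫ t in t1..t2, g t * |deriv h t|) + (∫ t in t2..t3, g t * |deriv h t|)
        + (∫ t in t3..t4, g t * |deriv h t|) + (∫ t in t4..(t1+1), g t * |deriv h t|) := by
    rw [intervalIntegral.integral_add_adjacent_intervals (hc.intervalIntegrable _ _)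
      (hc.intervalIntegrable _ _), intervalIntegral.integral_add_adjacent_intervals
      (hc.intervalIntegrable _ _) (hc.intervalIntegrable _ _),
      intervalIntegral.integral_add_adjacent_intervals (hc.intervalIntegrable _ _)
      (hc.intervalIntegrable _ _)]
  rw [e1]
  have f1 := variation_le hd hg h12 hm1 hm10
  have f2 := variation_le hd hg h34 hm2 hm20
  have f3 : 0 ≤ ∫ t in t2..t3, g t * |deriv h t| :=
    intervalIntegral.integral_nonneg h23 fun t _ => hnn t
  have f4 : 0 ≤ ∫ t in t4..(t1+1), g t * |deriv h t| :=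
    intervalIntegral.integral_nonneg h41 fun t _ => hnn t
  linarith

theorem four_interval {h : ℝ → ℝ} (hd : ContDiff ℝ 1 h) (hp : Function.Periodic h 1)
    {t1 t2 t3 t4 : ℝ} (h12 : t1 ≤ t2) (h23 : t2 ≤ t3) (h34 : t3 ≤ t4) (h41 : t4 ≤ t1 + 1) :
    |h t2 - h t1| + |h t3 - h t2| + |h t4 - h t3| + |h t1 - h t4|
      ≤ ∫ t in (0:ℝ)..1, |deriv h t| := by
  have hdc : Continuous (deriv h) := hd.continuous_deriv le_rfl
  have hc : Continuous (fun t => |deriv h t|) := hdc.abs
  have e0 := integral_shift (g := fun _ => 1) hp (fun _ => rfl) t1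
  simp only [one_mul] at e0
  rw [← e0]
  have e1 : ∫ t in t1..(t1+1), |deriv h t|
      = (∫ t in t1..t2, |deriv h t|) + (∫ t in t2..t3, |deriv h t|)
        + (∫ t in t3..t4, |deriv h t|) + (∫ t in t4..(t1+1), |deriv h t|) := by
    rw [intervalIntegral.integral_add_adjacent_intervals (hc.intervalIntegrable _ _)
      (hc.intervalIntegrable _ _), intervalIntegral.integral_add_adjacent_intervals
      (hc.intervalIntegrable _ _) (hc.intervalIntegrable _ _),
      intervalIntegral.integral_add_adjacent_intervals (hc.intervalIntegrable _ _)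
      (hc.intervalIntegrable _ _)]
  rw [e1]
  have key : ∀ {a b : ℝ}, a ≤ b → |h b - h a| ≤ ∫ t in a..b, |deriv h t| := by
    intro a b hab
    have := variation_le (g := fun _ => 1) (m := 1) hd continuous_const hab
      (fun _ _ => le_rfl) zero_le_one
    simpa using this
  have f1 := key h12
  have f2 := key h23
  have f3 := key h34
  have f4 := key h41
  rw [hp t1] at f4
  linarith

section limit

variable {A : Set ℝ} {h : ℕ → ℝ → ℝ}

theorem exists_in_Ioo {Z : Set ℝ} (hZ : ∀ᵐ t, t ∈ Z) {a b : ℝ} (hab : a < b) :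
    ∃ t ∈ Ioo a b, t ∈ Z := by
  have h1 : (volume : Measure ℝ) (Ioo a b) ≠ 0 := by
    simp [hab]
  by_contra hcon
  push Not at hcon
  apply h1
  refine measure_mono_null (fun t ht => ?_) (ae_iff.1 hZ)
  exact hcon t ht

theorem two_sub_le (hd : ∀ k, ContDiff ℝ 1 (h k)) (hp : ∀ k, Function.Periodic (h k) 1)
    {p q : ℝ} (hpq : p < q) (hqp : q < p + 1)
    (hpl : Tendsto (fun k => h k p) atTop (𝓝 1)) (hql : Tendsto (fun k => h k q) atTop (𝓝 0))
    {ε : ℝ} (hε : 0 < ε) :
    ∀ᶠ k in atTop, 2 - ε ≤ ∫ t in (0:ℝ)..1, |deriv (h k) t| := by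
  have h1 : Tendsto (fun k => |h k q - h k p| + |h k q - h k q| + |h k q - h k q|
      + |h k p - h k q|) atTop (𝓝 2) := by
    have : Tendsto (fun k => |h k q - h k p| + |h k q - h k q| + |h k q - h k q|
      + |h k p - h k q|) atTop (𝓝 (|(0:ℝ) - 1| + |(0:ℝ) - 0| + |(0:ℝ) - 0| + |(1:ℝ) - 0|)) :=
      ((((hql.sub hpl).abs).add (hql.sub hql).abs).add (hql.sub hql).abs).add (hpl.sub hql).abs
    convert this using 2
    norm_num
  filter_upwards [h1.eventually (lt_mem_nhds (show 2 - ε < 2 by linarith))] with k hk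
  exact hk.le.trans (four_interval (hd k) (hp k) hpq.le le_rfl le_rfl hqp.le)

theorem no_alternation (hd : ∀ k, ContDiff ℝ 1 (h k)) (hp : ∀ k, Function.Periodic (h k) 1)
    (hfreq : ∃ᶠ k in atTop, ∫ t in (0:ℝ)..1, |deriv (h k) t| < 3)
    {t1 t2 t3 t4 : ℝ} (h12 : t1 < t2) (h23 : t2 < t3) (h34 : t3 < t4) (h41 : t4 < t1 + 1)
    (l1 : Tendsto (fun k => h k t1) atTop (𝓝 1)) (l2 : Tendsto (fun k => h k t2) atTop (𝓝 0))
    (l3 : Tendsto (fun k => h k t3) atTop (𝓝 1)) (l4 : Tendsto (fun k => h k t4) atTop (𝓝 0)) :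
    False := by
  have hl : Tendsto (fun k => |h k t2 - h k t1| + |h k t3 - h k t2| + |h k t4 - h k t3|
      + |h k t1 - h k t4|) atTop (𝓝 4) := by
    have : Tendsto (fun k => |h k t2 - h k t1| + |h k t3 - h k t2| + |h k t4 - h k t3|
      + |h k t1 - h k t4|) atTop (𝓝 (|(0:ℝ) - 1| + |(1:ℝ) - 0| + |(0:ℝ) - 1| + |(1:ℝ) - 0|)) :=
      ((((l2.sub l1).abs).add (l3.sub l2).abs).add (l4.sub l3).abs).add (l1.sub l4).abs
    convert this using 2
    norm_num
  obtain ⟨k, hk1, hk2⟩ := (hfreq.and_eventually (hl.eventually (lt_mem_nhds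
    (show (3:ℝ) < 4 by norm_num)))).exists
  have := four_interval (hd k) (hp k) h12.le h23.le h34.le h41.le
  linarith

/-- positive measure of both the set and its complement in a period produces points -/
theorem exists_points {Z : Set ℝ} (hAp : ∀ t, t + 1 ∈ A ↔ t ∈ A)
    (hZ : ∀ᵐ t, t ∈ Z) (hL0 : 0 < ∫ t in (0:ℝ)..1, ind A t)
    (hL1 : ∫ t in (0:ℝ)..1, ind A t < 1) :
    ∃ p q, p < q ∧ q < p + 1 ∧ p ∈ A ∧ p ∈ Z ∧ q ∉ A ∧ q ∈ Z := by
  have hper : Function.Periodic (ind A) 1 := by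
    intro t
    by_cases ht : t ∈ A
    · rw [ind_of_mem ht, ind_of_mem ((hAp t).2 ht)]
    · rw [ind_of_notMem ht, ind_of_notMem (fun h' => ht ((hAp t).1 h'))]
  have hp : ∃ p, p ∈ A ∧ p ∈ Z := by
    by_contra hcon
    push Not at hcon
    have : ∫ t in (0:ℝ)..1, ind A t = ∫ t in (0:ℝ)..1, (0:ℝ) := by
      apply intervalIntegral.integral_congr_ae
      filter_upwards [hZ] with t ht _
      exact ind_of_notMem (fun h' => hcon t h' ht)
    rw [this] at hL0
    simp at hL0
  obtain ⟨p, hpA, hpZ⟩ := hp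
  have hq : ∃ q ∈ Ioo p (p + 1), q ∉ A ∧ q ∈ Z := by
    by_contra hcon
    push Not at hcon
    have h1 : ∫ t in (0:ℝ)..1, ind A t = ∫ t in p..(p + 1), ind A t := by
      have := hper.intervalIntegral_add_eq 0 p
      simpa using this
    have h2 : ∫ t in p..(p + 1), ind A t = ∫ t in p..(p + 1), (1:ℝ) := by
      apply intervalIntegral.integral_congr_ae
      have hne : ∀ᵐ t : ℝ, t ≠ p + 1 := by
        simp [ae_iff, measure_singleton]
      filter_upwards [hZ, hne] with t ht hne' htI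
      rw [uIoc_of_le (by linarith)] at htI
      have hto : t ∈ Ioo p (p + 1) := ⟨htI.1, lt_of_le_of_ne htI.2 hne'⟩
      by_contra hA'
      have : t ∉ A := fun h' => hA' (ind_of_mem h')
      exact hcon t hto this ht
    rw [h1, h2] at hL1
    simp at hL1
  obtain ⟨q, hqI, hqA, hqZ⟩ := hq
  exact ⟨p, q, hqI.1, hqI.2, hpA, hpZ, hqA, hqZ⟩

/-- the limit set is an arc -/
theorem exists_arc (hA : MeasurableSet A) (hAp : ∀ t, t + 1 ∈ A ↔ t ∈ A)
    (hd : ∀ k, ContDiff ℝ 1 (h k)) (hp : ∀ k, Function.Periodic (h k) 1)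
    (hlim : ∀ᵐ t, Tendsto (fun k => h k t) atTop (𝓝 (ind A t)))
    (hfreq : ∃ᶠ k in atTop, ∫ t in (0:ℝ)..1, |deriv (h k) t| < 3)
    (hL0 : 0 < ∫ t in (0:ℝ)..1, ind A t) (hL1 : ∫ t in (0:ℝ)..1, ind A t < 1) :
    ∃ c, ∀ᵐ t, t ∈ A ↔ t ∈ arc c (∫ t in (0:ℝ)..1, ind A t) := by
  set Z : Set ℝ := {t | Tendsto (fun k => h k t) atTop (𝓝 (ind A t))} with hZdef
  have hZ : ∀ᵐ t, t ∈ Z := hlim
  have hper : Function.Periodic (ind A) 1 := by
    intro t
    by_cases ht : t ∈ A
    · rw [ind_of_mem ht, ind_of_mem ((hAp t).2 ht)]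
    · rw [ind_of_notMem ht, ind_of_notMem (fun h' => ht ((hAp t).1 h'))]
  obtain ⟨p, q, hpq, hqp, hpA, hpZ, hqA, hqZ⟩ := exists_points hAp hZ hL0 hL1
  have lA : ∀ {t}, t ∈ A → t ∈ Z → Tendsto (fun k => h k t) atTop (𝓝 1) := by
    intro t h1 h2
    have : Tendsto (fun k => h k t) atTop (𝓝 (ind A t)) := h2
    rwa [ind_of_mem h1] at this
  have lN : ∀ {t}, t ∉ A → t ∈ Z → Tendsto (fun k => h k t) atTop (𝓝 0) := by
    intro t h1 h2
    have : Tendsto (fun k => h k t) atTop (𝓝 (ind A t)) := h2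
    rwa [ind_of_notMem h1] at this
  have noalt : ∀ {t1 t2 t3 t4 : ℝ}, t1 < t2 → t2 < t3 → t3 < t4 → t4 < t1 + 1 →
      t1 ∈ A → t1 ∈ Z → t2 ∉ A → t2 ∈ Z → t3 ∈ A → t3 ∈ Z → t4 ∉ A → t4 ∈ Z → False := by
    intro t1 t2 t3 t4 h12 h23 h34 h41 a1 z1 a2 z2 a3 z3 a4 z4
    exact no_alternation hd hp hfreq h12 h23 h34 h41 (lA a1 z1) (lN a2 z2) (lA a3 z3) (lN a4 z4)
  -- the two cut points
  set S1 : Set ℝ := A ∩ Z ∩ Icc p q with hS1
  set S2 : Set ℝ := A ∩ Z ∩ Icc q (p + 1) with hS2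
  have hp1A : p + 1 ∈ A := (hAp p).2 hpA
  have hp1Z : p + 1 ∈ Z := by
    change Tendsto (fun k => h k (p + 1)) atTop (𝓝 (ind A (p + 1)))
    have : (fun k => h k (p + 1)) = fun k => h k p := funext fun k => hp k p
    rw [this, hper p]
    exact hpZ
  have hS1ne : S1.Nonempty := ⟨p, ⟨hpA, hpZ⟩, le_rfl, hpq.le⟩
  have hS2ne : S2.Nonempty := ⟨p + 1, ⟨hp1A, hp1Z⟩, hqp.le, le_rfl⟩
  have hS1bd : BddAbove S1 := ⟨q, fun t ht => ht.2.2⟩
  have hS2bd : BddBelow S2 := ⟨q, fun t ht => ht.2.1⟩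
  set b := sSup S1 with hb
  set a := sInf S2 with ha
  have hpb : p ≤ b := le_csSup hS1bd ⟨⟨hpA, hpZ⟩, le_rfl, hpq.le⟩
  have hbq : b ≤ q := csSup_le hS1ne fun t ht => ht.2.2
  have hqa : q ≤ a := le_csInf hS2ne fun t ht => ht.2.1
  have hap : a ≤ p + 1 := csInf_le hS2bd ⟨⟨hp1A, hp1Z⟩, hqp.le, le_rfl⟩
  have F1 : ∀ t ∈ Z, p < t → t < b → t ∈ A := by
    intro t htZ h1 h2
    by_contra htA
    obtain ⟨s, hs, hts⟩ := exists_lt_of_lt_csSup hS1ne h2
    have hsq : s < q := lt_of_le_of_ne hs.2.2 (fun e => hqA (e ▸ hs.1.1))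
    exact noalt h1 hts hsq hqp hpA hpZ htA htZ hs.1.1 hs.1.2 hqA hqZ
  have F2 : ∀ t ∈ Z, b < t → t < a → t ∉ A := by
    intro t htZ h1 h2 htA
    rcases le_total t q with h3 | h3
    · exact absurd (le_csSup hS1bd ⟨⟨htA, htZ⟩, by linarith, h3⟩) (not_le.2 h1)
    · exact absurd (csInf_le hS2bd ⟨⟨htA, htZ⟩, h3, by linarith⟩) (not_le.2 h2)
  have F3 : ∀ t ∈ Z, a < t → t < p + 1 → t ∈ A := by
    intro t htZ h1 h2
    by_contra htA
    obtain ⟨s, hs, hst⟩ := exists_lt_of_csInf_lt hS2ne h1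
    have hqs : q < s := lt_of_le_of_ne hs.2.1 (fun e => hqA (e ▸ hs.1.1))
    exact noalt hpq hqs hst h2 hpA hpZ hqA hqZ hs.1.1 hs.1.2 htA htZ
  -- Z is periodic
  have hZm : ∀ (m : ℤ) (t : ℝ), t - m ∈ Z ↔ t ∈ Z := by
    intro m t
    have e1 : ∀ k, h k (t - m) = h k t := fun k => by
      have := (hp k).sub_zsmul_eq m (x := t)
      simpa using this
    have e2 : ind A (t - m) = ind A t := by
      have := hper.sub_zsmul_eq m (x := t)
      simpa using this
    simp only [hZdef, mem_ofPred_eq, e1, e2]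
  have hAm : ∀ (m : ℤ) (t : ℝ), t - m ∈ A ↔ t ∈ A := by
    intro m t
    have e2 : ind A (t - m) = ind A t := by
      have := hper.sub_zsmul_eq m (x := t)
      simpa using this
    constructor
    · intro h1
      by_contra h2
      rw [ind_of_mem h1, ind_of_notMem h2] at e2
      norm_num at e2
    · intro h1
      by_contra h2
      rw [ind_of_mem h1, ind_of_notMem h2] at e2
      norm_num at e2
  -- membership on (a, a+1)
  have G1 : ∀ t ∈ Z, a < t → t < b + 1 → t ≠ p + 1 → t ∈ A := by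
    intro t htZ h1 h2 h3
    rcases lt_or_gt_of_ne h3 with h4 | h4
    · exact F3 t htZ h1 h4
    · rw [← hAm 1 t]
      refine F1 _ ((hZm 1 t).2 htZ) ?_ ?_ <;> push_cast <;> linarith
  have G2 : ∀ t ∈ Z, b + 1 < t → t < a + 1 → t ∉ A := by
    intro t htZ h1 h2
    rw [← hAm 1 t]
    refine F2 _ ((hZm 1 t).2 htZ) ?_ ?_ <;> push_cast <;> linarith
  have hLval : ∫ t in (0:ℝ)..1, ind A t = b + 1 - a := by
    have h1 : ∫ t in (0:ℝ)..1, ind A t = ∫ t in a..(a + 1), ind A t := by
      have := hper.intervalIntegral_add_eq 0 a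
      simpa using this
    have hne : ∀ x : ℝ, ∀ᵐ t : ℝ, t ≠ x := fun x => by
      simp [ae_iff, measure_singleton]
    have hint : ∀ x y : ℝ, IntervalIntegrable (ind A) volume x y := by
      intro x y
      have : IntegrableOn (ind A) (uIoc x y) := by
        apply Measure.integrableOn_of_bounded (M := 1)
        · exact measure_Ioc_lt_top.ne
        · exact (measurable_const.indicator hA).aestronglyMeasurable
        · refine Eventually.of_forall fun t => ?_
          unfold ind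
          by_cases ht : t ∈ A <;> simp [ht]
      rw [intervalIntegrable_iff]
      exact this
    rw [h1, ← intervalIntegral.integral_add_adjacent_intervals (hint a (b+1)) (hint (b+1) (a+1))]
    have h2 : ∫ t in a..(b+1), ind A t = ∫ t in a..(b+1), (1:ℝ) := by
      apply intervalIntegral.integral_congr_ae
      filter_upwards [hZ, hne (p+1), hne (b+1)] with t ht h3 h4 htI
      rw [uIoc_of_le (by linarith)] at htI
      exact ind_of_mem (G1 t ht htI.1 (lt_of_le_of_ne htI.2 h4) h3)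
    have h3 : ∫ t in (b+1)..(a+1), ind A t = ∫ t in (b+1)..(a+1), (0:ℝ) := by
      apply intervalIntegral.integral_congr_ae
      filter_upwards [hZ, hne (a+1)] with t ht h4 htI
      rw [uIoc_of_le (by linarith)] at htI
      exact ind_of_notMem (G2 t ht htI.1 (lt_of_le_of_ne htI.2 h4))
    rw [h2, h3]
    simp
  rw [hLval]
  refine ⟨(a + b + 1) / 2, ?_⟩
  set c := (a + b + 1) / 2 with hc
  have hne : ∀ x : ℝ, ∀ᵐ t : ℝ, ∀ m : ℤ, t ≠ x + m := by
    intro x
    rw [ae_all_iff]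
    intro m
    simp [ae_iff, measure_singleton]
  filter_upwards [hZ, hne a, hne b, hne (p + 1), hne (c - 1/2), hne (c + 1/2)] with t ht ha' hb' hp' hc1 hc2
  set m := round (t - c) with hm
  have hr : |t - c - m| ≤ 1 / 2 := by
    rw [hm]
    exact abs_sub_round _
  have htm : t - m ∈ Z := (hZm m t).2 ht
  have hub : t - m ≤ c + 1/2 := by linarith [(abs_le.1 hr).2]
  have hlb : c - 1/2 ≤ t - m := by linarith [(abs_le.1 hr).1]
  have hne_a : t - m ≠ a := fun e => ha' m (by linarith)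
  have hne_b : t - m ≠ b := fun e => hb' m (by linarith)
  have hne_b1 : t - m ≠ b + 1 := fun e => hb' (m + 1) (by push_cast; linarith)
  have hne_p : t - m ≠ p + 1 := fun e => hp' m (by linarith)
  have hne_c1 : t - m ≠ c - 1/2 := fun e => hc1 m (by linarith)
  have hne_c2 : t - m ≠ c + 1/2 := fun e => hc2 m (by linarith)
  rw [← hAm m t]
  change t - m ∈ A ↔ |t - c - m| < (b + 1 - a) / 2
  have e : t - c - m = (t - m) - c := by ring
  rw [e]
  set s := t - m with hs
  constructor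
  · intro hsA
    rw [abs_lt]
    constructor
    · by_contra hcon
      push Not at hcon
      have h1 : s < a := lt_of_le_of_ne (by rw [hc] at hcon; linarith) hne_a
      have h2 : b ≤ s := by rw [hc] at hlb; linarith
      exact F2 s htm (lt_of_le_of_ne h2 hne_b.symm) h1 hsA
    · by_contra hcon
      push Not at hcon
      have h1 : b + 1 < s := lt_of_le_of_ne (by rw [hc] at hcon; linarith) hne_b1.symm
      have h2 : s < a + 1 := by
        have : a ≤ p + 1 := hap
        rcases lt_or_eq_of_le (show b ≤ a by linarith) with h3 | h3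
        · rw [hc] at hub; linarith
        · exfalso
          rw [hc] at hub
          have : s ≤ b + 1 := by linarith
          linarith
      exact G2 s htm h1 h2 hsA
  · intro habs
    rw [abs_lt] at habs
    refine G1 s htm ?_ ?_ hne_p
    · have := habs.1; rw [hc] at this; linarith
    · have := habs.2; rw [hc] at this; linarith

/-- weighted lower bound for the variation when the limit set is an arc -/
theorem weighted_liminf {c L : ℝ} (hL0 : 0 < L) (hL1 : L < 1)
    (harc : ∀ᵐ t, t ∈ A ↔ t ∈ arc c L)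
    (hd : ∀ k, ContDiff ℝ 1 (h k)) (hp : ∀ k, Function.Periodic (h k) 1)
    (hlim : ∀ᵐ t, Tendsto (fun k => h k t) atTop (𝓝 (ind A t)))
    {g : ℝ → ℝ} (hg : Continuous g) (hgp : Function.Periodic g 1) (hg0 : ∀ t, 0 ≤ g t)
    {ε : ℝ} (hε : 0 < ε) :
    ∀ᶠ k in atTop, g (c - L / 2) + g (c + L / 2) - ε
      ≤ ∫ t in (0:ℝ)..1, g t * |deriv (h k) t| := by
  obtain ⟨δ1, hδ1, hδ1'⟩ := Metric.continuousAt_iff.1 (hg.continuousAt (x := c - L/2)) (ε/8) (by positivity)
  obtain ⟨δ2, hδ2, hδ2'⟩ := Metric.continuousAt_iff.1 (hg.continuousAt (x := c + L/2)) (ε/8) (by positivity)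
  set δ := min (min δ1 δ2) (min (L/2) ((1-L)/2)) with hδ
  have hδ0 : 0 < δ := by
    apply lt_min (lt_min hδ1 hδ2)
    apply lt_min <;> linarith
  have hδL : δ ≤ L / 2 := (min_le_right _ _).trans (min_le_left _ _)
  have hδL' : δ ≤ (1 - L) / 2 := (min_le_right _ _).trans (min_le_right _ _)
  have hδa : δ ≤ δ1 := (min_le_left _ _).trans (min_le_left _ _)
  have hδb : δ ≤ δ2 := (min_le_left _ _).trans (min_le_right _ _)
  set Z : Set ℝ := {t | Tendsto (fun k => h k t) atTop (𝓝 (ind A t)) ∧ (t ∈ A ↔ t ∈ arc c L)}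
  have hZ : ∀ᵐ t, t ∈ Z := by
    filter_upwards [hlim, harc] with t h1 h2
    exact ⟨h1, h2⟩
  obtain ⟨t1, ht1, hz1⟩ := exists_in_Ioo hZ (show c - L/2 - δ < c - L/2 by linarith)
  obtain ⟨t2, ht2, hz2⟩ := exists_in_Ioo hZ (show c - L/2 < c - L/2 + δ by linarith)
  obtain ⟨t3, ht3, hz3⟩ := exists_in_Ioo hZ (show c + L/2 - δ < c + L/2 by linarith)
  obtain ⟨t4, ht4, hz4⟩ := exists_in_Ioo hZ (show c + L/2 < c + L/2 + δ by linarith)
  have rnd : ∀ {t : ℝ}, |t - c| < 1/2 → (t ∈ arc c L ↔ |t - c| < L / 2) := by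
    intro t ht
    have : round (t - c) = 0 := by
      rw [round_eq_zero_iff]
      rw [abs_lt] at ht
      constructor <;> linarith [ht.1, ht.2]
    simp [arc, this]
  have m1 : t1 ∉ A := by
    rw [hz1.2, rnd (by rw [abs_lt]; constructor <;> linarith [ht1.1, ht1.2]), abs_lt]
    intro hh
    linarith [hh.1, ht1.2]
  have m2 : t2 ∈ A := by
    rw [hz2.2, rnd (by rw [abs_lt]; constructor <;> linarith [ht2.1, ht2.2]), abs_lt]
    constructor <;> linarith [ht2.1, ht2.2]
  have m3 : t3 ∈ A := by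
    rw [hz3.2, rnd (by rw [abs_lt]; constructor <;> linarith [ht3.1, ht3.2]), abs_lt]
    constructor <;> linarith [ht3.1, ht3.2]
  have m4 : t4 ∉ A := by
    rw [hz4.2, rnd (by rw [abs_lt]; constructor <;> linarith [ht4.1, ht4.2]), abs_lt]
    intro hh
    linarith [hh.2, ht4.1]
  have l1 : Tendsto (fun k => h k t1) atTop (𝓝 0) := by have := hz1.1; rwa [ind_of_notMem m1] at this
  have l2 : Tendsto (fun k => h k t2) atTop (𝓝 1) := by have := hz2.1; rwa [ind_of_mem m2] at this
  have l3 : Tendsto (fun k => h k t3) atTop (𝓝 1) := by have := hz3.1; rwa [ind_of_mem m3] at this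
  have l4 : Tendsto (fun k => h k t4) atTop (𝓝 0) := by have := hz4.1; rwa [ind_of_notMem m4] at this
  set n1 := max (g (c - L/2) - ε/8) 0 with hn1
  set n2 := max (g (c + L/2) - ε/8) 0 with hn2
  have hm1 : ∀ t ∈ Icc t1 t2, n1 ≤ g t := by
    intro t ht
    apply max_le _ (hg0 t)
    have hd1 : dist t (c - L/2) < δ1 := by
      rw [Real.dist_eq, abs_lt]
      constructor <;> linarith [ht.1, ht.2, ht1.1, ht2.2]
    have := hδ1' hd1
    rw [Real.dist_eq, abs_lt] at this
    linarith [this.1]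
  have hm2 : ∀ t ∈ Icc t3 t4, n2 ≤ g t := by
    intro t ht
    apply max_le _ (hg0 t)
    have hd1 : dist t (c + L/2) < δ2 := by
      rw [Real.dist_eq, abs_lt]
      constructor <;> linarith [ht.1, ht.2, ht3.1, ht4.2]
    have := hδ2' hd1
    rw [Real.dist_eq, abs_lt] at this
    linarith [this.1]
  have hn10 : 0 ≤ n1 := le_max_right _ _
  have hn20 : 0 ≤ n2 := le_max_right _ _
  have hlimsum : Tendsto (fun k => n1 * |h k t2 - h k t1| + n2 * |h k t4 - h k t3|) atTop
      (𝓝 (n1 + n2)) := by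
    have : Tendsto (fun k => n1 * |h k t2 - h k t1| + n2 * |h k t4 - h k t3|) atTop
      (𝓝 (n1 * |(1:ℝ) - 0| + n2 * |(0:ℝ) - 1|)) :=
      (((l2.sub l1).abs).const_mul n1).add (((l4.sub l3).abs).const_mul n2)
    convert this using 2
    norm_num
  have hlow : g (c - L/2) + g (c + L/2) - ε < n1 + n2 := by
    have h1 : g (c - L/2) - ε/8 ≤ n1 := le_max_left _ _
    have h2 : g (c + L/2) - ε/8 ≤ n2 := le_max_left _ _
    linarith
  filter_upwards [hlimsum.eventually (lt_mem_nhds hlow)] with k hk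
  refine hk.le.trans ?_
  exact two_interval (hd k) (hp k) hg hgp hg0 (by linarith [ht1.2, ht2.1]) (by linarith [ht2.2, ht3.1])
    (by linarith [ht3.2, ht4.1]) (by linarith [ht4.2, ht1.1]) hm1 hm2 hn10 hn20

end limit

end Crest.Agent.R214.Rig
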