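import Crest.Agent.R214.Mollify
import Crest.Agent.R214.RigArc

set_option autoImplicit false

/-! Row 214, rigidity: testing the perimeter with fields orthogonal to a coordinate direction. -/

open MeasureTheory Set Filter Topology Crest.GeometryTopology.PeriodicPerimeter
open scoped ContDiff

noncomputable section

namespace Crest.Agent.R214.Rig

variable {n : ℕ}

/-- standard basis vector -/
def ei (i : Fin n) : En n := EuclideanSpace.single i (1 : ℝ)

theorem norm_ei (i : Fin n) : ‖ei i‖ = 1 := by simp [ei]

theorem ei_int (i : Fin n) (m : ℤ) : HasIntegerCoords ((m : ℝ) • ei i) := by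
  intro j
  by_cases h : j = i
  · refine ⟨m, ?_⟩
    simp [ei, h]
  · refine ⟨0, ?_⟩
    simp [ei, h]

theorem inner_ei (i : Fin n) (v : En n) : inner ℝ v (ei i) = v i := by
  simp [ei, EuclideanSpace.inner_single_right]

/-- inequality (B'): horizontal test field plus the optimal vertical component -/
theorem test_ineq {E : Set (En n)} (hE : MeasurableSet E) (hp : IsLatticePeriodic E)
    (hP : periodicPerimeter E ≠ ⊤) (i : Fin n) (k : ℕ) {Ψ : En n → En n}
    (hΨ : ContDiff ℝ 1 Ψ) (hΨp : IsPer Ψ) (hΨ1 : ∀ x, ‖Ψ x‖ ≤ 1) (hΨi : ∀ x, Ψ x i = 0) :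
    (∫ x in unitCell n, Real.sqrt (1 - ‖Ψ x‖ ^ 2) * |fderiv ℝ (moll E k) x (ei i)|)
      + ∫ x in unitCell n, moll E k x * divergence Ψ x ≤ (periodicPerimeter E).toReal := by
  have hf := contDiff_moll hE k
  have hf1 : ContDiff ℝ 1 (moll E k) := hf.of_le (by norm_cast)
  have hfp := moll_per hp k
  set s : En n → ℝ := fun x => Real.sqrt (1 - ‖Ψ x‖ ^ 2) * SignType.sign (fderiv ℝ (moll E k) x (ei i)) with hs
  set Φ : En n → En n := fun x => Ψ x - s x • ei i with hΦ
  have hΦ1 : ∀ x, ‖Φ x‖ ≤ 1 := by
    intro x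
    have h1 : ‖Φ x‖ ^ 2 = ‖Ψ x‖ ^ 2 + (s x) ^ 2 := by
      rw [hΦ]
      simp only
      rw [norm_sub_sq_real, inner_smul_right, inner_ei, hΨi, norm_smul, norm_ei]
      simp
    have h2 : (s x) ^ 2 ≤ 1 - ‖Ψ x‖ ^ 2 := by
      have hnn : 0 ≤ 1 - ‖Ψ x‖ ^ 2 := by
        have := hΨ1 x
        have h0 := norm_nonneg (Ψ x)
        nlinarith
      rw [hs]
      simp only
      rw [mul_pow, Real.sq_sqrt hnn]
      have h3 : ((SignType.sign (fderiv ℝ (moll E k) x (ei i)) : ℝ)) ^ 2 ≤ 1 := by
        rcases lt_trichotomy (fderiv ℝ (moll E k) x (ei i)) 0 with h | h | h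
        · simp [h]
        · simp [h]
        · simp [h]
      nlinarith
    have h3 : ‖Φ x‖ ^ 2 ≤ 1 := by rw [h1]; linarith
    have h4 := norm_nonneg (Φ x)
    nlinarith
  have key := neg_integral_fderiv_apply_le hf hfp (integral_norm_fderiv_moll_le hE hp hP k) hΦ1
  have hpt : ∀ x, fderiv ℝ (moll E k) x (Φ x) = fderiv ℝ (moll E k) x (Ψ x)
      - Real.sqrt (1 - ‖Ψ x‖ ^ 2) * |fderiv ℝ (moll E k) x (ei i)| := by
    intro x
    rw [hΦ]
    simp only [map_sub, map_smul, smul_eq_mul]
    rw [hs]
    simp only
    rw [mul_assoc, sign_mul_self]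
  have hcd := hf1.continuous_fderiv one_ne_zero
  have i1 : Integrable (fun x => fderiv ℝ (moll E k) x (Ψ x))
      ((volume : Measure (En n)).restrict (unitCell n)) := by
    refine IsPer.integrableOn (F := fun x => fderiv ℝ (moll E k) x (Ψ x)) ?_
      (hcd.clm_apply hΨ.continuous)
    intro v hv x
    have := hfp.fderiv v hv x
    simp only at this ⊢
    rw [this, hΨp v hv x]
  have i2 : Integrable (fun x => Real.sqrt (1 - ‖Ψ x‖ ^ 2) * |fderiv ℝ (moll E k) x (ei i)|)
      ((volume : Measure (En n)).restrict (unitCell n)) := by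
    refine IsPer.integrableOn
      (F := fun x => Real.sqrt (1 - ‖Ψ x‖ ^ 2) * |fderiv ℝ (moll E k) x (ei i)|) ?_ ?_
    · intro v hv x
      have := hfp.fderiv v hv x
      simp only at this ⊢
      rw [this, hΨp v hv x]
    · exact (Real.continuous_sqrt.comp (continuous_const.sub (hΨ.continuous.norm.pow 2))).mul
        (hcd.clm_apply continuous_const).abs
  simp only [hpt] at key
  rw [integral_sub i1 i2] at key
  rw [integral_mul_divergence hf1 hfp hΨ hΨp]
  linarith

/-- averaging over a coordinate circle -/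
theorem integral_cell_line {G : En n → ℝ} (hG : Continuous G) (hp : IsPer G) (i : Fin n) :
    ∫ x in unitCell n, ∫ t in (0:ℝ)..1, G (x + t • ei i) = ∫ x in unitCell n, G x := by
  obtain ⟨C, hC⟩ := hp.exists_bound hG
  have hcont : Continuous (fun z : En n × ℝ => G (z.1 + z.2 • ei i)) :=
    hG.comp (continuous_fst.add (continuous_snd.smul continuous_const))
  have hint : Integrable (Function.uncurry fun (x : En n) (t : ℝ) => G (x + t • ei i))
      (((volume : Measure (En n)).restrict (unitCell n)).prod
        ((volume : Measure ℝ).restrict (Ioc 0 1))) := by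
    apply Integrable.of_bound (C := C)
    · exact hcont.aestronglyMeasurable
    · exact Eventually.of_forall fun z => hC _
  simp only [intervalIntegral.integral_of_le (zero_le_one (α := ℝ))]
  rw [integral_integral_swap hint]
  have : ∀ t : ℝ, ∫ x in unitCell n, G (x + t • ei i) = ∫ x in unitCell n, G x := fun t =>
    integral_cell_add hp _
  simp only [this]
  simp

/-- for a.e. point, a.e. point of its line in direction `i` has the property -/
theorem ae_line {p : En n → Prop} (h : ∀ᵐ y, p y) (i : Fin n) :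
    ∀ᵐ x : En n, ∀ᵐ t : ℝ, p (x + t • ei i) := by
  set N : Set (En n) := toMeasurable volume {y | ¬ p y} with hN
  have hN0 : (volume : Measure (En n)) N = 0 := by
    rw [hN, measure_toMeasurable]
    exact ae_iff.1 h
  have hNm : MeasurableSet N := measurableSet_toMeasurable _ _
  have hmeas : MeasurableSet {z : En n × ℝ | z.1 + z.2 • ei i ∈ N} := by
    have : Measurable (fun z : En n × ℝ => z.1 + z.2 • ei i) :=
      (continuous_fst.add (continuous_snd.smul continuous_const)).measurable
    exact this hNm
  have h0 : ((volume : Measure (En n)).prod (volume : Measure ℝ))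
      {z : En n × ℝ | z.1 + z.2 • ei i ∈ N} = 0 := by
    rw [Measure.prod_apply_symm hmeas]
    simp only [Set.preimage_ofPred_eq]
    rw [lintegral_congr (g := fun _ => 0)]
    · simp
    · intro t
      have : (volume : Measure (En n)) ((fun x => x + t • ei i) ⁻¹' N) = 0 := by
        rw [measure_preimage_add_right]
        exact hN0
      exact this
  have h1 : ∀ᵐ z : En n × ℝ ∂((volume : Measure (En n)).prod (volume : Measure ℝ)),
      z.1 + z.2 • ei i ∉ N := by
    rw [ae_iff]
    simpa using h0
  have h2 := Measure.ae_ae_of_ae_prod h1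
  filter_upwards [h2] with x hx
  filter_upwards [hx] with t ht
  by_contra hcon
  exact ht (subset_toMeasurable _ _ hcon)

/-- the restriction of the mollification to a line -/
def lineMoll (E : Set (En n)) (i : Fin n) (x : En n) (k : ℕ) (t : ℝ) : ℝ :=
  moll E k (x + t • ei i)

theorem contDiff_line (i : Fin n) (x : En n) : ContDiff ℝ ∞ (fun t : ℝ => x + t • ei i) :=
  contDiff_const.add (contDiff_id.smul contDiff_const)

theorem contDiff_lineMoll {E : Set (En n)} (hE : MeasurableSet E) (i : Fin n) (x : En n) (k : ℕ) :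
    ContDiff ℝ 1 (lineMoll E i x k) :=
  ((contDiff_moll hE k).comp (contDiff_line i x)).of_le (by norm_cast)

theorem deriv_lineMoll {E : Set (En n)} (hE : MeasurableSet E) (i : Fin n) (x : En n) (k : ℕ)
    (t : ℝ) : deriv (lineMoll E i x k) t = fderiv ℝ (moll E k) (x + t • ei i) (ei i) := by
  have hf1 : ContDiff ℝ 1 (moll E k) := (contDiff_moll hE k).of_le (by norm_cast)
  have h1 : HasFDerivAt (moll E k) (fderiv ℝ (moll E k) (x + t • ei i)) (x + t • ei i) :=
    (hf1.differentiable one_ne_zero _).hasFDerivAt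
  have h2 : HasDerivAt (fun t : ℝ => x + t • ei i) (ei i) t := by
    simpa using ((hasDerivAt_id t).smul_const (ei i)).const_add x
  exact (h1.comp_hasDerivAt t h2).deriv

theorem periodic_line {G : Type*} {F : En n → G} (hF : IsPer F) (i : Fin n) (x : En n) :
    Function.Periodic (fun t : ℝ => F (x + t • ei i)) 1 := by
  intro t
  have h1 := hF _ (ei_int i 1) (x + t • ei i)
  simp only
  rw [← h1]
  congr 1
  push_cast
  module

/-- the fibre of `E` over `x` in direction `i` -/
def fib (E : Set (En n)) (i : Fin n) (x : En n) : Set ℝ := {t | x + t • ei i ∈ E}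

theorem measurableSet_fib {E : Set (En n)} (hE : MeasurableSet E) (i : Fin n) (x : En n) :
    MeasurableSet (fib E i x) := by
  have : Measurable (fun t : ℝ => x + t • ei i) :=
    (continuous_const.add (continuous_id.smul continuous_const)).measurable
  exact this hE

theorem fib_per {E : Set (En n)} (hp : IsLatticePeriodic E) (i : Fin n) (x : En n) (t : ℝ) :
    t + 1 ∈ fib E i x ↔ t ∈ fib E i x := by
  have h1 := hp _ (ei_int i 1) (x + t • ei i)
  have e : x + (t + 1) • ei i = x + t • ei i + ((1:ℤ):ℝ) • ei i := by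
    push_cast
    module
  change x + (t + 1) • ei i ∈ E ↔ x + t • ei i ∈ E
  rw [e]
  exact h1

theorem ind_fib (E : Set (En n)) (i : Fin n) (x : En n) (t : ℝ) :
    ind (fib E i x) t = chi E (x + t • ei i) := by
  unfold ind chi fib
  by_cases h : x + t • ei i ∈ E
  · rw [Set.indicator_of_mem h, Set.indicator_of_mem]
    exact h
  · rw [Set.indicator_of_notMem h, Set.indicator_of_notMem]
    exact h

/-- the fibre length function -/
def flen (E : Set (En n)) (i : Fin n) (x : En n) : ℝ := ∫ t in (0:ℝ)..1, ind (fib E i x) t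

theorem ae_line_lim {E : Set (En n)} (hE : MeasurableSet E) (i : Fin n) :
    ∀ᵐ x : En n, ∀ᵐ t : ℝ, Tendsto (fun k => lineMoll E i x k t) atTop (𝓝 (ind (fib E i x) t)) := by
  filter_upwards [ae_line (ae_tendsto_moll hE) i] with x hx
  filter_upwards [hx] with t ht
  rw [ind_fib]
  exact ht

/-- the weighted variation along lines -/
def tau (E : Set (En n)) (i : Fin n) (g : En n → ℝ) (k : ℕ) (x : En n) : ℝ :=
  ∫ t in (0:ℝ)..1, g (x + t • ei i) * |deriv (lineMoll E i x k) t|

theorem tau_nonneg (E : Set (En n)) (i : Fin n) {g : En n → ℝ} (hg : ∀ x, 0 ≤ g x) (k : ℕ)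
    (x : En n) : 0 ≤ tau E i g k x :=
  intervalIntegral.integral_nonneg zero_le_one fun _ _ => mul_nonneg (hg _) (abs_nonneg _)

theorem continuous_tau {E : Set (En n)} (hE : MeasurableSet E) (i : Fin n) {g : En n → ℝ}
    (hg : Continuous g) (k : ℕ) : Continuous (tau E i g k) := by
  unfold tau
  simp only [deriv_lineMoll hE]
  have hf1 : ContDiff ℝ 1 (moll E k) := (contDiff_moll hE k).of_le (by norm_cast)
  apply intervalIntegral.continuous_parametric_intervalIntegral_of_continuous'
  have hl : Continuous (fun z : En n × ℝ => z.1 + z.2 • ei i) :=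
    continuous_fst.add (continuous_snd.smul continuous_const)
  exact (hg.comp hl).mul
    (((hf1.continuous_fderiv one_ne_zero).comp hl).clm_apply continuous_const).abs

theorem integral_tau {E : Set (En n)} (hE : MeasurableSet E) (hp : IsLatticePeriodic E)
    (i : Fin n) {g : En n → ℝ} (hg : Continuous g) (hgp : IsPer g) (k : ℕ) :
    ∫ x in unitCell n, tau E i g k x
      = ∫ x in unitCell n, g x * |fderiv ℝ (moll E k) x (ei i)| := by
  have hf1 : ContDiff ℝ 1 (moll E k) := (contDiff_moll hE k).of_le (by norm_cast)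
  rw [← integral_cell_line (G := fun x => g x * |fderiv ℝ (moll E k) x (ei i)|) _ _ i]
  · unfold tau
    simp only [deriv_lineMoll hE]
  · exact hg.mul ((hf1.continuous_fderiv one_ne_zero).clm_apply continuous_const).abs
  · intro v hv x
    have := (moll_per hp k).fderiv v hv x
    simp only at this ⊢
    rw [this, hgp v hv x]

/-- the limit of the horizontal part -/
theorem tendsto_integral_moll_mul {E : Set (En n)} (hE : MeasurableSet E)
    {D : En n → ℝ} (hD : Continuous D) (hDp : IsPer D) :
    Tendsto (fun k => ∫ x in unitCell n, moll E k x * D x) atTop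
      (𝓝 (∫ x in E ∩ unitCell n, D x)) := by
  obtain ⟨C, hC⟩ := hDp.exists_bound hD
  rw [← integral_chi_mul hE]
  apply tendsto_integral_of_dominated_convergence (fun _ => C)
  · intro k
    exact ((contDiff_moll hE k).continuous.mul hD).aestronglyMeasurable
  · exact integrable_const C
  · intro k
    refine Eventually.of_forall fun x => ?_
    rw [norm_mul]
    have h1 : ‖moll E k x‖ ≤ 1 := by
      rw [Real.norm_eq_abs, abs_of_nonneg (moll_nonneg E k x)]
      exact moll_le_one hE k x
    calc ‖moll E k x‖ * ‖D x‖ ≤ 1 * C :=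
          mul_le_mul h1 (hC x) (norm_nonneg _) zero_le_one
      _ = C := one_mul C
  · have h1 : ∀ᵐ x ∂((volume : Measure (En n)).restrict (unitCell n)),
        Tendsto (fun k => moll E k x) atTop (𝓝 (chi E x)) :=
      ae_restrict_of_ae (ae_tendsto_moll hE)
    filter_upwards [h1] with x hx
    exact hx.mul tendsto_const_nhds

/-- Fatou version of (B'): pointwise asymptotic lower bounds for the line variations integrate -/
theorem fatou_test {E : Set (En n)} (hE : MeasurableSet E) (hp : IsLatticePeriodic E)
    (hP : periodicPerimeter E ≠ ⊤) (i : Fin n) {Ψ : En n → En n}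
    (hΨ : ContDiff ℝ 1 Ψ) (hΨp : IsPer Ψ) (hΨ1 : ∀ x, ‖Ψ x‖ ≤ 1) (hΨi : ∀ x, Ψ x i = 0)
    {m : En n → ℝ} (hm : IntegrableOn m (unitCell n))
    (hlow : ∀ᵐ x : En n, ∀ ε > 0, ∀ᶠ k in atTop,
      m x - ε ≤ tau E i (fun y => Real.sqrt (1 - ‖Ψ y‖ ^ 2)) k x) :
    (∫ x in unitCell n, m x) + ∫ x in E ∩ unitCell n, divergence Ψ x
      ≤ (periodicPerimeter E).toReal := by
  set g : En n → ℝ := fun y => Real.sqrt (1 - ‖Ψ y‖ ^ 2) with hg
  have hgc : Continuous g :=
    Real.continuous_sqrt.comp (continuous_const.sub (hΨ.continuous.norm.pow 2))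
  have hgp : IsPer g := by
    intro v hv x
    simp only [hg, hΨp v hv x]
  have hg0 : ∀ x, 0 ≤ g x := fun x => Real.sqrt_nonneg _
  set μ := (volume : Measure (En n)).restrict (unitCell n) with hμ
  set Q : ℝ := (periodicPerimeter E).toReal - ∫ x in E ∩ unitCell n, divergence Ψ x with hQ
  have hlimQ : Tendsto (fun k => (periodicPerimeter E).toReal
      - ∫ x in unitCell n, moll E k x * divergence Ψ x) atTop (𝓝 Q) :=
    tendsto_const_nhds.sub (tendsto_integral_moll_mul hE (continuous_divergence hΨ)
      (IsPer.divergence hΨp))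
  have hub : ∀ k, ∫ x in unitCell n, tau E i g k x ≤ (periodicPerimeter E).toReal
      - ∫ x in unitCell n, moll E k x * divergence Ψ x := by
    intro k
    rw [integral_tau hE hp i hgc hgp k]
    have := test_ineq hE hp hP i k hΨ hΨp hΨ1 hΨi
    linarith
  have hτm : ∀ k, Measurable (fun x => ENNReal.ofReal (tau E i g k x)) := fun k =>
    (continuous_tau hE i hgc k).measurable.ennreal_ofReal
  have hτper : ∀ k, IsPer (tau E i g k) := by
    intro k v hv x
    unfold tau
    simp only [deriv_lineMoll hE]
    congr 1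
    funext t
    have e : x + v + t • ei i = (x + t • ei i) + v := by abel
    have h2 := (moll_per hp k).fderiv v hv (x + t • ei i)
    simp only at h2
    rw [e, h2, hgp v hv]
  have hτi : ∀ k, IntegrableOn (tau E i g k) (unitCell n) := fun k =>
    (hτper k).integrableOn (continuous_tau hE i hgc k)
  -- the positive part of m
  have hmp : ∫ x in unitCell n, m x ≤ (∫⁻ x, ENNReal.ofReal (m x) ∂μ).toReal := by
    have h1 : ∫ x in unitCell n, m x ≤ ∫ x in unitCell n, max (m x) 0 :=
      integral_mono hm hm.pos_part fun x => le_max_left _ _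
    refine h1.trans (le_of_eq ?_)
    rw [integral_eq_lintegral_of_nonneg_ae (f := fun x => max (m x) 0)
      (Eventually.of_forall fun x => le_max_right _ _) hm.pos_part.aestronglyMeasurable]
    congr 1
    apply lintegral_congr
    intro x
    rcases le_total (m x) 0 with h | h
    · rw [max_eq_right h, ENNReal.ofReal_of_nonpos h, ENNReal.ofReal_zero]
    · rw [max_eq_left h]
  have hF : ∫⁻ x, ENNReal.ofReal (m x) ∂μ ≤ ENNReal.ofReal Q := by
    have h1 : ∫⁻ x, ENNReal.ofReal (m x) ∂μ
        ≤ ∫⁻ x, liminf (fun k => ENNReal.ofReal (tau E i g k x)) atTop ∂μ := by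
      apply lintegral_mono_ae
      have hlow' := ae_restrict_of_ae (s := unitCell n) hlow
      filter_upwards [hlow'] with x hx
      apply ENNReal.le_of_forall_pos_le_add
      intro ε hε _
      have hε' : (0:ℝ) < ε := hε
      have h2 : ENNReal.ofReal (m x - ε)
          ≤ liminf (fun k => ENNReal.ofReal (tau E i g k x)) atTop := by
        apply le_liminf_of_le
        · isBoundedDefault
        · filter_upwards [hx ε hε'] with k hk
          exact ENNReal.ofReal_le_ofReal hk
      calc ENNReal.ofReal (m x) = ENNReal.ofReal ((m x - ε) + ε) := by congr 1; ring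
        _ ≤ ENNReal.ofReal (m x - ε) + ENNReal.ofReal ε := ENNReal.ofReal_add_le
        _ ≤ liminf (fun k => ENNReal.ofReal (tau E i g k x)) atTop + ε := by
            gcongr
            simp
    have h2 : ∫⁻ x, liminf (fun k => ENNReal.ofReal (tau E i g k x)) atTop ∂μ
        ≤ liminf (fun k => ∫⁻ x, ENNReal.ofReal (tau E i g k x) ∂μ) atTop :=
      lintegral_liminf_le hτm
    have h3 : ∀ k, ∫⁻ x, ENNReal.ofReal (tau E i g k x) ∂μ
        = ENNReal.ofReal (∫ x in unitCell n, tau E i g k x) := by
      intro k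
      rw [ofReal_integral_eq_lintegral_ofReal (hτi k)
        (Eventually.of_forall fun x => tau_nonneg E i hg0 k x)]
    have h4 : liminf (fun k => ∫⁻ x, ENNReal.ofReal (tau E i g k x) ∂μ) atTop
        ≤ liminf (fun k => ENNReal.ofReal ((periodicPerimeter E).toReal
      - ∫ x in unitCell n, moll E k x * divergence Ψ x)) atTop := by
      refine liminf_le_liminf (Eventually.of_forall fun k => ?_) (by isBoundedDefault)
        (by isBoundedDefault)
      simp only [h3]
      exact ENNReal.ofReal_le_ofReal (hub k)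
    have h5 : liminf (fun k => ENNReal.ofReal ((periodicPerimeter E).toReal
      - ∫ x in unitCell n, moll E k x * divergence Ψ x)) atTop = ENNReal.ofReal Q :=
      (ENNReal.tendsto_ofReal hlimQ).liminf_eq
    calc _ ≤ _ := h1
      _ ≤ _ := h2
      _ ≤ _ := h4
      _ = _ := h5
  have hQ0 : 0 ≤ Q := by
    have : ∀ k, 0 ≤ (periodicPerimeter E).toReal
      - ∫ x in unitCell n, moll E k x * divergence Ψ x := fun k =>
      le_trans (integral_nonneg fun x => tau_nonneg E i hg0 k x) (hub k)
    exact ge_of_tendsto' hlimQ this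
  have h6 : (∫⁻ x, ENNReal.ofReal (m x) ∂μ).toReal ≤ Q := by
    have := ENNReal.toReal_mono ENNReal.ofReal_ne_top hF
    rwa [ENNReal.toReal_ofReal hQ0] at this
  linarith

end Crest.Agent.R214.Rig
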