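import Crest.Agent.R214.RigVar

set_option autoImplicit false

/-! Row 214, rigidity: the first variation identity. -/

open MeasureTheory Set Filter Topology Crest.GeometryTopology.PeriodicPerimeter
open scoped ContDiff

noncomputable section

namespace Crest.Agent.R214.Rig

variable {n : ℕ}

theorem measurable_rnd : Measurable (fun t : ℝ => round t) := by
  have : (fun t : ℝ => round t) = fun t => ⌊t + 1 / 2⌋ := by
    funext t
    exact round_eq t
  rw [this]
  exact Int.measurable_floor.comp (measurable_id.add_const _)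

/-- integral of a continuous periodic function over an arc -/
theorem arc_integral {φ : ℝ → ℝ} (hφ : Continuous φ) (hp : Function.Periodic φ 1) (c : ℝ) {L : ℝ}
    (hL0 : 0 ≤ L) (hL1 : L < 1) :
    ∫ t in (0:ℝ)..1, ind (arc c L) t * φ t = ∫ t in (c - L/2)..(c + L/2), φ t := by
  have hper : Function.Periodic (fun t => ind (arc c L) t * φ t) 1 := by
    intro t
    have h1 : t + 1 ∈ arc c L ↔ t ∈ arc c L := by
      unfold arc
      simp only [Set.mem_ofPred_eq]
      have : t + 1 - c = (t - c) + 1 := by ring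
      rw [this, round_add_one]
      push_cast
      have : t - c + 1 - (round (t - c) + 1) = t - c - round (t - c) := by ring
      rw [this]
    simp only [hp t]
    by_cases h : t ∈ arc c L
    · rw [ind_of_mem h, ind_of_mem (h1.2 h)]
    · rw [ind_of_notMem h, ind_of_notMem (fun h' => h (h1.1 h'))]
  have e1 : ∫ t in (0:ℝ)..1, ind (arc c L) t * φ t
      = ∫ t in (c - 1/2)..(c - 1/2 + 1), ind (arc c L) t * φ t := by
    have := hper.intervalIntegral_add_eq 0 (c - 1/2)
    simpa using this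
  have hm : MeasurableSet (arc c L) := by
    unfold arc
    have h1 : Measurable (fun t : ℝ => t - c) := measurable_id.sub_const c
    have h2 : Measurable (fun t : ℝ => ((round (t - c) : ℤ) : ℝ)) :=
      (Measurable.of_discrete (f := fun m : ℤ => (m : ℝ))).comp (measurable_rnd.comp h1)
    exact measurableSet_lt (h1.sub h2).abs measurable_const
  obtain ⟨C, hC⟩ : ∃ C, ∀ t ∈ Icc (c - 1) (c + 1), ‖φ t‖ ≤ C :=
    isCompact_Icc.exists_bound_of_continuousOn hφ.continuousOn
  have hint : ∀ a b : ℝ, c - 1 ≤ a → a ≤ b → b ≤ c + 1 →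
      IntervalIntegrable (fun t => ind (arc c L) t * φ t) volume a b := by
    intro a b h1 h2 h3
    rw [intervalIntegrable_iff, uIoc_of_le h2]
    apply Measure.integrableOn_of_bounded (M := C) measure_Ioc_lt_top.ne
    · exact ((measurable_const.indicator hm).mul hφ.measurable).aestronglyMeasurable
    · filter_upwards [ae_restrict_mem measurableSet_Ioc] with t ht
      rw [norm_mul]
      have h4 : ‖ind (arc c L) t‖ ≤ 1 := by
        unfold ind
        by_cases h : t ∈ arc c L <;> simp [h]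
      calc _ ≤ 1 * ‖φ t‖ := mul_le_mul_of_nonneg_right h4 (norm_nonneg _)
        _ = ‖φ t‖ := one_mul _
        _ ≤ C := hC t ⟨by linarith [ht.1], by linarith [ht.2]⟩
  have rnd : ∀ {t : ℝ}, |t - c| < 1/2 → (t ∈ arc c L ↔ |t - c| < L / 2) := by
    intro t ht
    have : round (t - c) = 0 := by
      rw [round_eq_zero_iff]
      rw [abs_lt] at ht
      constructor <;> linarith [ht.1, ht.2]
    simp [arc, this]
  have hne : ∀ x : ℝ, ∀ᵐ t : ℝ, t ≠ x := fun x => by
    simp [ae_iff, measure_singleton]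
  rw [e1]
  have e2 : c - 1/2 + 1 = c + 1/2 := by ring
  rw [e2, ← intervalIntegral.integral_add_adjacent_intervals
    (hint (c-1/2) (c-L/2) (by linarith) (by linarith) (by linarith))
    (hint (c-L/2) (c+1/2) (by linarith) (by linarith) (by linarith)),
    ← intervalIntegral.integral_add_adjacent_intervals
    (hint (c-L/2) (c+L/2) (by linarith) (by linarith) (by linarith))
    (hint (c+L/2) (c+1/2) (by linarith) (by linarith) (by linarith))]
  have f1 : ∫ t in (c-1/2)..(c-L/2), ind (arc c L) t * φ t = ∫ t in (c-1/2)..(c-L/2), (0:ℝ) := by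
    apply intervalIntegral.integral_congr_ae
    filter_upwards [hne (c - L/2)] with t ht htI
    rw [uIoc_of_le (by linarith)] at htI
    have h1 : t < c - L/2 := lt_of_le_of_ne htI.2 ht
    have h2 : t ∉ arc c L := by
      rw [rnd (by rw [abs_lt]; constructor <;> linarith [htI.1]), abs_lt]
      intro h; linarith [h.1]
    rw [ind_of_notMem h2, zero_mul]
  have f2 : ∫ t in (c-L/2)..(c+L/2), ind (arc c L) t * φ t = ∫ t in (c-L/2)..(c+L/2), φ t := by
    apply intervalIntegral.integral_congr_ae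
    filter_upwards [hne (c + L/2)] with t ht htI
    rw [uIoc_of_le (by linarith)] at htI
    have h1 : t < c + L/2 := lt_of_le_of_ne htI.2 ht
    have h2 : t ∈ arc c L := by
      rw [rnd (by rw [abs_lt]; constructor <;> linarith [htI.1]), abs_lt]
      constructor <;> linarith [htI.1]
    rw [ind_of_mem h2, one_mul]
  have f3 : ∫ t in (c+L/2)..(c+1/2), ind (arc c L) t * φ t = ∫ t in (c+L/2)..(c+1/2), (0:ℝ) := by
    apply intervalIntegral.integral_congr_ae
    filter_upwards [hne (c + 1/2)] with t ht htI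
    rw [uIoc_of_le (by linarith)] at htI
    have h1 : t < c + 1/2 := lt_of_le_of_ne htI.2 ht
    have h2 : t ∉ arc c L := by
      rw [rnd (by rw [abs_lt]; constructor <;> linarith [htI.1]), abs_lt]
      intro h; linarith [h.2, htI.1]
    rw [ind_of_notMem h2, zero_mul]
  rw [f1, f2, f3]
  simp

theorem integral_cos_arc (a c L : ℝ) :
    ∫ t in (c - L/2)..(c + L/2), Real.cos (2 * Real.pi * (a + t))
      = Real.sin (Real.pi * L) / Real.pi * Real.cos (2 * Real.pi * (a + c)) := by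
  have hpi := Real.pi_pos
  have h1 : ∀ t ∈ uIcc (c - L/2) (c + L/2), HasDerivAt
      (fun t => Real.sin (2 * Real.pi * (a + t)) / (2 * Real.pi))
      (Real.cos (2 * Real.pi * (a + t))) t := by
    intro t _
    have h2 : HasDerivAt (fun t => 2 * Real.pi * (a + t)) (2 * Real.pi * 1) t :=
      ((hasDerivAt_id t).const_add a).const_mul _
    have h3 := (h2.sin).div_const (2 * Real.pi)
    have e : Real.cos (2 * Real.pi * (a + t)) * (2 * Real.pi * 1) / (2 * Real.pi)
        = Real.cos (2 * Real.pi * (a + t)) := by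
      field_simp
    rw [e] at h3
    exact h3
  rw [intervalIntegral.integral_eq_sub_of_hasDerivAt h1
    ((Continuous.intervalIntegrable (by fun_prop) _ _))]
  have e1 : 2 * Real.pi * (a + (c + L/2)) = 2 * Real.pi * (a + c) + Real.pi * L := by ring
  have e2 : 2 * Real.pi * (a + (c - L/2)) = 2 * Real.pi * (a + c) - Real.pi * L := by ring
  rw [e1, e2, Real.sin_add, Real.sin_sub]
  field_simp
  ring

theorem cos_endpoints (a c L : ℝ) :
    Real.cos (2 * Real.pi * (a + (c - L/2))) + Real.cos (2 * Real.pi * (a + (c + L/2)))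
      = 2 * Real.cos (Real.pi * L) * Real.cos (2 * Real.pi * (a + c)) := by
  have e1 : 2 * Real.pi * (a + (c + L/2)) = 2 * Real.pi * (a + c) + Real.pi * L := by ring
  have e2 : 2 * Real.pi * (a + (c - L/2)) = 2 * Real.pi * (a + c) - Real.pi * L := by ring
  rw [e1, e2, Real.cos_add, Real.cos_sub]
  ring

/-- second order lower bound for the square root -/
theorem sqrt_lower {s h : ℝ} (hs : 0 < s) :
    s + h / (2 * s) - h ^ 2 / (2 * s ^ 3) ≤ Real.sqrt (s ^ 2 + h) := by
  set y := h / s ^ 2 with hy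
  have hh : h = y * s ^ 2 := by rw [hy]; field_simp
  have e1 : s + h / (2 * s) - h ^ 2 / (2 * s ^ 3) = s * ((1 + y) * (1 - y / 2)) := by
    rw [hh]
    field_simp
    ring
  rw [e1]
  by_cases h1 : (1 + y) * (1 - y / 2) ≤ 0
  · exact le_trans (mul_nonpos_of_nonneg_of_nonpos hs.le h1) (Real.sqrt_nonneg _)
  · push Not at h1
    have hy1 : -1 < y := by
      by_contra hcon
      push Not at hcon
      nlinarith
    have hy2 : y < 2 := by
      by_contra hcon
      push Not at hcon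
      nlinarith
    apply Real.le_sqrt_of_sq_le
    rw [hh]
    have h2 : ((1 + y) * (1 - y / 2)) ^ 2 ≤ 1 + y := by
      have h3 : (1 + y) * (1 - y / 2) ^ 2 ≤ 1 := by nlinarith [sq_nonneg y]
      calc ((1 + y) * (1 - y / 2)) ^ 2 = (1 + y) * ((1 + y) * (1 - y / 2) ^ 2) := by ring
        _ ≤ (1 + y) * 1 := mul_le_mul_of_nonneg_left h3 (by linarith)
        _ = 1 + y := mul_one _
    calc (s * ((1 + y) * (1 - y / 2))) ^ 2 = s ^ 2 * ((1 + y) * (1 - y / 2)) ^ 2 := by ring
      _ ≤ s ^ 2 * (1 + y) := mul_le_mul_of_nonneg_left h2 (sq_nonneg s)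
      _ = s ^ 2 + y * s ^ 2 := by ring

/-- the error constant -/
def errC (M κ : ℝ) : ℝ := M / κ + M ^ 2 / (2 * κ) + (4 * M + M ^ 2) ^ 2 / (2 * κ ^ 3)

theorem errC_nonneg {M κ : ℝ} (hM : 0 ≤ M) (hκ : 0 < κ) : 0 ≤ errC M κ := by
  unfold errC; positivity

/-- scalar expansion: `q = ⟪β₀, ζ⟫ e`, `|q| ≤ M` -/
theorem sqrt_expand {s κ M lam d q N A : ℝ} (hκ : 0 < κ) (hs : κ ≤ s) (hM : 0 ≤ M)
    (hlam0 : 0 ≤ lam) (hlam1 : lam ≤ 1) (hd : |d| ≤ 1) (hq : |q| ≤ M)
    (hN : N ≤ M ^ 2) (hA : A = s ^ 2 + (1 - lam ^ 2) * (1 - s ^ 2) - 2 * lam * d * q - d ^ 2 * N)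
    (hs1 : s ≤ 1) :
    s - d * q / s - errC M κ * (|d| * (1 - lam) + d ^ 2) ≤ Real.sqrt A := by
  set h' := -2 * d * q - 2 * |d| * (1 - lam) * M - d ^ 2 * M ^ 2 with hh'
  have hs0 : 0 < s := lt_of_lt_of_le hκ hs
  have h1 : s ^ 2 + h' ≤ A := by
    rw [hA, hh']
    have e1 : 0 ≤ (1 - lam ^ 2) * (1 - s ^ 2) := by
      apply mul_nonneg <;> nlinarith
    have e2 : -(2 * |d| * (1 - lam) * M) ≤ 2 * (1 - lam) * (d * q) := by
      have : -(|d| * M) ≤ d * q := by
        have h3 : |d * q| ≤ |d| * M := by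
          rw [abs_mul]; exact mul_le_mul_of_nonneg_left hq (abs_nonneg d)
        linarith [neg_abs_le (d * q)]
      nlinarith
    have e3 : d ^ 2 * N ≤ d ^ 2 * M ^ 2 := mul_le_mul_of_nonneg_left hN (sq_nonneg d)
    nlinarith
  refine le_trans ?_ (Real.sqrt_le_sqrt h1)
  refine le_trans ?_ (sqrt_lower hs0)
  have habs : |h'| ≤ |d| * (4 * M + M ^ 2) := by
    have hd2 : d ^ 2 ≤ |d| := by
      rw [← sq_abs]; nlinarith [abs_nonneg d]
    have a1 : |2 * d * q| ≤ 2 * |d| * M := by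
      rw [abs_mul, abs_mul, abs_two]
      exact mul_le_mul_of_nonneg_left hq (by positivity)
    have a2 := abs_le.1 a1
    have a3 : 0 ≤ 2 * |d| * (1 - lam) * M := by
      have : 0 ≤ 1 - lam := by linarith
      positivity
    have a4 : 2 * |d| * (1 - lam) * M ≤ 2 * |d| * M := by
      have : |d| * (1 - lam) ≤ |d| := by nlinarith [abs_nonneg d]
      nlinarith
    have a5 : d ^ 2 * M ^ 2 ≤ |d| * M ^ 2 := mul_le_mul_of_nonneg_right hd2 (sq_nonneg M)
    have a6 : 0 ≤ d ^ 2 * M ^ 2 := by positivity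
    rw [abs_le]
    constructor
    · rw [hh']; linarith [a2.2]
    · rw [hh']; nlinarith [a2.1, abs_nonneg d, sq_nonneg M]
  have hsq : h' ^ 2 ≤ d ^ 2 * (4 * M + M ^ 2) ^ 2 := by
    rw [← sq_abs h', ← sq_abs d, ← mul_pow]
    exact pow_le_pow_left₀ (abs_nonneg _) habs 2
  have b1 : h' ^ 2 / (2 * s ^ 3) ≤ d ^ 2 * ((4 * M + M ^ 2) ^ 2 / (2 * κ ^ 3)) := by
    calc h' ^ 2 / (2 * s ^ 3) ≤ (d ^ 2 * (4 * M + M ^ 2) ^ 2) / (2 * κ ^ 3) := by
          apply div_le_div₀ (by positivity) hsq (by positivity)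
          have : κ ^ 3 ≤ s ^ 3 := pow_le_pow_left₀ hκ.le hs 3
          linarith
      _ = _ := by ring
  have b2 : h' / (2 * s) = -(d * q / s) - |d| * (1 - lam) * (M / s) - d ^ 2 * (M ^ 2 / (2 * s)) := by
    rw [hh']
    field_simp
  have b3 : M / s ≤ M / κ := div_le_div_of_nonneg_left hM hκ hs
  have b4 : M ^ 2 / (2 * s) ≤ M ^ 2 / (2 * κ) :=
    div_le_div_of_nonneg_left (by positivity) (by positivity) (by linarith)
  have c1 : 0 ≤ |d| * (1 - lam) := mul_nonneg (abs_nonneg d) (by linarith)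
  have c2 : |d| * (1 - lam) * (M / s) ≤ |d| * (1 - lam) * (M / κ) := mul_le_mul_of_nonneg_left b3 c1
  have c3 : d ^ 2 * (M ^ 2 / (2 * s)) ≤ d ^ 2 * (M ^ 2 / (2 * κ)) :=
    mul_le_mul_of_nonneg_left b4 (sq_nonneg d)
  have c4 : 0 ≤ |d| * (1 - lam) * (M ^ 2 / (2 * κ) + (4 * M + M ^ 2) ^ 2 / (2 * κ ^ 3)) := by
    apply mul_nonneg c1; positivity
  have c5 : 0 ≤ d ^ 2 * (M / κ) := by positivity
  rw [b2]
  unfold errC
  nlinarith

/-- test fields -/
structure TestField (i : Fin n) (J : Finset (Fin n)) (r : ℝ) (ζ : En n → En n) : Prop where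
  smooth : ContDiff ℝ 1 ζ
  per : IsPer ζ
  hor : ∀ x, ζ x i = 0
  inv : ∀ (x : En n) (t : ℝ), ζ (x + t • ei i) = ζ x
  supp : ∃ r', 0 ≤ r' ∧ r' < r ∧ ∀ x, ζ x ≠ 0 → rho2 J x ≤ r' ^ 2

/-- oscillating factor in direction `i` -/
def ew (i : Fin n) (θ : ℝ) (x : En n) : ℝ := Real.cos (2 * Real.pi * (x i - θ))

theorem contDiff_ew (i : Fin n) (θ : ℝ) : ContDiff ℝ ∞ (ew (n := n) i θ) := by
  unfold ew
  apply Real.contDiff_cos.comp
  exact contDiff_const.mul ((EuclideanSpace.proj (𝕜 := ℝ) i).contDiff.sub contDiff_const)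

theorem ew_per (i : Fin n) (θ : ℝ) : IsPer (ew (n := n) i θ) := by
  intro v hv x
  obtain ⟨m, hm⟩ := hv i
  unfold ew
  have : (x + v) i = x i + m := by rw [← hm]; rfl
  rw [this]
  have e : 2 * Real.pi * (x i + m - θ) = 2 * Real.pi * (x i - θ) + m * (2 * Real.pi) := by ring
  rw [e, Real.cos_add_int_mul_two_pi]

theorem abs_ew_le (i : Fin n) (θ : ℝ) (x : En n) : |ew i θ x| ≤ 1 := Real.abs_cos_le_one _

theorem fderiv_ew (i : Fin n) (θ : ℝ) (x v : En n) (hv : v i = 0) :
    fderiv ℝ (ew i θ) x v = 0 := by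
  have h1 : HasFDerivAt (fun y : En n => y i) (EuclideanSpace.proj (𝕜 := ℝ) i : En n →L[ℝ] ℝ) x :=
    (EuclideanSpace.proj (𝕜 := ℝ) i : En n →L[ℝ] ℝ).hasFDerivAt
  have h2 : HasFDerivAt (fun y : En n => 2 * Real.pi * (y i - θ))
      ((2 * Real.pi) • (EuclideanSpace.proj (𝕜 := ℝ) i : En n →L[ℝ] ℝ)) x :=
    (h1.sub_const θ).const_mul _
  have h3 : HasFDerivAt (ew i θ) (-Real.sin (2 * Real.pi * (x i - θ)) • ((2 * Real.pi) •
      (EuclideanSpace.proj (𝕜 := ℝ) i : En n →L[ℝ] ℝ))) x := h2.cos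
  rw [h3.fderiv]
  simp [hv]

theorem divergence_smul {f : En n → ℝ} {ζ : En n → En n} (hf : ContDiff ℝ 1 f)
    (hζ : ContDiff ℝ 1 ζ) (x : En n) :
    divergence (fun y => f y • ζ y) x = f x * divergence ζ x + fderiv ℝ f x (ζ x) := by
  have d1 : HasFDerivAt f (fderiv ℝ f x) x := (hf.differentiable one_ne_zero x).hasFDerivAt
  have d2 : HasFDerivAt ζ (fderiv ℝ ζ x) x := (hζ.differentiable one_ne_zero x).hasFDerivAt
  have d3 := d1.smul d2
  unfold divergence
  have e : fderiv ℝ (fun y => f y • ζ y) x = f x • fderiv ℝ ζ x + (fderiv ℝ f x).smulRight (ζ x) := by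
    exact d3.fderiv
  rw [e]
  have hx : fderiv ℝ f x (ζ x) = ∑ l, ζ x l * fderiv ℝ f x (EuclideanSpace.single l 1) := by
    have h1 : ζ x = ∑ l, ζ x l • (EuclideanSpace.single l (1 : ℝ) : En n) := by
      ext j
      simp [Pi.single_apply]
    conv_lhs => rw [h1]
    rw [map_sum]
    simp
  rw [hx, Finset.mul_sum, ← Finset.sum_add_distrib]
  refine Finset.sum_congr rfl fun l _ => ?_
  simp
  ring

theorem divergence_add {ζ₁ ζ₂ : En n → En n} (h1 : ContDiff ℝ 1 ζ₁)
    (h2 : ContDiff ℝ 1 ζ₂) (x : En n) :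
    divergence (fun y => ζ₁ y + ζ₂ y) x = divergence ζ₁ x + divergence ζ₂ x := by
  have d1 : HasFDerivAt ζ₁ (fderiv ℝ ζ₁ x) x := (h1.differentiable one_ne_zero x).hasFDerivAt
  have d2 : HasFDerivAt ζ₂ (fderiv ℝ ζ₂ x) x := (h2.differentiable one_ne_zero x).hasFDerivAt
  unfold divergence
  rw [(d1.fun_add d2).fderiv, ← Finset.sum_add_distrib]
  rfl

/-- the weighted fibre integral -/
def WW (E : Set (En n)) (i : Fin n) (θ : ℝ) (x : En n) : ℝ :=
  ∫ t in (0:ℝ)..1, chi E (x + t • ei i) * ew i θ (x + t • ei i)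

theorem measurable_WW {E : Set (En n)} (hE : MeasurableSet E) (i : Fin n) (θ : ℝ) :
    Measurable (WW E i θ) :=
  measurable_line_integral (G := fun x => chi E x * ew i θ x)
    ((measurable_chi hE).mul (contDiff_ew i θ).continuous.measurable) i

theorem abs_WW_le (E : Set (En n)) (i : Fin n) (θ : ℝ) (x : En n) : |WW E i θ x| ≤ 1 := by
  unfold WW
  have := intervalIntegral.norm_integral_le_of_norm_le_const (a := (0:ℝ)) (b := 1) (C := 1)
    (f := fun t => chi E (x + t • ei i) * ew i θ (x + t • ei i)) (fun t _ => by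
      rw [norm_mul]
      have h1 : ‖chi E (x + t • ei i)‖ ≤ 1 := by
        rw [Real.norm_eq_abs, abs_of_nonneg (chi_nonneg E _)]
        exact chi_le_one E _
      have h2 : ‖ew i θ (x + t • ei i)‖ ≤ 1 := abs_ew_le i θ _
      calc _ ≤ (1:ℝ) * 1 := mul_le_mul h1 h2 (norm_nonneg _) zero_le_one
        _ = 1 := one_mul 1)
  simpa using this

theorem ew_line (i : Fin n) (θ : ℝ) (x : En n) (t : ℝ) :
    ew i θ (x + t • ei i) = Real.cos (2 * Real.pi * ((x i - θ) + t)) := by
  unfold ew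
  congr 1
  have : (x + t • ei i) i = x i + t := by simp [ei]
  rw [this]
  ring

section

variable {E : Set (En n)} {i : Fin n} {J : Finset (Fin n)} {r : ℝ}

theorem WW_arc {x : En n} {c L : ℝ} (hL0 : 0 ≤ L) (hL1 : L < 1) (θ : ℝ)
    (h : ∀ᵐ t, t ∈ fib E i x ↔ t ∈ arc c L) :
    WW E i θ x = Real.sin (Real.pi * L) / Real.pi * Real.cos (2 * Real.pi * ((x i - θ) + c)) := by
  unfold WW
  rw [← integral_cos_arc, ← arc_integral (φ := fun t => Real.cos (2 * Real.pi * (x i - θ + t)))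
    (by fun_prop) _ c hL0 hL1]
  · apply intervalIntegral.integral_congr_ae
    filter_upwards [h] with t ht _
    rw [← ind_fib, ew_line]
    congr 1
    by_cases h1 : t ∈ fib E i x
    · rw [ind_of_mem h1, ind_of_mem (ht.1 h1)]
    · rw [ind_of_notMem h1, ind_of_notMem (fun h' => h1 (ht.2 h'))]
  · intro t
    simp only
    have e : 2 * Real.pi * (x i - θ + (t + 1)) = 2 * Real.pi * (x i - θ + t) + 2 * Real.pi := by ring
    rw [e, Real.cos_add_two_pi]

/-- the pairing `⟪β₀, ζ⟫` -/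
def bz (J : Finset (Fin n)) (r : ℝ) (hr : 0 < r) (hr2 : r < 1 / 2) (ζ : En n → En n) (x : En n) : ℝ :=
  inner ℝ ((1 / r) • vv J r hr hr2 x) (ζ x)

theorem inv_of_hor_div {ζ : En n → En n} (hinv : ∀ (x : En n) (t : ℝ), ζ (x + t • ei i) = ζ x)
    (x : En n) (t : ℝ) :
    divergence ζ (x + t • ei i) = divergence ζ x := by
  have h1 : (fun y => ζ (y + t • ei i)) = ζ := funext fun y => hinv y t
  have h2 := divergence_translate ζ (t • ei i) x
  rw [h1] at h2
  exact h2.symm

theorem integral_WW_mul_div (hE : MeasurableSet E) (hp : IsLatticePeriodic E) (θ : ℝ)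
    {ζ : En n → En n} (hζ : TestField i J r ζ) :
    ∫ x in unitCell n, WW E i θ x * divergence ζ x
      = ∫ x in E ∩ unitCell n, ew i θ x * divergence ζ x := by
  obtain ⟨C, hC⟩ := (IsPer.divergence hζ.per).exists_bound (continuous_divergence hζ.smooth)
  rw [← integral_chi_mul hE,
    ← integral_cell_line' (G := fun x => chi E x * (ew i θ x * divergence ζ x)) (C := C) _ _ _ i]
  · congr 1
    funext x
    unfold WW
    rw [← intervalIntegral.integral_mul_const]
    congr 1
    funext t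
    rw [inv_of_hor_div hζ.inv]
    ring
  · exact (measurable_chi hE).mul ((contDiff_ew i θ).continuous.measurable.mul
      (continuous_divergence hζ.smooth).measurable)
  · intro x
    rw [norm_mul, norm_mul]
    have h1 : ‖chi E x‖ ≤ 1 := by
      rw [Real.norm_eq_abs, abs_of_nonneg (chi_nonneg E _)]
      exact chi_le_one E _
    have h2 : ‖ew i θ x‖ ≤ 1 := abs_ew_le i θ _
    calc ‖chi E x‖ * (‖ew i θ x‖ * ‖divergence ζ x‖) ≤ 1 * (1 * ‖divergence ζ x‖) := by
          gcongr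
      _ ≤ C := by simpa using hC x
  · intro v hv x
    simp only [chi_per hp v hv x, ew_per i θ v hv x, IsPer.divergence hζ.per v hv x]

end

end Crest.Agent.R214.Rig
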