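import Crest.Agent.R214.RigVar2

set_option autoImplicit false

/-! Row 214, rigidity: the first variation identity, conclusion. -/

open MeasureTheory Set Filter Topology Crest.GeometryTopology.PeriodicPerimeter
open scoped ContDiff

noncomputable section

namespace Crest.Agent.R214.Rig

variable {n : ℕ} {E : Set (En n)} {i : Fin n} {J : Finset (Fin n)} {r : ℝ}

/-- the right-hand side of the first variation identity -/
def Bf (E : Set (En n)) (i : Fin n) (J : Finset (Fin n)) (r : ℝ) (hr : 0 < r) (hr2 : r < 1 / 2)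
    (θ : ℝ) (ζ : En n → En n) (x : En n) : ℝ :=
  bz J r hr hr2 ζ x / (uu J r x / (2 * r))
    * (2 * Real.pi * Real.cos (Real.pi * uu J r x) / Real.sin (Real.pi * uu J r x)) * WW E i θ x

theorem sin_uu_pos (hr : 0 < r) (hr2 : r < 1 / 2) {x : En n} (hx : rho2 J x < r ^ 2) :
    0 < Real.sin (Real.pi * uu J r x) := by
  have h1 := uu_pos hx
  have h2 := uu_le (J := J) hr x
  apply Real.sin_pos_of_pos_of_lt_pi
  · have := Real.pi_pos; positivity
  · have := Real.pi_pos
    nlinarith

theorem Model.ae_Bf (h : Model E i J r) (θ : ℝ) (ζ : En n → En n) :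
    ∀ᵐ x : En n, rho2 J x < r ^ 2 → ∃ c, (∀ᵐ t, t ∈ fib E i x ↔ t ∈ arc c (uu J r x)) ∧
      Bf E i J r h.hr h.hr2 θ ζ x = bz J r h.hr h.hr2 ζ x / (uu J r x / (2 * r)) *
        (Real.cos (2 * Real.pi * ((x i - θ) + (c - uu J r x / 2)))
          + Real.cos (2 * Real.pi * ((x i - θ) + (c + uu J r x / 2)))) := by
  filter_upwards [h.ae_arc] with x hx hxD
  obtain ⟨c, hc⟩ := hx hxD
  refine ⟨c, hc, ?_⟩
  have hL1 : uu J r x < 1 := lt_of_le_of_lt (uu_le h.hr x) (by linarith [h.hr2])
  unfold Bf
  rw [WW_arc (uu_nonneg J r x) hL1 θ hc, cos_endpoints]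
  have hs := (sin_uu_pos h.hr h.hr2 hxD).ne'
  have hpi := Real.pi_pos.ne'
  have key : ∀ X : ℝ, (2 * Real.pi * Real.cos (Real.pi * uu J r x) / Real.sin (Real.pi * uu J r x))
      * (Real.sin (Real.pi * uu J r x) / Real.pi * X) = 2 * Real.cos (Real.pi * uu J r x) * X := by
    intro X
    generalize Real.sin (Real.pi * uu J r x) = S at hs
    generalize Real.cos (Real.pi * uu J r x) = T
    field_simp
  rw [mul_assoc, key]

theorem measurable_Bf (hE : MeasurableSet E) (hr : 0 < r) (hr2 : r < 1 / 2) (θ : ℝ)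
    {ζ : En n → En n} (hζ : Continuous ζ) : Measurable (Bf E i J r hr hr2 θ ζ) := by
  unfold Bf bz
  have h0 : Continuous (fun x : En n => (1 / r) • vv J r hr hr2 x) :=
    (contDiff_vv J hr hr2).continuous.const_smul (1 / r)
  have h1 : Measurable (fun x : En n => (inner ℝ ((1 / r) • vv J r hr hr2 x) (ζ x) : ℝ)) :=
    (h0.inner hζ).measurable
  have h2 : Measurable (uu (n := n) J r) := (continuous_uu J r).measurable
  have h3 : Measurable (fun x : En n => Real.cos (Real.pi * uu J r x)) :=
    Real.continuous_cos.measurable.comp (h2.const_mul _)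
  have h4 : Measurable (fun x : En n => Real.sin (Real.pi * uu J r x)) :=
    Real.continuous_sin.measurable.comp (h2.const_mul _)
  exact Measurable.mul (Measurable.mul (Measurable.div h1 (h2.div_const _))
    (Measurable.div (h3.const_mul _) h4)) (measurable_WW hE i θ)

theorem norm_beta0_sq (hr : 0 < r) (hr2 : r < 1 / 2) {x : En n} (hx : rho2 J x < r ^ 2) :
    ‖(1 / r) • vv J r hr hr2 x‖ ^ 2 = 1 - (uu J r x / (2 * r)) ^ 2 := by
  rw [norm_smul, mul_pow, norm_vv_sq_of_lt J hr hr2 hx, s0_sq hr hx.le, Real.norm_eq_abs, sq_abs]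
  field_simp
  ring

/-- lower bound for the vertical component of the perturbed calibration -/
theorem endpoint_bound (hi : i ∉ J) (hr : 0 < r) (hr2 : r < 1 / 2) {lam : ℝ} (hl0 : 0 < lam)
    (hl1 : lam < 1) {ζ : En n → En n} (hinv : ∀ (x : En n) (t : ℝ), ζ (x + t • ei i) = ζ x)
    {M κ d : ℝ} (hM0 : 0 ≤ M) (hκ : 0 < κ) (hd1 : |d| ≤ 1) (θ : ℝ) {x : En n}
    (hM : ‖ζ x‖ ≤ M) (hxD : rho2 J x < r ^ 2) (hs : ζ x ≠ 0 → κ ≤ uu J r x / (2 * r))
    (hs1 : uu J r x / (2 * r) ≤ 1) (t : ℝ) :
    uu J r x / (2 * r) - d * (bz J r hr hr2 ζ x * ew i θ (x + t • ei i)) / (uu J r x / (2 * r))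
      - errC M κ * (|d| * (1 - lam) + d ^ 2)
      ≤ Real.sqrt (1 - ‖beta J r hr hr2 lam (x + t • ei i)
        + (d * ew i θ (x + t • ei i)) • ζ (x + t • ei i)‖ ^ 2) := by
  have hlam : lam ^ 2 < 1 := by nlinarith
  rw [hinv, beta_add_ei J hr hr2 hi, beta_eq J hr hr2 hlam hxD]
  set s0 := uu J r x / (2 * r) with hs0
  have hC0 : 0 ≤ errC M κ := errC_nonneg hM0 hκ
  have herr0 : 0 ≤ errC M κ * (|d| * (1 - lam) + d ^ 2) := by
    apply mul_nonneg hC0
    have : 0 ≤ |d| * (1 - lam) := mul_nonneg (abs_nonneg d) (by linarith)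
    positivity
  have e3 : ‖(1 / r) • vv J r hr hr2 x‖ ^ 2 = 1 - s0 ^ 2 := norm_beta0_sq hr hr2 hxD
  have hll : (lam / r) • vv J r hr hr2 x = lam • ((1 / r) • vv J r hr hr2 x) := by
    rw [smul_smul]; congr 1; ring
  rw [hll]
  set b := (1 / r) • vv J r hr hr2 x with hb
  have hbz : bz J r hr hr2 ζ x = inner ℝ b (ζ x) := rfl
  rw [hbz]
  set e := ew i θ (x + t • ei i) with he
  have heabs : |e| ≤ 1 := abs_ew_le i θ _
  by_cases hz : ζ x = 0
  · rw [hz, inner_zero_right]
    simp only [zero_mul, mul_zero, zero_div, sub_zero, smul_zero, add_zero]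
    have h1 : s0 ≤ Real.sqrt (1 - ‖lam • b‖ ^ 2) := by
      apply Real.le_sqrt_of_sq_le
      rw [norm_smul, mul_pow, e3, Real.norm_eq_abs, sq_abs]
      have h5 : 0 ≤ 1 - s0 ^ 2 := by rw [← e3]; positivity
      nlinarith
    linarith
  · have hb1 : ‖b‖ ≤ 1 := by
      have : ‖b‖ ^ 2 ≤ 1 := by rw [e3]; nlinarith [sq_nonneg s0]
      nlinarith [norm_nonneg b]
    have hbM : |(inner ℝ b (ζ x) : ℝ)| ≤ M := by
      calc |(inner ℝ b (ζ x) : ℝ)| ≤ ‖b‖ * ‖ζ x‖ := abs_real_inner_le_norm _ _
        _ ≤ 1 * M := mul_le_mul hb1 hM (norm_nonneg _) zero_le_one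
        _ = M := one_mul M
    have e2 : ‖lam • b + (d * e) • ζ x‖ ^ 2 = lam ^ 2 * (1 - s0 ^ 2)
        + 2 * lam * (d * e) * inner ℝ b (ζ x) + (d * e) ^ 2 * ‖ζ x‖ ^ 2 := by
      have n1 : ‖lam • b‖ ^ 2 = lam ^ 2 * (1 - s0 ^ 2) := by
        rw [norm_smul, mul_pow, e3, Real.norm_eq_abs, sq_abs]
      have n2 : ‖(d * e) • ζ x‖ ^ 2 = (d * e) ^ 2 * ‖ζ x‖ ^ 2 := by
        rw [norm_smul, mul_pow, Real.norm_eq_abs, sq_abs]
      rw [norm_add_sq_real, n1, n2, real_inner_smul_left, real_inner_smul_right]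
      ring
    have hN : e ^ 2 * ‖ζ x‖ ^ 2 ≤ M ^ 2 := by
      have h1 : e ^ 2 ≤ 1 := by rw [← sq_abs]; nlinarith [abs_nonneg e]
      have h2 : ‖ζ x‖ ^ 2 ≤ M ^ 2 := pow_le_pow_left₀ (norm_nonneg _) hM 2
      calc e ^ 2 * ‖ζ x‖ ^ 2 ≤ 1 * M ^ 2 := mul_le_mul h1 h2 (sq_nonneg _) zero_le_one
        _ = M ^ 2 := one_mul _
    have hq : |(inner ℝ b (ζ x) : ℝ) * e| ≤ M := by
      rw [abs_mul]
      calc _ ≤ M * 1 := mul_le_mul hbM heabs (abs_nonneg _) hM0
        _ = M := mul_one M
    refine sqrt_expand (s := s0) (κ := κ) (M := M) (lam := lam) (d := d)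
      (q := (inner ℝ b (ζ x) : ℝ) * e) (N := e ^ 2 * ‖ζ x‖ ^ 2) hκ (hs hz) hM0 hl0.le hl1.le hd1
      hq hN ?_ hs1
    rw [e2]
    ring

set_option maxHeartbeats 1000000 in
theorem Model.first_variation (h : Model E i J r) (θ : ℝ) {ζ : En n → En n}
    (hζ : TestField i J r ζ) :
    ∫ x in unitCell n, WW E i θ x * divergence ζ x
      = ∫ x in unitCell n, Bf E i J r h.hr h.hr2 θ ζ x := by
  obtain ⟨r', hr'0, hr'r, hsupp⟩ := hζ.supp
  obtain ⟨M, hM⟩ := hζ.per.exists_bound hζ.smooth.continuous
  have hM0 : 0 ≤ M := (norm_nonneg _).trans (hM 0)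
  have hr := h.hr
  have hr2 := h.hr2
  set κ := Real.sqrt (1 - r' ^ 2 / r ^ 2) with hκdef
  have hκ2 : 0 < 1 - r' ^ 2 / r ^ 2 := by
    have : r' ^ 2 / r ^ 2 < 1 := by
      rw [div_lt_one (by positivity)]
      nlinarith
    linarith
  have hκ : 0 < κ := Real.sqrt_pos.2 hκ2
  set s0 : En n → ℝ := fun x => uu J r x / (2 * r) with hs0
  have hs0nn : ∀ x, 0 ≤ s0 x := by
    intro x
    have := uu_nonneg J r x
    simp only [hs0]
    positivity
  have hs0le : ∀ x, s0 x ≤ 1 := by
    intro x
    simp only [hs0]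
    rw [div_le_one (by linarith)]
    exact uu_le hr x
  have hD : ∀ x, ζ x ≠ 0 → rho2 J x < r ^ 2 := by
    intro x hx
    have := hsupp x hx
    nlinarith
  have hs0κ : ∀ x, ζ x ≠ 0 → κ ≤ s0 x := by
    intro x hx
    have h1 := s0_sq hr (hD x hx).le
    have h2 : 1 - r' ^ 2 / r ^ 2 ≤ s0 x ^ 2 := by
      simp only [hs0]
      rw [h1]
      have : rho2 J x / r ^ 2 ≤ r' ^ 2 / r ^ 2 := div_le_div_of_nonneg_right (hsupp x hx) (by positivity)
      linarith
    exact Real.sqrt_le_iff.2 ⟨hs0nn x, h2⟩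
  set β0 : En n → En n := fun x => (1 / r) • vv J r hr hr2 x with hβ0
  have hβ0le : ∀ x, rho2 J x < r ^ 2 → ‖β0 x‖ ≤ 1 := by
    intro x hx
    have h1 := norm_beta0_sq hr hr2 hx
    have h2 : ‖β0 x‖ ^ 2 ≤ 1 := by
      simp only [hβ0]
      rw [h1]
      nlinarith [sq_nonneg (uu J r x / (2 * r))]
    nlinarith [norm_nonneg (β0 x)]
  have hbz : ∀ x, ζ x ≠ 0 → |bz J r hr hr2 ζ x| ≤ M := by
    intro x hx
    calc |bz J r hr hr2 ζ x| ≤ ‖β0 x‖ * ‖ζ x‖ := abs_real_inner_le_norm _ _
      _ ≤ 1 * M := mul_le_mul (hβ0le x (hD x hx)) (hM x) (norm_nonneg _) zero_le_one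
      _ = M := one_mul M
  have hbz0 : ∀ x, ζ x = 0 → bz J r hr hr2 ζ x = 0 := by
    intro x hx
    unfold bz
    rw [hx, inner_zero_right]
  set B := Bf E i J r hr hr2 θ ζ with hBdef
  have hB0 : ∀ x, ζ x = 0 → B x = 0 := by
    intro x hx
    simp only [hBdef, Bf]
    rw [hbz0 x hx]
    simp
  have hBm : Measurable B := measurable_Bf h.meas hr hr2 θ hζ.smooth.continuous
  have hBb : ∀ᵐ x ∂((volume : Measure (En n)).restrict (unitCell n)), ‖B x‖ ≤ M / κ * 2 := by
    filter_upwards [ae_restrict_of_ae (h.ae_Bf θ ζ)] with x hx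
    by_cases hz : ζ x = 0
    · rw [hB0 x hz, norm_zero]; positivity
    · obtain ⟨c, -, hc⟩ := hx (hD x hz)
      have e : B x = bz J r hr hr2 ζ x / s0 x *
        (Real.cos (2 * Real.pi * ((x i - θ) + (c - uu J r x / 2)))
          + Real.cos (2 * Real.pi * ((x i - θ) + (c + uu J r x / 2)))) := hc
      rw [e, norm_mul, norm_div]
      have h1 : ‖bz J r hr hr2 ζ x‖ ≤ M := hbz x hz
      have h2 : κ ≤ ‖s0 x‖ := by
        rw [Real.norm_eq_abs, abs_of_nonneg (hs0nn x)]
        exact hs0κ x hz
      have h3 : ‖Real.cos (2 * Real.pi * ((x i - θ) + (c - uu J r x / 2)))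
          + Real.cos (2 * Real.pi * ((x i - θ) + (c + uu J r x / 2)))‖ ≤ 2 := by
        refine (norm_add_le _ _).trans ?_
        have h4 := Real.abs_cos_le_one (2 * Real.pi * ((x i - θ) + (c - uu J r x / 2)))
        have h5 := Real.abs_cos_le_one (2 * Real.pi * ((x i - θ) + (c + uu J r x / 2)))
        simp only [Real.norm_eq_abs]
        linarith
      apply mul_le_mul _ h3 (norm_nonneg _) (by positivity)
      exact div_le_div₀ hM0 h1 hκ h2
  have hBi : IntegrableOn B (unitCell n) := by
    refine Integrable.of_bound (C := M / κ * 2) hBm.aestronglyMeasurable hBb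
  set V := ∫ x in unitCell n, uu J r x with hV
  have hV0 : 0 ≤ V := integral_nonneg fun x => uu_nonneg J r x
  set XW := ∫ x in unitCell n, WW E i θ x * divergence ζ x with hXW
  set XB := ∫ x in unitCell n, B x with hXB
  set C := errC M κ with hC
  have hC0 : 0 ≤ C := errC_nonneg hM0 hκ
  set d0 := min 1 ((1 - r' / r) / (M + 1)) with hd0
  have hr'r1 : r' / r < 1 := (div_lt_one hr).2 hr'r
  have hd0pos : 0 < d0 := lt_min one_pos (div_pos (by linarith) (by linarith))
  have hs0i : IntegrableOn s0 (unitCell n) :=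
    IsPer.integrableOn (F := s0) (fun v hv x => by simp only [hs0, uu_per J r v hv x])
      ((continuous_uu J r).div_const _)
  -- the main inequality
  have main : ∀ d : ℝ, |d| ≤ d0 → ∀ lam : ℝ, 0 < lam → lam < 1 →
      d * (XW - XB) ≤ 2 * C * (|d| * (1 - lam) + d ^ 2) + (1 - lam) * (J.card * V / r) := by
    intro d hd lam hl0 hl1
    have hlam : lam ^ 2 < 1 := by nlinarith
    have hd1 : |d| ≤ 1 := hd.trans (min_le_left _ _)
    have hdM : |d| * M ≤ 1 - r' / r := by
      have h1 : |d| ≤ (1 - r' / r) / (M + 1) := hd.trans (min_le_right _ _)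
      rw [le_div_iff₀ (by linarith)] at h1
      nlinarith [abs_nonneg d]
    set β := beta J r hr hr2 lam with hβ
    set Ψ : En n → En n := fun x => β x + (d * ew i θ x) • ζ x with hΨdef
    have hew1 : ContDiff ℝ 1 (fun x : En n => d * ew i θ x) :=
      contDiff_const.mul ((contDiff_ew i θ).of_le (by norm_cast))
    have hβ1 : ContDiff ℝ 1 β := (contDiff_beta J hr hr2).of_le (by norm_cast)
    have hΨ : ContDiff ℝ 1 Ψ := hβ1.add (hew1.smul hζ.smooth)
    have hΨp : IsPer Ψ := by
      intro v hv x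
      simp only [hΨdef, hβ, beta_per J hr hr2 v hv x, ew_per i θ v hv x, hζ.per v hv x]
    have hβsq : ∀ x, rho2 J x < r ^ 2 → ‖β x‖ ^ 2 = lam ^ 2 * (rho2 J x / r ^ 2) := by
      intro x hx
      simp only [hβ]
      rw [norm_beta_sq J hr hr2 hlam hx]
      ring
    have hΨ1 : ∀ x, ‖Ψ x‖ ≤ 1 := by
      intro x
      by_cases hz : ζ x = 0
      · simp only [hΨdef, hz, smul_zero, add_zero]
        exact norm_beta_le J hr hr2 hlam x
      · have h1 : ‖β x‖ ≤ r' / r := by
          have h2 : ‖β x‖ ^ 2 ≤ (r' / r) ^ 2 := by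
            rw [hβsq x (hD x hz), div_pow]
            have h3 : rho2 J x / r ^ 2 ≤ r' ^ 2 / r ^ 2 :=
              div_le_div_of_nonneg_right (hsupp x hz) (by positivity)
            have h4 : 0 ≤ rho2 J x / r ^ 2 := div_nonneg (rho2_nonneg J x) (by positivity)
            nlinarith
          exact abs_le_of_sq_le_sq' h2 (by positivity) |>.2
        have h2 : ‖(d * ew i θ x) • ζ x‖ ≤ |d| * M := by
          rw [norm_smul, Real.norm_eq_abs, abs_mul]
          have h3 := abs_ew_le i θ x
          have h4 : |d| * |ew i θ x| ≤ |d| := by nlinarith [abs_nonneg d]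
          exact mul_le_mul h4 (hM x) (norm_nonneg _) (abs_nonneg d)
        calc ‖Ψ x‖ ≤ ‖β x‖ + ‖(d * ew i θ x) • ζ x‖ := norm_add_le _ _
          _ ≤ r' / r + |d| * M := add_le_add h1 h2
          _ ≤ 1 := by linarith
    have hΨi : ∀ x, Ψ x i = 0 := by
      intro x
      have h1 : Ψ x i = β x i + (d * ew i θ x) * ζ x i := by
        simp [hΨdef]
      rw [h1, hζ.hor, hβ, beta_apply_i J hr hr2 x h.hi]
      ring
    have hsm : ContDiff ℝ 1 (fun x : En n => (d * ew i θ x) • ζ x) := hew1.smul hζ.smooth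
    have hdiv : ∀ x, divergence Ψ x = divergence β x + d * (ew i θ x * divergence ζ x) := by
      intro x
      rw [hΨdef, divergence_add hβ1 hsm, divergence_smul hew1 hζ.smooth]
      have h1 : fderiv ℝ (fun x : En n => d * ew i θ x) x (ζ x) = 0 := by
        have h2 : HasFDerivAt (ew i θ) (fderiv ℝ (ew i θ) x) x :=
          ((contDiff_ew (n := n) i θ).differentiable (by norm_num) x).hasFDerivAt
        rw [(h2.const_mul d).fderiv]
        simp [fderiv_ew i θ x (ζ x) (hζ.hor x)]
      rw [h1]
      ring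
    set m : En n → ℝ := fun x => 2 * s0 x - d * B x - 2 * C * (|d| * (1 - lam) + d ^ 2) with hm
    have hmi : IntegrableOn m (unitCell n) :=
      ((hs0i.const_mul 2).sub (hBi.const_mul d)).sub (integrable_const _)
    have herr0 : 0 ≤ C * (|d| * (1 - lam) + d ^ 2) := by
      apply mul_nonneg hC0
      have : 0 ≤ |d| * (1 - lam) := mul_nonneg (abs_nonneg d) (by linarith)
      positivity
    have key := fatou_test (Ψ := Ψ) h.meas h.per h.fin i hΨ hΨp hΨ1 hΨi (m := m) hmi ?_
    · have e1 : ∫ x in E ∩ unitCell n, divergence Ψ x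
          = lam * J.card * V / r + d * XW := by
        simp only [hdiv]
        have i1 : IntegrableOn (divergence β) (E ∩ unitCell n) := by
          have := (IsPer.divergence (beta_per (lam := lam) J hr hr2)).integrableOn
            (continuous_divergence hβ1)
          exact this.mono_set Set.inter_subset_right
        have i2 : IntegrableOn (fun x => ew i θ x * divergence ζ x) (E ∩ unitCell n) := by
          have : IsPer (fun x => ew i θ x * divergence ζ x) := by
            intro v hv x
            simp only [ew_per i θ v hv x, IsPer.divergence hζ.per v hv x]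
          exact (this.integrableOn ((contDiff_ew i θ).continuous.mul
            (continuous_divergence hζ.smooth))).mono_set Set.inter_subset_right
        rw [integral_add i1 (i2.const_mul d), integral_const_mul,
          ← integral_WW_mul_div h.meas h.per θ hζ, h.integral_div_beta hlam]
      have e2 : ∫ x in unitCell n, m x = V / r - d * XB - 2 * C * (|d| * (1 - lam) + d ^ 2) := by
        simp only [hm]
        have ia : Integrable (fun x => 2 * s0 x) ((volume : Measure (En n)).restrict (unitCell n)) :=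
          hs0i.const_mul 2
        have ib : Integrable (fun x => d * B x) ((volume : Measure (En n)).restrict (unitCell n)) :=
          hBi.const_mul d
        have ic : Integrable (fun x => 2 * s0 x - d * B x)
          ((volume : Measure (En n)).restrict (unitCell n)) := ia.sub ib
        rw [integral_sub ic (integrable_const _), integral_sub ia ib, integral_const_mul,
          integral_const_mul]
        have e3 : ∫ x in unitCell n, s0 x = V / (2 * r) := by
          simp only [hs0]
          exact integral_div _ _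
        rw [e3]
        simp only [integral_const, smul_eq_mul]
        have h7 : ((volume : Measure (En n)).restrict (unitCell n)).real Set.univ = 1 := by
          simp
        rw [h7]
        field_simp
        ring
      rw [e1, e2] at key
      have hle := h.le
      rw [← hV] at hle
      have e4 : (1 + (J.card : ℝ)) * V / r = V / r + J.card * V / r := by ring
      have e5 : lam * J.card * V / r = J.card * V / r - (1 - lam) * (J.card * V / r) := by ring
      rw [e4] at hle
      rw [e5] at key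
      linarith
    · -- pointwise lower bound
      filter_upwards [h.ae_Bf θ ζ, ae_line_lim h.meas i] with x hx hlim ε hε
      by_cases hxD : rho2 J x < r ^ 2
      · obtain ⟨c, harc, hc⟩ := hx hxD
        set L := uu J r x with hL
        have hL0 : 0 < L := uu_pos hxD
        have hL1 : L < 1 := lt_of_le_of_lt (uu_le hr x) (by linarith)
        set g : ℝ → ℝ := fun t => Real.sqrt (1 - ‖Ψ (x + t • ei i)‖ ^ 2) with hg
        have hlc : Continuous (fun t : ℝ => x + t • ei i) :=
          continuous_const.add (continuous_id.smul continuous_const)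
        have hgc : Continuous g :=
          Real.continuous_sqrt.comp (continuous_const.sub ((hΨ.continuous.comp hlc).norm.pow 2))
        have hgp : Function.Periodic g 1 := by
          intro t
          have := periodic_line hΨp i x t
          simp only at this
          simp only [hg, this]
        have hw := weighted_liminf hL0 hL1 harc (fun k => contDiff_lineMoll h.meas i x k)
          (fun k => periodic_line (moll_per h.per k) i x) hlim hgc hgp
          (fun t => Real.sqrt_nonneg _) hε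
        filter_upwards [hw] with k hk
        refine le_trans ?_ hk
        -- lower bounds at the endpoints
        have hend : ∀ t : ℝ, s0 x - d * (bz J r hr hr2 ζ x * ew i θ (x + t • ei i)) / s0 x
            - C * (|d| * (1 - lam) + d ^ 2) ≤ g t := fun t =>
          endpoint_bound h.hi hr hr2 hl0 hl1 hζ.inv hM0 hκ hd1 θ (hM x) hxD (hs0κ x) (hs0le x) t
        have h1 := hend (c - L / 2)
        have h2 := hend (c + L / 2)
        rw [ew_line] at h1 h2
        have e4 : B x = bz J r hr hr2 ζ x / s0 x *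
          (Real.cos (2 * Real.pi * ((x i - θ) + (c - L / 2)))
            + Real.cos (2 * Real.pi * ((x i - θ) + (c + L / 2)))) := hc
        simp only [hm]
        rw [e4]
        have e5 : ∀ a b : ℝ, d * (bz J r hr hr2 ζ x / s0 x * (a + b))
            = d * (bz J r hr hr2 ζ x * a) / s0 x + d * (bz J r hr hr2 ζ x * b) / s0 x := by
          intro a b; ring
        rw [e5]
        linarith
      · have hz : ζ x = 0 := by
          by_contra hz
          exact hxD (hD x hz)
        have hs00 : s0 x = 0 := by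
          simp only [hs0]
          rw [uu_zero (not_lt.1 hxD), zero_div]
        refine Eventually.of_forall fun k => ?_
        simp only [hm]
        rw [hB0 x hz, hs00]
        have := tau_nonneg E i (g := fun y => Real.sqrt (1 - ‖Ψ y‖ ^ 2))
            (fun _ => Real.sqrt_nonneg _) k x
        linarith
  -- conclusion: let lam → 1, then d → 0 with both signs
  have main2 : ∀ d : ℝ, |d| ≤ d0 → d * (XW - XB) ≤ 2 * C * d ^ 2 := by
    intro d hd
    have hlim : Tendsto (fun lam : ℝ => 2 * C * (|d| * (1 - lam) + d ^ 2)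
        + (1 - lam) * (J.card * V / r)) (𝓝[<] 1)
        (𝓝 (2 * C * (|d| * (1 - 1) + d ^ 2) + (1 - 1) * (J.card * V / r))) := by
      apply Tendsto.mono_left _ nhdsWithin_le_nhds
      apply Continuous.tendsto
      fun_prop
    have e : 2 * C * (|d| * (1 - 1) + d ^ 2) + (1 - 1) * (J.card * V / r) = 2 * C * d ^ 2 := by ring
    rw [e] at hlim
    refine ge_of_tendsto hlim ?_
    have h1 : ∀ᶠ lam : ℝ in 𝓝[<] 1, lam ∈ Ioo (0:ℝ) 1 :=
      Ioo_mem_nhdsLT one_pos
    filter_upwards [h1] with lam hl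
    exact main d hd lam hl.1 hl.2
  have hXle : ∀ X : ℝ, (∀ d : ℝ, |d| ≤ d0 → d * X ≤ 2 * C * d ^ 2) → X ≤ 0 := by
    intro X hX
    by_contra hcon
    push Not at hcon
    set d := min d0 (X / (2 * C + 1) / 2) with hd
    have hdpos : 0 < d := lt_min hd0pos (by positivity)
    have h1 := hX d (by rw [abs_of_pos hdpos]; exact min_le_left _ _)
    have h2 : X ≤ 2 * C * d := by
      have h3 : d * X ≤ d * (2 * C * d) := by nlinarith
      exact le_of_mul_le_mul_left h3 hdpos
    have h3 : d ≤ X / (2 * C + 1) / 2 := min_le_right _ _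
    have h4 : 2 * C * d ≤ 2 * C * (X / (2 * C + 1) / 2) := mul_le_mul_of_nonneg_left h3 (by positivity)
    have h5 : 2 * C * (X / (2 * C + 1) / 2) < X := by
      have : 2 * C * (X / (2 * C + 1) / 2) = X * (C / (2 * C + 1)) := by
        field_simp
      rw [this]
      have h6 : C / (2 * C + 1) < 1 := by
        rw [div_lt_one (by positivity)]
        linarith
      nlinarith
    linarith
  have hA : XW - XB ≤ 0 := hXle _ main2
  have hB' : -(XW - XB) ≤ 0 := by
    apply hXle
    intro d hd
    have := main2 (-d) (by rwa [abs_neg])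
    have e1 : (-d) * (XW - XB) = d * -(XW - XB) := by ring
    have e2 : (-d) ^ 2 = d ^ 2 := by ring
    rw [e1, e2] at this
    exact this
  linarith

end Crest.Agent.R214.Rig
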