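import Crest.Agent.R214.RigVar3

set_option autoImplicit false

/-! Row 214, rigidity: the phase function has vanishing weak gradient. -/

open MeasureTheory Set Filter Topology Crest.GeometryTopology.PeriodicPerimeter
open scoped ContDiff

noncomputable section

namespace Crest.Agent.R214.Rig

variable {n : ℕ} {E : Set (En n)} {i : Fin n} {J : Finset (Fin n)} {r : ℝ}

/-- the conformal factor -/
def Qf (r s : ℝ) : ℝ := Real.pi / Real.sin (Real.pi * (2 * Real.sqrt (r ^ 2 - s)))

theorem sin_pos_of {r s : ℝ} (hr : 0 < r) (hr2 : r < 1 / 2) (hs0 : 0 ≤ s) (hs : s < r ^ 2) :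
    0 < Real.sin (Real.pi * (2 * Real.sqrt (r ^ 2 - s))) := by
  have h1 : 0 < Real.sqrt (r ^ 2 - s) := Real.sqrt_pos.2 (by linarith)
  have h2 : Real.sqrt (r ^ 2 - s) ≤ r := Real.sqrt_le_iff.2 ⟨hr.le, by linarith⟩
  apply Real.sin_pos_of_pos_of_lt_pi
  · have := Real.pi_pos; positivity
  · have := Real.pi_pos
    nlinarith

theorem contDiffAt_Qf {r s : ℝ} (hr : 0 < r) (hr2 : r < 1 / 2) (hs0 : 0 ≤ s) (hs : s < r ^ 2) :
    ContDiffAt ℝ ∞ (Qf r) s := by
  unfold Qf
  have h1 : ContDiffAt ℝ ∞ (fun s => Real.sqrt (r ^ 2 - s)) s :=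
    (contDiffAt_const.sub contDiffAt_id).sqrt (by simp only [id]; linarith)
  refine contDiffAt_const.div ?_ (sin_pos_of hr hr2 hs0 hs).ne'
  exact Real.contDiff_sin.contDiffAt.comp s (contDiffAt_const.mul (contDiffAt_const.mul h1))

theorem hasDerivAt_Qf {r s : ℝ} (hr : 0 < r) (hr2 : r < 1 / 2) (hs0 : 0 ≤ s) (hs : s < r ^ 2) :
    HasDerivAt (Qf r) (Qf r s * (2 * Real.pi / (2 * Real.sqrt (r ^ 2 - s)))
      * (Real.cos (Real.pi * (2 * Real.sqrt (r ^ 2 - s)))
        / Real.sin (Real.pi * (2 * Real.sqrt (r ^ 2 - s))))) s := by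
  have hsin := sin_pos_of hr hr2 hs0 hs
  have hq : 0 < Real.sqrt (r ^ 2 - s) := Real.sqrt_pos.2 (by linarith)
  have h1 : HasDerivAt (fun s => r ^ 2 - s) (-1) s := by
    simpa using (hasDerivAt_id s).const_sub (r ^ 2)
  have h2 : HasDerivAt (fun s => Real.sqrt (r ^ 2 - s)) (-1 / (2 * Real.sqrt (r ^ 2 - s))) s :=
    h1.sqrt (by linarith)
  have h3 : HasDerivAt (fun s => Real.pi * (2 * Real.sqrt (r ^ 2 - s)))
      (Real.pi * (2 * (-1 / (2 * Real.sqrt (r ^ 2 - s))))) s := (h2.const_mul 2).const_mul Real.pi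
  have h4 := h3.sin
  have h5 := (hasDerivAt_const s Real.pi).div h4 hsin.ne'
  have e : (0 * Real.sin (Real.pi * (2 * Real.sqrt (r ^ 2 - s))) - Real.pi *
      (Real.cos (Real.pi * (2 * Real.sqrt (r ^ 2 - s))) *
        (Real.pi * (2 * (-1 / (2 * Real.sqrt (r ^ 2 - s)))))))
      / Real.sin (Real.pi * (2 * Real.sqrt (r ^ 2 - s))) ^ 2
      = Qf r s * (2 * Real.pi / (2 * Real.sqrt (r ^ 2 - s)))
      * (Real.cos (Real.pi * (2 * Real.sqrt (r ^ 2 - s)))
        / Real.sin (Real.pi * (2 * Real.sqrt (r ^ 2 - s)))) := by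
    unfold Qf
    generalize Real.sin (Real.pi * (2 * Real.sqrt (r ^ 2 - s))) = S at hsin
    generalize Real.cos (Real.pi * (2 * Real.sqrt (r ^ 2 - s))) = T
    generalize Real.sqrt (r ^ 2 - s) = q at hq
    field_simp
    ring
  rw [e] at h5
  exact h5

theorem divergence_smul_at {f : En n → ℝ} {ζ : En n → En n} {x : En n} {f' : En n →L[ℝ] ℝ}
    (hf : HasFDerivAt f f' x) (hζ : DifferentiableAt ℝ ζ x) :
    divergence (fun y => f y • ζ y) x = f x * divergence ζ x + f' (ζ x) := by
  have d3 := hf.smul hζ.hasFDerivAt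
  unfold divergence
  have e : fderiv ℝ (fun y => f y • ζ y) x = f x • fderiv ℝ ζ x + f'.smulRight (ζ x) := by
    exact d3.fderiv
  rw [e]
  have hx : f' (ζ x) = ∑ l, ζ x l * f' (EuclideanSpace.single l 1) := by
    have h1 : ζ x = ∑ l, ζ x l • (EuclideanSpace.single l (1 : ℝ) : En n) := by
      ext j
      simp [Pi.single_apply]
    conv_lhs => rw [h1]
    rw [map_sum]
    simp
  rw [hx, Finset.mul_sum, ← Finset.sum_add_distrib]
  refine Finset.sum_congr rfl fun l _ => ?_
  simp
  ring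

theorem divergence_congr {ζ₁ ζ₂ : En n → En n} {x : En n} (h : ζ₁ =ᶠ[𝓝 x] ζ₂) :
    divergence ζ₁ x = divergence ζ₂ x := by
  unfold divergence
  rw [h.fderiv_eq]

/-- derivative of `rho2` inside the cylinder -/
theorem hasFDerivAt_rho2 (hr : 0 < r) (hr2 : r < 1 / 2) {x : En n} (hx : rho2 J x < r ^ 2) :
    ∃ L : En n →L[ℝ] ℝ, HasFDerivAt (rho2 J) L x ∧ ∀ v : En n,
      L v = 2 * r * inner ℝ ((1 / r) • vv J r hr hr2 x) v := by
  have h1 : rho2 J =ᶠ[𝓝 x] fun y => ‖vv J r hr hr2 y‖ ^ 2 := by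
    filter_upwards [(isOpen_D J).mem_nhds hx] with y hy
    exact (norm_vv_sq_of_lt J hr hr2 hy).symm
  have h2 : ∀ j ∈ J, HasFDerivAt (fun y : En n => pp r hr hr2 (y j) • (ei j : En n))
      ((((1 : ℝ) • (EuclideanSpace.proj (𝕜 := ℝ) j : En n →L[ℝ] ℝ))).smulRight (ei j)) x := by
    intro j hj
    have h3 : HasDerivAt (pp r hr hr2) 1 ((EuclideanSpace.proj (𝕜 := ℝ) j : En n →L[ℝ] ℝ) x) :=
      deriv_pp hr hr2 (abs_dd_le_of_rho2 hr hx hj)
    have h4 := h3.comp_hasFDerivAt x ((EuclideanSpace.proj (𝕜 := ℝ) j : En n →L[ℝ] ℝ).hasFDerivAt)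
    exact h4.smul_const (ei j)
  have h5 : HasFDerivAt (vv J r hr hr2)
      (∑ j ∈ J, (((1 : ℝ) • (EuclideanSpace.proj (𝕜 := ℝ) j : En n →L[ℝ] ℝ))).smulRight (ei j)) x := by
    unfold vv
    exact HasFDerivAt.fun_sum h2
  have h6 := h5.norm_sq
  refine ⟨_, h6.congr_of_eventuallyEq h1, fun v => ?_⟩
  have h7 : (∑ j ∈ J, (((1 : ℝ) • (EuclideanSpace.proj (𝕜 := ℝ) j :
      En n →L[ℝ] ℝ))).smulRight (ei j)) v = ∑ j ∈ J, v j • (ei j : En n) := by
    simp [sum_apply]
  have h8 : inner ℝ (vv J r hr hr2 x) (∑ j ∈ J, v j • (ei j : En n)) = inner ℝ (vv J r hr hr2 x) v := by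
    rw [inner_sum]
    have h9 : ∀ j ∈ J, inner ℝ (vv J r hr hr2 x) (v j • (ei j : En n)) = v j * vv J r hr hr2 x j := by
      intro j _
      rw [real_inner_smul_right, inner_ei]
    rw [Finset.sum_congr rfl h9, PiLp.inner_apply]
    simp only [vv_apply]
    have h10 : ∀ l : Fin n, inner ℝ (if l ∈ J then pp r hr hr2 (x l) else 0) (v l)
        = if l ∈ J then v l * pp r hr hr2 (x l) else 0 := by
      intro l
      split_ifs <;> simp
    simp only [h10]
    rw [Finset.sum_ite_mem, Finset.univ_inter]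
    refine Finset.sum_congr rfl fun j hj => ?_
    rw [if_pos hj]
  have h11 : (2 • (innerSL ℝ (vv J r hr hr2 x)).comp (∑ j ∈ J, (((1 : ℝ) • (EuclideanSpace.proj
      (𝕜 := ℝ) j : En n →L[ℝ] ℝ))).smulRight (ei j))) v = 2 * inner ℝ (vv J r hr hr2 x) v := by
    simp only [smul_apply, ContinuousLinearMap.comp_apply, h7, innerSL_apply_apply, h8]
    simp
  rw [h11, real_inner_smul_left]
  have := hr.ne'
  field_simp

/-- the weight function -/
def wt (E : Set (En n)) (i : Fin n) (J : Finset (Fin n)) (r θ : ℝ) (x : En n) : ℝ :=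
  if rho2 J x < r ^ 2 then Qf r (rho2 J x) * WW E i θ x else 0

theorem TestField.near {η : En n → En n} (hη : TestField i J r η) {x : En n}
    (hx : ¬ rho2 J x < r ^ 2) : η =ᶠ[𝓝 x] fun _ => 0 := by
  obtain ⟨r', hr'0, hr'r, hsupp⟩ := hη.supp
  have h1 : r' ^ 2 < rho2 J x := by
    have := not_lt.1 hx
    nlinarith
  have h2 : ∀ᶠ y in 𝓝 x, r' ^ 2 < rho2 J y :=
    continuousAt_const.eventually_lt (continuous_rho2 J).continuousAt h1
  filter_upwards [h2] with y hy
  by_contra hne
  exact absurd (hsupp y hne) (not_le.2 hy)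

theorem TestField.mulQ (hr : 0 < r) (hr2 : r < 1 / 2) {η : En n → En n} (hi : i ∉ J)
    (hη : TestField i J r η) : TestField i J r (fun x => Qf r (rho2 J x) • η x) where
  smooth := by
    rw [contDiff_iff_contDiffAt]
    intro x
    by_cases hx : rho2 J x < r ^ 2
    · have h1 : (fun y => Qf r (rho2 J y) • η y)
          =ᶠ[𝓝 x] fun y => Qf r (‖vv J r hr hr2 y‖ ^ 2) • η y := by
        filter_upwards [(isOpen_D J).mem_nhds hx] with y hy
        rw [norm_vv_sq_of_lt J hr hr2 hy]
      refine ContDiffAt.congr_of_eventuallyEq ?_ h1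
      have h2 : ContDiffAt ℝ ∞ (Qf r) (‖vv J r hr hr2 x‖ ^ 2) := by
        rw [norm_vv_sq_of_lt J hr hr2 hx]
        exact contDiffAt_Qf hr hr2 (rho2_nonneg J x) hx
      have h3 : ContDiffAt ℝ ∞ (fun y => ‖vv J r hr hr2 y‖ ^ 2) x :=
        ((contDiff_vv J hr hr2).norm_sq ℝ).contDiffAt
      have h4 : ContDiffAt ℝ ∞ ((Qf r) ∘ (fun y => ‖vv J r hr hr2 y‖ ^ 2)) x :=
        ContDiffAt.comp (g := Qf r) (f := fun y => ‖vv J r hr hr2 y‖ ^ 2) x h2 h3
      exact (h4.of_le (by norm_cast)).smul hη.smooth.contDiffAt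
    · have h1 : (fun y => Qf r (rho2 J y) • η y) =ᶠ[𝓝 x] fun _ => 0 := by
        filter_upwards [hη.near hx] with y hy
        rw [hy, smul_zero]
      exact contDiffAt_const.congr_of_eventuallyEq h1
  per := by
    intro v hv x
    simp only [rho2_per J v hv x, hη.per v hv x]
  hor := by
    intro x
    simp [hη.hor x]
  inv := by
    intro x t
    simp only [rho2_add_ei J hi, hη.inv]
  supp := by
    obtain ⟨r', hr'0, hr'r, hsupp⟩ := hη.supp
    refine ⟨r', hr'0, hr'r, fun x hx => hsupp x fun h0 => hx ?_⟩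
    rw [h0, smul_zero]

/-- pointwise identity -/
theorem pointwise_identity (hr : 0 < r) (hr2 : r < 1 / 2) (θ : ℝ) {η : En n → En n}
    (hη : TestField i J r η) (x : En n) :
    WW E i θ x * divergence (fun y => Qf r (rho2 J y) • η y) x
      = Bf E i J r hr hr2 θ (fun y => Qf r (rho2 J y) • η y) x + wt E i J r θ x * divergence η x := by
  by_cases hx : rho2 J x < r ^ 2
  · obtain ⟨L, hL, hLv⟩ := hasFDerivAt_rho2 hr hr2 hx
    have hQ := (hasDerivAt_Qf hr hr2 (rho2_nonneg J x) hx).comp_hasFDerivAt x hL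
    have hdiv := divergence_smul_at (ζ := η) hQ (hη.smooth.differentiable one_ne_zero x)
    have e1 : divergence (fun y => Qf r (rho2 J y) • η y) x
        = Qf r (rho2 J x) * divergence η x + ((Qf r (rho2 J x) * (2 * Real.pi / (2 * Real.sqrt (r ^ 2 - rho2 J x)))
      * (Real.cos (Real.pi * (2 * Real.sqrt (r ^ 2 - rho2 J x)))
        / Real.sin (Real.pi * (2 * Real.sqrt (r ^ 2 - rho2 J x))))) • L) (η x) := hdiv
    rw [e1]
    have e2 : ∀ a : ℝ, (a • L) (η x) = a * (2 * r * inner ℝ ((1 / r) • vv J r hr hr2 x) (η x)) := by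
      intro a
      rw [smul_apply, hLv, smul_eq_mul]
    rw [e2]
    unfold wt Bf bz
    rw [if_pos hx]
    simp only
    rw [real_inner_smul_right]
    have e3 : uu J r x = 2 * Real.sqrt (r ^ 2 - rho2 J x) := rfl
    rw [e3]
    have hq : 0 < Real.sqrt (r ^ 2 - rho2 J x) := Real.sqrt_pos.2 (by linarith)
    have hsin := sin_pos_of hr hr2 (rho2_nonneg J x) hx
    generalize inner ℝ ((1 / r) • vv J r hr hr2 x) (η x) = b
    generalize Real.sin (Real.pi * (2 * Real.sqrt (r ^ 2 - rho2 J x))) = S at hsin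
    generalize Real.cos (Real.pi * (2 * Real.sqrt (r ^ 2 - rho2 J x))) = T
    generalize Real.sqrt (r ^ 2 - rho2 J x) = q at hq
    generalize Qf r (rho2 J x) = Q
    generalize WW E i θ x = W
    field_simp
    ring
  · have h1 := hη.near hx
    have h2 : (fun y => Qf r (rho2 J y) • η y) =ᶠ[𝓝 x] fun _ => 0 := by
      filter_upwards [h1] with y hy
      rw [hy, smul_zero]
    have h3 : η x = 0 := h1.self_of_nhds
    rw [divergence_congr h2, divergence_congr h1]
    have h4 : divergence (fun _ : En n => (0 : En n)) x = 0 := by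
      unfold divergence
      simp
    rw [h4]
    unfold Bf bz
    simp only [h3]
    simp

theorem measurable_wt (hE : MeasurableSet E) (θ : ℝ) : Measurable (wt E i J r θ) := by
  unfold wt
  have h1 : Measurable (fun x : En n => Qf r (rho2 J x)) := by
    unfold Qf
    have h2 : Measurable (fun x : En n => Real.sqrt (r ^ 2 - rho2 J x)) :=
      (Real.continuous_sqrt.comp (continuous_const.sub (continuous_rho2 J))).measurable
    exact Measurable.div measurable_const
      (Real.continuous_sin.measurable.comp ((h2.const_mul 2).const_mul Real.pi))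
  exact Measurable.ite (isOpen_D J).measurableSet (h1.mul (measurable_WW hE i θ)) measurable_const

theorem WW_per (hp : IsLatticePeriodic E) (θ : ℝ) : IsPer (WW E i θ) := by
  intro v hv x
  unfold WW
  congr 1
  funext t
  have e : x + v + t • ei i = (x + t • ei i) + v := by abel
  rw [e, chi_per hp v hv, ew_per i θ v hv]

theorem WW_inv (hp : IsLatticePeriodic E) (θ : ℝ) (x : En n) (s : ℝ) :
    WW E i θ (x + s • ei i) = WW E i θ x := by
  unfold WW
  have hper : Function.Periodic (fun t : ℝ => chi E (x + t • ei i) * ew i θ (x + t • ei i)) 1 := by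
    have := periodic_line (F := fun y => chi E y * ew i θ y) (fun v hv y => by
      simp only [chi_per hp v hv, ew_per i θ v hv]) i x
    exact this
  have h1 : ∫ t in (0:ℝ)..1, chi E (x + s • ei i + t • ei i) * ew i θ (x + s • ei i + t • ei i)
      = ∫ t in (0:ℝ)..1, (fun t : ℝ => chi E (x + t • ei i) * ew i θ (x + t • ei i)) (t + s) := by
    congr 1
    funext t
    have e : x + s • ei i + t • ei i = x + (t + s) • ei i := by module
    rw [e]
  rw [h1, intervalIntegral.integral_comp_add_right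
    (fun t : ℝ => chi E (x + t • ei i) * ew i θ (x + t • ei i)) s]
  have h2 := hper.intervalIntegral_add_eq (0 + s) 0
  have e1 : (0:ℝ) + s + 1 = 1 + s := by ring
  rw [e1, zero_add (1:ℝ)] at h2
  exact h2

theorem wt_per (hp : IsLatticePeriodic E) (θ : ℝ) : IsPer (wt E i J r θ) := by
  intro v hv x
  unfold wt
  rw [rho2_per J v hv x, WW_per hp θ v hv x]

theorem wt_inv (hp : IsLatticePeriodic E) (hi : i ∉ J) (θ : ℝ) (x : En n) (s : ℝ) :
    wt E i J r θ (x + s • ei i) = wt E i J r θ x := by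
  unfold wt
  rw [rho2_add_ei J hi, WW_inv hp]

/-- a.e. value of the weight function -/
theorem Model.ae_wt (h : Model E i J r) : ∀ᵐ x : En n, rho2 J x < r ^ 2 →
    ∃ c, (∀ᵐ t, t ∈ fib E i x ↔ t ∈ arc c (uu J r x)) ∧
      ∀ θ, wt E i J r θ x = Real.cos (2 * Real.pi * ((x i - θ) + c)) := by
  filter_upwards [h.ae_arc] with x hx hxD
  obtain ⟨c, hc⟩ := hx hxD
  refine ⟨c, hc, fun θ => ?_⟩
  have hL1 : uu J r x < 1 := lt_of_le_of_lt (uu_le h.hr x) (by linarith [h.hr2])
  unfold wt
  rw [if_pos hxD, WW_arc (uu_nonneg J r x) hL1 θ hc]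
  have hsin := sin_pos_of h.hr h.hr2 (rho2_nonneg J x) hxD
  have hpi := Real.pi_pos
  unfold Qf uu
  generalize Real.sin (Real.pi * (2 * Real.sqrt (r ^ 2 - rho2 J x))) = S at hsin
  field_simp

theorem Model.ae_abs_wt_le (h : Model E i J r) (θ : ℝ) : ∀ᵐ x : En n, |wt E i J r θ x| ≤ 1 := by
  filter_upwards [h.ae_wt] with x hx
  by_cases hxD : rho2 J x < r ^ 2
  · obtain ⟨c, -, hc⟩ := hx hxD
    rw [hc]
    exact Real.abs_cos_le_one _
  · unfold wt
    rw [if_neg hxD]
    simp

/-- the phase has vanishing weak gradient -/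
theorem Model.weak_zero (h : Model E i J r) (θ : ℝ) {η : En n → En n} (hη : TestField i J r η) :
    ∫ x in unitCell n, wt E i J r θ x * divergence η x = 0 := by
  have hζ := hη.mulQ h.hr h.hr2 h.hi
  have h1 := h.first_variation θ hζ
  have i1 : IntegrableOn (fun x => wt E i J r θ x * divergence η x) (unitCell n) := by
    obtain ⟨C, hC⟩ := (IsPer.divergence hη.per).exists_bound (continuous_divergence hη.smooth)
    refine Integrable.of_bound (C := 1 * C)
      ((measurable_wt h.meas θ).mul (continuous_divergence hη.smooth).measurable).aestronglyMeasurable ?_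
    filter_upwards [ae_restrict_of_ae (h.ae_abs_wt_le θ)] with x hx
    rw [norm_mul]
    exact mul_le_mul hx (hC x) (norm_nonneg _) zero_le_one
  have i2 : IntegrableOn (fun x => WW E i θ x * divergence (fun y => Qf r (rho2 J y) • η y) x)
      (unitCell n) := by
    obtain ⟨C, hC⟩ := (IsPer.divergence hζ.per).exists_bound (continuous_divergence hζ.smooth)
    refine Integrable.of_bound (C := 1 * C)
      ((measurable_WW h.meas i θ).mul (continuous_divergence hζ.smooth).measurable).aestronglyMeasurable ?_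
    refine Eventually.of_forall fun x => ?_
    rw [norm_mul]
    exact mul_le_mul (abs_WW_le E i θ x) (hC x) (norm_nonneg _) zero_le_one
  have e1 : ∀ x, Bf E i J r h.hr h.hr2 θ (fun y => Qf r (rho2 J y) • η y) x
      = WW E i θ x * divergence (fun y => Qf r (rho2 J y) • η y) x
        - wt E i J r θ x * divergence η x := by
    intro x
    rw [pointwise_identity h.hr h.hr2 θ hη x]
    ring
  simp only [e1] at h1
  rw [integral_sub i2 i1] at h1
  linarith

end Crest.Agent.R214.Rig
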