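import Crest.Agent.R214.Geo
import Crest.Agent.R214.ArcBase

/-!
# SBbasic: elementary facts on fully symmetric decreasing sets (task B1 of SBthm)
-/

set_option autoImplicit false
open MeasureTheory Crest.GeometryTopology.PeriodicPerimeter Filter
open scoped ENNReal NNReal Topology
noncomputable section
namespace Crest.Agent.R214

theorem symDown_periodic {n : ℕ} {F : Set (Eu n)} (h : SymDown F) : IsLatticePeriodic F := by
  intro v hv x
  have e : ∀ i, dZ ((x + v) i) = dZ (x i) := by
    intro i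
    obtain ⟨m, hm⟩ := hv i
    have : (x + v) i = x i + (m : ℝ) := by rw [← hm]; rfl
    rw [this, ArcB.dZ_add_int]
  exact ⟨fun hx => h x (x + v) (fun i => (e i).ge) hx, fun hx => h (x + v) x (fun i => (e i).le) hx⟩

theorem symDown_sl {n : ℕ} {F : Set (Eu (n + 1))} (h : SymDown F) (t : ℝ) :
    SymDown (sl F t) := by
  intro x y hxy hy
  refine h (cons t x) (cons t y) (fun i => ?_) hy
  refine Fin.cases ?_ (fun j => ?_) i
  · rw [cons_zero, cons_zero]
  · rw [cons_succ, cons_succ]; exact hxy j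

theorem symDown_pm {n : ℕ} (σ : Equiv.Perm (Fin n)) {F : Set (Eu n)} (h : SymDown F) :
    SymDown (pm σ F) := by
  intro x y hxy hy
  exact h _ _ (fun i => hxy (σ i)) hy

theorem symDown_sl_mono {n : ℕ} {F : Set (Eu (n + 1))} (h : SymDown F) {s t : ℝ}
    (hst : dZ s ≤ dZ t) : sl F t ⊆ sl F s := by
  intro y hy
  refine h (cons s y) (cons t y) (fun i => ?_) hy
  refine Fin.cases ?_ (fun j => ?_) i
  · rw [cons_zero, cons_zero]; exact hst
  · rw [cons_succ, cons_succ]

/-- monotonicity of the periodic volume -/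
theorem periodicVolume_mono' {n : ℕ} {A B : Set (Eu n)} (h : A ⊆ B) :
    periodicVolume A ≤ periodicVolume B := by
  unfold periodicVolume
  refine ENNReal.toReal_mono ?_ (measure_mono (Set.inter_subset_inter_left _ h))
  refine ne_top_of_le_ne_top ?_ (measure_mono Set.inter_subset_right)
  rw [volume_cell]
  exact ENNReal.one_ne_top

theorem prof_antitone {n : ℕ} {F : Set (Eu (n + 1))} (h : SymDown F) :
    AntitoneOn (prof F) (Set.Icc 0 1) := by
  intro s hs t ht hst
  refine periodicVolume_mono' (symDown_sl_mono h ?_)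
  rw [ArcB.dZ_of_abs_le (s / 2) (by rw [abs_le]; constructor <;> linarith [hs.1, hs.2]),
    ArcB.dZ_of_abs_le (t / 2) (by rw [abs_le]; constructor <;> linarith [ht.1, ht.2]),
    abs_of_nonneg (by linarith [hs.1]), abs_of_nonneg (by linarith [ht.1])]
  linarith

/-- the slices of a symmetric set at `1 - u` and `u` agree -/
theorem symDown_sl_one_sub {n : ℕ} {F : Set (Eu (n + 1))} (h : SymDown F) (u : ℝ) :
    sl F (1 - u) = sl F u := by
  have e : dZ (1 - u) = dZ u := by
    have h1 : (1 : ℝ) - u = -u + ((1 : ℤ) : ℝ) := by push_cast; ring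
    rw [h1, ArcB.dZ_add_int, ArcB.dZ_neg]
  exact Set.Subset.antisymm (symDown_sl_mono h e.ge) (symDown_sl_mono h e.le)

theorem prof_integral {n : ℕ} {F : Set (Eu (n + 1))} (hF : MeasurableSet F) (h : SymDown F) :
    ∫ t in Set.Ioo (0 : ℝ) 1, prof F t = periodicVolume F := by
  set a : ℝ → ℝ := fun t => periodicVolume (sl F t) with ha
  have hm : Measurable a := measurable_vol_sl hF
  have hint : ∀ x y : ℝ, IntervalIntegrable a volume x y := by
    intro x y
    refine (intervalIntegrable_const (c := (1 : ℝ))).mono_fun hm.aestronglyMeasurable ?_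
    refine Filter.Eventually.of_forall fun t => ?_
    change ‖a t‖ ≤ |(1 : ℝ)|
    rw [Real.norm_eq_abs, abs_one, abs_of_nonneg (vol_nonneg _)]
    exact vol_le_one _
  have e1 : ∫ t in Set.Ioo (0 : ℝ) 1, prof F t = ∫ t in (0 : ℝ)..1, a (t / 2) := by
    rw [intervalIntegral.integral_of_le zero_le_one, ← integral_Ioc_eq_integral_Ioo]
    rfl
  have e2 : ∫ t in (0 : ℝ)..1, a (t / 2) = 2 * ∫ t in (0 : ℝ)..(1 / 2), a t := by
    have := intervalIntegral.integral_comp_div (a := (0 : ℝ)) (b := 1) a (c := 2) two_ne_zero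
    rw [this, zero_div, smul_eq_mul]
  have e3 : periodicVolume F = ∫ t in (0 : ℝ)..1, a t := by
    rw [vol_eq_integral_sl hF, intervalIntegral.integral_of_le zero_le_one,
      ← integral_Ico_eq_integral_Ioc]
  have e4 : ∫ t in (0 : ℝ)..1, a t = (∫ t in (0 : ℝ)..(1 / 2), a t) + ∫ t in (1 / 2 : ℝ)..1, a t :=
    (intervalIntegral.integral_add_adjacent_intervals (hint _ _) (hint _ _)).symm
  have e5 : ∫ t in (1 / 2 : ℝ)..1, a t = ∫ t in (0 : ℝ)..(1 / 2), a t := by
    have h5 := intervalIntegral.integral_comp_sub_left (a := (0 : ℝ)) (b := 1 / 2) a (1 : ℝ)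
    have h6 : (1 : ℝ) - 1 / 2 = 1 / 2 := by norm_num
    rw [h6, sub_zero] at h5
    rw [← h5]
    refine intervalIntegral.integral_congr fun t _ => ?_
    simp only [ha]
    rw [symDown_sl_one_sub h]
  rw [e1, e2, e3, e4, e5]
  ring

end Crest.Agent.R214
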