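import Crest.Agent.R214.Core3
import Crest.Agent.R214.Core4
import Crest.Agent.R214.Geo

/-!
# Slice: the codimension-one slicing inequality

Proof sketch. Take `f_k = exists_moll (ind A)`, so `VV f_k ≤ P(A)` and `f_k → 1_A` in `L¹(cell)`.
Pass to a subsequence such that for a.e. `t ∈ [0,1)`: `∫_cell n |f_k(cons t ·) - 1_{A_t}| → 0`
(`L¹` convergence of `t ↦ ‖f_k(t,·) - 1_{A_t}‖_{L¹}`). Put `W t = liminf_k VV (f_k(cons t ·))`
(as a real number; it is finite a.e.). By `TV_le_VV` and `TV_lsc`, `P(sl A t) ≤ W t` a.e.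
Pointwise, for any number `u ∈ [-1,1]`: `‖∇f‖ ≥ √(1-u²) ‖∇' f‖ - u ∂₀f` (Cauchy-Schwarz and
`norm_fderiv_cons_sq`). Integrate over the cell with `u = u x` (resp. `u = b (x 0)`), integrate
by parts (`ibp` with the field `u • e0`; resp. 1-D integration by parts), Fatou's lemma for the
first term, `L¹` convergence for the second one.
For `b` absolutely continuous with bounded derivative `bh`: `-∫ b(t) S_k'(t) dt = ∫ bh(t) S_k(t) dt`
for the smooth periodic `S_k(t) = ∫_cell n f_k(cons t ·)` (e.g. Fubini, or approximate `bh` in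
`L¹(0,1)` by continuous functions).
-/

set_option autoImplicit false
open MeasureTheory Crest.GeometryTopology.PeriodicPerimeter Filter
open scoped ENNReal NNReal Topology
noncomputable section
namespace Crest.Agent.R214

namespace S1

/-! ### one-dimensional integration by parts -/

theorem ibp1 (b bh : ℝ → ℝ) (K : ℝ) (hbm : Measurable bh) (hK : ∀ t, |bh t| ≤ K)
    (hb : ∀ s t, b t - b s = ∫ x in s..t, bh x) (hb1 : ∀ t, b (t + 1) = b t)
    (g g' : ℝ → ℝ) (hg : ∀ t, HasDerivAt g (g' t) t) (hg' : Continuous g') (hg1 : g 1 = g 0) :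
    ∫ t in (0 : ℝ)..1, b t * g' t = - ∫ t in (0 : ℝ)..1, bh t * g t := by
  have hK0 : 0 ≤ K := (abs_nonneg _).trans (hK 0)
  have hint : ∀ s t, IntervalIntegrable bh volume s t := fun s t =>
    (intervalIntegrable_const (c := K)).mono_fun hbm.aestronglyMeasurable
      (Eventually.of_forall fun x => by
        show ‖bh x‖ ≤ ‖K‖
        rw [Real.norm_eq_abs, Real.norm_eq_abs, abs_of_nonneg hK0]; exact hK x)
  have hlip : LipschitzWith (Real.toNNReal K) b := by
    refine LipschitzWith.of_dist_le_mul fun x y => ?_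
    rw [Real.dist_eq, Real.dist_eq, Real.coe_toNNReal K hK0, hb y x]
    have := intervalIntegral.norm_integral_le_of_norm_le_const (f := bh) (a := y) (b := x) (C := K)
      (fun t _ => by rw [Real.norm_eq_abs]; exact hK t)
    simpa [Real.norm_eq_abs] using this
  have hAb : AbsolutelyContinuousOnInterval b 0 1 :=
    (hlip.lipschitzOnWith).absolutelyContinuousOnInterval
  have hgd : deriv g = g' := funext fun t => (hg t).deriv
  have hgc : ContDiff ℝ 1 g := by
    rw [contDiff_one_iff_deriv]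
    exact ⟨fun t => (hg t).differentiableAt, by rw [hgd]; exact hg'⟩
  have hAg : AbsolutelyContinuousOnInterval g 0 1 := hgc.contDiffOn.absolutelyContinuousOnInterval
  have h := hAb.integral_mul_deriv_eq_deriv_mul hAg
  rw [hgd] at h
  rw [h]
  have h1 : b 1 = b 0 := by simpa using hb1 0
  have hloc : LocallyIntegrable bh volume := by
    rw [locallyIntegrable_iff]
    intro k hk
    exact Measure.integrableOn_of_bounded (M := K) hk.measure_lt_top.ne hbm.aestronglyMeasurable
      (Eventually.of_forall fun x => by rw [Real.norm_eq_abs]; exact hK x)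
  have hder : ∀ᵐ x, deriv b x = bh x := by
    filter_upwards [_root_.LocallyIntegrable.ae_hasDerivAt_integral hloc] with x hx
    have h2 : b = fun x => b 0 + ∫ t in (0 : ℝ)..x, bh t := by
      funext y
      rw [← hb 0 y]; ring
    rw [h2]
    exact ((hx 0).const_add (b 0)).deriv
  have h3 : ∫ x in (0 : ℝ)..1, deriv b x * g x = ∫ x in (0 : ℝ)..1, bh x * g x := by
    apply intervalIntegral.integral_congr_ae
    filter_upwards [hder] with x hx _
    rw [hx]
  rw [h3, h1, hg1]
  ring

/-! ### integrability on the cell -/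

theorem cell_finite (m : ℕ) : IsFiniteMeasure ((volume : Measure (Eu m)).restrict (unitCell m)) :=
  ⟨by rw [Measure.restrict_apply_univ, volume_cell]; exact ENNReal.one_lt_top⟩

theorem cell_bound {m : ℕ} {G : Eu m → ℝ} (hG : Continuous G) :
    ∃ C : ℝ, 0 ≤ C ∧ ∀ x ∈ unitCell m, |G x| ≤ C := by
  obtain ⟨C, hC⟩ := (isCompact_closedBall (0 : Eu m) m).exists_bound_of_continuousOn
    hG.continuousOn
  refine ⟨max C 0, le_max_right _ _, fun x hx => ?_⟩
  exact (hC x (c4_cell_subset_closedBall hx)).trans (le_max_left _ _)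

/-- bounded measurable times integrable -/
theorem intOn_mul {m : ℕ} {G F : Eu m → ℝ} (hG : Measurable G) {C : ℝ}
    (hC : ∀ x ∈ unitCell m, |G x| ≤ C) (hF : IntegrableOn F (unitCell m)) :
    IntegrableOn (fun x => G x * F x) (unitCell m) := by
  refine Integrable.bdd_mul (c := C) hF hG.aestronglyMeasurable ?_
  filter_upwards [ae_restrict_mem measurableSet_cell] with x hx
  rw [Real.norm_eq_abs]; exact hC x hx

theorem intOn_prod {n : ℕ} {f : Eu (n + 1) → ℝ} (hf : IntegrableOn f (unitCell (n + 1))) :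
    Integrable (fun p : ℝ × Eu n => f (cons p.1 p.2))
      ((volume.restrict (Set.Ico (0 : ℝ) 1)).prod (volume.restrict (unitCell n))) := by
  have hI : IntegrableOn (fun p : ℝ × Eu n => f (cons p.1 p.2))
      ((fun p : ℝ × Eu n => cons p.1 p.2) ⁻¹' (unitCell (n + 1))) :=
    (measurePreserving_cons.integrableOn_comp_preimage measurableEmbedding_cons).2 hf
  rw [preimage_cell] at hI
  rw [Measure.prod_restrict]
  exact hI

theorem intOn_fiber {n : ℕ} {f : Eu (n + 1) → ℝ} (hf : IntegrableOn f (unitCell (n + 1))) :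
    IntegrableOn (fun t => ∫ y in unitCell n, f (cons t y)) (Set.Ico 0 1) :=
  (intOn_prod hf).integral_prod_left

/-! ### slice gradients -/

/-- norm of the derivative in the last coordinates -/
def H {n : ℕ} (f : Eu (n + 1) → ℝ) (x : Eu (n + 1)) : ℝ := ‖(fderiv ℝ f x).comp (injL n)‖

/-- variation of the slice -/
def V {n : ℕ} (f : Eu (n + 1) → ℝ) (t : ℝ) : ℝ := ∫ y in unitCell n, H f (cons t y)

theorem H_nonneg {n : ℕ} (f : Eu (n + 1) → ℝ) (x : Eu (n + 1)) : 0 ≤ H f x := norm_nonneg _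

theorem V_nonneg {n : ℕ} (f : Eu (n + 1) → ℝ) (t : ℝ) : 0 ≤ V f t :=
  integral_nonneg fun _ => H_nonneg _ _

theorem continuous_H {n : ℕ} {f : Eu (n + 1) → ℝ} (hf : ContDiff ℝ 1 f) : Continuous (H f) :=
  ((hf.continuous_fderiv one_ne_zero).clm_comp continuous_const).norm

theorem VV_slice {n : ℕ} {f : Eu (n + 1) → ℝ} (hf : ContDiff ℝ 1 f) (t : ℝ) :
    VV (fun y => f (cons t y)) = V f t := by
  unfold VV V H
  simp_rw [fderiv_slice f hf]

theorem measurable_V {n : ℕ} {f : Eu (n + 1) → ℝ} (hf : ContDiff ℝ 1 f) : Measurable (V f) := by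
  have h : StronglyMeasurable (fun p : ℝ × Eu n => H f (cons p.1 p.2)) :=
    ((continuous_H hf).comp continuous_cons).stronglyMeasurable
  exact (h.integral_prod_right' (ν := volume.restrict (unitCell n))).measurable

theorem contDiff_slice {n : ℕ} {f : Eu (n + 1) → ℝ} {m : WithTop ℕ∞} (hf : ContDiff ℝ m f) (t : ℝ) :
    ContDiff ℝ m (fun y : Eu n => f (cons t y)) :=
  hf.comp (contDiff_cons.comp (contDiff_const.prodMk contDiff_id))

theorem perFun_slice {n : ℕ} {f : Eu (n + 1) → ℝ} (hf : PerFun f) (t : ℝ) :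
    PerFun (fun y : Eu n => f (cons t y)) := by
  intro v hv y
  have h := hf (cons ((0 : ℤ) : ℝ) v) (hasIntegerCoords_cons 0 v hv) (cons t y)
  rw [← cons_add] at h
  simpa using h

theorem pointwise {n : ℕ} {f : Eu (n + 1) → ℝ} (hf : ContDiff ℝ 1 f) (x : Eu (n + 1)) {w u : ℝ}
    (hwu : w ^ 2 + u ^ 2 ≤ 1) : w * H f x - u * fderiv ℝ f x e0 ≤ ‖fderiv ℝ f x‖ := by
  have h1 : ‖fderiv ℝ f x‖ ^ 2 = (fderiv ℝ f x e0) ^ 2 + (H f x) ^ 2 := by
    have h := norm_fderiv_cons_sq f hf (x 0) (tl x)
    rw [cons_tl, fderiv_slice f hf, cons_tl] at h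
    exact h
  have h0 := norm_nonneg (fderiv ℝ f x)
  set a := fderiv ℝ f x e0
  set N := ‖fderiv ℝ f x‖
  set c := H f x
  refine le_of_sq_le_sq' ?_ h0
  nlinarith [sq_nonneg (w * a + u * c), sq_nonneg a, sq_nonneg c]
where
  le_of_sq_le_sq' {a b : ℝ} (h : a ^ 2 ≤ b ^ 2) (hb : 0 ≤ b) : a ≤ b := by
    exact abs_le_of_sq_le_sq' h hb |>.2

/-- the integrated inequality for one smooth function -/
theorem smooth_ineq {n : ℕ} {f : Eu (n + 1) → ℝ} (hf : ContDiff ℝ 1 f) {w : ℝ → ℝ}
    (hw : Measurable w) (hw0 : ∀ t, 0 ≤ w t) (hw1 : ∀ t, w t ≤ 1) {U G : Eu (n + 1) → ℝ}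
    (hU : Measurable U) (hwU : ∀ x, w (x 0) ^ 2 + U x ^ 2 ≤ 1)
    (hid : - ∫ x in unitCell (n + 1), U x * fderiv ℝ f x e0 = ∫ x in unitCell (n + 1), G x * f x) :
    IntegrableOn (fun t => w t * V f t) (Set.Ico 0 1) ∧
    (∫ t in Set.Ico (0 : ℝ) 1, w t * V f t) + ∫ x in unitCell (n + 1), G x * f x ≤ VV f := by
  have hU1 : ∀ x ∈ unitCell (n + 1), |U x| ≤ 1 := fun x _ => by
    have := hwU x
    rw [← sq_le_one_iff_abs_le_one]; nlinarith [sq_nonneg (w (x 0))]
  have hwm : Measurable (fun x : Eu (n + 1) => w (x 0)) :=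
    hw.comp (by fun_prop)
  have hH := integrableOn_cell (H f) (continuous_H hf)
  have hD : IntegrableOn (fun x => fderiv ℝ f x e0) (unitCell (n + 1)) :=
    integrableOn_cell _ ((hf.continuous_fderiv one_ne_zero).clm_apply continuous_const)
  have hN : IntegrableOn (fun x => ‖fderiv ℝ f x‖) (unitCell (n + 1)) :=
    integrableOn_cell _ (hf.continuous_fderiv one_ne_zero).norm
  have h1 : IntegrableOn (fun x => w (x 0) * H f x) (unitCell (n + 1)) :=
    intOn_mul (C := 1) hwm (fun x _ => by rw [abs_of_nonneg (hw0 _)]; exact hw1 _) hH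
  have h2 : IntegrableOn (fun x => U x * fderiv ℝ f x e0) (unitCell (n + 1)) :=
    intOn_mul (C := 1) hU hU1 hD
  have h3 : ∫ x in unitCell (n + 1), w (x 0) * H f x = ∫ t in Set.Ico (0 : ℝ) 1, w t * V f t := by
    rw [integral_cell_fubini _ h1]
    refine integral_congr_ae (Eventually.of_forall fun t => ?_)
    simp only [cons_zero]
    rw [integral_const_mul]; rfl
  have h4 := intOn_fiber h1
  simp only [cons_zero] at h4
  have h5 : (fun t => ∫ y in unitCell n, w t * H f (cons t y)) = fun t => w t * V f t := by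
    funext t
    rw [integral_const_mul]; rfl
  rw [h5] at h4
  refine ⟨h4, ?_⟩
  rw [← h3, ← hid, ← sub_eq_add_neg, ← integral_sub h1 h2]
  exact integral_mono (h1.sub h2) hN fun x => pointwise hf x (hwU x)

/-! ### limits -/

/-- data: the approximating sequence -/
structure Seq {n : ℕ} (A : Set (Eu (n + 1))) (P : ℝ) (f : ℕ → Eu (n + 1) → ℝ) : Prop where
  smooth : ∀ k, ContDiff ℝ 1 (f k)
  per : ∀ k, PerFun (f k)
  var : ∀ k, VV (f k) ≤ P
  conv : Tendsto (fun k => ∫ x in unitCell (n + 1), |f k x - ind A x|) atTop (𝓝 0)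
  fib : ∀ᵐ t ∂(volume.restrict (Set.Ico (0 : ℝ) 1)),
    Tendsto (fun k => ∫ y in unitCell n, |f k (cons t y) - ind A (cons t y)|) atTop (𝓝 0)

/-- the liminf of the slice variations -/
def WW {n : ℕ} (f : ℕ → Eu (n + 1) → ℝ) (t : ℝ) : ℝ≥0∞ :=
  liminf (fun k => ENNReal.ofReal (V (f k) t)) atTop

theorem measurable_WW {n : ℕ} {f : ℕ → Eu (n + 1) → ℝ} (hf : ∀ k, ContDiff ℝ 1 (f k)) :
    Measurable (WW f) :=
  Measurable.liminf fun k => (measurable_V (hf k)).ennreal_ofReal

theorem conv_mul {n : ℕ} {A : Set (Eu (n + 1))} (hA : MeasurableSet A)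
    {f : ℕ → Eu (n + 1) → ℝ} (hf : ∀ k, Continuous (f k))
    (hc : Tendsto (fun k => ∫ x in unitCell (n + 1), |f k x - ind A x|) atTop (𝓝 0))
    {G : Eu (n + 1) → ℝ} (hG : Measurable G) {C : ℝ} (hC : ∀ x ∈ unitCell (n + 1), |G x| ≤ C) :
    Tendsto (fun k => ∫ x in unitCell (n + 1), G x * f k x) atTop
      (𝓝 (∫ x in unitCell (n + 1), G x * ind A x)) := by
  have hiA := integrableOn_ind A hA
  have h1 : ∀ k, |(∫ x in unitCell (n + 1), G x * f k x) - ∫ x in unitCell (n + 1), G x * ind A x|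
      ≤ C * ∫ x in unitCell (n + 1), |f k x - ind A x| := by
    intro k
    have i1 := intOn_mul hG hC (integrableOn_cell _ (hf k))
    have i2 := intOn_mul hG hC hiA
    rw [← integral_sub i1 i2, ← integral_const_mul, ← Real.norm_eq_abs]
    have i3 : IntegrableOn (fun x => |f k x - ind A x|) (unitCell (n + 1)) :=
      ((integrableOn_cell _ (hf k)).sub hiA).abs
    refine norm_integral_le_of_norm_le (i3.const_mul C) ?_
    filter_upwards [ae_restrict_mem measurableSet_cell] with x hx
    rw [← mul_sub, norm_mul, Real.norm_eq_abs, Real.norm_eq_abs]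
    exact mul_le_mul_of_nonneg_right (hC x hx) (abs_nonneg _)
  rw [tendsto_iff_dist_tendsto_zero]
  refine squeeze_zero (fun _ => dist_nonneg) (fun k => ?_) (by simpa using hc.const_mul C)
  rw [Real.dist_eq]; exact h1 k

theorem limit_ineq {n : ℕ} {A : Set (Eu (n + 1))} (hA : MeasurableSet A) {P : ℝ}
    {f : ℕ → Eu (n + 1) → ℝ} (hS : Seq A P f) {w : ℝ → ℝ}
    (hw : Measurable w) (hw0 : ∀ t, 0 ≤ w t) (hw1 : ∀ t, w t ≤ 1) {U G : Eu (n + 1) → ℝ}
    (hU : Measurable U) (hwU : ∀ x, w (x 0) ^ 2 + U x ^ 2 ≤ 1)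
    (hG : Measurable G) {C : ℝ} (hC : ∀ x ∈ unitCell (n + 1), |G x| ≤ C)
    (hid : ∀ f : Eu (n + 1) → ℝ, ContDiff ℝ 1 f → PerFun f →
      - ∫ x in unitCell (n + 1), U x * fderiv ℝ f x e0 = ∫ x in unitCell (n + 1), G x * f x) :
    (∫ t in Set.Ico (0 : ℝ) 1, w t * (WW f t).toReal) + ∫ x in unitCell (n + 1), G x * ind A x
      ≤ P := by
  set L := ∫ x in unitCell (n + 1), G x * ind A x with hL
  have hlim := conv_mul hA (fun k => (hS.smooth k).continuous) hS.conv hG hC
  have hk := fun k => smooth_ineq (hS.smooth k) hw hw0 hw1 hU hwU (hid _ (hS.smooth k) (hS.per k))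
  have hk2 : ∀ k, (∫ t in Set.Ico (0 : ℝ) 1, w t * V (f k) t)
      ≤ P - ∫ x in unitCell (n + 1), G x * f k x := fun k => by
    have := (hk k).2
    have := hS.var k
    linarith
  have hlim2 : Tendsto (fun k => P - ∫ x in unitCell (n + 1), G x * f k x) atTop (𝓝 (P - L)) :=
    hlim.const_sub P
  have hPL : 0 ≤ P - L := by
    refine ge_of_tendsto' hlim2 fun k => le_trans ?_ (hk2 k)
    exact integral_nonneg fun t => mul_nonneg (hw0 t) (V_nonneg _ _)
  have hmul : ∀ t, ENNReal.ofReal (w t) * WW f t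
      = liminf (fun k => ENNReal.ofReal (w t * V (f k) t)) atTop := by
    intro t
    have h1 : Monotone (fun z : ℝ≥0∞ => ENNReal.ofReal (w t) * z) :=
      fun a b hab => mul_le_mul_right hab _
    have h2 : Continuous (fun z : ℝ≥0∞ => ENNReal.ofReal (w t) * z) :=
      ENNReal.continuous_const_mul ENNReal.ofReal_ne_top
    have h3 := h1.map_liminf_of_continuousAt (F := atTop)
      (fun k => ENNReal.ofReal (V (f k) t)) h2.continuousAt
    unfold WW
    rw [h3]
    congr 1
    funext k
    simp only [Function.comp]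
    rw [ENNReal.ofReal_mul (hw0 t)]
  have hfat : ∫⁻ t in Set.Ico (0 : ℝ) 1, ENNReal.ofReal (w t) * WW f t
      ≤ ENNReal.ofReal (P - L) := by
    simp_rw [hmul]
    have hmeas : ∀ k, Measurable (fun t => ENNReal.ofReal (w t * V (f k) t)) := fun k =>
      (hw.mul (measurable_V (hS.smooth k))).ennreal_ofReal
    refine (lintegral_liminf_le hmeas).trans ?_
    have h4 := (ENNReal.continuous_ofReal.tendsto _).comp hlim2
    have h5 := h4.liminf_eq
    rw [← h5]
    refine liminf_le_liminf (Eventually.of_forall fun k => ?_)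
    simp only [Function.comp]
    rw [← ofReal_integral_eq_lintegral_ofReal (hk k).1
      (Eventually.of_forall fun t => mul_nonneg (hw0 t) (V_nonneg _ _))]
    exact ENNReal.ofReal_le_ofReal (hk2 k)
  have hfin : (∫ t in Set.Ico (0 : ℝ) 1, w t * (WW f t).toReal) ≤ P - L := by
    have hm : Measurable (fun t => w t * (WW f t).toReal) :=
      hw.mul (measurable_WW hS.smooth).ennreal_toReal
    rw [integral_eq_lintegral_of_nonneg_ae
      (Eventually.of_forall fun t => mul_nonneg (hw0 t) ENNReal.toReal_nonneg)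
      hm.aestronglyMeasurable]
    refine ENNReal.toReal_le_of_le_ofReal hPL (le_trans (lintegral_mono fun t => ?_) hfat)
    rw [ENNReal.ofReal_mul (hw0 t)]
    exact mul_le_mul_right ENNReal.ofReal_toReal_le _
  linarith

theorem WW_int {n : ℕ} {A : Set (Eu (n + 1))} {P : ℝ}
    {f : ℕ → Eu (n + 1) → ℝ} (hS : Seq A P f) :
    ∫⁻ t in Set.Ico (0 : ℝ) 1, WW f t ≤ ENNReal.ofReal P := by
  unfold WW
  refine (lintegral_liminf_le fun k => (measurable_V (hS.smooth k)).ennreal_ofReal).trans ?_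
  have h1 : ∀ k, ∫⁻ t in Set.Ico (0 : ℝ) 1, ENNReal.ofReal (V (f k) t) ≤ ENNReal.ofReal P := by
    intro k
    have h := smooth_ineq (f := f k) (hS.smooth k) (w := fun _ => 1) (U := fun _ => 0)
      (G := fun _ => 0) measurable_const (fun _ => zero_le_one) (fun _ => le_rfl) measurable_const
      (fun x => by norm_num) (by simp)
    simp only [one_mul, zero_mul, integral_zero, add_zero] at h
    rw [← ofReal_integral_eq_lintegral_ofReal h.1 (Eventually.of_forall fun t => V_nonneg _ _)]
    exact ENNReal.ofReal_le_ofReal (h.2.trans (hS.var k))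
  calc liminf (fun k => ∫⁻ t in Set.Ico (0 : ℝ) 1, ENNReal.ofReal (V (f k) t)) atTop
      ≤ liminf (fun _ : ℕ => ENNReal.ofReal P) atTop :=
        liminf_le_liminf (Eventually.of_forall h1)
    _ = ENNReal.ofReal P := liminf_const _

theorem exists_seq {n : ℕ} (A : Set (Eu (n + 1))) (hA : MeasurableSet A)
    (hp : IsLatticePeriodic A) (hfin : periodicPerimeter A ≠ ⊤) :
    ∃ f : ℕ → Eu (n + 1) → ℝ, Seq A (periodicPerimeter A).toReal f := by
  have hm : Measurable (ind A) := measurable_const.indicator hA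
  have hper : PerFun (ind A) := by
    intro v hv x
    unfold ind
    by_cases h : x ∈ A
    · rw [Set.indicator_of_mem h, Set.indicator_of_mem ((hp v hv x).2 h)]
    · rw [Set.indicator_of_notMem h, Set.indicator_of_notMem (fun h' => h ((hp v hv x).1 h'))]
  have h0 : ∀ x, 0 ≤ ind A x := fun x => Set.indicator_nonneg (fun _ _ => zero_le_one) x
  have h1 : ∀ x, ind A x ≤ 1 := fun x => by
    unfold ind
    exact Set.indicator_le' (fun _ _ => le_rfl) (fun _ _ => zero_le_one) x
  obtain ⟨g, g2, gp, g0, g1, gv, gc, -⟩ := exists_moll (ind A) hm h0 h1 hper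
  have hiA := integrableOn_ind A hA
  have hi : ∀ k, IntegrableOn (fun x => |g k x - ind A x|) (unitCell (n + 1)) := fun k =>
    ((integrableOn_cell _ (g2 k).continuous).sub hiA).abs
  set D : ℕ → ℝ → ℝ := fun k t => ∫ y in unitCell n, |g k (cons t y) - ind A (cons t y)| with hD
  have hDi : ∀ k, IntegrableOn (D k) (Set.Ico 0 1) := fun k => intOn_fiber (hi k)
  have hDn : ∀ k t, 0 ≤ D k t := fun k t => integral_nonneg fun _ => abs_nonneg _
  have hDint : ∀ k, ∫ t in Set.Ico (0 : ℝ) 1, D k t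
      = ∫ x in unitCell (n + 1), |g k x - ind A x| := fun k =>
    (integral_cell_fubini _ (hi k)).symm
  have hL1 : Tendsto (fun k => eLpNorm (D k - 0) 1 (volume.restrict (Set.Ico (0 : ℝ) 1))) atTop
      (𝓝 0) := by
    have h2 : ∀ k, eLpNorm (D k - 0) 1 (volume.restrict (Set.Ico (0 : ℝ) 1))
        = ENNReal.ofReal (∫ x in unitCell (n + 1), |g k x - ind A x|) := by
      intro k
      rw [sub_zero, eLpNorm_one_eq_lintegral_enorm, ← ofReal_integral_norm_eq_lintegral_enorm (hDi k),
        ← hDint]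
      congr 1
      exact integral_congr_ae (Eventually.of_forall fun t => by
        simp only [Real.norm_eq_abs]; exact abs_of_nonneg (hDn k t))
    simp_rw [h2]
    have h3 := (ENNReal.continuous_ofReal.tendsto _).comp gc
    rw [ENNReal.ofReal_zero] at h3
    exact h3
  have hTM := tendstoInMeasure_of_tendsto_eLpNorm (p := 1) one_ne_zero
    (fun k => (hDi k).aestronglyMeasurable) aestronglyMeasurable_const hL1
  obtain ⟨ns, hns, hae⟩ := hTM.exists_seq_tendsto_ae
  refine ⟨fun k => g (ns k), ⟨fun k => (g2 _).of_le (by norm_num), fun k => gp _, fun k => ?_,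
    gc.comp hns.tendsto_atTop, ?_⟩⟩
  · have h4 := gv (ns k)
    rw [← periodicPerimeter_eq_TV A hA] at h4
    exact (ENNReal.ofReal_le_iff_le_toReal hfin).1 h4
  · filter_upwards [hae] with t ht
    exact ht

theorem slice_le {n : ℕ} {A : Set (Eu (n + 1))} (hA : MeasurableSet A) {P : ℝ}
    {f : ℕ → Eu (n + 1) → ℝ} (hS : Seq A P f) :
    ∀ᵐ t ∂(volume.restrict (Set.Ico (0 : ℝ) 1)), periodicPerimeter (sl A t) ≤ WW f t := by
  filter_upwards [hS.fib] with t ht
  rw [periodicPerimeter_eq_TV _ (measurableSet_sl hA t)]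
  have hc : ∀ k, ContDiff ℝ 1 (fun y : Eu n => f k (cons t y)) := fun k =>
    contDiff_slice (hS.smooth k) t
  refine (TV_lsc (ind (sl A t)) (fun k y => f k (cons t y)) (integrableOn_ind _ (measurableSet_sl hA t))
    (fun k => integrableOn_cell _ (hc k).continuous) ht).trans ?_
  unfold WW
  refine liminf_le_liminf (Eventually.of_forall fun k => ?_)
  refine (TV_le_VV _ (hc k) (perFun_slice (hS.per k) t)).trans ?_
  rw [VV_slice (hS.smooth k)]

/-- identity for case (a) -/
theorem ident_a {n : ℕ} {u : Eu (n + 1) → ℝ} (hu : ContDiff ℝ 1 u) (hup : PerFun u)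
    (f : Eu (n + 1) → ℝ) (hf : ContDiff ℝ 1 f) (hfp : PerFun f) :
    - ∫ x in unitCell (n + 1), u x * fderiv ℝ f x e0
      = ∫ x in unitCell (n + 1), fderiv ℝ u x e0 * f x := by
  have h := ibp f hf hfp (fun x => u x • (e0 : Eu (n + 1))) (hu.smul contDiff_const)
    (fun v hv x => by simp only [hup v hv x])
  have hd : ∀ x, divergence (fun x => u x • (e0 : Eu (n + 1))) x = fderiv ℝ u x e0 := by
    intro x
    have h1 : HasFDerivAt (fun x => u x • (e0 : Eu (n + 1)))
        ((fderiv ℝ u x).smulRight (e0 : Eu (n + 1))) x :=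
      ((hu.differentiable one_ne_zero x).hasFDerivAt).smul_const _
    unfold divergence
    rw [h1.fderiv, Fin.sum_univ_succ]
    simp [e0]
  simp only [hd, map_smul, smul_eq_mul] at h
  rw [← h]
  exact integral_congr_ae (Eventually.of_forall fun x => mul_comm _ _)

/-- identity for case (b) -/
theorem ident_b {n : ℕ} (b bh : ℝ → ℝ) (K : ℝ) (hbm : Measurable bh) (hK : ∀ t, |bh t| ≤ K)
    (hb : ∀ s t, b t - b s = ∫ x in s..t, bh x) (hb1 : ∀ t, b (t + 1) = b t)
    (hbmeas : Measurable b) (hbb : ∀ t, |b t| ≤ 1)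
    (f : Eu (n + 1) → ℝ) (hf : ContDiff ℝ 1 f) (hfp : PerFun f) :
    - ∫ x in unitCell (n + 1), b (x 0) * fderiv ℝ f x e0
      = ∫ x in unitCell (n + 1), bh (x 0) * f x := by
  have hx0 : Measurable (fun x : Eu (n + 1) => x 0) := by fun_prop
  have hD : IntegrableOn (fun x => fderiv ℝ f x e0) (unitCell (n + 1)) :=
    integrableOn_cell _ ((hf.continuous_fderiv one_ne_zero).clm_apply continuous_const)
  have i1 : IntegrableOn (fun x => b (x 0) * fderiv ℝ f x e0) (unitCell (n + 1)) :=
    intOn_mul (C := 1) (hbmeas.comp hx0) (fun x _ => hbb _) hD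
  have i2 : IntegrableOn (fun x => bh (x 0) * f x) (unitCell (n + 1)) :=
    intOn_mul (C := K) (hbm.comp hx0) (fun x _ => hK _) (integrableOn_cell _ hf.continuous)
  rw [integral_cell_fubini' _ i1, integral_cell_fubini' _ i2, ← integral_neg]
  refine integral_congr_ae (Eventually.of_forall fun y => ?_)
  simp only [cons_zero]
  have h1 : f (cons 1 y) = f (cons 0 y) := by
    have h := hfp (cons ((1 : ℤ) : ℝ) 0) (hasIntegerCoords_cons 1 0 hasIntegerCoords_zero') (cons 0 y)
    rw [← cons_add] at h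
    simpa using h
  have hcont : Continuous (fun t : ℝ => fderiv ℝ f (cons t y) e0) :=
    ((hf.continuous_fderiv one_ne_zero).comp
      (continuous_cons.comp (Continuous.prodMk_left y))).clm_apply continuous_const
  have h := ibp1 b bh K hbm hK hb hb1 (fun t => f (cons t y)) (fun t => fderiv ℝ f (cons t y) e0)
    (fun t => hasDerivAt_cons f hf y t) hcont h1
  rw [integral_Ico_eq_integral_Ioc, integral_Ico_eq_integral_Ioc,
    ← intervalIntegral.integral_of_le zero_le_one, ← intervalIntegral.integral_of_le zero_le_one, h]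
  ring

end S1

theorem exists_slice_majorant {n : ℕ} (A : Set (Eu (n + 1))) (hA : MeasurableSet A)
    (hp : IsLatticePeriodic A) (hfin : periodicPerimeter A ≠ ⊤) :
    ∃ W : ℝ → ℝ, Measurable W ∧ (∀ t, 0 ≤ W t) ∧ IntegrableOn W (Set.Ico 0 1) ∧
      (∀ᵐ t ∂(volume.restrict (Set.Ico (0 : ℝ) 1)),
        periodicPerimeter (sl A t) ≤ ENNReal.ofReal (W t)) ∧
      (∀ (u : Eu (n + 1) → ℝ) (M : ℝ), ContDiff ℝ 1 u → PerFun u → 0 ≤ M → M ≤ 1 →
        (∀ x, |u x| ≤ M) →
        Real.sqrt (1 - M ^ 2) * (∫ t in Set.Ico (0 : ℝ) 1, W t) +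
          ∫ x in A ∩ unitCell (n + 1), fderiv ℝ u x e0 ≤ (periodicPerimeter A).toReal) ∧
      (∀ (b bh : ℝ → ℝ) (K : ℝ), Measurable bh → (∀ t, |bh t| ≤ K) →
        (∀ s t, b t - b s = ∫ x in s..t, bh x) → (∀ t, b (t + 1) = b t) → (∀ t, |b t| ≤ 1) →
        (∫ t in Set.Ico (0 : ℝ) 1, Real.sqrt (1 - b t ^ 2) * W t) +
          ∫ t in Set.Ico (0 : ℝ) 1, bh t * periodicVolume (sl A t) ≤
            (periodicPerimeter A).toReal) := by
  obtain ⟨f, hS⟩ := S1.exists_seq A hA hp hfin
  have hWm := S1.measurable_WW hS.smooth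
  have hWi := S1.WW_int hS
  have hWae : ∀ᵐ t ∂(volume.restrict (Set.Ico (0 : ℝ) 1)), S1.WW f t < ⊤ :=
    ae_lt_top hWm (hWi.trans_lt ENNReal.ofReal_lt_top).ne
  refine ⟨fun t => (S1.WW f t).toReal, hWm.ennreal_toReal, fun t => ENNReal.toReal_nonneg,
    integrable_toReal_of_lintegral_ne_top hWm.aemeasurable
      (hWi.trans_lt ENNReal.ofReal_lt_top).ne, ?_, ?_, ?_⟩
  · filter_upwards [S1.slice_le hA hS, hWae] with t h1 h2
    rwa [ENNReal.ofReal_toReal h2.ne]
  · intro u M hu hup hM0 hM1 hM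
    have hc := (hu.continuous_fderiv one_ne_zero).clm_apply
      (continuous_const (y := (e0 : Eu (n + 1))))
    obtain ⟨C, -, hC⟩ := S1.cell_bound hc
    have h1M : 0 ≤ 1 - M ^ 2 := by nlinarith
    have h := S1.limit_ineq hA hS (w := fun _ => Real.sqrt (1 - M ^ 2)) (U := u)
      (G := fun x => fderiv ℝ u x e0) measurable_const (fun _ => Real.sqrt_nonneg _)
      (fun _ => Real.sqrt_le_one.2 (by nlinarith [sq_nonneg M])) hu.continuous.measurable
      (fun x => by
        rw [Real.sq_sqrt h1M]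
        have := hM x
        have h2 : u x ^ 2 ≤ M ^ 2 := sq_le_sq' (by linarith [(abs_le.1 this).1]) (abs_le.1 this).2
        linarith) hc.measurable hC (S1.ident_a hu hup)
    rw [integral_const_mul] at h
    have h3 : ∫ x in A ∩ unitCell (n + 1), fderiv ℝ u x e0
        = ∫ x in unitCell (n + 1), fderiv ℝ u x e0 * ind A x := by
      rw [Set.inter_comm, ← setIntegral_indicator hA]
      refine integral_congr_ae (Eventually.of_forall fun x => ?_)
      by_cases hx : x ∈ A
      · simp [ind, Set.indicator_of_mem hx]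
      · simp [ind, Set.indicator_of_notMem hx]
    rw [h3]
    exact h
  · intro b bh K hbm hK hb hb1 hbb
    have hK0 : 0 ≤ K := (abs_nonneg _).trans (hK 0)
    have hbc : Continuous b := by
      have hlip : LipschitzWith (Real.toNNReal K) b := by
        refine LipschitzWith.of_dist_le_mul fun x y => ?_
        rw [Real.dist_eq, Real.dist_eq, Real.coe_toNNReal K hK0, hb y x]
        have := intervalIntegral.norm_integral_le_of_norm_le_const (f := bh) (a := y) (b := x)
          (C := K) (fun t _ => by rw [Real.norm_eq_abs]; exact hK t)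
        simpa [Real.norm_eq_abs] using this
      exact hlip.continuous
    have hx0 : Measurable (fun x : Eu (n + 1) => x 0) := by fun_prop
    have hb2 : ∀ t, 0 ≤ 1 - b t ^ 2 := fun t => by
      have := (sq_le_one_iff_abs_le_one (b t)).2 (hbb t)
      linarith
    have h := S1.limit_ineq hA hS (w := fun t => Real.sqrt (1 - b t ^ 2)) (U := fun x => b (x 0))
      (G := fun x => bh (x 0)) (by
        have := hbc.measurable
        fun_prop) (fun _ => Real.sqrt_nonneg _)
      (fun t => Real.sqrt_le_one.2 (by nlinarith [sq_nonneg (b t)])) (hbc.measurable.comp hx0)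
      (fun x => by rw [Real.sq_sqrt (hb2 _)]; linarith) (hbm.comp hx0) (C := K) (fun x _ => hK _)
      (S1.ident_b b bh K hbm hK hb hb1 hbc.measurable hbb)
    have h3 : ∫ t in Set.Ico (0 : ℝ) 1, bh t * periodicVolume (sl A t)
        = ∫ x in unitCell (n + 1), bh (x 0) * ind A x := by
      have hi : IntegrableOn (fun x => bh (x 0) * ind A x) (unitCell (n + 1)) :=
        S1.intOn_mul (C := K) (hbm.comp hx0) (fun x _ => hK _) (integrableOn_ind A hA)
      rw [integral_cell_fubini _ hi]
      refine integral_congr_ae (Eventually.of_forall fun t => ?_)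
      simp only [cons_zero]
      rw [integral_const_mul, ← setIntegral_ind _ (measurableSet_sl hA t)]
      rfl
    rw [h3]
    exact h

end Crest.Agent.R214
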