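import Crest.Agent.R214.Defs2
import Crest.Agent.R214.Slice
import Crest.Agent.R214.Arc
import Crest.Agent.R214.Inv

/-!
# SBthm: the one-dimensional data of a fully symmetric decreasing set

`symDown_*`: elementary (`dZ` is even and 1-periodic, so a `SymDown` set is periodic, its slices
`sl F x` depend only on `dZ x`, are `SymDown`, and decrease with `dZ x`).

`exists_OD`: `W` from `exists_slice_majorant`; `L t = (W (t/2) + W (1 - t/2)) / 4` (then
`P(sl F (t/2)) ≤ 2 L t` a.e. and `∫_0^1 √(1-b²) W = 2 ∫_0^1 √(1-b̃²) L` for `b x = b̃(2x)` on `[0,1/2]`, odd).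
Field `SB`: `s = prof F`, `B σ = ∫_0^σ β`, for small `ε` and `ζ ∈ (0,1-ε)` let
`b_ε(ζ) = (B(s ζ) - B(s(ζ+ε)))/(s ζ - s(ζ+ε))` if `s ζ ≠ s(ζ+ε)`, else `β (s ζ)`; `b_ε = 0` outside `(0,1-ε)`.
`b̃(t) = (1/ε) ∫_{t-ε}^t b_ε` is Lipschitz, `b̃(0) = b̃(1) = 0`, `0 ≤ b̃ ≤ 1`, and
`∫_0^1 b̃' s = (1/ε) ∫_0^{1-ε} b_ε(ζ)(s ζ - s(ζ+ε)) dζ = (1/ε) ∫_0^{1-ε} (B(s ζ) - B(s(ζ+ε))) dζ
→ B(s(0+)) - B(s(1-))` (telescoping, `B∘s` monotone). And `b̃_ε(t) → β(s t)` for a.e. `t`: at continuity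
points of `s` with `s t ∉ Z`, and in the interior of plateaus of `s`; the remaining `t` form a
countable set. Dominated convergence for `∫ √(1-b̃²) L`. The odd extension to the circle:
`b x = b̃(2x)` on `[0,1/2]`, `b x = - b̃(2(1-x))` on `[1/2,1]`, `bh x = 2 b̃'(2x)` resp. `2 b̃'(2(1-x))`, and
`∫_0^1 bh(x) vol(sl F x) dx = 2 ∫_0^1 b̃' s`. Divide everything by 2.
-/

set_option autoImplicit false
open MeasureTheory Crest.GeometryTopology.PeriodicPerimeter Filter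
open scoped ENNReal NNReal Topology
noncomputable section
namespace Crest.Agent.R214

theorem symDown_periodic {n : ℕ} {F : Set (Eu n)} (h : SymDown F) : IsLatticePeriodic F := by
  sorry

theorem symDown_sl {n : ℕ} {F : Set (Eu (n + 1))} (h : SymDown F) (t : ℝ) :
    SymDown (sl F t) := by
  sorry

theorem symDown_pm {n : ℕ} (σ : Equiv.Perm (Fin n)) {F : Set (Eu n)} (h : SymDown F) :
    SymDown (pm σ F) := by
  sorry

theorem symDown_sl_mono {n : ℕ} {F : Set (Eu (n + 1))} (h : SymDown F) {s t : ℝ}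
    (hst : dZ s ≤ dZ t) : sl F t ⊆ sl F s := by
  sorry

theorem prof_antitone {n : ℕ} {F : Set (Eu (n + 1))} (h : SymDown F) :
    AntitoneOn (prof F) (Set.Icc 0 1) := by
  sorry

theorem prof_integral {n : ℕ} {F : Set (Eu (n + 1))} (hF : MeasurableSet F) (h : SymDown F) :
    ∫ t in Set.Ioo (0 : ℝ) 1, prof F t = periodicVolume F := by
  sorry

theorem exists_OD {n : ℕ} (F : Set (Eu (n + 1))) (hF : MeasurableSet F) (hS : SymDown F)
    (hfin : periodicPerimeter F ≠ ⊤) :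
    ∃ L : ℝ → ℝ, OD (periodicVolume F) ((periodicPerimeter F).toReal / 2) (prof F) L ∧
      ∀ᵐ t ∂(volume.restrict (Set.Ioo (0 : ℝ) 1)),
        periodicPerimeter (sl F (t / 2)) ≤ ENNReal.ofReal (2 * L t) := by
  sorry

end Crest.Agent.R214
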