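import Crest.Agent.R214.Cell

/-!
Row 214, module G5 (dual slicing), basic part: splitting of coordinates and Fubini.
-/

set_option autoImplicit false

open MeasureTheory Crest.GeometryTopology.PeriodicPerimeter

namespace Crest.Agent.R214.Slice

variable {m k N : ℕ}

/-- join coordinates along `e : Fin m ⊕ Fin k ≃ Fin N` -/
noncomputable def join (e : Fin m ⊕ Fin k ≃ Fin N) (x : En m) (y : En k) : En N :=
  WithLp.toLp 2 (fun j => Sum.elim (fun i => x i) (fun i => y i) (e.symm j))

/-- the base coordinates -/
noncomputable def base (e : Fin m ⊕ Fin k ≃ Fin N) : En N →L[ℝ] En m :=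
  LinearMap.toContinuousLinearMap
    { toFun := fun z => WithLp.toLp 2 (fun i => z (e (Sum.inl i)))
      map_add' := fun _ _ => rfl
      map_smul' := fun _ _ => rfl }

/-- the fibre coordinates -/
noncomputable def fib (e : Fin m ⊕ Fin k ≃ Fin N) : En N →L[ℝ] En k :=
  LinearMap.toContinuousLinearMap
    { toFun := fun z => WithLp.toLp 2 (fun i => z (e (Sum.inr i)))
      map_add' := fun _ _ => rfl
      map_smul' := fun _ _ => rfl }

@[simp] theorem join_inl (e : Fin m ⊕ Fin k ≃ Fin N) (x : En m) (y : En k) (i : Fin m) :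
    join e x y (e (Sum.inl i)) = x i := by simp [join]

@[simp] theorem join_inr (e : Fin m ⊕ Fin k ≃ Fin N) (x : En m) (y : En k) (i : Fin k) :
    join e x y (e (Sum.inr i)) = y i := by simp [join]

@[simp] theorem base_apply (e : Fin m ⊕ Fin k ≃ Fin N) (z : En N) (i : Fin m) :
    base e z i = z (e (Sum.inl i)) := rfl

@[simp] theorem fib_apply (e : Fin m ⊕ Fin k ≃ Fin N) (z : En N) (i : Fin k) :
    fib e z i = z (e (Sum.inr i)) := rfl

theorem ext_of (e : Fin m ⊕ Fin k ≃ Fin N) {z w : En N}
    (h1 : ∀ i, z (e (Sum.inl i)) = w (e (Sum.inl i)))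
    (h2 : ∀ i, z (e (Sum.inr i)) = w (e (Sum.inr i))) : z = w := by
  ext j
  obtain ⟨j, rfl⟩ := e.surjective j
  cases j with
  | inl i => exact h1 i
  | inr i => exact h2 i

@[simp] theorem base_join (e : Fin m ⊕ Fin k ≃ Fin N) (x : En m) (y : En k) :
    base e (join e x y) = x := by ext i; simp

@[simp] theorem fib_join (e : Fin m ⊕ Fin k ≃ Fin N) (x : En m) (y : En k) :
    fib e (join e x y) = y := by ext i; simp

@[simp] theorem join_base_fib (e : Fin m ⊕ Fin k ≃ Fin N) (z : En N) :
    join e (base e z) (fib e z) = z := ext_of e (by simp) (by simp)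

theorem base_add_join (e : Fin m ⊕ Fin k ≃ Fin N) (x x' : En m) (y y' : En k) :
    join e (x + x') (y + y') = join e x y + join e x' y' := ext_of e (by simp) (by simp)

/-- as a linear equivalence -/
noncomputable def joinL (e : Fin m ⊕ Fin k ≃ Fin N) : (En m × En k) ≃L[ℝ] En N :=
  LinearEquiv.toContinuousLinearEquiv
    { toFun := fun p => join e p.1 p.2
      map_add' := fun p q => base_add_join e p.1 q.1 p.2 q.2
      map_smul' := fun c p => ext_of e (by simp) (by simp)
      invFun := fun z => (base e z, fib e z)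
      left_inv := fun p => by simp
      right_inv := fun z => by simp }

@[simp] theorem joinL_apply (e : Fin m ⊕ Fin k ≃ Fin N) (p : En m × En k) :
    joinL e p = join e p.1 p.2 := rfl

@[simp] theorem joinL_symm_apply (e : Fin m ⊕ Fin k ≃ Fin N) (z : En N) :
    (joinL e).symm z = (base e z, fib e z) := rfl

theorem continuous_join (e : Fin m ⊕ Fin k ≃ Fin N) :
    Continuous (fun p : En m × En k => join e p.1 p.2) := (joinL e).continuous

theorem norm_join_sq (e : Fin m ⊕ Fin k ≃ Fin N) (x : En m) (y : En k) :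
    ‖join e x y‖ ^ 2 = ‖x‖ ^ 2 + ‖y‖ ^ 2 := by
  rw [EuclideanSpace.norm_sq_eq, EuclideanSpace.norm_sq_eq, EuclideanSpace.norm_sq_eq,
    ← e.sum_comp, Fintype.sum_sum_type]
  simp

theorem measurePreserving_join (e : Fin m ⊕ Fin k ≃ Fin N) :
    MeasurePreserving (fun p : En m × En k => join e p.1 p.2) := by
  have h1 : MeasurePreserving (Prod.map (@WithLp.ofLp 2 (Fin m → ℝ)) (@WithLp.ofLp 2 (Fin k → ℝ)))
      (volume.prod volume) (volume.prod volume) :=
    (PiLp.volume_preserving_ofLp (Fin m)).prod (PiLp.volume_preserving_ofLp (Fin k))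
  have h2 := volume_measurePreserving_sumPiEquivProdPi_symm (fun _ : Fin m ⊕ Fin k => ℝ)
  have h3 := volume_measurePreserving_piCongrLeft (fun _ : Fin N => ℝ) e
  have h4 := PiLp.volume_preserving_toLp (Fin N)
  have := h4.comp (h3.comp (h2.comp h1))
  convert! this using 1
  ext p j
  obtain ⟨j, rfl⟩ := e.surjective j
  cases j with
  | inl i =>
    simp [MeasurableEquiv.coe_piCongrLeft, MeasurableEquiv.coe_sumPiEquivProdPi_symm,
      Equiv.sumPiEquivProdPi]
  | inr i =>
    simp [MeasurableEquiv.coe_piCongrLeft, MeasurableEquiv.coe_sumPiEquivProdPi_symm,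
      Equiv.sumPiEquivProdPi]

/-- the slice of `E` over the base point `x` -/
def slice (e : Fin m ⊕ Fin k ≃ Fin N) (E : Set (En N)) (x : En m) : Set (En k) :=
  {y | join e x y ∈ E}

theorem measurableSet_slice (e : Fin m ⊕ Fin k ≃ Fin N) {E : Set (En N)} (hE : MeasurableSet E)
    (x : En m) : MeasurableSet (slice e E x) :=
  ((continuous_join e).comp (Continuous.prodMk_right x)).measurable hE

theorem hasIntegerCoords_join (e : Fin m ⊕ Fin k ≃ Fin N) {x : En m} {y : En k}
    (hx : HasIntegerCoords x) (hy : HasIntegerCoords y) : HasIntegerCoords (join e x y) := by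
  intro j
  obtain ⟨j, rfl⟩ := e.surjective j
  cases j with
  | inl i => simpa using hx i
  | inr i => simpa using hy i

theorem hasIntegerCoords_base (e : Fin m ⊕ Fin k ≃ Fin N) {z : En N}
    (hz : HasIntegerCoords z) : HasIntegerCoords (base e z) := fun _ => hz _

theorem hasIntegerCoords_fib (e : Fin m ⊕ Fin k ≃ Fin N) {z : En N}
    (hz : HasIntegerCoords z) : HasIntegerCoords (fib e z) := fun _ => hz _

theorem hasIntegerCoords_zero {n : ℕ} : HasIntegerCoords (0 : En n) := fun _ => ⟨0, by simp⟩

theorem slice_periodic (e : Fin m ⊕ Fin k ≃ Fin N) {E : Set (En N)} (hE : IsLatticePeriodic E)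
    (x : En m) : IsLatticePeriodic (slice e E x) := by
  intro v hv y
  have := hE (join e 0 v) (hasIntegerCoords_join e hasIntegerCoords_zero hv) (join e x y)
  rw [← base_add_join, add_zero] at this
  exact this

theorem slice_add (e : Fin m ⊕ Fin k ≃ Fin N) {E : Set (En N)} (hE : IsLatticePeriodic E)
    (x v : En m) (hv : HasIntegerCoords v) : slice e E (x + v) = slice e E x := by
  ext y
  have := hE (join e v 0) (hasIntegerCoords_join e hv hasIntegerCoords_zero) (join e x y)
  rw [← base_add_join, add_zero] at this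
  exact this

theorem join_mem_unitCell (e : Fin m ⊕ Fin k ≃ Fin N) (x : En m) (y : En k) :
    join e x y ∈ unitCell N ↔ x ∈ unitCell m ∧ y ∈ unitCell k := by
  simp only [unitCell, Set.mem_ofPred_eq]
  constructor
  · intro h
    exact ⟨fun i => by simpa using h (e (Sum.inl i)), fun i => by simpa using h (e (Sum.inr i))⟩
  · rintro ⟨h1, h2⟩ j
    obtain ⟨j, rfl⟩ := e.surjective j
    cases j with
    | inl i => simpa using h1 i
    | inr i => simpa using h2 i

/-- Fubini -/
theorem setIntegral_join (e : Fin m ⊕ Fin k ≃ Fin N) {E : Set (En N)} (hE : MeasurableSet E)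
    {F : En N → ℝ} (hF : IntegrableOn F (E ∩ unitCell N)) :
    ∫ z in E ∩ unitCell N, F z =
      ∫ x in unitCell m, ∫ y in slice e E x ∩ unitCell k, F (join e x y) := by
  have hm := measurePreserving_join e
  have hemb : MeasurableEmbedding (fun p : En m × En k => join e p.1 p.2) :=
    (joinL e).toHomeomorph.measurableEmbedding
  have hEm : MeasurableSet (E ∩ unitCell N) := hE.inter (measurableSet_unitCell N)
  have hpre : (fun p : En m × En k => join e p.1 p.2) ⁻¹' (E ∩ unitCell N) =
      {p | p.1 ∈ unitCell m ∧ p.2 ∈ slice e E p.1 ∩ unitCell k} := by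
    ext p
    simp only [Set.mem_preimage, Set.mem_inter_iff, join_mem_unitCell, Set.mem_ofPred_eq, slice]
    tauto
  rw [← hm.setIntegral_preimage_emb hemb]
  have hI : IntegrableOn (fun p : En m × En k => F (join e p.1 p.2))
      ((fun p : En m × En k => join e p.1 p.2) ⁻¹' (E ∩ unitCell N)) :=
    (hm.integrableOn_comp_preimage hemb).2 hF
  rw [← integral_indicator (hemb.measurable hEm), ]
  have hI' := (integrable_indicator_iff (hemb.measurable hEm)).2 hI
  rw [show (volume : Measure (En m × En k)) = volume.prod volume from rfl] at hI' ⊢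
  rw [integral_prod _ hI', ← integral_indicator (measurableSet_unitCell m)]
  congr 1
  ext x
  by_cases hx : x ∈ unitCell m
  · rw [Set.indicator_of_mem hx, ← integral_indicator
      ((measurableSet_slice e hE x).inter (measurableSet_unitCell k))]
    congr 1
    ext y
    have key : ((x, y) ∈ (fun p : En m × En k => join e p.1 p.2) ⁻¹' (E ∩ unitCell N)) ↔
        y ∈ slice e E x ∩ unitCell k := by
      rw [hpre]
      exact ⟨fun h => h.2, fun h => ⟨hx, h⟩⟩
    by_cases hy : y ∈ slice e E x ∩ unitCell k
    · rw [Set.indicator_of_mem hy, Set.indicator_of_mem (key.2 hy)]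
    · rw [Set.indicator_of_notMem hy, Set.indicator_of_notMem (fun h => hy (key.1 h))]
  · rw [Set.indicator_of_notMem hx]
    rw [← integral_zero (En k) ℝ]
    congr 1
    ext y
    rw [Set.indicator_of_notMem]
    simp [join_mem_unitCell, hx]

end Crest.Agent.R214.Slice
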