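import Crest.Agent.R214.SliceLimit

/-!
Row 214, module G5 (dual slicing): slices and fibres along one coordinate direction.
-/

set_option autoImplicit false

open MeasureTheory Set Filter Topology Crest.GeometryTopology.PeriodicPerimeter
open scoped ContDiff ENNReal

namespace Crest.Agent.R214.Slice

variable {n : ℕ}

/-- coordinate `i` and the others -/
noncomputable def spl (i : Fin (n + 1)) : Fin 1 ⊕ Fin n ≃ Fin (n + 1) :=
  Equiv.ofBijective (Sum.elim (fun _ => i) i.succAbove) (by
    constructor
    · rintro (x | x) (y | y) h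
      · exact congrArg _ (Subsingleton.elim _ _)
      · exact absurd h.symm (Fin.succAbove_ne i y)
      · exact absurd h (Fin.succAbove_ne i x)
      · exact congrArg _ (Fin.succAbove_right_injective h)
    · intro j
      by_cases h : j = i
      · exact ⟨Sum.inl 0, h.symm⟩
      · obtain ⟨y, hy⟩ := Fin.exists_succAbove_eq h
        exact ⟨Sum.inr y, hy⟩)

@[simp] theorem spl_inl (i : Fin (n + 1)) (x : Fin 1) : spl i (Sum.inl x) = i := rfl

@[simp] theorem spl_inr (i : Fin (n + 1)) (x : Fin n) : spl i (Sum.inr x) = i.succAbove x := rfl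

theorem join_spl (i : Fin (n + 1)) (x : En 1) (y : En n) : join (spl i) x y = ins i (x 0) y := by
  refine ext_of (spl i) (fun j => ?_) (fun j => ?_)
  · rw [join_inl, spl_inl, ins_same, Subsingleton.elim j 0]
  · rw [join_inr, spl_inr, ins_succAbove]

theorem slice_spl (i : Fin (n + 1)) (E : Set (En (n + 1))) (x : En 1) :
    slice (spl i) E x = sliceAt i E (x 0) := by
  ext y
  simp only [slice, sliceAt, mem_ofPred_eq, join_spl]

/-- the others and coordinate `i` -/
noncomputable def spr (i : Fin (n + 1)) : Fin n ⊕ Fin 1 ≃ Fin (n + 1) :=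
  (Equiv.sumComm _ _).trans (spl i)

@[simp] theorem spr_inr (i : Fin (n + 1)) (x : Fin 1) : spr i (Sum.inr x) = i := rfl

@[simp] theorem spr_inl (i : Fin (n + 1)) (x : Fin n) : spr i (Sum.inl x) = i.succAbove x := rfl

theorem join_spr (i : Fin (n + 1)) (y : En n) (x : En 1) : join (spr i) y x = ins i (x 0) y := by
  refine ext_of (spr i) (fun j => ?_) (fun j => ?_)
  · rw [join_inl, spr_inl, ins_succAbove]
  · rw [join_inr, spr_inr, ins_same, Subsingleton.elim j 0]

theorem slice_spr (i : Fin (n + 1)) (E : Set (En (n + 1))) (y : En n) :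
    slice (spr i) E y = fiberAt i E y := by
  ext x
  simp only [slice, fiberAt, mem_ofPred_eq, join_spr]

/-! ### `En 1` and `ℝ` -/

/-- the point of `En 1` with coordinate `t` -/
noncomputable def one (t : ℝ) : En 1 := EuclideanSpace.single 0 t

@[simp] theorem one_apply (t : ℝ) : one t 0 = t := by simp [one]

theorem one_coord (x : En 1) : one (x 0) = x := by
  ext j
  rw [Subsingleton.elim j 0, one_apply]

/-- `En 1` is isometric to `ℝ` -/
noncomputable def oneL : ℝ →L[ℝ] En 1 :=
  LinearMap.toContinuousLinearMap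
    { toFun := one
      map_add' := fun s t => by
        ext j
        rw [Subsingleton.elim j 0]
        simp
      map_smul' := fun c t => by
        ext j
        rw [Subsingleton.elim j 0]
        simp }

@[simp] theorem oneL_apply (t : ℝ) : oneL t = one t := rfl

theorem norm_one' (t : ℝ) : ‖one t‖ = |t| := by
  simp [one]

theorem measurePreserving_coord : MeasurePreserving (fun x : En 1 => x 0) volume volume := by
  have h1 := PiLp.volume_preserving_ofLp (Fin 1)
  have h2 := volume_preserving_funUnique (Fin 1) ℝ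
  exact h2.comp h1

theorem measurableEmbedding_coord : MeasurableEmbedding (fun x : En 1 => x 0) := by
  have h1 : Continuous (fun x : En 1 => x 0) := (EuclideanSpace.proj (𝕜 := ℝ) (0 : Fin 1)).continuous
  have h2 : Continuous (one : ℝ → En 1) := oneL.continuous
  exact (Homeomorph.mk ⟨fun x : En 1 => x 0, one, one_coord, one_apply⟩ h1 h2).measurableEmbedding

theorem preimage_coord : (fun x : En 1 => x 0) ⁻¹' Ico (0 : ℝ) 1 = unitCell 1 := by
  ext x
  simp [unitCell]

theorem lintegral_one (F : ℝ → ℝ≥0∞) :
    ∫⁻ x in unitCell 1, F (x 0) = ∫⁻ t in Ico (0 : ℝ) 1, F t := by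
  rw [← measurePreserving_coord.setLIntegral_comp_preimage_emb measurableEmbedding_coord,
    preimage_coord]

theorem integral_one (F : ℝ → ℝ) :
    ∫ x in unitCell 1, F (x 0) = ∫ t in Ico (0 : ℝ) 1, F t := by
  rw [← measurePreserving_coord.setIntegral_preimage_emb measurableEmbedding_coord,
    preimage_coord]

theorem integral_one' (F : En 1 → ℝ) :
    ∫ x in unitCell 1, F x = ∫ t in Ico (0 : ℝ) 1, F (one t) := by
  rw [← integral_one (fun t => F (one t))]
  simp only [one_coord]

theorem lintegral_one' (F : En 1 → ℝ≥0∞) :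
    ∫⁻ x in unitCell 1, F x = ∫⁻ t in Ico (0 : ℝ) 1, F (one t) := by
  rw [← lintegral_one (fun t => F (one t))]
  simp only [one_coord]

theorem divergence_one (b : ℝ → ℝ) (x : En 1) :
    divergence (fun x : En 1 => one (b (x 0))) x = deriv b (x 0) := by
  unfold divergence
  rw [Fin.sum_univ_one]
  by_cases h : DifferentiableAt ℝ b (x 0)
  · have h1 : HasFDerivAt (fun x : En 1 => x 0) (EuclideanSpace.proj (𝕜 := ℝ) (0 : Fin 1)) x :=
      (EuclideanSpace.proj (𝕜 := ℝ) (0 : Fin 1)).hasFDerivAt
    have h2 := h.hasFDerivAt.comp x h1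
    have h3 : HasFDerivAt (fun x : En 1 => one (b (x 0)))
        (oneL.comp ((fderiv ℝ b (x 0)).comp (EuclideanSpace.proj (𝕜 := ℝ) (0 : Fin 1)))) x :=
      oneL.hasFDerivAt.comp x h2
    rw [h3.fderiv]
    simp
  · rw [fderiv_zero_of_not_differentiableAt, deriv_zero_of_not_differentiableAt h]
    · simp
    · intro h'
      apply h
      have h1 : DifferentiableAt ℝ (fun x : En 1 => one (b (x 0))) (oneL (x 0)) := by
        rw [oneL_apply, one_coord]; exact h'
      have h2 := h1.comp (x 0) oneL.differentiableAt
      have h3 := (EuclideanSpace.proj (𝕜 := ℝ) (0 : Fin 1)).differentiableAt.comp (x 0) h2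
      have h4 : (EuclideanSpace.proj (𝕜 := ℝ) (0 : Fin 1)) ∘
          ((fun x : En 1 => one (b (x 0))) ∘ oneL) = b := by
        ext t
        simp
      rwa [h4] at h3

theorem hasIntegerCoords_one {v : En 1} (hv : HasIntegerCoords v) : ∃ k : ℤ, v 0 = k := hv 0

theorem isPer_one {G : Type*} {b : ℝ → G} (hb : Function.Periodic b 1) :
    IsPer (fun x : En 1 => b (x 0)) := by
  intro v hv x
  obtain ⟨k, hk⟩ := hv 0
  simp only [PiLp.add_apply, hk]
  have := hb.int_mul k (x 0)
  simpa using this

/-- the dual slicing inequality along one coordinate -/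
theorem sliceIneq (n : ℕ) : SliceIneq n := by
  intro i E hE hEp a b C ha hb hbp ha0 hab
  have hcoordL : LipschitzWith 1 (fun x : En 1 => x 0) := by
    refine LipschitzWith.of_dist_le_mul fun x y => ?_
    rw [NNReal.coe_one, one_mul, dist_eq_norm, dist_eq_norm]
    exact PiLp.norm_apply_le (x - y) 0
  have honeL : LipschitzWith 1 (one : ℝ → En 1) := by
    refine LipschitzWith.of_dist_le_mul fun s t => ?_
    rw [NNReal.coe_one, one_mul, dist_eq_norm, dist_eq_norm, ← oneL_apply, ← oneL_apply, ← map_sub,
      oneL_apply, norm_one', Real.norm_eq_abs]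
  have h := slicing_add (spl i) hE hEp (a := fun x : En 1 => a (x 0))
    (ha.comp (EuclideanSpace.proj (𝕜 := ℝ) (0 : Fin 1)).continuous.measurable) (fun x => ha0 _)
    (b := fun x : En 1 => one (b (x 0))) (C := 1 * (C * 1)) (honeL.comp (hb.comp hcoordL))
    (fun v hv x => congrArg one (isPer_one hbp v hv x))
    (fun x => by rw [norm_one', sq_abs]; exact hab _)
  simp only [slice_spl, divergence_one] at h
  rw [lintegral_one (fun t => ENNReal.ofReal (a t) * periodicPerimeter (sliceAt i E t)),
    integral_one (fun t => deriv b t * periodicVolume (sliceAt i E t))] at h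
  exact h

/-- the slicing inequality over the fibres in direction `i` -/
theorem fiberIneq (i : Fin (n + 1)) {E : Set (En (n + 1))} (hE : MeasurableSet E)
    (hEp : IsLatticePeriodic E)
    {a : En n → ℝ} (ha : Measurable a) (ha0 : ∀ x, 0 ≤ a x) {b : En n → En n} {C : NNReal}
    (hb : LipschitzWith C b) (hbp : IsPer b) (hab : ∀ x, a x ^ 2 + ‖b x‖ ^ 2 ≤ 1) :
    (∫⁻ x in unitCell n, ENNReal.ofReal (a x) * periodicPerimeter (fiberAt i E x)) +
        ENNReal.ofReal (∫ x in unitCell n, divergence b x * periodicVolume (fiberAt i E x)) ≤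
      periodicPerimeter E +
        ENNReal.ofReal (-∫ x in unitCell n, divergence b x * periodicVolume (fiberAt i E x)) := by
  have := slicing_add (spr i) hE hEp ha ha0 hb hbp hab
  simpa only [slice_spr] using this

end Crest.Agent.R214.Slice
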