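import Crest.Agent.R214.SliceProof

/-!
Row 214, module G5 (dual slicing): the smooth case (dual slicing for a smooth periodic function).
-/

set_option autoImplicit false

open MeasureTheory Set Filter Topology Crest.GeometryTopology.PeriodicPerimeter
open scoped ContDiff ENNReal

namespace Crest.Agent.R214.Slice

variable {m k N : ℕ}

theorem fderiv_comp_base (e : Fin m ⊕ Fin k ≃ Fin N) (g : En m → ℝ) (z : En N) (v : En m) :
    fderiv ℝ (fun z => g (base e z)) z (inL e v) = fderiv ℝ g (base e z) v := by
  by_cases h : DifferentiableAt ℝ g (base e z)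
  · have h1 : HasFDerivAt (fun z => g (base e z)) ((fderiv ℝ g (base e z)).comp (base e)) z :=
      h.hasFDerivAt.comp z (base e).hasFDerivAt
    rw [h1.fderiv]
    simp [inL_apply]
  · rw [fderiv_zero_of_not_differentiableAt h, fderiv_zero_of_not_differentiableAt]
    · rfl
    · intro h'
      apply h
      have h1 : DifferentiableAt ℝ (fun x : En m => join e x (fib e z)) (base e z) := by
        simp only [join_eq]
        exact ((inL e).differentiableAt).add_const _
      have h2 : DifferentiableAt ℝ (fun z => g (base e z)) (join e (base e z) (fib e z)) := by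
        rw [join_base_fib]
        exact h'
      have h3 := h2.comp (base e z) h1
      have h4 : (fun z => g (base e z)) ∘ (fun x : En m => join e x (fib e z)) = g := by
        ext x
        simp
      rwa [h4] at h3

theorem isPer_comp_base (e : Fin m ⊕ Fin k ≃ Fin N) {G : Type*} {g : En m → G} (hg : IsPer g) :
    IsPer (fun z => g (base e z)) := by
  intro v hv z
  simp only [map_add]
  exact hg _ (hasIntegerCoords_base e hv) _

theorem inL_sum (e : Fin m ⊕ Fin k ≃ Fin N) (x : En m) :
    inL e x = ∑ i, x i • inL e (EuclideanSpace.single i 1) := by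
  conv_lhs => rw [show x = ∑ i, x i • (EuclideanSpace.single i (1:ℝ) : En m) by
    ext j
    simp [Finset.sum_apply, Pi.single_apply]]
  rw [map_sum]
  simp only [map_smul]

/-- integration by parts against a field depending on the base point only -/
theorem neg_integral_fderiv_base (e : Fin m ⊕ Fin k ≃ Fin N) {f : En N → ℝ}
    (hf : ContDiff ℝ ∞ f) (hp : IsPer f) {b : En m → En m} {C : NNReal}
    (hb : LipschitzWith C b) (hbp : IsPer b) :
    -∫ z in unitCell N, fderiv ℝ f z (inL e (b (base e z))) =
      ∫ x in unitCell m, divergence b x * ∫ y in unitCell k, f (join e x y) := by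
  have hf1 : ContDiff ℝ 1 f := hf.of_le (by norm_cast)
  obtain ⟨Cf, hCf⟩ := Inv.PeriodicFun.lipschitz (f := f) hp hf1
  obtain ⟨B, hB⟩ := hp.exists_bound hf.continuous
  have hcoord : ∀ i : Fin m, LipschitzWith C (fun x => b x i) := by
    intro i
    refine LipschitzWith.of_dist_le_mul fun x y => ?_
    calc dist (b x i) (b y i) ≤ dist (b x) (b y) := by
          rw [dist_eq_norm, dist_eq_norm]
          exact PiLp.norm_apply_le (b x - b y) i
      _ ≤ C * dist x y := hb.dist_le_mul x y
  have hbase : ∃ K : NNReal, LipschitzWith K (base e) := ⟨_, (base e).lipschitz⟩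
  obtain ⟨K, hK⟩ := hbase
  have hg : ∀ i : Fin m, LipschitzWith (C * K) (fun z : En N => b (base e z) i) := fun i =>
    (hcoord i).comp hK
  have hgp : ∀ i : Fin m, IsPer (fun z : En N => b (base e z) i) := fun i =>
    isPer_comp_base e (g := fun x => b x i) fun v hv x => by simp only [hbp v hv x]
  have hibp : ∀ i : Fin m, ∫ z in unitCell N, b (base e z) i * fderiv ℝ f z (inL e (EuclideanSpace.single i 1)) =
      -∫ z in unitCell N, fderiv ℝ (fun x => b x i) (base e z) (EuclideanSpace.single i 1) * f z := by
    intro i
    have := Inv.integral_cell_mul_fderiv (f := f) (g := fun z : En N => b (base e z) i) hp (hgp i) hCf (hg i)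
      (inL e (EuclideanSpace.single i 1))
    rw [this]
    congr 2
    ext z
    rw [fderiv_comp_base e (fun x => b x i)]
  -- integrability
  have hI1 : ∀ i : Fin m, Integrable (fun z => b (base e z) i * fderiv ℝ f z (inL e (EuclideanSpace.single i 1)))
      ((volume : Measure (En N)).restrict (unitCell N)) := by
    intro i
    refine IsPer.integrableOn (F := fun z => b (base e z) i * fderiv ℝ f z (inL e (EuclideanSpace.single i 1))) ?_ ?_
    · intro v hv z
      have h1 := hp.fderiv v hv z
      simp only at h1 ⊢
      rw [h1]
      have h2 := hgp i v hv z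
      simp only at h2
      rw [h2]
    · exact ((hg i).continuous).mul ((hf1.continuous_fderiv one_ne_zero).clm_apply continuous_const)
  have hI2 : ∀ i : Fin m, Integrable
      (fun z => fderiv ℝ (fun x => b x i) (base e z) (EuclideanSpace.single i 1) * f z)
      ((volume : Measure (En N)).restrict (unitCell N)) := by
    intro i
    refine Integrable.mono' (integrable_const (C * B)) ?_ ?_
    · have h1 : Measurable (fun x : En m => fderiv ℝ (fun x => b x i) x (EuclideanSpace.single i 1)) :=
        measurable_fderiv_apply_const ℝ _ _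
      exact ((h1.comp (base e).continuous.measurable).mul hf.continuous.measurable).aestronglyMeasurable
    · refine ae_of_all _ fun z => ?_
      rw [norm_mul]
      refine mul_le_mul ?_ (hB z) (norm_nonneg _) C.2
      calc ‖fderiv ℝ (fun x => b x i) (base e z) (EuclideanSpace.single i 1)‖
          ≤ ‖fderiv ℝ (fun x => b x i) (base e z)‖ * ‖(EuclideanSpace.single i (1:ℝ) : En m)‖ :=
            ContinuousLinearMap.le_opNorm _ _
        _ ≤ C * 1 := by
            refine mul_le_mul (norm_fderiv_le_of_lipschitz ℝ (hcoord i)) ?_ (norm_nonneg _) C.2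
            simp
        _ = C := mul_one _
  have h1 : ∫ z in unitCell N, fderiv ℝ f z (inL e (b (base e z))) =
      ∑ i, ∫ z in unitCell N, b (base e z) i * fderiv ℝ f z (inL e (EuclideanSpace.single i 1)) := by
    rw [← integral_finsetSum _ (fun i _ => hI1 i)]
    congr 1
    ext z
    rw [inL_sum, map_sum]
    simp only [map_smul, smul_eq_mul]
  rw [h1]
  simp only [hibp]
  rw [Finset.sum_neg_distrib, neg_neg]
  have h2 : ∀ i : Fin m,
      ∫ z in unitCell N, fderiv ℝ (fun x => b x i) (base e z) (EuclideanSpace.single i 1) * f z =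
      ∫ x in unitCell m, fderiv ℝ (fun x => b x i) x (EuclideanSpace.single i 1) *
        ∫ y in unitCell k, f (join e x y) := by
    intro i
    rw [integral_cell_join e (hI2 i)]
    congr 1
    ext x
    simp only [base_join]
    rw [integral_const_mul]
  simp only [h2]
  rw [← integral_finsetSum]
  · have hdiff : ∀ᵐ x ∂((volume : Measure (En m)).restrict (unitCell m)), DifferentiableAt ℝ b x :=
      ae_restrict_of_ae hb.ae_differentiableAt
    apply integral_congr_ae
    filter_upwards [hdiff] with x hx
    rw [Inv.divergence_eq_sum b x hx, Finset.sum_mul]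
  · intro i _
    refine Integrable.mono' (integrable_const (C * B)) ?_ ?_
    · have h1 : Measurable (fun x : En m => fderiv ℝ (fun x => b x i) x (EuclideanSpace.single i 1)) :=
        measurable_fderiv_apply_const ℝ _ _
      have h3 : StronglyMeasurable (fun x : En m => ∫ y in unitCell k, f (join e x y)) := by
        have : StronglyMeasurable (fun p : En m × En k => f (join e p.1 p.2)) :=
          (hf.continuous.comp (continuous_join e)).stronglyMeasurable
        exact this.integral_prod_right'
      exact (h1.stronglyMeasurable.mul h3).aestronglyMeasurable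
    · refine ae_of_all _ fun x => ?_
      rw [norm_mul]
      refine mul_le_mul ?_ ?_ (norm_nonneg _) C.2
      · calc ‖fderiv ℝ (fun x => b x i) x (EuclideanSpace.single i 1)‖
            ≤ ‖fderiv ℝ (fun x => b x i) x‖ * ‖(EuclideanSpace.single i (1:ℝ) : En m)‖ :=
              ContinuousLinearMap.le_opNorm _ _
          _ ≤ C * 1 := by
              refine mul_le_mul (norm_fderiv_le_of_lipschitz ℝ (hcoord i)) ?_ (norm_nonneg _) C.2
              simp
          _ = C := mul_one _
      · have := norm_integral_le_of_norm_le_const (μ := (volume : Measure (En k)).restrict (unitCell k))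
          (f := fun y => f (join e x y)) (C := B) (ae_of_all _ fun y => hB _)
        simpa using this

/-- the smooth case of the slicing inequality -/
theorem core_smooth (e : Fin m ⊕ Fin k ≃ Fin N) {f : En N → ℝ} (hf : ContDiff ℝ ∞ f)
    (hp : IsPer f) {P : ℝ} (hP : ∫ x in unitCell N, ‖fderiv ℝ f x‖ ≤ P)
    {a : En m → ℝ} (ha : Measurable a) {b : En m → En m} {C : NNReal}
    (hb : LipschitzWith C b) (hbp : IsPer b) (hab : ∀ x, a x ^ 2 + ‖b x‖ ^ 2 ≤ 1) :
    (∫ z in unitCell N, a (base e z) * ‖(fderiv ℝ f z).comp (inR e)‖) +
      (∫ x in unitCell m, divergence b x * ∫ y in unitCell k, f (join e x y)) ≤ P := by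
  have hf1 : ContDiff ℝ 1 f := hf.of_le (by norm_cast)
  rw [← neg_integral_fderiv_base e hf hp hb hbp]
  choose G hG1 hG2 using fun z => exists_dual ((fderiv ℝ f z).comp (inR e))
  set Φ : En N → En N := fun z => join e (b (base e z)) ((-a (base e z)) • G z) with hΦ
  have hΦ1 : ∀ z, ‖Φ z‖ ≤ 1 := by
    intro z
    rw [← sq_le_one_iff₀ (norm_nonneg _), hΦ]
    simp only
    rw [norm_join_sq, norm_smul, mul_pow]
    have h1 := hab (base e z)
    have h2 : ‖G z‖ ^ 2 ≤ 1 := by
      have := hG1 z
      have h0 := norm_nonneg (G z)
      nlinarith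
    have h3 : ‖-a (base e z)‖ ^ 2 = a (base e z) ^ 2 := by
      rw [norm_neg, Real.norm_eq_abs, sq_abs]
    rw [h3]
    have h4 : a (base e z) ^ 2 * ‖G z‖ ^ 2 ≤ a (base e z) ^ 2 * 1 :=
      mul_le_mul_of_nonneg_left h2 (sq_nonneg _)
    linarith
  have key := neg_integral_fderiv_apply_le hf hp hP hΦ1
  have hcL : Continuous (fun z => (fderiv ℝ f z).comp (inR e)) :=
    (hf1.continuous_fderiv one_ne_zero).clm_comp continuous_const
  have hpL : IsPer (fun z => (fderiv ℝ f z).comp (inR e)) := by
    intro v hv z
    have := hp.fderiv v hv z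
    simp only at this ⊢
    rw [this]
  obtain ⟨B, hB⟩ := hpL.exists_bound hcL
  have hI1 : Integrable (fun z => a (base e z) * ‖(fderiv ℝ f z).comp (inR e)‖)
      ((volume : Measure (En N)).restrict (unitCell N)) := by
    refine Integrable.mono' (integrable_const (1 * B)) ?_ ?_
    · exact ((ha.comp (base e).continuous.measurable).mul hcL.norm.measurable).aestronglyMeasurable
    · refine ae_of_all _ fun z => ?_
      rw [norm_mul, norm_norm]
      refine mul_le_mul ?_ (hB z) (norm_nonneg _) zero_le_one
      have h1 := hab (base e z)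
      have h2 : a (base e z) ^ 2 ≤ 1 := by nlinarith [sq_nonneg ‖b (base e z)‖]
      rw [Real.norm_eq_abs]
      exact (sq_le_one_iff_abs_le_one _).1 h2
  have hI2 : Integrable (fun z => fderiv ℝ f z (inL e (b (base e z))))
      ((volume : Measure (En N)).restrict (unitCell N)) := by
    refine IsPer.integrableOn (F := fun z => fderiv ℝ f z (inL e (b (base e z)))) ?_ ?_
    · intro v hv z
      have h1 := hp.fderiv v hv z
      have h2 := isPer_comp_base e hbp v hv z
      simp only at h1 h2 ⊢
      rw [h1, h2]
    · exact (hf1.continuous_fderiv one_ne_zero).clm_apply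
        ((inL e).continuous.comp (hb.continuous.comp (base e).continuous))
  have hsplit : ∀ z, fderiv ℝ f z (Φ z) =
      fderiv ℝ f z (inL e (b (base e z))) - a (base e z) * ‖(fderiv ℝ f z).comp (inR e)‖ := by
    intro z
    rw [hΦ]
    simp only
    rw [join_eq, map_add, map_smul, map_smul, ← hG2 z]
    simp [sub_eq_add_neg]
  simp only [hsplit] at key
  rw [integral_sub hI2 hI1] at key
  linarith

end Crest.Agent.R214.Slice
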