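import Crest.Agent.R214.SliceCore

/-!
Row 214, module G5 (dual slicing): the general slicing inequality.
-/

set_option autoImplicit false

open MeasureTheory Set Filter Topology Crest.GeometryTopology.PeriodicPerimeter
open scoped ContDiff ENNReal

namespace Crest.Agent.R214.Slice

variable {m k N : ℕ}

theorem abs_divergence_le {b : En m → En m} {C : NNReal} (hb : LipschitzWith C b) (x : En m) :
    |divergence b x| ≤ m * C := by
  unfold divergence
  calc |∑ i, fderiv ℝ b x (EuclideanSpace.single i 1) i|
      ≤ ∑ i, |fderiv ℝ b x (EuclideanSpace.single i 1) i| := Finset.abs_sum_le_sum_abs _ _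
    _ ≤ ∑ _i : Fin m, (C : ℝ) := by
        refine Finset.sum_le_sum fun i _ => ?_
        calc |fderiv ℝ b x (EuclideanSpace.single i 1) i|
            ≤ ‖fderiv ℝ b x (EuclideanSpace.single i 1)‖ := by
              rw [← Real.norm_eq_abs]
              exact PiLp.norm_apply_le _ i
          _ ≤ ‖fderiv ℝ b x‖ * ‖(EuclideanSpace.single i (1:ℝ) : En m)‖ :=
              ContinuousLinearMap.le_opNorm _ _
          _ ≤ C * 1 := by
              refine mul_le_mul (norm_fderiv_le_of_lipschitz ℝ hb) ?_ (norm_nonneg _) C.2
              simp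
          _ = C := mul_one _
    _ = m * C := by simp

theorem measurable_divergence (b : En m → En m) : Measurable (divergence b) := by
  unfold divergence
  refine Finset.measurable_sum _ fun i _ => ?_
  have h1 : Measurable (fun x => fderiv ℝ b x (EuclideanSpace.single i 1)) :=
    measurable_fderiv_apply_const ℝ _ _
  exact (EuclideanSpace.proj (𝕜 := ℝ) i).continuous.measurable.comp h1

/-- a.e. convergence of the fibre integrals -/
theorem ae_tendsto_fibre (e : Fin m ⊕ Fin k ≃ Fin N) {E : Set (En N)} (hE : MeasurableSet E)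
    {f : ℕ → En N → ℝ} (hf : ∀ n, ContDiff ℝ ∞ (f n))
    (h0 : ∀ n y, |f n y| ≤ 1) (hlim : ∀ᵐ z : En N, Tendsto (fun n => f n z) atTop (𝓝 (chi E z))) :
    ∀ᵐ x : En m, Tendsto (fun n => ∫ y in unitCell k, f n (join e x y)) atTop
      (𝓝 (periodicVolume (slice e E x))) := by
  filter_upwards [ae_ae_join e hlim] with x hx
  rw [← integral_chi (measurableSet_slice e hE x)]
  apply tendsto_integral_of_dominated_convergence (fun _ => (1:ℝ))
  · intro n
    exact ((hf n).continuous.comp ((continuous_join e).comp (Continuous.prodMk_right x))).aestronglyMeasurable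
  · exact integrable_const _
  · intro n
    exact ae_of_all _ fun y => h0 n _
  · refine ae_restrict_of_ae ?_
    filter_upwards [hx] with y hy
    rwa [chi_join] at hy

theorem abs_fibre_le (e : Fin m ⊕ Fin k ≃ Fin N) {f : En N → ℝ} (h0 : ∀ y, |f y| ≤ 1) (x : En m) :
    |∫ y in unitCell k, f (join e x y)| ≤ 1 := by
  have := norm_integral_le_of_norm_le_const (μ := (volume : Measure (En k)).restrict (unitCell k))
    (f := fun y => f (join e x y)) (C := 1) (ae_of_all _ fun y => h0 _)
  simpa using this

theorem stronglyMeasurable_fibre (e : Fin m ⊕ Fin k ≃ Fin N) {f : En N → ℝ}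
    (hf : Measurable f) : StronglyMeasurable (fun x : En m => ∫ y in unitCell k, f (join e x y)) := by
  have : StronglyMeasurable (fun p : En m × En k => f (join e p.1 p.2)) :=
    (hf.comp (continuous_join e).measurable).stronglyMeasurable
  exact this.integral_prod_right'

theorem lintegral_core (e : Fin m ⊕ Fin k ≃ Fin N) {f : En N → ℝ} (hf : ContDiff ℝ ∞ f)
    (hp : IsPer f) {a : En m → ℝ} (ha : Measurable a) (ha0 : ∀ x, 0 ≤ a x) (ha1 : ∀ x, a x ≤ 1) :
    ∫⁻ x in unitCell m, ENNReal.ofReal (a x) *
        ENNReal.ofReal (∫ y in unitCell k, ‖fderiv ℝ (fun y => f (join e x y)) y‖) =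
      ENNReal.ofReal (∫ z in unitCell N, a (base e z) * ‖(fderiv ℝ f z).comp (inR e)‖) := by
  have hf1 : ContDiff ℝ 1 f := hf.of_le (by norm_cast)
  have hcL : Continuous (fun z => (fderiv ℝ f z).comp (inR e)) :=
    (hf1.continuous_fderiv one_ne_zero).clm_comp continuous_const
  have hpL : IsPer (fun z => (fderiv ℝ f z).comp (inR e)) := by
    intro v hv z
    have := hp.fderiv v hv z
    simp only at this ⊢
    rw [this]
  obtain ⟨B, hB⟩ := hpL.exists_bound hcL
  have hI1 : Integrable (fun z => a (base e z) * ‖(fderiv ℝ f z).comp (inR e)‖)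
      ((volume : Measure (En N)).restrict (unitCell N)) := by
    refine Integrable.mono' (integrable_const (1 * B)) ?_ ?_
    · exact ((ha.comp (base e).continuous.measurable).mul hcL.norm.measurable).aestronglyMeasurable
    · refine ae_of_all _ fun z => ?_
      rw [norm_mul, norm_norm]
      refine mul_le_mul ?_ (hB z) (norm_nonneg _) zero_le_one
      rw [Real.norm_eq_abs, abs_of_nonneg (ha0 _)]
      exact ha1 _
  rw [ofReal_integral_eq_lintegral_ofReal hI1
    (ae_of_all _ fun z => mul_nonneg (ha0 _) (norm_nonneg _))]
  rw [lintegral_cell_join e]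
  · congr 1
    ext x
    simp only [base_join]
    have h1 : ∀ y : En k, fderiv ℝ (fun y => f (join e x y)) y = (fderiv ℝ f (join e x y)).comp (inR e) :=
      fun y => (hasFDerivAt_slice e hf x y).fderiv
    simp only [h1]
    rw [ofReal_integral_eq_lintegral_ofReal]
    · rw [← lintegral_const_mul' _ _ ENNReal.ofReal_ne_top]
      congr 1
      ext y
      rw [ENNReal.ofReal_mul (ha0 x)]
    · refine Integrable.mono' (integrable_const B) ?_ ?_
      · exact (hcL.norm.comp ((continuous_join e).comp (Continuous.prodMk_right x))).aestronglyMeasurable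
      · refine ae_of_all _ fun y => ?_
        rw [norm_norm]
        exact hB _
    · exact ae_of_all _ fun y => norm_nonneg _
  · exact ((ha.comp (base e).continuous.measurable).mul hcL.norm.measurable).ennreal_ofReal

/-- the general dual slicing inequality -/
theorem slicing (e : Fin m ⊕ Fin k ≃ Fin N) {E : Set (En N)} (hE : MeasurableSet E)
    (hEp : IsLatticePeriodic E) (hP : periodicPerimeter E ≠ ⊤)
    {a : En m → ℝ} (ha : Measurable a) (ha0 : ∀ x, 0 ≤ a x) {b : En m → En m} {C : NNReal}
    (hb : LipschitzWith C b) (hbp : IsPer b) (hab : ∀ x, a x ^ 2 + ‖b x‖ ^ 2 ≤ 1) :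
    (∫⁻ x in unitCell m, ENNReal.ofReal (a x) * periodicPerimeter (slice e E x)) ≤
      ENNReal.ofReal ((periodicPerimeter E).toReal -
        ∫ x in unitCell m, divergence b x * periodicVolume (slice e E x)) ∧
    ∫ x in unitCell m, divergence b x * periodicVolume (slice e E x) ≤
      (periodicPerimeter E).toReal := by
  obtain ⟨f, hf, hp, hf0, hf1, hlim, hTV⟩ := exists_mollification hE hEp hP
  have h0 : ∀ n y, |f n y| ≤ 1 := fun n y => by rw [abs_of_nonneg (hf0 n y)]; exact hf1 n y
  have ha1 : ∀ x, a x ≤ 1 := by
    intro x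
    have h1 := hab x
    have h2 : a x ^ 2 ≤ 1 := by nlinarith [sq_nonneg ‖b x‖]
    exact (abs_le.1 ((sq_le_one_iff_abs_le_one _).1 h2)).2
  set P := (periodicPerimeter E).toReal with hPdef
  set X := ∫ x in unitCell m, divergence b x * periodicVolume (slice e E x) with hX
  have hfib := ae_tendsto_fibre e hE hf h0 hlim
  have hXn : Tendsto (fun n => ∫ x in unitCell m, divergence b x * ∫ y in unitCell k, f n (join e x y))
      atTop (𝓝 X) := by
    apply tendsto_integral_of_dominated_convergence (fun _ => (m * C : ℝ) * 1)
    · intro n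
      exact ((measurable_divergence b).stronglyMeasurable.mul
        (stronglyMeasurable_fibre e (hf n).continuous.measurable)).aestronglyMeasurable
    · exact integrable_const _
    · intro n
      refine ae_of_all _ fun x => ?_
      rw [norm_mul]
      exact mul_le_mul (abs_divergence_le hb x) (abs_fibre_le e (h0 n) x) (norm_nonneg _) (by positivity)
    · refine ae_restrict_of_ae ?_
      filter_upwards [hfib] with x hx
      exact hx.const_mul _
  have hcore : ∀ n, (∫ z in unitCell N, a (base e z) * ‖(fderiv ℝ (f n) z).comp (inR e)‖) +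
      (∫ x in unitCell m, divergence b x * ∫ y in unitCell k, f n (join e x y)) ≤ P := fun n =>
    core_smooth e (hf n) (hp n) (hTV n) ha hb hbp hab
  have hnn : ∀ n, 0 ≤ ∫ z in unitCell N, a (base e z) * ‖(fderiv ℝ (f n) z).comp (inR e)‖ := fun n =>
    integral_nonneg fun z => mul_nonneg (ha0 _) (norm_nonneg _)
  constructor
  · have hmeas : ∀ n, Measurable (fun x : En m => ENNReal.ofReal (a x) *
        ENNReal.ofReal (∫ y in unitCell k, ‖fderiv ℝ (fun y => f n (join e x y)) y‖)) := by
      intro n
      refine ha.ennreal_ofReal.mul ?_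
      have h1 : ∀ (x : En m) (y : En k), fderiv ℝ (fun y => f n (join e x y)) y =
          (fderiv ℝ (f n) (join e x y)).comp (inR e) :=
        fun x y => (hasFDerivAt_slice e (hf n) x y).fderiv
      simp only [h1]
      have hf1' : ContDiff ℝ 1 (f n) := (hf n).of_le (by norm_cast)
      have hcL : Continuous (fun z => ‖(fderiv ℝ (f n) z).comp (inR e)‖) :=
        ((hf1'.continuous_fderiv one_ne_zero).clm_comp continuous_const).norm
      exact (stronglyMeasurable_fibre e hcL.measurable).measurable.ennreal_ofReal
    calc (∫⁻ x in unitCell m, ENNReal.ofReal (a x) * periodicPerimeter (slice e E x))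
        ≤ ∫⁻ x in unitCell m, liminf (fun n => ENNReal.ofReal (a x) *
          ENNReal.ofReal (∫ y in unitCell k, ‖fderiv ℝ (fun y => f n (join e x y)) y‖)) atTop := by
          apply lintegral_mono_ae
          refine ae_restrict_of_ae ?_
          filter_upwards [ae_ae_join e hlim] with x hx
          rw [ENNReal.liminf_const_mul_of_ne_top ENNReal.ofReal_ne_top]
          gcongr
          refine perimeter_le_liminf (measurableSet_slice e hE x)
            (f := fun n y => f n (join e x y)) ?_ ?_ ?_ ?_
          · exact fun n => (hf n).comp (contDiff_join_right e x)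
          · exact fun n => isPer_slice e (hp n) x
          · exact fun n y => h0 n _
          · refine ae_restrict_of_ae ?_
            filter_upwards [hx] with y hy
            rwa [chi_join] at hy
      _ ≤ liminf (fun n => ∫⁻ x in unitCell m, ENNReal.ofReal (a x) *
          ENNReal.ofReal (∫ y in unitCell k, ‖fderiv ℝ (fun y => f n (join e x y)) y‖)) atTop :=
          lintegral_liminf_le hmeas
      _ ≤ liminf (fun n => ENNReal.ofReal (P - ∫ x in unitCell m, divergence b x *
            ∫ y in unitCell k, f n (join e x y))) atTop := by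
          refine liminf_le_liminf (Eventually.of_forall fun n => ?_) (by isBoundedDefault)
          rw [lintegral_core e (hf n) (hp n) ha ha0 ha1]
          exact ENNReal.ofReal_le_ofReal (by linarith [hcore n])
      _ = ENNReal.ofReal (P - X) :=
          (ENNReal.tendsto_ofReal (hXn.const_sub P)).liminf_eq
  · exact le_of_tendsto hXn (Eventually.of_forall fun n => by linarith [hcore n, hnn n])

/-- the general dual slicing inequality in `ℝ≥0∞`-form, without finiteness assumption -/
theorem slicing_add (e : Fin m ⊕ Fin k ≃ Fin N) {E : Set (En N)} (hE : MeasurableSet E)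
    (hEp : IsLatticePeriodic E)
    {a : En m → ℝ} (ha : Measurable a) (ha0 : ∀ x, 0 ≤ a x) {b : En m → En m} {C : NNReal}
    (hb : LipschitzWith C b) (hbp : IsPer b) (hab : ∀ x, a x ^ 2 + ‖b x‖ ^ 2 ≤ 1) :
    (∫⁻ x in unitCell m, ENNReal.ofReal (a x) * periodicPerimeter (slice e E x)) +
        ENNReal.ofReal (∫ x in unitCell m, divergence b x * periodicVolume (slice e E x)) ≤
      periodicPerimeter E +
        ENNReal.ofReal (-∫ x in unitCell m, divergence b x * periodicVolume (slice e E x)) := by
  by_cases hP : periodicPerimeter E = ⊤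
  · rw [hP, top_add]
    exact le_top
  · obtain ⟨h1, h2⟩ := slicing e hE hEp hP ha ha0 hb hbp hab
    set X := ∫ x in unitCell m, divergence b x * periodicVolume (slice e E x) with hX
    set P := (periodicPerimeter E).toReal with hPdef
    have h3 : ENNReal.ofReal (P - X) + ENNReal.ofReal X ≤ ENNReal.ofReal P + ENNReal.ofReal (-X) := by
      have hP0 : 0 ≤ P := ENNReal.toReal_nonneg
      rcases le_total 0 X with hX0 | hX0
      · rw [← ENNReal.ofReal_add (by linarith) hX0, ENNReal.ofReal_of_nonpos (by linarith : -X ≤ 0)]
        simp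
      · rw [ENNReal.ofReal_of_nonpos hX0, ← ENNReal.ofReal_add hP0 (by linarith)]
        simp [sub_eq_add_neg]
    calc _ ≤ ENNReal.ofReal (P - X) + ENNReal.ofReal X := by gcongr
      _ ≤ ENNReal.ofReal P + ENNReal.ofReal (-X) := h3
      _ = _ := by rw [hPdef, ENNReal.ofReal_toReal hP]

end Crest.Agent.R214.Slice
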