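import Crest.Agent.R214.SliceDefs
import Crest.Agent.R214.Mollify
import Crest.Agent.R214.InvDiv

/-!
Row 214, module G5 (dual slicing): proof of the slicing inequality by mollification and Fatou.
-/

set_option autoImplicit false

open MeasureTheory Set Filter Topology Crest.GeometryTopology.PeriodicPerimeter
open scoped ContDiff ENNReal

namespace Crest.Agent.R214.Slice

variable {m k N : ℕ}

/-- lower semicontinuity along sequences of smooth periodic functions -/
theorem perimeter_le_liminf {S : Set (En k)} (hS : MeasurableSet S)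
    {f : ℕ → En k → ℝ} (hf : ∀ n, ContDiff ℝ ∞ (f n)) (hp : ∀ n, IsPer (f n))
    (h0 : ∀ n y, |f n y| ≤ 1)
    (hlim : ∀ᵐ y ∂((volume : Measure (En k)).restrict (unitCell k)),
      Tendsto (fun n => f n y) atTop (𝓝 (chi S y))) :
    periodicPerimeter S ≤
      liminf (fun n => ENNReal.ofReal (∫ y in unitCell k, ‖fderiv ℝ (f n) y‖)) atTop := by
  refine iSup_le fun ψ => ?_
  have hψ := ψ.2
  have hdc := continuous_divergence hψ.1
  obtain ⟨C, hC⟩ := (IsPer.divergence hψ.2.1).exists_bound hdc
  have h1 : Tendsto (fun n => ∫ y in unitCell k, f n y * divergence ψ.1 y) atTop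
      (𝓝 (∫ y in unitCell k, chi S y * divergence ψ.1 y)) := by
    apply tendsto_integral_of_dominated_convergence (fun _ => C)
    · intro n
      exact ((hf n).continuous.mul hdc).aestronglyMeasurable
    · exact integrable_const _
    · intro n
      refine ae_of_all _ fun y => ?_
      rw [norm_mul]
      calc ‖f n y‖ * ‖divergence ψ.1 y‖ ≤ 1 * C :=
            mul_le_mul (h0 n y) (hC y) (norm_nonneg _) zero_le_one
        _ = C := one_mul C
    · filter_upwards [hlim] with y hy
      exact hy.mul_const _
  rw [integral_chi_mul hS] at h1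
  rw [← (ENNReal.tendsto_ofReal h1).liminf_eq]
  refine liminf_le_liminf (Eventually.of_forall fun n => ?_) (by isBoundedDefault)
  apply ENNReal.ofReal_le_ofReal
  rw [integral_mul_divergence ((hf n).of_le (by norm_cast)) (hp n) hψ.1 hψ.2.1]
  exact neg_integral_fderiv_apply_le (hf n) (hp n) le_rfl hψ.2.2

/-- inclusion of the fibre directions -/
noncomputable def inR (e : Fin m ⊕ Fin k ≃ Fin N) : En k →L[ℝ] En N :=
  ((joinL e : (En m × En k) →L[ℝ] En N)).comp (ContinuousLinearMap.inr ℝ (En m) (En k))

/-- inclusion of the base directions -/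
noncomputable def inL (e : Fin m ⊕ Fin k ≃ Fin N) : En m →L[ℝ] En N :=
  ((joinL e : (En m × En k) →L[ℝ] En N)).comp (ContinuousLinearMap.inl ℝ (En m) (En k))

theorem inR_apply (e : Fin m ⊕ Fin k ≃ Fin N) (y : En k) : inR e y = join e 0 y := rfl

theorem inL_apply (e : Fin m ⊕ Fin k ≃ Fin N) (x : En m) : inL e x = join e x 0 := rfl

theorem join_eq (e : Fin m ⊕ Fin k ≃ Fin N) (x : En m) (y : En k) :
    join e x y = inL e x + inR e y := by
  rw [inL_apply, inR_apply, ← base_add_join, add_zero, zero_add]

theorem contDiff_join_right (e : Fin m ⊕ Fin k ≃ Fin N) (x : En m) :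
    ContDiff ℝ ∞ (fun y : En k => join e x y) := by
  simp only [join_eq]
  exact contDiff_const.add (inR e).contDiff

theorem hasFDerivAt_slice (e : Fin m ⊕ Fin k ≃ Fin N) {f : En N → ℝ} (hf : ContDiff ℝ ∞ f)
    (x : En m) (y : En k) :
    HasFDerivAt (fun y => f (join e x y)) ((fderiv ℝ f (join e x y)).comp (inR e)) y := by
  have h1 : HasFDerivAt (fun y : En k => join e x y) (inR e) y := by
    simp only [join_eq]
    exact (inR e).hasFDerivAt.const_add _
  exact (((hf.differentiable (by simp)) (join e x y)).hasFDerivAt).comp y h1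

theorem isPer_slice (e : Fin m ⊕ Fin k ≃ Fin N) {f : En N → ℝ} (hf : IsPer f) (x : En m) :
    IsPer (fun y => f (join e x y)) := by
  intro v hv y
  have := hf (join e 0 v) (hasIntegerCoords_join e (fun _ => ⟨0, by simp⟩) hv) (join e x y)
  rw [← base_add_join, add_zero] at this
  exact this

theorem hasIntegerCoords_zero' {n : ℕ} : HasIntegerCoords (0 : En n) := fun _ => ⟨0, by simp⟩

theorem measurableEmbedding_join (e : Fin m ⊕ Fin k ≃ Fin N) :
    MeasurableEmbedding (fun p : En m × En k => join e p.1 p.2) :=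
  (joinL e).toHomeomorph.measurableEmbedding

theorem preimage_cell (e : Fin m ⊕ Fin k ≃ Fin N) :
    (fun p : En m × En k => join e p.1 p.2) ⁻¹' unitCell N = unitCell m ×ˢ unitCell k := by
  ext p
  simp [join_mem_unitCell]

theorem lintegral_cell_join (e : Fin m ⊕ Fin k ≃ Fin N) {F : En N → ℝ≥0∞} (hF : Measurable F) :
    ∫⁻ z in unitCell N, F z = ∫⁻ x in unitCell m, ∫⁻ y in unitCell k, F (join e x y) := by
  rw [← (measurePreserving_join e).setLIntegral_comp_preimage_emb (measurableEmbedding_join e),
    preimage_cell]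
  rw [show (volume : Measure (En m × En k)) = volume.prod volume from rfl, ← Measure.prod_restrict]
  rw [lintegral_prod]
  exact (hF.comp (continuous_join e).measurable).aemeasurable

theorem integral_cell_join (e : Fin m ⊕ Fin k ≃ Fin N) {F : En N → ℝ}
    (hF : IntegrableOn F (unitCell N)) :
    ∫ z in unitCell N, F z = ∫ x in unitCell m, ∫ y in unitCell k, F (join e x y) := by
  have := setIntegral_join e (E := univ) MeasurableSet.univ (F := F) (by rwa [univ_inter])
  rw [univ_inter] at this
  rw [this]
  congr 1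
  ext x
  have h : slice e (univ : Set (En N)) x = univ := by ext; simp [slice]
  rw [h, univ_inter]

theorem ae_ae_join (e : Fin m ⊕ Fin k ≃ Fin N) {p : En N → Prop} (h : ∀ᵐ z : En N, p z) :
    ∀ᵐ x : En m, ∀ᵐ y : En k, p (join e x y) := by
  have h1 : ∀ᵐ q : En m × En k ∂(volume.prod volume), p (join e q.1 q.2) :=
    (measurePreserving_join e).quasiMeasurePreserving.ae h
  exact Measure.ae_ae_of_ae_prod h1

theorem chi_join (e : Fin m ⊕ Fin k ≃ Fin N) (E : Set (En N)) (x : En m) (y : En k) :
    chi E (join e x y) = chi (slice e E x) y := by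
  unfold chi
  by_cases h : join e x y ∈ E
  · have h' : y ∈ slice e E x := h
    rw [indicator_of_mem h, indicator_of_mem h']
  · have h' : y ∉ slice e E x := h
    rw [indicator_of_notMem h, indicator_of_notMem h']

theorem integral_chi {S : Set (En k)} (hS : MeasurableSet S) :
    ∫ y in unitCell k, chi S y = periodicVolume S := by
  have := integral_chi_mul hS (fun _ => (1:ℝ))
  simp only [mul_one] at this
  rw [this, setIntegral_const, smul_eq_mul, mul_one]
  rfl

/-- a unit vector at which a functional attains its norm -/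
theorem exists_dual (L : En k →L[ℝ] ℝ) : ∃ G : En k, ‖G‖ ≤ 1 ∧ L G = ‖L‖ := by
  set g := (InnerProductSpace.toDual ℝ (En k)).symm L with hg
  have h1 : ‖g‖ = ‖L‖ := by rw [hg, LinearIsometryEquiv.norm_map]
  have h2 : L g = ‖L‖ ^ 2 := by
    have : L g = inner ℝ g g := by
      conv_lhs => rw [show L = InnerProductSpace.toDual ℝ (En k) g by rw [hg]; simp]
      rfl
    rw [this, real_inner_self_eq_norm_sq, h1]
  refine ⟨‖L‖⁻¹ • g, ?_, ?_⟩
  · rw [norm_smul, h1, norm_inv, norm_norm]
    by_cases h : ‖L‖ = 0
    · rw [h]; simp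
    · rw [inv_mul_cancel₀ h]
  · rw [map_smul, h2, smul_eq_mul]
    by_cases h : ‖L‖ = 0
    · rw [h]; simp
    · field_simp

end Crest.Agent.R214.Slice
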