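import Crest.Agent.R214.SliceCoord
import Crest.Agent.R214.MonoSub

/-!
Row 214, module G5 (dual slicing): measures of slices; the one-dimensional dual inequality
`MS.DualIneq` for the slice areas and the slice perimeters.
-/

set_option autoImplicit false

open MeasureTheory Set Filter Topology Crest.GeometryTopology.PeriodicPerimeter
open scoped ContDiff ENNReal

namespace Crest.Agent.R214.Slice

variable {m k N n : ℕ}

theorem periodicVolume_nonneg {n : ℕ} (S : Set (En n)) : 0 ≤ periodicVolume S :=
  ENNReal.toReal_nonneg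

theorem periodicVolume_le_one {n : ℕ} (S : Set (En n)) : periodicVolume S ≤ 1 := by
  unfold periodicVolume
  have h : (volume (S ∩ unitCell n)) ≤ 1 := by
    rw [← volume_unitCell n]
    exact measure_mono inter_subset_right
  simpa using ENNReal.toReal_mono ENNReal.one_ne_top h

theorem periodicVolume_slice_eq (e : Fin m ⊕ Fin k ≃ Fin N) {E : Set (En N)} (hE : MeasurableSet E)
    (x : En m) : periodicVolume (slice e E x) = ∫ y in unitCell k, chi E (join e x y) := by
  rw [← integral_chi (measurableSet_slice e hE x)]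
  simp only [chi_join]

theorem measurable_periodicVolume_slice (e : Fin m ⊕ Fin k ≃ Fin N) {E : Set (En N)}
    (hE : MeasurableSet E) : Measurable (fun x : En m => periodicVolume (slice e E x)) := by
  simp only [periodicVolume_slice_eq e hE]
  exact (stronglyMeasurable_fibre e (measurable_chi hE)).measurable

theorem integrableOn_chi {E : Set (En N)} (hE : MeasurableSet E) :
    IntegrableOn (chi E) (unitCell N) := by
  refine Integrable.mono' (integrable_const (1:ℝ)) (measurable_chi hE).aestronglyMeasurable ?_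
  refine ae_of_all _ fun z => ?_
  rw [Real.norm_eq_abs, abs_of_nonneg (chi_nonneg E z)]
  exact chi_le_one E z

/-- Fubini for the volume -/
theorem integral_periodicVolume_slice (e : Fin m ⊕ Fin k ≃ Fin N) {E : Set (En N)}
    (hE : MeasurableSet E) :
    ∫ x in unitCell m, periodicVolume (slice e E x) = periodicVolume E := by
  simp only [periodicVolume_slice_eq e hE]
  rw [← integral_cell_join e (integrableOn_chi hE), integral_chi hE]

/-! ### slices `{x_i = t}` -/

theorem sliceAt_eq (i : Fin (n + 1)) (E : Set (En (n + 1))) (t : ℝ) :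
    sliceAt i E t = slice (spl i) E (one t) := by
  rw [slice_spl, one_apply]

theorem fiberAt_eq (i : Fin (n + 1)) (E : Set (En (n + 1))) (y : En n) :
    fiberAt i E y = slice (spr i) E y := (slice_spr i E y).symm

theorem measurableSet_sliceAt (i : Fin (n + 1)) {E : Set (En (n + 1))} (hE : MeasurableSet E)
    (t : ℝ) : MeasurableSet (sliceAt i E t) := by
  rw [sliceAt_eq]; exact measurableSet_slice _ hE _

theorem measurableSet_fiberAt (i : Fin (n + 1)) {E : Set (En (n + 1))} (hE : MeasurableSet E)
    (y : En n) : MeasurableSet (fiberAt i E y) := by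
  rw [fiberAt_eq]; exact measurableSet_slice _ hE _

theorem sliceAt_periodic (i : Fin (n + 1)) {E : Set (En (n + 1))} (hE : IsLatticePeriodic E)
    (t : ℝ) : IsLatticePeriodic (sliceAt i E t) := by
  rw [sliceAt_eq]; exact slice_periodic _ hE _

theorem fiberAt_periodic (i : Fin (n + 1)) {E : Set (En (n + 1))} (hE : IsLatticePeriodic E)
    (y : En n) : IsLatticePeriodic (fiberAt i E y) := by
  rw [fiberAt_eq]; exact slice_periodic _ hE _

theorem sliceAt_add_one (i : Fin (n + 1)) {E : Set (En (n + 1))} (hE : IsLatticePeriodic E)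
    (t : ℝ) : sliceAt i E (t + 1) = sliceAt i E t := by
  rw [sliceAt_eq, sliceAt_eq, show one (t + 1) = one t + one 1 from (map_add oneL t 1)]
  exact slice_add _ hE _ _ (fun j => ⟨1, by rw [Subsingleton.elim j 0]; simp⟩)

theorem fiberAt_add (i : Fin (n + 1)) {E : Set (En (n + 1))} (hE : IsLatticePeriodic E)
    (y v : En n) (hv : HasIntegerCoords v) : fiberAt i E (y + v) = fiberAt i E y := by
  rw [fiberAt_eq, fiberAt_eq]; exact slice_add _ hE _ _ hv

theorem measurable_area (i : Fin (n + 1)) {E : Set (En (n + 1))} (hE : MeasurableSet E) :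
    Measurable (fun t : ℝ => periodicVolume (sliceAt i E t)) := by
  simp only [sliceAt_eq]
  exact (measurable_periodicVolume_slice (spl i) hE).comp oneL.continuous.measurable

theorem measurable_length (i : Fin (n + 1)) {E : Set (En (n + 1))} (hE : MeasurableSet E) :
    Measurable (fun y : En n => periodicVolume (fiberAt i E y)) := by
  simp only [fiberAt_eq]
  exact measurable_periodicVolume_slice (spr i) hE

theorem integral_area (i : Fin (n + 1)) {E : Set (En (n + 1))} (hE : MeasurableSet E) :
    ∫ t in Ico (0 : ℝ) 1, periodicVolume (sliceAt i E t) = periodicVolume E := by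
  rw [← integral_one (fun t => periodicVolume (sliceAt i E t))]
  simp only [← slice_spl]
  exact integral_periodicVolume_slice (spl i) hE

theorem intervalIntegral_area (i : Fin (n + 1)) {E : Set (En (n + 1))} (hE : MeasurableSet E) :
    ∫ t in (0 : ℝ)..1, periodicVolume (sliceAt i E t) = periodicVolume E := by
  rw [intervalIntegral.integral_of_le zero_le_one, ← integral_Ico_eq_integral_Ioc]
  exact integral_area i hE

theorem integral_length (i : Fin (n + 1)) {E : Set (En (n + 1))} (hE : MeasurableSet E) :
    ∫ y in unitCell n, periodicVolume (fiberAt i E y) = periodicVolume E := by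
  simp only [fiberAt_eq]
  exact integral_periodicVolume_slice (spr i) hE

theorem area_BP (i : Fin (n + 1)) {E : Set (En (n + 1))} (hE : MeasurableSet E)
    (hEp : IsLatticePeriodic E) : MS.BP (fun t => periodicVolume (sliceAt i E t)) where
  meas := measurable_area i hE
  bdd := ⟨1, fun t => by
    rw [abs_of_nonneg (periodicVolume_nonneg _)]; exact periodicVolume_le_one _⟩
  per := fun t => by simp only [sliceAt_add_one i hEp]

/-! ### the real-valued form of the slicing inequality -/

theorem sliceReal (i : Fin (n + 1)) {E : Set (En (n + 1))} (hE : MeasurableSet E)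
    (hEp : IsLatticePeriodic E) (hP : periodicPerimeter E ≠ ⊤) {a b : ℝ → ℝ} {C : NNReal}
    (ha : Measurable a) (hb : LipschitzWith C b) (hbp : Function.Periodic b 1)
    (ha0 : ∀ t, 0 ≤ a t) (hab : ∀ t, a t ^ 2 + b t ^ 2 ≤ 1) :
    (∫⁻ t in Ico (0 : ℝ) 1, ENNReal.ofReal (a t) * periodicPerimeter (sliceAt i E t)) ≤
      ENNReal.ofReal ((periodicPerimeter E).toReal -
        ∫ t in Ico (0 : ℝ) 1, deriv b t * periodicVolume (sliceAt i E t)) ∧
    ∫ t in Ico (0 : ℝ) 1, deriv b t * periodicVolume (sliceAt i E t) ≤
      (periodicPerimeter E).toReal := by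
  have hcoordL : LipschitzWith 1 (fun x : En 1 => x 0) := by
    refine LipschitzWith.of_dist_le_mul fun x y => ?_
    rw [NNReal.coe_one, one_mul, dist_eq_norm, dist_eq_norm]
    exact PiLp.norm_apply_le (x - y) 0
  have honeL : LipschitzWith 1 (one : ℝ → En 1) := by
    refine LipschitzWith.of_dist_le_mul fun s t => ?_
    rw [NNReal.coe_one, one_mul, dist_eq_norm, dist_eq_norm, ← oneL_apply, ← oneL_apply, ← map_sub,
      oneL_apply, norm_one', Real.norm_eq_abs]
  have h := slicing (spl i) hE hEp hP (a := fun x : En 1 => a (x 0))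
    (ha.comp (EuclideanSpace.proj (𝕜 := ℝ) (0 : Fin 1)).continuous.measurable) (fun x => ha0 _)
    (b := fun x : En 1 => one (b (x 0))) (C := 1 * (C * 1)) (honeL.comp (hb.comp hcoordL))
    (fun v hv x => congrArg one (isPer_one hbp v hv x))
    (fun x => by rw [norm_one', sq_abs]; exact hab _)
  simp only [slice_spl, divergence_one] at h
  rw [lintegral_one (fun t => ENNReal.ofReal (a t) * periodicPerimeter (sliceAt i E t)),
    integral_one (fun t => deriv b t * periodicVolume (sliceAt i E t))] at h
  exact h

/-- a `C¹` periodic function is Lipschitz -/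
theorem lipschitz_of_periodic {b : ℝ → ℝ} (hb : ContDiff ℝ 1 b) (hbp : Function.Periodic b 1) :
    ∃ C : NNReal, LipschitzWith C b := by
  have hd : Continuous (deriv b) := hb.continuous_deriv le_rfl
  have hdp : Function.Periodic (deriv b) 1 := by
    intro t
    have h1 : (fun u => b (u + 1)) = b := funext hbp
    rw [← deriv_comp_add_const, h1]
  obtain ⟨C, hC⟩ := isCompact_Icc.exists_bound_of_continuousOn (s := Icc (0:ℝ) 1) hd.continuousOn
  have hC' : ∀ t, ‖deriv b t‖ ≤ C := by
    intro t
    obtain ⟨y, hy, hty⟩ := hdp.exists_mem_Ico₀ one_pos t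
    rw [hty]
    exact hC y (Ico_subset_Icc_self hy)
  have hC0 : 0 ≤ C := (norm_nonneg _).trans (hC' 0)
  refine ⟨⟨C, hC0⟩, lipschitzWith_of_nnnorm_deriv_le (hb.differentiable one_ne_zero) fun t => ?_⟩
  exact_mod_cast hC' t

/-- the hypothesis of helper937's `MS` files -/
theorem dualIneq (i : Fin (n + 1)) {E : Set (En (n + 1))} (hE : MeasurableSet E)
    (hEp : IsLatticePeriodic E) (hP : periodicPerimeter E ≠ ⊤) {l : ℝ → ℝ} (hl : MS.BP l)
    (hlE : ∀ᵐ t ∂((volume : Measure ℝ).restrict (Ico (0 : ℝ) 1)),
      ENNReal.ofReal (l t) ≤ periodicPerimeter (sliceAt i E t)) :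
    MS.DualIneq (fun t => periodicVolume (sliceAt i E t)) l (periodicPerimeter E).toReal := by
  intro a b ha hb hap hbp ha0 hab
  obtain ⟨C, hC⟩ := lipschitz_of_periodic hb hbp
  obtain ⟨h1, h2⟩ := sliceReal i hE hEp hP ha.continuous.measurable hC hbp ha0 hab
  set X := ∫ t in Ico (0 : ℝ) 1, deriv b t * periodicVolume (sliceAt i E t) with hX
  rw [intervalIntegral.integral_of_le zero_le_one, intervalIntegral.integral_of_le zero_le_one,
    ← integral_Ico_eq_integral_Ioc, ← integral_Ico_eq_integral_Ioc, ← hX]
  have hle : ∫⁻ t in Ico (0 : ℝ) 1, ENNReal.ofReal (a t * l t) ≤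
      ENNReal.ofReal ((periodicPerimeter E).toReal - X) := by
    refine le_trans (lintegral_mono_ae ?_) h1
    filter_upwards [hlE] with t ht
    rw [ENNReal.ofReal_mul (ha0 t)]
    gcongr
  obtain ⟨D, hD⟩ := hl.bdd
  have ha1 : ∀ t, a t ≤ 1 := by
    intro t
    have h3 : a t ^ 2 ≤ 1 := by nlinarith [hab t, sq_nonneg (b t)]
    exact (abs_le.1 ((sq_le_one_iff_abs_le_one _).1 h3)).2
  have hint : IntegrableOn (fun t => a t * l t) (Ico (0 : ℝ) 1) := by
    refine Integrable.mono' (integrable_const (1 * D)) ?_ ?_
    · exact (ha.continuous.measurable.mul hl.meas).aestronglyMeasurable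
    · refine ae_of_all _ fun t => ?_
      rw [norm_mul, Real.norm_eq_abs, Real.norm_eq_abs, abs_of_nonneg (ha0 t)]
      exact mul_le_mul (ha1 t) (hD t) (abs_nonneg _) zero_le_one
  have h4 : ∫ t in Ico (0 : ℝ) 1, a t * l t ≤
      (∫⁻ t in Ico (0 : ℝ) 1, ENNReal.ofReal (a t * l t)).toReal := by
    rw [integral_eq_lintegral_pos_part_sub_lintegral_neg_part hint]
    linarith [ENNReal.toReal_nonneg (a := ∫⁻ t in Ico (0 : ℝ) 1, ENNReal.ofReal (-(a t * l t)))]
  have h5 : (∫⁻ t in Ico (0 : ℝ) 1, ENNReal.ofReal (a t * l t)).toReal ≤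
      (periodicPerimeter E).toReal - X := by
    have := ENNReal.toReal_mono ENNReal.ofReal_ne_top hle
    rwa [ENNReal.toReal_ofReal (by linarith)] at this
  linarith

end Crest.Agent.R214.Slice
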