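import Crest.Agent.R214.SteinerAll
import Crest.Agent.R214.Inv
import Crest.Agent.R214.Geo

/-!
# Bridge between `steiner i A` (helper915, coordinate free) and the frozen `St`/`StI`
-/

set_option autoImplicit false
open MeasureTheory Crest.GeometryTopology.PeriodicPerimeter Filter
open scoped ENNReal NNReal Topology
noncomputable section
namespace Crest.Agent.R214

namespace Stn
end Stn
open Stn

theorem Stn.pr_add_smul_ev_zero {n : ℕ} (x : Eu (n + 1)) (t : ℝ) :
    pr 0 x + t • ev 0 = cons t (tl x) := by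
  ext i
  refine Fin.cases ?_ (fun i => ?_) i
  · simp
  · simp [tl]

/-- length of a fibre as an interval integral of the indicator -/
theorem Stn.volume_fiber_eq {S : Set ℝ} (hS : MeasurableSet S) :
    (volume (S ∩ Set.Ico (0:ℝ) 1)).toReal = ∫ t in (0:ℝ)..1, S.indicator (fun _ => (1:ℝ)) t := by
  rw [intervalIntegral.integral_of_le zero_le_one, ← integral_Ico_eq_integral_Ioc,
    integral_indicator hS]
  simp [Measure.real, Measure.restrict_apply, hS]

theorem flen_zero_eq_mln {n : ℕ} {A : Set (Eu (n + 1))} (hA : MeasurableSet A)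
    (hp : IsLatticePeriodic A) (x : Eu (n + 1)) : flen 0 A x = mln A (tl x) := by
  rw [← (flen_inv 0 hA hp).pr x]
  unfold flen mln
  rw [volume_fiber_eq (measurableSet_ln hA _)]
  congr 1
  ext t
  rw [pr_add_smul_ev_zero]
  rfl

theorem St_eq_steiner {n : ℕ} {A : Set (Eu (n + 1))} (hA : MeasurableSet A)
    (hp : IsLatticePeriodic A) : St A = steiner 0 A := by
  ext x
  unfold St steiner
  rw [mem_region, flen_zero_eq_mln hA hp]
  rfl

/-- permuted point -/
def Stn.pt {n : ℕ} (σ : Equiv.Perm (Fin n)) (x : Eu n) : Eu n := WithLp.toLp 2 (fun i => x (σ i))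

@[simp] theorem Stn.pt_apply {n : ℕ} (σ : Equiv.Perm (Fin n)) (x : Eu n) (i : Fin n) :
    pt σ x i = x (σ i) := rfl

theorem Stn.mem_pm {n : ℕ} (σ : Equiv.Perm (Fin n)) (A : Set (Eu n)) (x : Eu n) :
    x ∈ pm σ A ↔ pt σ x ∈ A := Iff.rfl

theorem Stn.pt_swap_pt {n : ℕ} (i : Fin (n + 1)) (x : Eu (n + 1)) :
    pt (Equiv.swap 0 i) (pt (Equiv.swap 0 i) x) = x := by
  ext k
  simp

theorem Stn.pt_add_smul_ev {n : ℕ} (i : Fin (n + 1)) (x : Eu (n + 1)) (s : ℝ) :
    pt (Equiv.swap 0 i) (pt (Equiv.swap 0 i) x + s • ev 0) = x + s • ev i := by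
  ext k
  simp only [pt_apply, PiLp.add_apply, PiLp.smul_apply, Equiv.swap_apply_self, ev_apply,
    smul_eq_mul]
  congr 2
  by_cases hk : k = i
  · subst hk; simp
  · rw [if_neg hk, if_neg]
    intro h
    apply hk
    have := congrArg (Equiv.swap 0 i) h
    simpa using this

theorem Stn.flen_pm {n : ℕ} (i : Fin (n + 1)) (A : Set (Eu (n + 1))) (x : Eu (n + 1)) :
    flen 0 (pm (Equiv.swap 0 i) A) (pt (Equiv.swap 0 i) x) = flen i A x := by
  unfold flen
  congr 1
  ext s
  unfold chi Set.indicator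
  have : (pt (Equiv.swap 0 i) x + s • ev 0 ∈ pm (Equiv.swap 0 i) A) ↔ x + s • ev i ∈ A := by
    rw [mem_pm, pt_add_smul_ev]
  by_cases h : x + s • ev i ∈ A
  · rw [if_pos h, if_pos (this.2 h)]
  · rw [if_neg h, if_neg (fun h' => h (this.1 h'))]

theorem StI_eq_steiner {n : ℕ} (i : Fin (n + 1)) {A : Set (Eu (n + 1))} (hA : MeasurableSet A)
    (hp : IsLatticePeriodic A) : StI i A = steiner i A := by
  ext x
  unfold StI
  rw [St_eq_steiner (measurableSet_pm _ hA) (periodic_pm _ hp), mem_pm]
  unfold steiner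
  rw [mem_region, mem_region, flen_pm]
  simp

/-- slices in another direction commute with Steiner symmetrization -/
theorem Stn.sl_pm_steiner {n : ℕ} (i j : Fin (n + 1)) (hij : i ≠ j) (A : Set (Eu (n + 1))) (t : ℝ) :
    ∃ i' : Fin n, sl (pm (Equiv.swap 0 j) (steiner i A)) t =
      steiner i' (sl (pm (Equiv.swap 0 j) A) t) := by
  have h0 : Equiv.swap 0 j i ≠ 0 := by
    intro h
    have := congrArg (Equiv.swap 0 j) h
    simp at this
    exact hij this
  obtain ⟨i', hi'⟩ := Fin.exists_succ_eq.2 h0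
  refine ⟨i', ?_⟩
  ext y
  have h1 : ∀ s : ℝ, pt (Equiv.swap 0 j) (cons t y) + s • ev i =
      pt (Equiv.swap 0 j) (cons t (y + s • ev i')) := by
    intro s
    ext k
    simp only [pt_apply, PiLp.add_apply, PiLp.smul_apply, smul_eq_mul]
    rcases Fin.eq_zero_or_eq_succ (Equiv.swap 0 j k) with hk | ⟨k', hk⟩
    · have : k ≠ i := by
        intro h; rw [h] at hk; exact h0 hk
      rw [hk, ev_ne this]
      simp
    · rw [hk]
      simp only [cons_succ, PiLp.add_apply, PiLp.smul_apply, smul_eq_mul, ev_apply]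
      congr 2
      by_cases hki : k = i
      · subst hki
        have : k' = i' := by
          apply Fin.succ_injective
          rw [hi', hk]
        simp [this]
      · rw [if_neg hki, if_neg]
        intro h
        apply hki
        rw [h] at hk
        rw [hi'] at hk
        exact (Equiv.swap 0 j).injective hk
  have h2 : flen i A (pt (Equiv.swap 0 j) (cons t y)) =
      flen i' (sl (pm (Equiv.swap 0 j) A) t) y := by
    unfold flen
    congr 1
    ext s
    rw [h1]
    rfl
  have h3 : pt (Equiv.swap 0 j) (cons t y) i = y i' := by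
    rw [pt_apply, ← hi', cons_succ]
  show pt (Equiv.swap 0 j) (cons t y) ∈ steiner i A ↔ _
  unfold steiner
  rw [mem_region, mem_region, h2, h3]

end Crest.Agent.R214
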