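import Crest.Agent.R214.Polar

/-!
# SteinerFun: symmetric decreasing rearrangement of Lipschitz functions by compactness

Let `𝒦` = all `g` which are `K`-Lipschitz, periodic, `0 ≤ g ≤ 1`, `TV g ≤ TV f`, and line-equimeasurable
with `f`. `𝒦 ∋ f` is closed under uniform limits (`TV_lsc`) and under polarizations (`Polar`).
Maximize `Ψ g = ∫_cell g cos(2π x₀)` over `𝒦`: a maximizing sequence has a uniformly convergent
subsequence (Arzelà-Ascoli on the compact cube `[0,1]^{n+1}` plus periodicity; e.g. as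
`BoundedContinuousFunction`s / `ContinuousMap` on the cube, `ArzelaAscoli`), the limit `g` is a
maximizer, so `pol a g = g` for all `a` (`pol_corr`), hence symmetric decreasing (`symm_of_pol`).
-/

set_option autoImplicit false
open MeasureTheory Crest.GeometryTopology.PeriodicPerimeter Filter
open scoped ENNReal NNReal Topology
noncomputable section
namespace Crest.Agent.R214

/-- the class `𝒦` -/
structure SFK {n : ℕ} (f : Eu (n + 1) → ℝ) (K : ℝ≥0) (g : Eu (n + 1) → ℝ) : Prop where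
  lip : LipschitzWith K g
  per : PerFun g
  nn : ∀ x, 0 ≤ g x
  le1 : ∀ x, g x ≤ 1
  tv : TV g ≤ TV f
  eqm : ∀ (Φ : ℝ → ℝ), Continuous Φ → ∀ y : Eu n,
        ∫ t in Set.Ico (0 : ℝ) 1, Φ (g (cons t y)) =
          ∫ t in Set.Ico (0 : ℝ) 1, Φ (f (cons t y))

/-- the correlation -/
def sfPsi {n : ℕ} (g : Eu (n + 1) → ℝ) : ℝ :=
  ∫ x in unitCell (n + 1), g x * Real.cos (2 * Real.pi * x 0)

theorem sf_finite_cell {n : ℕ} : volume (unitCell n) < ⊤ :=
  (measure_mono c4_cell_subset_closedBall).trans_lt measure_closedBall_lt_top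

instance sf_isFinite {n : ℕ} : IsFiniteMeasure ((volume : Measure (Eu n)).restrict (unitCell n)) :=
  ⟨by rw [Measure.restrict_apply_univ]; exact sf_finite_cell⟩

theorem sf_integrableOn {n : ℕ} {g : Eu n → ℝ} (hg : Continuous g) (h0 : ∀ x, 0 ≤ g x)
    (h1 : ∀ x, g x ≤ 1) : IntegrableOn g (unitCell n) := by
  refine Integrable.mono' (integrable_const (1 : ℝ)) hg.aestronglyMeasurable ?_
  exact Eventually.of_forall fun x => by
    rw [Real.norm_eq_abs, abs_of_nonneg (h0 x)]; exact h1 x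

/-- compactness of the set of `K`-Lipschitz functions with values in `[0,1]` -/
theorem sf_compact {n : ℕ} (K : ℝ≥0) :
    IsCompact {g : C(Eu n, ℝ) | LipschitzWith K g ∧ ∀ x, g x ∈ Set.Icc (0 : ℝ) 1} := by
  apply ArzelaAscoli.isCompact_of_equicontinuous
  · have : (ContinuousMap.toFun '' {g : C(Eu n, ℝ) | LipschitzWith K g ∧ ∀ x, g x ∈ Set.Icc (0 : ℝ) 1})
        = (Set.pi Set.univ fun _ => Set.Icc (0 : ℝ) 1) ∩
          ⋂ x : Eu n, ⋂ y : Eu n, {g : Eu n → ℝ | dist (g x) (g y) ≤ K * dist x y} := by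
      ext g
      simp only [Set.mem_image, Set.mem_ofPred_eq, Set.mem_inter_iff, Set.mem_pi, Set.mem_univ,
        true_implies, Set.mem_iInter]
      constructor
      · rintro ⟨g', ⟨h1, h2⟩, rfl⟩
        exact ⟨h2, fun x y => h1.dist_le_mul x y⟩
      · rintro ⟨h1, h2⟩
        have hl : LipschitzWith K g := LipschitzWith.of_dist_le_mul h2
        exact ⟨⟨g, hl.continuous⟩, ⟨hl, h1⟩, rfl⟩
    rw [this]
    refine (isCompact_univ_pi fun _ => isCompact_Icc).inter_right ?_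
    refine isClosed_iInter fun x => isClosed_iInter fun y => ?_
    exact isClosed_le ((continuous_apply x).dist (continuous_apply y)) continuous_const
  · exact (LipschitzWith.uniformEquicontinuous _ K fun g => g.2.1).equicontinuous

theorem sf_tendsto_cell {n : ℕ} (h : Eu n → ℝ) (hk : ℕ → Eu n → ℝ) (C : ℝ)
    (hc : ∀ k, Continuous (hk k)) (hb : ∀ k x, |hk k x| ≤ C)
    (ht : ∀ x, Tendsto (fun k => hk k x) atTop (𝓝 (h x))) :
    Tendsto (fun k => ∫ x in unitCell n, hk k x) atTop (𝓝 (∫ x in unitCell n, h x)) := by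
  refine tendsto_integral_of_dominated_convergence (fun _ => C)
    (fun k => (hc k).aestronglyMeasurable) (integrable_const C) (fun k => ?_) ?_
  · exact Eventually.of_forall fun x => by rw [Real.norm_eq_abs]; exact hb k x
  · exact Eventually.of_forall ht

theorem sf_cont_psi {n : ℕ} {g : Eu (n + 1) → ℝ} (hg : Continuous g) :
    Continuous fun x : Eu (n + 1) => g x * Real.cos (2 * Real.pi * x 0) := by
  have : Continuous fun x : Eu (n + 1) => x 0 := (EuclideanSpace.proj (𝕜 := ℝ) 0).continuous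
  exact hg.mul (Real.continuous_cos.comp (continuous_const.mul this))

theorem sf_abs_psi_le {g c : ℝ} (h0 : 0 ≤ g) (h1 : g ≤ 1) : |g * Real.cos c| ≤ 1 := by
  rw [abs_mul, abs_of_nonneg h0]
  have := Real.abs_cos_le_one c
  nlinarith [abs_nonneg (Real.cos c)]

theorem sf_limit {n : ℕ} {f : Eu (n + 1) → ℝ} {K : ℝ≥0} (g : Eu (n + 1) → ℝ)
    (gk : ℕ → Eu (n + 1) → ℝ) (hk : ∀ k, SFK f K (gk k))
    (ht : ∀ x, Tendsto (fun k => gk k x) atTop (𝓝 (g x))) :
    SFK f K g ∧ Tendsto (fun k => sfPsi (gk k)) atTop (𝓝 (sfPsi g)) := by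
  have hlip : LipschitzWith K g := by
    refine LipschitzWith.of_dist_le_mul fun x y => ?_
    exact le_of_tendsto ((ht x).dist (ht y))
      (Eventually.of_forall fun k => (hk k).lip.dist_le_mul x y)
  have hnn : ∀ x, 0 ≤ g x := fun x => ge_of_tendsto' (ht x) fun k => (hk k).nn x
  have hle : ∀ x, g x ≤ 1 := fun x => le_of_tendsto' (ht x) fun k => (hk k).le1 x
  refine ⟨⟨hlip, ?_, hnn, hle, ?_, ?_⟩, ?_⟩
  · intro v hv x
    refine tendsto_nhds_unique (ht (x + v)) ?_
    have : (fun k => gk k (x + v)) = fun k => gk k x := funext fun k => (hk k).per v hv x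
    rw [this]; exact ht x
  · refine TV_le_of_tendsto g gk (TV f) (sf_integrableOn hlip.continuous hnn hle)
      (fun k => sf_integrableOn (hk k).lip.continuous (hk k).nn (hk k).le1) ?_ fun k => (hk k).tv
    have h1 := sf_tendsto_cell (n := n + 1) (fun _ => 0) (fun k x => |gk k x - g x|) 1
      (fun k => ((hk k).lip.continuous.sub hlip.continuous).abs) (fun k x => ?_) (fun x => ?_)
    · simpa using h1
    · rw [abs_abs, abs_le]
      have := hnn x; have := hle x; have := (hk k).nn x; have := (hk k).le1 x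
      constructor <;> linarith
    · have h2 := ((ht x).sub_const (g x)).abs
      simpa using h2
  · intro Φ hΦ y
    have hyc : Continuous fun t : ℝ => cons t y :=
      continuous_cons.comp (continuous_id.prodMk continuous_const)
    obtain ⟨C, hC⟩ := (isCompact_Icc (a := (0 : ℝ)) (b := 1)).exists_bound_of_continuousOn
      hΦ.continuousOn
    have h1 : Tendsto (fun k => ∫ t in Set.Ico (0 : ℝ) 1, Φ (gk k (cons t y))) atTop
        (𝓝 (∫ t in Set.Ico (0 : ℝ) 1, Φ (g (cons t y)))) := by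
      refine tendsto_integral_of_dominated_convergence (fun _ => C)
        (fun k => (hΦ.comp ((hk k).lip.continuous.comp hyc)).aestronglyMeasurable)
        (integrable_const C) (fun k => ?_) ?_
      · exact Eventually.of_forall fun t => hC _ ⟨(hk k).nn _, (hk k).le1 _⟩
      · exact Eventually.of_forall fun t => (hΦ.tendsto _).comp (ht _)
    have h2 : (fun k => ∫ t in Set.Ico (0 : ℝ) 1, Φ (gk k (cons t y))) =
        fun _ => ∫ t in Set.Ico (0 : ℝ) 1, Φ (f (cons t y)) := funext fun k => (hk k).eqm Φ hΦ y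
    rw [h2] at h1
    exact (tendsto_nhds_unique h1 tendsto_const_nhds)
  · refine sf_tendsto_cell _ _ 1 (fun k => sf_cont_psi (hk k).lip.continuous)
      (fun k x => sf_abs_psi_le ((hk k).nn x) ((hk k).le1 x)) fun x => ?_
    exact (ht x).mul_const _

theorem sf_psi_le {n : ℕ} {f : Eu (n + 1) → ℝ} {K : ℝ≥0} {g : Eu (n + 1) → ℝ}
    (h : SFK f K g) : sfPsi g ≤ (volume (unitCell (n + 1))).toReal := by
  have h1 : ‖sfPsi g‖ ≤ 1 * (volume (unitCell (n + 1))).toReal := by
    refine norm_setIntegral_le_of_norm_le_const sf_finite_cell fun x _ => ?_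
    rw [Real.norm_eq_abs]; exact sf_abs_psi_le (h.nn x) (h.le1 x)
  rw [one_mul] at h1
  exact (le_abs_self _).trans h1

theorem sf_exists_max {n : ℕ} {f : Eu (n + 1) → ℝ} {K : ℝ≥0} (hf : SFK f K f) :
    ∃ g, SFK f K g ∧ ∀ g', SFK f K g' → sfPsi g' ≤ sfPsi g := by
  set S : Set ℝ := {r | ∃ g, SFK f K g ∧ sfPsi g = r} with hS
  have hne : S.Nonempty := ⟨_, f, hf, rfl⟩
  have hbd : BddAbove S := ⟨_, by rintro r ⟨g, hg, rfl⟩; exact sf_psi_le hg⟩
  obtain ⟨u, hu1, hu2, hu3⟩ := exists_seq_tendsto_sSup hne hbd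
  choose gk hgk hgk2 using hu3
  let G : ℕ → C(Eu (n + 1), ℝ) := fun k => ⟨gk k, (hgk k).lip.continuous⟩
  have hG : ∀ k, G k ∈ {g : C(Eu (n + 1), ℝ) | LipschitzWith K g ∧ ∀ x, g x ∈ Set.Icc (0 : ℝ) 1} :=
    fun k => ⟨(hgk k).lip, fun x => ⟨(hgk k).nn x, (hgk k).le1 x⟩⟩
  obtain ⟨g, hg, φ, hφ, hlim⟩ := (sf_compact (n := n + 1) K).tendsto_subseq hG
  have hpt : ∀ x, Tendsto (fun k => gk (φ k) x) atTop (𝓝 (g x)) := fun x =>
    ((continuous_eval_const (F := C(Eu (n + 1), ℝ)) x).tendsto g).comp hlim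
  obtain ⟨h1, h2⟩ := sf_limit (f := f) (K := K) (g : Eu (n + 1) → ℝ) (fun k => gk (φ k))
    (fun k => hgk (φ k)) hpt
  refine ⟨g, h1, fun g' hg' => ?_⟩
  have h3 : Tendsto (fun k => sfPsi (gk (φ k))) atTop (𝓝 (sSup S)) := by
    have : (fun k => sfPsi (gk (φ k))) = u ∘ φ := funext fun k => hgk2 (φ k)
    rw [this]; exact hu2.comp hφ.tendsto_atTop
  have h4 := tendsto_nhds_unique h2 h3
  rw [h4]
  exact le_csSup hbd ⟨g', hg', rfl⟩

theorem sf_pol {n : ℕ} {f : Eu (n + 1) → ℝ} {K : ℝ≥0} {g : Eu (n + 1) → ℝ} (a : ℝ)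
    (ha : ∀ k : ℤ, 2 * a ≠ k) (h : SFK f K g) : SFK f K (pol a g) where
  lip := pol_lipschitz a ha g K h.lip h.per
  per := pol_perFun a g h.per
  nn := fun x => by
    unfold pol; split_ifs
    · exact (h.nn x).trans (le_max_left _ _)
    · exact le_min (h.nn _) (h.nn _)
  le1 := fun x => by
    unfold pol; split_ifs
    · exact max_le (h.le1 _) (h.le1 _)
    · exact (min_le_left _ _).trans (h.le1 x)
  tv := (TV_pol_le a ha g K h.lip h.per h.nn h.le1).trans h.tv
  eqm := fun Φ hΦ y => (pol_equimeas a ha g h.lip.continuous h.per Φ hΦ y).trans (h.eqm Φ hΦ y)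

theorem exists_symm {n : ℕ} (f : Eu (n + 1) → ℝ) (K : ℝ≥0) (hK : LipschitzWith K f)
    (hp : PerFun f) (h0 : ∀ x, 0 ≤ f x) (h1 : ∀ x, f x ≤ 1) :
    ∃ g : Eu (n + 1) → ℝ, LipschitzWith K g ∧ PerFun g ∧ (∀ x, 0 ≤ g x) ∧ (∀ x, g x ≤ 1) ∧
      TV g ≤ TV f ∧
      (∀ (s t : ℝ) (y : Eu n), dZ s ≤ dZ t → g (cons t y) ≤ g (cons s y)) ∧
      (∀ (Φ : ℝ → ℝ), Continuous Φ → ∀ y : Eu n,
        ∫ t in Set.Ico (0 : ℝ) 1, Φ (g (cons t y)) =
          ∫ t in Set.Ico (0 : ℝ) 1, Φ (f (cons t y))) := by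
  have hf : SFK f K f := ⟨hK, hp, h0, h1, le_rfl, fun _ _ _ => rfl⟩
  obtain ⟨g, hg, hmax⟩ := sf_exists_max hf
  refine ⟨g, hg.lip, hg.per, hg.nn, hg.le1, hg.tv, ?_, hg.eqm⟩
  refine symm_of_pol g hg.lip.continuous hg.per fun a ha => ?_
  by_contra hne
  have h2 := pol_corr a ha g hg.lip.continuous hg.per hne
  exact absurd (hmax _ (sf_pol a ha hg)) (not_le.mpr h2)

end Crest.Agent.R214
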