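import Crest.Agent.R214.CertD0
import Crest.Agent.R214.CertD1
import Crest.Agent.R214.CertD2
import Crest.Agent.R214.CertD3
import Crest.Agent.R214.CertD4
import Crest.Agent.R214.CertD5
import Crest.Agent.R214.CertD6
import Crest.Agent.R214.CertD7
import Crest.Agent.R214.CertD8

/-!
# Row 214: all certificate tables
-/

namespace Crest.Agent.R214.Cert

theorem tables : ZC.Tables :=
  ⟨c0_table, c1_table, c2_table, c3_table, c4_table, c5_table, c6_table, c7_table, c8_table⟩

end Crest.Agent.R214.Cert
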