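import Crest.Agent.R214.EqDisc

/-!
# R214: zone inequalities (helper937)
-/

open MeasureTheory Set Filter Topology

namespace Crest.Agent.R214.MS

/-- cut-off near `0` and `1` -/
noncomputable def cut (δ σ : ℝ) : ℝ := max 0 (min 1 (min σ (1 - σ) / δ - 1))

theorem cut_cont (δ : ℝ) : Continuous (cut δ) := by
  unfold cut
  exact continuous_const.max (continuous_const.min
    (((continuous_id.min (continuous_const.sub continuous_id)).div_const δ).sub continuous_const))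

theorem cut_nonneg (δ σ : ℝ) : 0 ≤ cut δ σ := le_max_left _ _

theorem cut_le_one (δ σ : ℝ) : cut δ σ ≤ 1 := max_le zero_le_one (min_le_left _ _)

theorem cut_zero {δ : ℝ} (hδ : 0 < δ) {σ : ℝ} (h : min σ (1 - σ) ≤ δ) : cut δ σ = 0 := by
  unfold cut
  refine max_eq_left ((min_le_right _ _).trans ?_)
  have : min σ (1 - σ) / δ ≤ 1 := (div_le_one hδ).2 h
  linarith

theorem cut_one {δ : ℝ} (hδ : 0 < δ) {σ : ℝ} (h : 2 * δ ≤ min σ (1 - σ)) : cut δ σ = 1 := by
  unfold cut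
  have : 2 ≤ min σ (1 - σ) / δ := (le_div_iff₀ hδ).2 h
  rw [min_eq_left (by linarith), max_eq_right zero_le_one]

/-- the angle function attached to `w`, `J` -/
noncomputable def ang (w J : ℝ → ℝ) (σ : ℝ) : ℝ := Real.sqrt (max 0 (1 - (w σ / J σ) ^ 2))

theorem ang_nonneg (w J : ℝ → ℝ) (σ : ℝ) : 0 ≤ ang w J σ := Real.sqrt_nonneg _

theorem ang_le_one (w J : ℝ → ℝ) (σ : ℝ) : ang w J σ ≤ 1 :=
  Real.sqrt_le_one.2 (max_le zero_le_one (by nlinarith [sq_nonneg (w σ / J σ)]))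

theorem ang_eq (w J : ℝ → ℝ) (σ : ℝ) : ang w J σ = Real.sqrt (1 - (w σ / J σ) ^ 2) := by
  unfold ang
  rcases le_total 0 (1 - (w σ / J σ) ^ 2) with h | h
  · rw [max_eq_right h]
  · rw [max_eq_left h, Real.sqrt_eq_zero_of_nonpos h, Real.sqrt_zero]

theorem ang_contAt {w J : ℝ → ℝ} (hw : Continuous w) (hJ : ContinuousOn J (Ioo 0 1))
    (hJp : ∀ x ∈ Ioo (0:ℝ) 1, 0 < J x) {σ : ℝ} (hσ : σ ∈ Ioo (0:ℝ) 1) :
    ContinuousAt (ang w J) σ := by
  have h1 : ContinuousAt J σ := hJ.continuousAt (Ioo_mem_nhds hσ.1 hσ.2)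
  have h2 : ContinuousAt (fun σ => w σ / J σ) σ := hw.continuousAt.div h1 (hJp σ hσ).ne'
  exact (continuousAt_const.max (continuousAt_const.sub (h2.pow 2))).sqrt

theorem cutang_cont {w J : ℝ → ℝ} (hw : Continuous w) (hJ : ContinuousOn J (Ioo 0 1))
    (hJp : ∀ x ∈ Ioo (0:ℝ) 1, 0 < J x) {δ : ℝ} (hδ : 0 < δ) :
    Continuous fun σ => cut δ σ * ang w J σ := by
  rw [continuous_iff_continuousAt]
  intro σ
  by_cases hσ : σ ∈ Ioo (0:ℝ) 1
  · exact (cut_cont δ).continuousAt.mul (ang_contAt hw hJ hJp hσ)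
  · have h1 : min σ (1 - σ) ≤ 0 := by
      rw [mem_Ioo, not_and_or, not_lt, not_lt] at hσ
      rcases hσ with h | h
      · exact (min_le_left _ _).trans h
      · exact (min_le_right _ _).trans (by linarith)
    have hc : Continuous fun σ : ℝ => min σ (1 - σ) :=
      continuous_id.min (continuous_const.sub continuous_id)
    have h2 : ∀ᶠ x in 𝓝 σ, cut δ x * ang w J x = 0 := by
      have h3 : ∀ᶠ x in 𝓝 σ, min x (1 - x) < δ :=
        hc.continuousAt.eventually (gt_mem_nhds (lt_of_le_of_lt h1 hδ))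
      filter_upwards [h3] with x hx
      rw [cut_zero hδ hx.le, zero_mul]
    exact (continuousAt_const (y := (0:ℝ))).congr (by
      filter_upwards [h2] with x hx using hx.symm)

theorem ang_measurable {w J : ℝ → ℝ} (hw : Continuous w) (hJ : ContinuousOn J (Ioo 0 1))
    (hJp : ∀ x ∈ Ioo (0:ℝ) 1, 0 < J x) {a b : ℝ} (ha : 0 ≤ a) (hb : b ≤ 1) (hab : a ≤ b) :
    IntervalIntegrable (ang w J) volume a b := by
  rw [intervalIntegrable_iff_integrableOn_Ioo_of_le hab]
  have h1 : ContinuousOn (ang w J) (Ioo a b) := fun x hx =>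
    (ang_contAt hw hJ hJp ⟨lt_of_le_of_lt ha hx.1, lt_of_lt_of_le hx.2 hb⟩).continuousWithinAt
  have h2 : AEStronglyMeasurable (ang w J) (volume.restrict (Ioo a b)) :=
    h1.aestronglyMeasurable measurableSet_Ioo
  have : IsFiniteMeasure (volume.restrict (Ioo a b)) := ⟨by simp⟩
  refine Integrable.of_bound h2 1 (Eventually.of_forall fun x => ?_)
  rw [Real.norm_eq_abs, abs_of_nonneg (ang_nonneg _ _ _)]
  exact ang_le_one _ _ _

theorem cutang_lim {w J : ℝ → ℝ} (hw : Continuous w) (hJ : ContinuousOn J (Ioo 0 1))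
    (hJp : ∀ x ∈ Ioo (0:ℝ) 1, 0 < J x) {a b : ℝ} (ha : 0 ≤ a) (hb : b ≤ 1) (hab : a ≤ b) :
    Tendsto (fun n : ℕ => ∫ σ in a..b, cut (1 / (n + 1)) σ * ang w J σ) atTop
      (𝓝 (∫ σ in a..b, ang w J σ)) := by
  refine intervalIntegral.tendsto_integral_filter_of_dominated_convergence (fun _ => 1)
    (Eventually.of_forall fun n => ?_) (Eventually.of_forall fun n => ?_) ?_ ?_
  · exact (cutang_cont hw hJ hJp (by positivity)).aestronglyMeasurable
  · refine Eventually.of_forall fun x _ => ?_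
    rw [Real.norm_eq_abs, abs_of_nonneg (mul_nonneg (cut_nonneg _ _) (ang_nonneg _ _ _))]
    exact mul_le_one₀ (cut_le_one _ _) (ang_nonneg _ _ _) (ang_le_one _ _ _)
  · exact intervalIntegrable_const
  · have hne : ∀ᵐ t : ℝ, t ≠ 1 := by
      have : (volume : Measure ℝ) {(1 : ℝ)} = 0 := by simp
      exact compl_mem_ae_iff.2 this
    filter_upwards [hne] with x hx1 hx
    rw [uIoc_of_le hab] at hx
    have hx0 : 0 < x := lt_of_le_of_lt ha hx.1
    have hx2 : x < 1 := lt_of_le_of_ne (hx.2.trans hb) hx1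
    have hm : 0 < min x (1 - x) := lt_min hx0 (by linarith)
    refine tendsto_const_nhds.congr' ?_
    have h1 : Tendsto (fun n : ℕ => 2 * (1 / ((n:ℝ) + 1))) atTop (𝓝 (2 * 0)) :=
      tendsto_one_div_add_atTop_nhds_zero_nat.const_mul 2
    rw [mul_zero] at h1
    filter_upwards [h1.eventually (gt_mem_nhds hm)] with n hn
    rw [cut_one (by positivity) (le_of_lt hn), one_mul]

/-- product of the cosine factor with the slice bound -/
theorem zone_pt {w J : ℝ → ℝ} {δ x y : ℝ} (hw0 : 0 ≤ w x) (hwJ : w x ≤ J x)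
    (hy0 : 0 ≤ y) (hy : 2 * J x ≤ y) :
    2 * w x ≤ Real.sqrt (1 - (cut δ x * ang w J x) ^ 2) * y := by
  have hJ0 : 0 ≤ J x := hw0.trans hwJ
  rcases eq_or_lt_of_le hJ0 with h | h
  · have : w x = 0 := le_antisymm (by rw [h]; exact hwJ) hw0
    rw [this, mul_zero]
    exact mul_nonneg (Real.sqrt_nonneg _) hy0
  · have h1 : w x / J x ≤ 1 := (div_le_one h).2 hwJ
    have h2 : 0 ≤ w x / J x := div_nonneg hw0 hJ0
    have h3 : ang w J x ^ 2 = 1 - (w x / J x) ^ 2 := by
      unfold ang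
      rw [max_eq_right (by nlinarith), Real.sq_sqrt (by nlinarith)]
    have h4 : (cut δ x * ang w J x) ^ 2 ≤ 1 - (w x / J x) ^ 2 := by
      rw [← h3, mul_pow]
      have := cut_le_one δ x
      have := cut_nonneg δ x
      have h5 : cut δ x ^ 2 ≤ 1 := by nlinarith
      nlinarith [sq_nonneg (ang w J x)]
    have h5 : w x / J x ≤ Real.sqrt (1 - (cut δ x * ang w J x) ^ 2) := by
      apply Real.le_sqrt_of_sq_le
      linarith
    calc 2 * w x = (w x / J x) * (2 * J x) := by field_simp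
      _ ≤ Real.sqrt (1 - (cut δ x * ang w J x) ^ 2) * y :=
        mul_le_mul h5 hy (by positivity) (Real.sqrt_nonneg _)

set_option maxHeartbeats 1600000 in
/-- **two-zone inequality** -/
theorem zone_two {s l : ℝ → ℝ} (hs : BP s) (hl : BP l) (hl0 : ∀ t, 0 ≤ l t)
    (hse : ∀ t, s (-t) = s t) (hanti : AntitoneOn s (Ioo 0 (1 / 2)))
    (hs01 : ∀ t ∈ Ioo (0:ℝ) (1 / 2), s t ∈ Icc (0:ℝ) 1) {P : ℝ} (H : DualIneq s l P)
    {A B G h : ℝ} (hh0 : 0 < h) (hh1 : h < 1)
    (hA : Tendsto s (𝓝[>] 0) (𝓝 A)) (hB : Tendsto s (𝓝[<] (1 / 2)) (𝓝 B))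
    (hG : Tendsto s (𝓝[>] (h / 2)) (𝓝 G))
    {J₁ J₂ : ℝ → ℝ} (hJ₁ : ContinuousOn J₁ (Ioo 0 1)) (hJ₂ : ContinuousOn J₂ (Ioo 0 1))
    (hJ₁p : ∀ x ∈ Ioo (0:ℝ) 1, 0 < J₁ x) (hJ₂p : ∀ x ∈ Ioo (0:ℝ) 1, 0 < J₂ x)
    (hlow₂ : ∀ᵐ t : ℝ ∂(volume.restrict (Ioo (0:ℝ) 1)), (t < h / 2 ∨ 1 - h / 2 < t) →
      2 * J₂ (s t) ≤ l t)
    (hlow₁ : ∀ᵐ t : ℝ ∂(volume.restrict (Ioo (0:ℝ) 1)), h / 2 < t → t < 1 - h / 2 →
      2 * J₁ (s t) ≤ l t)
    {lam μ₁ μ₂ : ℝ} (hw₂ : ∀ x ∈ Icc G A, 0 ≤ lam * x + μ₂ ∧ lam * x + μ₂ ≤ J₂ x)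
    (hw₁ : ∀ x ∈ Icc B G, 0 ≤ lam * x + μ₁ ∧ lam * x + μ₁ ≤ J₁ x) :
    lam * (∫ t in (0:ℝ)..1, s t) + h * μ₂ + (1 - h) * μ₁
      + (∫ x in G..A, Real.sqrt (1 - ((lam * x + μ₂) / J₂ x) ^ 2))
      + (∫ x in B..G, Real.sqrt (1 - ((lam * x + μ₁) / J₁ x) ^ 2)) ≤ P / 2 := by
  -- bounds
  obtain ⟨A', hA', hleA, -⟩ := exists_right_lim hs hanti le_rfl (by norm_num : (0:ℝ) < 1 / 2)
  have hAA : A' = A := tendsto_nhds_unique hA' hA
  rw [hAA] at hleA
  obtain ⟨B', hB', hleB⟩ := exists_left_lim hs hanti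
  have hBB : B' = B := tendsto_nhds_unique hB' hB
  rw [hBB] at hleB
  obtain ⟨G', hG', hleG, hgeG⟩ := exists_right_lim hs hanti (h := h / 2) (by linarith)
    (by linarith : h / 2 < 1 / 2)
  have hGG : G' = G := tendsto_nhds_unique hG' hG
  rw [hGG] at hleG hgeG
  have hq : (h / 2) ∈ Ioo (0:ℝ) (1 / 2) := ⟨by linarith, by linarith⟩
  have hGA : G ≤ A := (hgeG (h / 2) hq.1 le_rfl).trans (hleA _ hq)
  have hmid : (h / 2 + 1 / 2) / 2 ∈ Ioo (h / 2) (1 / 2) := ⟨by linarith, by linarith⟩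
  have hBG : B ≤ G := (hleB _ ⟨by linarith [hmid.1, hq.1], hmid.2⟩).trans (hleG _ hmid)
  have hB0 : 0 ≤ B := ge_of_tendsto hB (by
    filter_upwards [Ioo_mem_nhdsLT (by norm_num : (0:ℝ) < 1 / 2)] with t ht
    exact (hs01 t ht).1)
  have hA1 : A ≤ 1 := le_of_tendsto hA (by
    filter_upwards [Ioo_mem_nhdsGT (by norm_num : (0:ℝ) < 1 / 2)] with t ht
    exact (hs01 t ht).2)
  set w₁ : ℝ → ℝ := fun x => lam * x + μ₁ with hw₁d
  set w₂ : ℝ → ℝ := fun x => lam * x + μ₂ with hw₂d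
  have hw₁c : Continuous w₁ := by fun_prop
  have hw₂c : Continuous w₂ := by fun_prop
  have hIs : Integrable s (volume.restrict (Ioo (0:ℝ) 1)) := by
    have := hs.intervalIntegrable 0 1
    rwa [intervalIntegrable_iff_integrableOn_Ioo_of_le zero_le_one] at this
  -- the affine integral
  set F : ℝ → ℝ := fun t => if Real.cos (2 * Real.pi * (h / 2)) ≤ Real.cos (2 * Real.pi * t)
    then w₂ (s t) else w₁ (s t) with hF
  have hFm : Measurable F := by
    refine Measurable.ite ?_ (hw₂c.measurable.comp hs.meas) (hw₁c.measurable.comp hs.meas)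
    exact measurableSet_le measurable_const (by fun_prop)
  obtain ⟨D, hD⟩ := hs.bdd
  have hFb : ∀ t, |F t| ≤ |lam| * D + (|μ₁| + |μ₂|) := by
    intro t
    have h1 : ∀ μ : ℝ, |lam * s t + μ| ≤ |lam| * D + |μ| := fun μ =>
      (abs_add_le _ _).trans (add_le_add (by
        rw [abs_mul]; exact mul_le_mul_of_nonneg_left (hD t) (abs_nonneg _)) le_rfl)
    simp only [hF]
    split_ifs
    · have := h1 μ₂; have := abs_nonneg μ₁; simp only [hw₂d]; linarith
    · have := h1 μ₁; have := abs_nonneg μ₂; simp only [hw₁d]; linarith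
  have hFint : Integrable F (volume.restrict (Ioo (0:ℝ) 1)) :=
    Integrable.of_bound hFm.aestronglyMeasurable _ (Eventually.of_forall hFb)
  have hFii : ∀ a b : ℝ, IntervalIntegrable F volume a b := fun a b =>
    (intervalIntegrable_const (c := |lam| * D + (|μ₁| + |μ₂|))).mono_fun
      hFm.aestronglyMeasurable (Eventually.of_forall fun t => (hFb t).trans (le_abs_self _))
  have hFper : Function.Periodic F 1 := fun t => by
    simp only [hF]
    rw [show 2 * Real.pi * (t + 1) = 2 * Real.pi * t + 2 * Real.pi by ring,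
      Real.cos_add_two_pi, hs.per t]
  have hFeven : ∀ t, F (-t) = F t := fun t => by
    simp only [hF]
    rw [show 2 * Real.pi * (-t) = -(2 * Real.pi * t) by ring, Real.cos_neg, hse t]
  have hFval : ∫ t in (0:ℝ)..1, F t
      = lam * (∫ t in (0:ℝ)..1, s t) + h * μ₂ + (1 - h) * μ₁ := by
    rw [half_int (hFii 0 1) hFper hFeven, half_int (hs.intervalIntegrable 0 1) hs.per hse,
      ← intervalIntegral.integral_add_adjacent_intervals (hFii 0 (h / 2)) (hFii (h / 2) (1 / 2)),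
      ← intervalIntegral.integral_add_adjacent_intervals (hs.intervalIntegrable 0 (h / 2))
        (hs.intervalIntegrable (h / 2) (1 / 2))]
    have e1 : ∫ t in (0:ℝ)..(h / 2), F t = lam * (∫ t in (0:ℝ)..(h / 2), s t) + h / 2 * μ₂ := by
      have : ∫ t in (0:ℝ)..(h / 2), F t = ∫ t in (0:ℝ)..(h / 2), (lam * s t + μ₂) := by
        refine intervalIntegral.integral_congr fun t ht => ?_
        rw [uIcc_of_le (by linarith)] at ht
        have hc : Real.cos (2 * Real.pi * (h / 2)) ≤ Real.cos (2 * Real.pi * t) := by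
          rcases eq_or_lt_of_le ht.2 with h1 | h1
          · rw [h1]
          · exact (cos_lt_cos_iff' ht.1 hq.2.le h1).le
        simp only [hF, if_pos hc, hw₂d]
      rw [this, intervalIntegral.integral_add ((hs.intervalIntegrable _ _).const_mul lam)
        intervalIntegrable_const, intervalIntegral.integral_const_mul,
        intervalIntegral.integral_const]
      simp
    have e2 : ∫ t in (h / 2)..(1 / 2), F t
        = lam * (∫ t in (h / 2)..(1 / 2), s t) + (1 / 2 - h / 2) * μ₁ := by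
      have : ∫ t in (h / 2)..(1 / 2), F t = ∫ t in (h / 2)..(1 / 2), (lam * s t + μ₁) := by
        refine intervalIntegral.integral_congr_ae (Eventually.of_forall fun t ht => ?_)
        rw [uIoc_of_le hq.2.le] at ht
        have hc : ¬ Real.cos (2 * Real.pi * (h / 2)) ≤ Real.cos (2 * Real.pi * t) :=
          not_le.2 (cos_lt_cos_iff' hq.1.le ht.2 ht.1)
        simp only [hF, if_neg hc, hw₁d]
      rw [this, intervalIntegral.integral_add ((hs.intervalIntegrable _ _).const_mul lam)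
        intervalIntegrable_const, intervalIntegral.integral_const_mul,
        intervalIntegral.integral_const]
      simp
    rw [e1, e2]; ring
  -- inequality for each cut-off
  have hcut : ∀ n : ℕ, lam * (∫ t in (0:ℝ)..1, s t) + h * μ₂ + (1 - h) * μ₁
      + (∫ x in G..A, cut (1 / (n + 1)) x * ang w₂ J₂ x)
      + (∫ x in B..G, cut (1 / (n + 1)) x * ang w₁ J₁ x) ≤ P / 2 := by
    intro n
    set δ : ℝ := 1 / ((n:ℝ) + 1) with hδd
    have hδ : 0 < δ := by positivity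
    set T₁ : ℝ → ℝ := fun σ => cut δ σ * ang w₁ J₁ σ with hT₁
    set T₂ : ℝ → ℝ := fun σ => cut δ σ * ang w₂ J₂ σ with hT₂
    have hT₁c : Continuous T₁ := cutang_cont hw₁c hJ₁ hJ₁p hδ
    have hT₂c : Continuous T₂ := cutang_cont hw₂c hJ₂ hJ₂p hδ
    have hTb : ∀ w J σ, |cut δ σ * ang w J σ| ≤ 1 := fun w J σ => by
      rw [abs_of_nonneg (mul_nonneg (cut_nonneg _ _) (ang_nonneg _ _ _))]
      exact mul_le_one₀ (cut_le_one _ _) (ang_nonneg _ _ _) (ang_le_one _ _ _)
    have hms := mono_sub hs hl hse H hT₁c hT₂c (hTb w₁ J₁) (hTb w₂ J₂) hq.1 hq.2 hA hB hG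
    have hlb : 2 * ∫ t in (0:ℝ)..1, F t ≤ ∫ t in (0:ℝ)..1,
        Real.sqrt (1 - (if Real.cos (2 * Real.pi * (h / 2)) ≤ Real.cos (2 * Real.pi * t)
        then T₂ (s t) else T₁ (s t)) ^ 2) * l t := by
      rw [← intervalIntegral.integral_const_mul, int01, int01]
      refine integral_mono_ae (hFint.const_mul 2) ?_ ?_
      · obtain ⟨C, hC⟩ := hl.bdd
        refine Integrable.of_bound (Measurable.aestronglyMeasurable ?_) (1 * C)
          (Eventually.of_forall fun t => ?_)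
        · refine ((measurable_const.sub (Measurable.pow_const ?_ 2)).sqrt).mul hl.meas
          refine Measurable.ite ?_ (hT₂c.measurable.comp hs.meas) (hT₁c.measurable.comp hs.meas)
          exact measurableSet_le measurable_const (by fun_prop)
        · rw [norm_mul, Real.norm_eq_abs, Real.norm_eq_abs, abs_of_nonneg (Real.sqrt_nonneg _)]
          refine mul_le_mul (Real.sqrt_le_one.2 ?_) (hC t) (abs_nonneg _) zero_le_one
          nlinarith [sq_nonneg (if Real.cos (2 * Real.pi * (h / 2)) ≤ Real.cos (2 * Real.pi * t)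
            then T₂ (s t) else T₁ (s t))]
      · have hne2 : ∀ᵐ t : ℝ ∂(volume.restrict (Ioo (0:ℝ) 1)), t ≠ h / 2 ∧ t ≠ 1 - h / 2 := by
          refine ae_restrict_of_ae ?_
          have h1 : ∀ᵐ t : ℝ, t ≠ h / 2 := by
            have : (volume : Measure ℝ) {(h / 2 : ℝ)} = 0 := by simp
            exact compl_mem_ae_iff.2 this
          have h2 : ∀ᵐ t : ℝ, t ≠ 1 - h / 2 := by
            have : (volume : Measure ℝ) {(1 - h / 2 : ℝ)} = 0 := by simp
            exact compl_mem_ae_iff.2 this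
          filter_upwards [h1, h2] with t a b using ⟨a, b⟩
        filter_upwards [ae_Ioo_ne, hlow₁, hlow₂, hne2] with t ht hl1 hl2 hn
        obtain ⟨ht1, ht2⟩ := ht
        -- reduce to the half interval
        have hrefl : s t = s (1 - t) := by
          rw [← hse t, ← hs.per (-t)]; congr 1; ring
        have hcrefl : Real.cos (2 * Real.pi * t) = Real.cos (2 * Real.pi * (1 - t)) := by
          rw [show 2 * Real.pi * (1 - t) = 2 * Real.pi - 2 * Real.pi * t by ring,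
            Real.cos_two_pi_sub]
        by_cases hz : t < h / 2 ∨ 1 - h / 2 < t
        · -- zone 2
          have hst : s t ∈ Icc G A := by
            rcases hz with h1 | h1
            · exact ⟨hgeG t ht1.1 h1.le, hleA t ⟨ht1.1, by linarith⟩⟩
            · rw [hrefl]
              exact ⟨hgeG _ (by linarith [ht1.2]) (by linarith),
                hleA _ ⟨by linarith [ht1.2], by linarith⟩⟩
          have hc : Real.cos (2 * Real.pi * (h / 2)) ≤ Real.cos (2 * Real.pi * t) := by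
            rcases hz with h1 | h1
            · exact (cos_lt_cos_iff' ht1.1.le hq.2.le h1).le
            · rw [hcrefl]
              exact (cos_lt_cos_iff' (by linarith [ht1.2]) hq.2.le (by linarith)).le
          simp only [hF, if_pos hc, hT₂]
          exact zone_pt (hw₂ _ hst).1 (hw₂ _ hst).2 (hl0 t) (hl2 hz)
        · rw [not_or, not_lt, not_lt] at hz
          have h1 : h / 2 < t := lt_of_le_of_ne hz.1 (Ne.symm hn.1)
          have h2 : t < 1 - h / 2 := lt_of_le_of_ne hz.2 hn.2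
          have hst : s t ∈ Icc B G := by
            rcases lt_or_gt_of_ne ht2 with h3 | h3
            · exact ⟨hleB t ⟨ht1.1, h3⟩, hleG t ⟨h1, h3⟩⟩
            · rw [hrefl]
              exact ⟨hleB _ ⟨by linarith [ht1.2], by linarith⟩,
                hleG _ ⟨by linarith, by linarith⟩⟩
          have hc : ¬ Real.cos (2 * Real.pi * (h / 2)) ≤ Real.cos (2 * Real.pi * t) := by
            rw [not_le]
            rcases lt_or_gt_of_ne ht2 with h3 | h3
            · exact cos_lt_cos_iff' hq.1.le h3.le h1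
            · rw [hcrefl]
              exact cos_lt_cos_iff' hq.1.le (by linarith) (by linarith)
          simp only [hF, if_neg hc, hT₁]
          exact zone_pt (hw₁ _ hst).1 (hw₁ _ hst).2 (hl0 t) (hl1 h1 h2)
    rw [hFval] at hlb
    linarith
  have l1 := cutang_lim hw₂c hJ₂ hJ₂p (hB0.trans hBG) hA1 hGA
  have l2 := cutang_lim hw₁c hJ₁ hJ₁p hB0 (hGA.trans hA1) hBG
  have hfin := le_of_tendsto (((tendsto_const_nhds
    (x := lam * (∫ t in (0:ℝ)..1, s t) + h * μ₂ + (1 - h) * μ₁)).add l1).add l2)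
    (Eventually.of_forall hcut)
  have e1 : (fun x => Real.sqrt (1 - ((lam * x + μ₂) / J₂ x) ^ 2)) = ang w₂ J₂ := by
    ext x; rw [ang_eq]
  have e2 : (fun x => Real.sqrt (1 - ((lam * x + μ₁) / J₁ x) ^ 2)) = ang w₁ J₁ := by
    ext x; rw [ang_eq]
  rw [e1, e2]
  exact hfin

/-- **one-zone inequality** -/
theorem zone_one {s l : ℝ → ℝ} (hs : BP s) (hl : BP l) (hl0 : ∀ t, 0 ≤ l t)
    (hse : ∀ t, s (-t) = s t) (hanti : AntitoneOn s (Ioo 0 (1 / 2)))
    (hs01 : ∀ t ∈ Ioo (0:ℝ) (1 / 2), s t ∈ Icc (0:ℝ) 1) {P : ℝ} (H : DualIneq s l P)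
    {A B : ℝ} (hA : Tendsto s (𝓝[>] 0) (𝓝 A)) (hB : Tendsto s (𝓝[<] (1 / 2)) (𝓝 B))
    {J : ℝ → ℝ} (hJ : ContinuousOn J (Ioo 0 1)) (hJp : ∀ x ∈ Ioo (0:ℝ) 1, 0 < J x)
    (hlow : ∀ᵐ t : ℝ ∂(volume.restrict (Ioo (0:ℝ) 1)), 2 * J (s t) ≤ l t)
    {lam μ : ℝ} (hw : ∀ x ∈ Icc B A, 0 ≤ lam * x + μ ∧ lam * x + μ ≤ J x) :
    lam * (∫ t in (0:ℝ)..1, s t) + μ
      + (∫ x in B..A, Real.sqrt (1 - ((lam * x + μ) / J x) ^ 2)) ≤ P / 2 := by
  obtain ⟨A', hA', hleA, -⟩ := exists_right_lim hs hanti le_rfl (by norm_num : (0:ℝ) < 1 / 2)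
  have hAA : A' = A := tendsto_nhds_unique hA' hA
  rw [hAA] at hleA
  obtain ⟨B', hB', hleB⟩ := exists_left_lim hs hanti
  have hBB : B' = B := tendsto_nhds_unique hB' hB
  rw [hBB] at hleB
  obtain ⟨G, hG, hleG, hgeG⟩ := exists_right_lim hs hanti (h := (1 / 2 : ℝ) / 2) (by norm_num)
    (by norm_num)
  have hGA : G ≤ A := (hgeG (1 / 4) (by norm_num) (by norm_num)).trans
    (hleA _ ⟨by norm_num, by norm_num⟩)
  have hBG : B ≤ G := (hleB (3 / 8) ⟨by norm_num, by norm_num⟩).trans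
    (hleG _ ⟨by norm_num, by norm_num⟩)
  have hB0 : 0 ≤ B := ge_of_tendsto hB (by
    filter_upwards [Ioo_mem_nhdsLT (by norm_num : (0:ℝ) < 1 / 2)] with t ht
    exact (hs01 t ht).1)
  have hA1 : A ≤ 1 := le_of_tendsto hA (by
    filter_upwards [Ioo_mem_nhdsGT (by norm_num : (0:ℝ) < 1 / 2)] with t ht
    exact (hs01 t ht).2)
  have h1 := zone_two hs hl hl0 hse hanti hs01 H (h := 1 / 2) (by norm_num) (by norm_num) hA hB hG
    hJ hJ hJp hJp (by filter_upwards [hlow] with t ht _ using ht)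
    (by filter_upwards [hlow] with t ht _ _ using ht) (lam := lam) (μ₁ := μ) (μ₂ := μ)
    (fun x hx => hw x ⟨hBG.trans hx.1, hx.2⟩) (fun x hx => hw x ⟨hx.1, hx.2.trans hGA⟩)
  have hwc : Continuous fun x => lam * x + μ := by fun_prop
  have e1 : (fun x => Real.sqrt (1 - ((lam * x + μ) / J x) ^ 2))
      = ang (fun x => lam * x + μ) J := by
    ext x; rw [ang_eq]
  rw [e1] at h1 ⊢
  rw [← intervalIntegral.integral_add_adjacent_intervals
    (ang_measurable hwc hJ hJp hB0 (hGA.trans hA1) hBG)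
    (ang_measurable hwc hJ hJp (hB0.trans hBG) hA1 hGA)]
  linarith

end Crest.Agent.R214.MS
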